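import Crest.Agent.R109.Defs

/-!
# Row 109: the countable amplification

`exists_ampl`: every maximal abelian subalgebra `A` of a von Neumann algebra `M` on `H` is carried
by an isometric `*`-homomorphism `Φ` (the countable multiple of the identity representation) to a
maximal abelian subalgebra `At` of a von Neumann algebra `Mt` on `K = ℓ²(ℕ, H)` whose commutant
contains two isometries with orthogonal ranges, and each finite set of vectors of `H` is
dominated by a single vector of `K`.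
-/

set_option autoImplicit false
set_option linter.unusedSectionVars false

namespace Crest.Agent.R109

open scoped InnerProductSpace
open ContinuousLinearMap

universe u

namespace Ampl

/-! ### the space -/

/-- the countable multiple of `H` -/
def KK (H : Type u) [NormedAddCommGroup H] : Type u := lp (fun _ : ℕ => H) 2

section Space

variable {H : Type u} [NormedAddCommGroup H] [InnerProductSpace ℂ H] [CompleteSpace H]

noncomputable instance : NormedAddCommGroup (KK H) :=
  inferInstanceAs (NormedAddCommGroup (lp (fun _ : ℕ => H) 2))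

noncomputable instance : InnerProductSpace ℂ (KK H) :=
  inferInstanceAs (InnerProductSpace ℂ (lp (fun _ : ℕ => H) 2))

instance : CompleteSpace (KK H) :=
  inferInstanceAs (CompleteSpace (lp (fun _ : ℕ => H) 2))

/-- the coordinate embedding -/
noncomputable def jj (n : ℕ) : H →L[ℂ] KK H :=
  lp.singleContinuousLinearMap ℂ (fun _ : ℕ => H) 2 n

/-- the coordinate projection -/
noncomputable def pp (n : ℕ) : KK H →L[ℂ] H := lp.evalCLM ℂ (fun _ : ℕ => H) 2 n

theorem kext {f g : KK H} (h : ∀ n, pp n f = pp n g) : f = g := lp.ext (funext h)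

/-- the vector with given square summable coordinates -/
noncomputable def kmk (f : ℕ → H) (hf : Summable fun n => ‖f n‖ ^ 2) : KK H :=
  (⟨f, memℓp_gen (by
    have h : (2 : ENNReal).toReal = ((2 : ℕ) : ℝ) := by norm_num
    simp only [h, Real.rpow_natCast]
    exact hf)⟩ : lp (fun _ : ℕ => H) 2)

@[simp] theorem pp_kmk (f : ℕ → H) (hf : Summable fun n => ‖f n‖ ^ 2) (n : ℕ) :
    pp n (kmk f hf) = f n := rfl

theorem pp_jj_self (n : ℕ) (h : H) : pp n (jj n h : KK H) = h :=
  lp.single_apply_self (E := fun _ : ℕ => H) 2 n h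

theorem pp_jj_ne {m n : ℕ} (hmn : m ≠ n) (h : H) : pp m (jj n h : KK H) = 0 :=
  lp.single_apply_ne (E := fun _ : ℕ => H) 2 n h hmn

theorem hasSum_norm_sq (f : KK H) : HasSum (fun n => ‖pp n f‖ ^ 2) (‖f‖ ^ 2) := by
  have h := lp.hasSum_norm (p := 2) (E := fun _ : ℕ => H) (by norm_num) f
  have h2 : (2 : ENNReal).toReal = ((2 : ℕ) : ℝ) := by norm_num
  simp only [h2, Real.rpow_natCast] at h
  exact h

theorem hasSum_inner (f g : KK H) : HasSum (fun n => ⟪pp n f, pp n g⟫_ℂ) ⟪f, g⟫_ℂ :=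
  lp.hasSum_inner (𝕜 := ℂ) (G := fun _ : ℕ => H) f g

theorem summable_sq (f : KK H) : Summable (fun n => ‖pp n f‖ ^ 2) := (hasSum_norm_sq f).summable

theorem norm_pp_le (n : ℕ) (f : KK H) : ‖pp n f‖ ≤ ‖f‖ :=
  lp.norm_apply_le_norm (E := fun _ : ℕ => H) (by norm_num) f n

theorem norm_jj (n : ℕ) (h : H) : ‖(jj n h : KK H)‖ = ‖h‖ :=
  lp.norm_single (E := fun _ : ℕ => H) (by norm_num) n h

end Space

section Main

variable {H : Type u} [NormedAddCommGroup H] [InnerProductSpace ℂ H] [CompleteSpace H]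

/-! ### the coordinatewise operator -/

/-- the coordinatewise action, as a vector -/
noncomputable def phiVec (x : H →L[ℂ] H) (f : KK H) : KK H :=
  kmk (fun n => x (pp n f)) (((summable_sq f).mul_left (‖x‖ ^ 2)).of_nonneg_of_le
    (fun n => by positivity) (fun n => by
      rw [← mul_pow]
      exact pow_le_pow_left₀ (norm_nonneg _) (x.le_opNorm _) 2))

@[simp] theorem pp_phiVec (x : H →L[ℂ] H) (f : KK H) (n : ℕ) : pp n (phiVec x f) = x (pp n f) :=
  rfl

theorem norm_phiVec_le (x : H →L[ℂ] H) (f : KK H) : ‖phiVec x f‖ ≤ ‖x‖ * ‖f‖ := by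
  refine abs_le_of_sq_le_sq' ?_ (by positivity) |>.2
  rw [mul_pow]
  refine hasSum_le (fun n => ?_) (hasSum_norm_sq (phiVec x f))
    ((hasSum_norm_sq f).mul_left (‖x‖ ^ 2))
  rw [pp_phiVec, ← mul_pow]
  exact pow_le_pow_left₀ (norm_nonneg _) (x.le_opNorm _) 2

/-- the coordinatewise action as a continuous linear map -/
noncomputable def phi (x : H →L[ℂ] H) : KK H →L[ℂ] KK H :=
  LinearMap.mkContinuous
    { toFun := phiVec x
      map_add' := fun f g => kext (fun n => by simp [map_add])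
      map_smul' := fun c f => kext (fun n => by simp [map_smul]) } ‖x‖
    (fun f => norm_phiVec_le x f)

@[simp] theorem pp_phi (x : H →L[ℂ] H) (f : KK H) (n : ℕ) : pp n (phi x f) = x (pp n f) := rfl

theorem norm_phi_le (x : H →L[ℂ] H) : ‖phi x‖ ≤ ‖x‖ :=
  LinearMap.mkContinuous_norm_le _ (norm_nonneg _) _

theorem phi_jj (x : H →L[ℂ] H) (n : ℕ) (h : H) : phi x (jj n h) = jj n (x h) := by
  refine kext (fun m => ?_)
  rw [pp_phi]
  by_cases hmn : m = n
  · subst hmn; rw [pp_jj_self, pp_jj_self]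
  · rw [pp_jj_ne hmn, pp_jj_ne hmn, map_zero]

theorem norm_phi (x : H →L[ℂ] H) : ‖phi x‖ = ‖x‖ := by
  refine le_antisymm (norm_phi_le x) ?_
  refine x.opNorm_le_bound (norm_nonneg _) (fun h => ?_)
  calc ‖x h‖ = ‖phi x (jj 0 h)‖ := by rw [phi_jj, norm_jj]
    _ ≤ ‖phi x‖ * ‖(jj 0 h : KK H)‖ := (phi x).le_opNorm _
    _ = ‖phi x‖ * ‖h‖ := by rw [norm_jj]

theorem phi_star (x : H →L[ℂ] H) : phi (star x) = star (phi x) := by
  rw [ContinuousLinearMap.star_eq_adjoint (phi x), ContinuousLinearMap.eq_adjoint_iff]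
  intro f g
  refine (hasSum_inner _ _).unique ?_
  have h := hasSum_inner f (phi x g)
  convert h using 2 with n
  rw [pp_phi, pp_phi, ContinuousLinearMap.star_eq_adjoint,
    ContinuousLinearMap.adjoint_inner_left]

theorem phi_mul (x y : H →L[ℂ] H) : phi (x * y) = phi x * phi y := by
  ext1 f; exact kext (fun n => rfl)

theorem phi_one : phi (1 : H →L[ℂ] H) = 1 := by
  ext1 f; exact kext (fun n => rfl)

theorem phi_zero : phi (0 : H →L[ℂ] H) = 0 := by
  ext1 f; exact kext (fun n => by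
    rw [pp_phi, zero_apply, zero_apply, map_zero])

theorem phi_add (x y : H →L[ℂ] H) : phi (x + y) = phi x + phi y := by
  ext1 f; exact kext (fun n => by
    rw [pp_phi, add_apply, add_apply, map_add,
      pp_phi, pp_phi])

theorem phi_algebraMap (c : ℂ) : phi (algebraMap ℂ (H →L[ℂ] H) c) = algebraMap ℂ _ c := by
  ext1 f
  refine kext (fun n => ?_)
  rw [pp_phi, Algebra.algebraMap_eq_smul_one, Algebra.algebraMap_eq_smul_one,
    smul_apply, smul_apply,
    one_apply_eq_self, one_apply_eq_self, map_smul]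

/-- the amplification as a `*`-homomorphism -/
noncomputable def Phi (H : Type u) [NormedAddCommGroup H] [InnerProductSpace ℂ H]
    [CompleteSpace H] : (H →L[ℂ] H) →⋆ₐ[ℂ] (KK H →L[ℂ] KK H) where
  toFun := phi
  map_one' := phi_one
  map_mul' := phi_mul
  map_zero' := phi_zero
  map_add' := phi_add
  commutes' := phi_algebraMap
  map_star' x := phi_star x

theorem Phi_eq (x : H →L[ℂ] H) : Phi H x = phi x := rfl

theorem phi_inj {x y : H →L[ℂ] H} (h : phi x = phi y) : x = y := by
  have h1 : Phi H (x - y) = 0 := by rw [map_sub, Phi_eq, Phi_eq, h, sub_self]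
  have h2 : ‖x - y‖ = 0 := by rw [← norm_phi, ← Phi_eq, h1, norm_zero]
  exact sub_eq_zero.1 (norm_eq_zero.1 h2)

/-! ### the matrix units -/

/-- the matrix unit `1 ⊗ E_{mn}` -/
noncomputable def EE (m n : ℕ) : KK H →L[ℂ] KK H := (jj m).comp (pp n)

theorem EE_apply (m n : ℕ) (f : KK H) : EE m n f = jj m (pp n f) := rfl

theorem pp_EE_self (m n : ℕ) (f : KK H) : pp m (EE m n f) = pp n f := by
  rw [EE_apply, pp_jj_self]

theorem inner_jj_left (n : ℕ) (h : H) (f : KK H) : ⟪jj n h, f⟫_ℂ = ⟪h, pp n f⟫_ℂ := by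
  refine (hasSum_inner _ _).unique ?_
  convert hasSum_single (f := fun m => ⟪pp m (jj n h : KK H), pp m f⟫_ℂ) n (fun m hm => ?_)
    using 1
  · rw [pp_jj_self]
  · rw [pp_jj_ne hm, inner_zero_left]

theorem EE_star (m n : ℕ) : star (EE m n : KK H →L[ℂ] KK H) = EE n m := by
  symm
  rw [ContinuousLinearMap.star_eq_adjoint, ContinuousLinearMap.eq_adjoint_iff]
  intro f g
  rw [EE_apply, EE_apply, inner_jj_left, ← inner_conj_symm f, inner_jj_left, inner_conj_symm]

theorem phi_comm_EE (x : H →L[ℂ] H) (m n : ℕ) : phi x * EE m n = EE m n * phi x := by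
  ext1 f
  change phi x (EE m n f) = EE m n (phi x f)
  rw [EE_apply, EE_apply, phi_jj, pp_phi]

/-- the entry `(0,0)` -/
noncomputable def entry (T : KK H →L[ℂ] KK H) : H →L[ℂ] H := (pp 0).comp (T.comp (jj 0))

theorem entry_apply (T : KK H →L[ℂ] KK H) (h : H) : entry T h = pp 0 (T (jj 0 h)) := rfl

/-- an operator commuting with the matrix units is a multiple of its corner entry -/
theorem eq_phi_entry (T : KK H →L[ℂ] KK H) (hT : ∀ m n, EE m n * T = T * EE m n) :
    T = phi (entry T) := by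
  ext1 f
  refine kext (fun m => ?_)
  have h1 : EE 0 m (T f) = T (EE 0 m f) := congrArg (fun S : KK H →L[ℂ] KK H => S f) (hT 0 m)
  have h2 := congrArg (fun v : KK H => pp 0 v) h1
  simp only [pp_EE_self] at h2
  rw [h2, pp_phi, entry_apply, EE_apply]

/-! ### the amplified algebra -/

/-- the generating set of the commutant -/
def gens (M : VonNeumannAlgebra H) : Set (KK H →L[ℂ] KK H) :=
  {T | (∃ m n, T = EE m n) ∨ ∃ y ∈ M.commutant, T = phi y}

theorem gens_star (M : VonNeumannAlgebra H) : star (gens M) = gens M := by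
  have h : ∀ T ∈ gens M, star T ∈ gens M := by
    rintro T (⟨m, n, rfl⟩ | ⟨y, hy, rfl⟩)
    · exact Or.inl ⟨n, m, EE_star m n⟩
    · exact Or.inr ⟨star y, star_mem hy, (phi_star y).symm⟩
  ext T
  rw [Set.mem_star]
  exact ⟨fun hT => by simpa using h _ hT, fun hT => h _ hT⟩

/-- membership in the centralizer of the generators -/
theorem mem_centralizer_gens (M : VonNeumannAlgebra H) (T : KK H →L[ℂ] KK H) :
    T ∈ Set.centralizer (gens M) ↔ ∃ x ∈ M, phi x = T := by
  constructor
  · intro hT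
    rw [Set.mem_centralizer_iff] at hT
    have h1 : T = phi (entry T) := eq_phi_entry T (fun m n => hT _ (Or.inl ⟨m, n, rfl⟩))
    refine ⟨entry T, ?_, h1.symm⟩
    have h2 : entry T ∈ M.commutant.commutant := by
      rw [VonNeumannAlgebra.mem_commutant_iff]
      intro y hy
      have h3 := hT (phi y) (Or.inr ⟨y, hy, rfl⟩)
      rw [h1, ← phi_mul, ← phi_mul] at h3
      exact phi_inj h3
    rwa [VonNeumannAlgebra.commutant_commutant] at h2
  · rintro ⟨x, hx, rfl⟩
    rw [Set.mem_centralizer_iff]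
    rintro T (⟨m, n, rfl⟩ | ⟨y, hy, rfl⟩)
    · exact (phi_comm_EE x m n).symm
    · rw [← phi_mul, ← phi_mul]
      congr 1
      exact ((VonNeumannAlgebra.mem_commutant_iff.1 hy) x hx).symm

theorem coe_centralizer_gens (M : VonNeumannAlgebra H) :
    ((StarSubalgebra.centralizer ℂ (gens M) : StarSubalgebra ℂ (KK H →L[ℂ] KK H)) :
      Set (KK H →L[ℂ] KK H)) = Set.centralizer (gens M) := by
  rw [StarSubalgebra.coe_centralizer, gens_star, Set.union_self]

/-- the amplified von Neumann algebra -/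
noncomputable def Mt (M : VonNeumannAlgebra H) : VonNeumannAlgebra (KK H) where
  toStarSubalgebra := StarSubalgebra.centralizer ℂ (gens M)
  centralizer_centralizer' := by
    have h := coe_centralizer_gens M
    change Set.centralizer (Set.centralizer
      ((StarSubalgebra.centralizer ℂ (gens M) : StarSubalgebra ℂ (KK H →L[ℂ] KK H)) :
        Set (KK H →L[ℂ] KK H))) =
      ((StarSubalgebra.centralizer ℂ (gens M) : StarSubalgebra ℂ (KK H →L[ℂ] KK H)) :
        Set (KK H →L[ℂ] KK H))
    rw [h]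
    exact Set.centralizer_centralizer_centralizer _

theorem mem_Mt (M : VonNeumannAlgebra H) (T : KK H →L[ℂ] KK H) :
    T ∈ Mt M ↔ ∃ x ∈ M, phi x = T := by
  rw [← mem_centralizer_gens, ← coe_centralizer_gens]
  rfl

/-! ### the two isometries -/

/-- the vector moved along an injective index map -/
noncomputable def shiftVec (e : ℕ → ℕ) (he : Function.Injective e) (f : KK H) : KK H :=
  kmk (Function.extend e (fun n => pp n f) 0) (by
    have h1 : (fun i => ‖Function.extend e (fun n => pp n f) 0 i‖ ^ 2) =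
        Function.extend e (fun i => ‖pp i f‖ ^ 2) 0 := by
      funext i
      by_cases hi : ∃ n, e n = i
      · obtain ⟨n, rfl⟩ := hi
        rw [he.extend_apply, he.extend_apply]
      · rw [Function.extend_apply' _ _ _ hi, Function.extend_apply' _ _ _ hi]
        simp
    rw [h1]
    exact ((hasSum_extend_zero he).2 (hasSum_norm_sq f)).summable)

theorem pp_shiftVec (e : ℕ → ℕ) (he : Function.Injective e) (f : KK H) (n : ℕ) :
    pp (e n) (shiftVec e he f) = pp n f := by
  rw [shiftVec, pp_kmk, he.extend_apply]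

theorem pp_shiftVec' (e : ℕ → ℕ) (he : Function.Injective e) (f : KK H) (n : ℕ)
    (hn : ¬ ∃ m, e m = n) : pp n (shiftVec e he f) = 0 := by
  rw [shiftVec, pp_kmk, Function.extend_apply' _ _ _ hn]; rfl

/-- pointwise check over the two cases -/
theorem shift_kext (e : ℕ → ℕ) {f g : KK H} (h1 : ∀ n, pp (e n) f = pp (e n) g)
    (h2 : ∀ n, (¬ ∃ m, e m = n) → pp n f = pp n g) : f = g := by
  refine kext (fun n => ?_)
  by_cases hn : ∃ m, e m = n
  · obtain ⟨m, rfl⟩ := hn; exact h1 m
  · exact h2 n hn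

theorem hasSum_shift (e : ℕ → ℕ) (he : Function.Injective e) (f g : KK H) :
    ⟪shiftVec e he f, shiftVec e he g⟫_ℂ = ⟪f, g⟫_ℂ := by
  refine (hasSum_inner _ _).unique ?_
  have h := (hasSum_extend_zero (f := fun n => ⟪pp n f, pp n g⟫_ℂ) he).2 (hasSum_inner f g)
  convert h using 1
  funext i
  by_cases hi : ∃ n, e n = i
  · obtain ⟨n, rfl⟩ := hi
    rw [he.extend_apply, pp_shiftVec, pp_shiftVec]
  · rw [Function.extend_apply' _ _ _ hi, pp_shiftVec' _ _ _ _ hi, inner_zero_left]; rfl

/-- the isometry induced by an injective index map -/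
noncomputable def shift (e : ℕ → ℕ) (he : Function.Injective e) : KK H →L[ℂ] KK H :=
  LinearMap.mkContinuous
    { toFun := shiftVec e he
      map_add' := fun f g => shift_kext e (fun n => by
          rw [pp_shiftVec, map_add, map_add, pp_shiftVec, pp_shiftVec]) (fun n hn => by
          rw [pp_shiftVec' _ _ _ _ hn, map_add, pp_shiftVec' _ _ _ _ hn, pp_shiftVec' _ _ _ _ hn,
            add_zero])
      map_smul' := fun c f => shift_kext e (fun n => by
          rw [pp_shiftVec, map_smul, RingHom.id_apply, map_smul, pp_shiftVec]) (fun n hn => by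
          rw [pp_shiftVec' _ _ _ _ hn, RingHom.id_apply, map_smul, pp_shiftVec' _ _ _ _ hn,
            smul_zero]) } 1
    (fun f => by
      have h := hasSum_shift e he f f
      have h2 : ‖shiftVec e he f‖ ^ 2 = ‖f‖ ^ 2 := by
        have h3 := congrArg Complex.re h
        have h4 := inner_self_eq_norm_sq (𝕜 := ℂ) (shiftVec e he f)
        have h5 := inner_self_eq_norm_sq (𝕜 := ℂ) f
        exact h4.symm.trans (h3.trans h5)
      rw [one_mul]
      exact le_of_eq ((pow_left_inj₀ (norm_nonneg _) (norm_nonneg _) two_ne_zero).1 h2))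

theorem shift_apply (e : ℕ → ℕ) (he : Function.Injective e) (f : KK H) :
    shift e he f = shiftVec e he f := rfl

theorem shift_star_mul_self (e : ℕ → ℕ) (he : Function.Injective e) :
    star (shift e he : KK H →L[ℂ] KK H) * shift e he = 1 := by
  ext1 f
  refine ext_inner_left ℂ (fun g => ?_)
  rw [mul_apply_eq_comp, ContinuousLinearMap.star_eq_adjoint,
    ContinuousLinearMap.adjoint_inner_right, shift_apply, shift_apply, hasSum_shift,
    one_apply_eq_self]

theorem shift_star_mul (e e' : ℕ → ℕ) (he : Function.Injective e) (he' : Function.Injective e')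
    (hd : ∀ m n, e m ≠ e' n) : star (shift e he : KK H →L[ℂ] KK H) * shift e' he' = 0 := by
  ext1 f
  refine ext_inner_left ℂ (fun g => ?_)
  rw [mul_apply_eq_comp, ContinuousLinearMap.star_eq_adjoint,
    ContinuousLinearMap.adjoint_inner_right, shift_apply, shift_apply,
    zero_apply, inner_zero_right]
  refine (hasSum_inner _ _).unique ?_
  convert (hasSum_zero : HasSum (fun _ : ℕ => (0 : ℂ)) 0) using 1
  funext n
  by_cases hn : ∃ m, e m = n
  · obtain ⟨m, rfl⟩ := hn
    rw [pp_shiftVec' e' he' f (e m) (fun ⟨k, hk⟩ => hd m k hk.symm), inner_zero_right]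
  · rw [pp_shiftVec' e he g n hn, inner_zero_left]

theorem shift_comm_phi (e : ℕ → ℕ) (he : Function.Injective e) (x : H →L[ℂ] H) :
    phi x * shift e he = shift e he * phi x := by
  ext1 f
  rw [mul_apply_eq_comp, mul_apply_eq_comp, shift_apply,
    shift_apply]
  refine shift_kext e (fun n => ?_) (fun n hn => ?_)
  · rw [pp_phi, pp_shiftVec, pp_shiftVec, pp_phi]
  · rw [pp_phi, pp_shiftVec' _ _ _ _ hn, pp_shiftVec' _ _ _ _ hn, map_zero]

theorem shift_mem (M : VonNeumannAlgebra H) (e : ℕ → ℕ) (he : Function.Injective e) :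
    shift e he ∈ (Mt M).commutant := by
  rw [VonNeumannAlgebra.mem_commutant_iff]
  intro T hT
  obtain ⟨x, -, rfl⟩ := (mem_Mt M T).1 hT
  exact shift_comm_phi e he x

theorem amp_Mt (M : VonNeumannAlgebra H) : Amp (Mt M) := by
  have h1 : Function.Injective (fun n : ℕ => 2 * n) := fun a b h => by
    have : 2 * a = 2 * b := h
    omega
  have h2 : Function.Injective (fun n : ℕ => 2 * n + 1) := fun a b h => by
    have : 2 * a + 1 = 2 * b + 1 := h
    omega
  refine ⟨shift _ h1, shift _ h2, shift_mem M _ h1, shift_mem M _ h2, shift_star_mul_self _ h1,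
    shift_star_mul_self _ h2, shift_star_mul _ _ h1 h2 (fun m n => ?_)⟩
  omega

/-! ### the dominating vector -/

theorem exists_dominating (F : Finset H) :
    ∃ ξ : KK H, ∀ x : H →L[ℂ] H, ∀ ζ ∈ F, ‖x ζ‖ ≤ ‖phi x ξ‖ := by
  classical
  obtain ⟨e, he⟩ : ∃ e : H → ℕ, Set.InjOn e (F : Set H) := by
    refine ⟨fun ζ => F.toList.idxOf ζ, fun a ha b hb hab => ?_⟩
    have ha' : a ∈ F.toList := by simpa using ha
    exact (List.idxOf_inj ha').1 hab
  refine ⟨∑ ζ ∈ F, jj (e ζ) ζ, fun x ζ hζ => ?_⟩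
  have h1 : pp (e ζ) (∑ ζ' ∈ F, jj (e ζ') ζ' : KK H) = ζ := by
    rw [map_sum, Finset.sum_eq_single ζ]
    · exact pp_jj_self _ _
    · intro b hb hne
      exact pp_jj_ne (fun h => hne (he hζ hb h).symm) _
    · intro h; exact absurd hζ h
  calc ‖x ζ‖ = ‖pp (e ζ) (phi x (∑ ζ' ∈ F, jj (e ζ') ζ' : KK H))‖ := by rw [pp_phi, h1]
    _ ≤ _ := norm_pp_le _ _

end Main

end Ampl

open Ampl in
/-- the amplification lemma -/
theorem exists_ampl {H : Type u} [NormedAddCommGroup H] [InnerProductSpace ℂ H] [CompleteSpace H]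
    (M : VonNeumannAlgebra H) (A : StarSubalgebra ℂ (H →L[ℂ] H)) (hM : Masa M A) :
    ∃ (K : Type u) (_ : NormedAddCommGroup K) (_ : InnerProductSpace ℂ K) (_ : CompleteSpace K)
      (Φ : (H →L[ℂ] H) →⋆ₐ[ℂ] (K →L[ℂ] K)) (Mt : VonNeumannAlgebra K)
      (At : StarSubalgebra ℂ (K →L[ℂ] K)),
      (∀ x, ‖Φ x‖ = ‖x‖) ∧ (∀ T, T ∈ Mt ↔ ∃ x ∈ M, Φ x = T) ∧ (∀ T, T ∈ At ↔ ∃ a ∈ A, Φ a = T) ∧
      Masa Mt At ∧ Amp Mt ∧
      ∀ F : Finset H, ∃ ξ : K, ∀ x : H →L[ℂ] H, ∀ ζ ∈ F, ‖x ζ‖ ≤ ‖Φ x ξ‖ := by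
  have hAt : ∀ T, T ∈ A.map (Phi H) ↔ ∃ a ∈ A, Phi H a = T := fun T => StarSubalgebra.mem_map
  refine ⟨KK H, inferInstance, inferInstance, inferInstance, Phi H, Mt M, A.map (Phi H),
    norm_phi, mem_Mt M, hAt, ?_, amp_Mt M, exists_dominating⟩
  refine ⟨?_, ?_, ?_⟩
  · intro T hT
    obtain ⟨a, ha, rfl⟩ := (hAt T).1 hT
    exact (mem_Mt M _).2 ⟨a, hM.le ha, rfl⟩
  · intro S hS T hT
    obtain ⟨a, ha, rfl⟩ := (hAt S).1 hS
    obtain ⟨b, hb, rfl⟩ := (hAt T).1 hT
    rw [← map_mul, ← map_mul, hM.comm a ha b hb]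
  · intro T hT hc
    obtain ⟨x, hx, rfl⟩ := (mem_Mt M T).1 hT
    refine (hAt _).2 ⟨x, hM.max x hx (fun a ha => ?_), rfl⟩
    have h := hc (Phi H a) ((hAt _).2 ⟨a, ha, rfl⟩)
    rw [Phi_eq, ← phi_mul, ← phi_mul] at h
    exact phi_inj h

end Crest.Agent.R109
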