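import Crest.Agent.R109.OneSiteB

/-!
# One-site lemma, part C (row 109, helper135)

Main results: `q_div_le_one`, `oneSite`.
-/

set_option autoImplicit false

namespace Crest.Agent.R109

open PowerSeries Finset

variable {ι : Type*} [Fintype ι]

theorem abs_coeff_pow_le {F G : ℝ⟦X⟧} (h : ∀ n, |coeff n F| ≤ coeff n G) (m : ℕ) :
    ∀ n, |coeff n (F ^ m)| ≤ coeff n (G ^ m) := by
  have hG : CPos G := fun n => (abs_nonneg _).trans (h n)
  induction m with
  | zero =>
    intro n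
    rw [pow_zero, pow_zero, coeff_one]
    split_ifs <;> simp
  | succ m ih =>
    intro n
    rw [pow_succ, pow_succ, coeff_mul, coeff_mul]
    refine (Finset.abs_sum_le_sum_abs _ _).trans ?_
    apply Finset.sum_le_sum
    intro p _
    rw [abs_mul]
    exact mul_le_mul (ih _) (h _) (abs_nonneg _) (hG.pow m _)

theorem abs_coeff_mom_le (s μ : ι → ℝ) (hμ : ∀ j, 0 ≤ μ j) (n : ℕ) :
    |coeff n (mom s μ)| ≤ coeff n (mom (fun j => |s j|) μ) := by
  rcases n with _ | _ | n
  · rw [coeff_mom_zero, coeff_mom_zero, abs_zero]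
  · rw [coeff_mom_one, coeff_mom_one, abs_zero]
  · rw [coeff_mom_add_two, coeff_mom_add_two]
    refine (Finset.abs_sum_le_sum_abs _ _).trans (le_of_eq ?_)
    apply Finset.sum_congr rfl
    intro j _
    rw [abs_mul, abs_pow, abs_of_nonneg (hμ j)]

/-- truncated coefficient sums are submultiplicative on series with nonnegative coefficients -/
theorem sum_coeff_mul_le {F G : ℝ⟦X⟧} (hF : CPos F) (hG : CPos G) (N : ℕ) :
    ∑ n ∈ range (N + 1), coeff n (F * G) ≤
      (∑ n ∈ range (N + 1), coeff n F) * ∑ n ∈ range (N + 1), coeff n G := by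
  rw [Finset.sum_mul_sum, ← Finset.sum_product']
  have h1 : ∑ n ∈ range (N + 1), coeff n (F * G) =
      ∑ n ∈ range (N + 1), ∑ p ∈ antidiagonal n, coeff p.1 F * coeff p.2 G := by
    apply Finset.sum_congr rfl
    intro n _
    rw [coeff_mul]
  rw [h1, ← Finset.sum_biUnion]
  · apply Finset.sum_le_sum_of_subset_of_nonneg
    · intro p hp
      rw [Finset.mem_biUnion] at hp
      obtain ⟨n, hn, hp⟩ := hp
      rw [HasAntidiagonal.mem_antidiagonal] at hp
      rw [Finset.mem_range] at hn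
      rw [Finset.mem_product, Finset.mem_range, Finset.mem_range]
      omega
    · intro p _ _
      exact mul_nonneg (hF _) (hG _)
  · intro a _ b _ hab
    rw [Function.onFun, Finset.disjoint_left]
    intro p hp hp'
    rw [HasAntidiagonal.mem_antidiagonal] at hp hp'
    exact hab (hp.symm.trans hp')

theorem sum_coeff_pow_le {F : ℝ⟦X⟧} (hF : CPos F) (N n : ℕ) :
    ∑ i ∈ range (N + 1), coeff i (F ^ n) ≤ (∑ i ∈ range (N + 1), coeff i F) ^ n := by
  induction n with
  | zero =>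
    rw [pow_zero, pow_zero, Finset.sum_eq_single 0]
    · simp
    · intro b _ hb; rw [coeff_one, if_neg hb]
    · intro h; simp at h
  | succ n ih =>
    rw [pow_succ, pow_succ]
    refine (sum_coeff_mul_le (hF.pow n) hF N).trans ?_
    exact mul_le_mul_of_nonneg_right ih (Finset.sum_nonneg fun i _ => hF i)

theorem coeff_pow_succ_le {G : ℝ⟦X⟧} (hG : CPos G) (N n : ℕ) (T : ℝ)
    (hT : ∀ a, a ≤ N → (a : ℝ) * coeff a G ≤ T) :
    (N : ℝ) / (n + 1) * coeff N (G ^ (n + 1)) ≤ T * (∑ i ∈ range (N + 1), coeff i G) ^ n := by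
  rw [← coeff_X_mul_derivative_mul_pow, coeff_mul,
    Finset.Nat.sum_antidiagonal_eq_sum_range_succ_mk]
  simp only [coeff_X_mul_derivative]
  have hT0 : 0 ≤ T := by have := hT 0 (Nat.zero_le _); simpa using this
  calc ∑ k ∈ range N.succ, (k : ℝ) * coeff k G * coeff (N - k) (G ^ n)
      ≤ ∑ k ∈ range N.succ, T * coeff (N - k) (G ^ n) := by
        apply Finset.sum_le_sum
        intro a ha
        have := Finset.mem_range.mp ha
        exact mul_le_mul_of_nonneg_right (hT a (by omega)) (hG.pow n _)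
    _ = T * ∑ k ∈ range (N + 1), coeff k (G ^ n) := by
        rw [← Finset.mul_sum]
        congr 1
        exact Finset.sum_range_reflect (fun k => coeff k (G ^ n)) (N + 1)
    _ ≤ _ := mul_le_mul_of_nonneg_left (sum_coeff_pow_le hG N n) hT0

theorem sum_pow_le_even (t : ℝ) (ht : 0 ≤ t) (k : ℕ) :
    ∑ l ∈ range (2 * k + 1), t ^ l ≤ 2 * ∑ i ∈ range (k + 1), t ^ (2 * i) - (1 + t ^ (2 * k)) / 2 := by
  induction k with
  | zero => simp; norm_num
  | succ k ih =>
    have e : 2 * (k + 1) + 1 = (2 * k + 1) + 1 + 1 := by ring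
    rw [e, Finset.sum_range_succ, Finset.sum_range_succ, Finset.sum_range_succ _ (k + 1)]
    have h1 : t ^ (2 * k + 1) ≤ (t ^ (2 * k) + t ^ (2 * k + 1 + 1)) / 2 := by
      have h2 : 0 ≤ t ^ (2 * k) * (1 - t) ^ 2 := mul_nonneg (pow_nonneg ht _) (sq_nonneg _)
      have h3 : t ^ (2 * k) * (1 - t) ^ 2 = t ^ (2 * k) - 2 * t ^ (2 * k + 1) + t ^ (2 * k + 1 + 1) := by
        ring
      linarith
    have e2 : 2 * (k + 1) = 2 * k + 1 + 1 := by ring
    rw [e2]
    linarith

theorem sum_pow_le_even' (t : ℝ) (ht : 0 ≤ t) (k : ℕ) (hk : 1 ≤ k) :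
    ∑ l ∈ range (2 * k - 1), t ^ l ≤ 2 * ∑ i ∈ range k, t ^ (2 * i) := by
  obtain ⟨m, rfl⟩ : ∃ m, k = m + 1 := ⟨k - 1, by omega⟩
  have := sum_pow_le_even t ht m
  have e : 2 * (m + 1) - 1 = 2 * m + 1 := by omega
  rw [e]
  have := pow_nonneg ht (2 * m)
  linarith

theorem mul_pow_le (t : ℝ) (ht : 0 ≤ t) (k : ℕ) (hk : 1 ≤ k) (i : ℕ) (hi : i + 2 ≤ 2 * k) :
    ((i : ℝ) + 2) * t ^ i ≤ 2 * ∑ l ∈ range (2 * k - 1), t ^ l + 2 * k * t ^ (2 * k - 2) := by
  have hsum0 : 0 ≤ ∑ l ∈ range (2 * k - 1), t ^ l := Finset.sum_nonneg fun l _ => pow_nonneg ht l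
  rcases le_total t 1 with h1 | h1
  · have h2 : ((i : ℝ) + 1) * t ^ i ≤ ∑ l ∈ range (i + 1), t ^ l := by
      calc ((i : ℝ) + 1) * t ^ i = ∑ l ∈ range (i + 1), t ^ i := by simp
        _ ≤ _ := by
          apply Finset.sum_le_sum
          intro l hl
          have := Finset.mem_range.mp hl
          exact pow_le_pow_of_le_one ht h1 (by omega)
    have h3 : ∑ l ∈ range (i + 1), t ^ l ≤ ∑ l ∈ range (2 * k - 1), t ^ l := by
      apply Finset.sum_le_sum_of_subset_of_nonneg
      · intro l hl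
        rw [Finset.mem_range] at hl ⊢; omega
      · intro l _ _; exact pow_nonneg ht l
    have h4 : 0 ≤ (i : ℝ) * t ^ i := mul_nonneg (by positivity) (pow_nonneg ht i)
    have h5 : 0 ≤ 2 * (k : ℝ) * t ^ (2 * k - 2) := mul_nonneg (by positivity) (pow_nonneg ht _)
    nlinarith
  · have h2 : t ^ i ≤ t ^ (2 * k - 2) := pow_le_pow_right₀ h1 (by omega)
    have h3 : (i : ℝ) + 2 ≤ 2 * k := by exact_mod_cast hi
    have h4 : ((i : ℝ) + 2) * t ^ i ≤ 2 * k * t ^ (2 * k - 2) :=
      mul_le_mul h3 h2 (pow_nonneg ht i) (by positivity)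
    linarith

theorem mom_div (s μ : ι → ℝ) (K : ℝ) :
    mom s (fun j => μ j / K) = C (K⁻¹) * mom s μ := by
  rw [mom, mom, Finset.mul_sum]
  apply Finset.sum_congr rfl
  intro j _
  have : C (μ j / K) = C K⁻¹ * C (μ j) := by
    rw [← map_mul]; congr 1; rw [div_eq_mul_inv, mul_comm]
  rw [this]; ring

/-- (b) of the one-site lemma -/
theorem q_div_le_one (k : ℕ) (hk : 1 ≤ k) (s μ : ι → ℝ) (hμ : ∀ j, 0 ≤ μ j) (K : ℝ) (hK : 0 < K)
    (h : 6 * Jfun k s μ ≤ K) : q k s (fun j => μ j / K) ≤ 1 := by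
  have hkR : (1 : ℝ) ≤ k := by exact_mod_cast hk
  set G := mom (fun j => |s j|) μ with hG
  have hGpos : CPos G := CPos.mom _ _ (fun j => abs_nonneg _) hμ
  set D : ℝ := ∑ i ∈ range (2 * k + 1), coeff i G with hD
  have hD0 : 0 ≤ D := Finset.sum_nonneg fun i _ => hGpos i
  set E : ℝ := ∑ j, μ j * ∑ i ∈ range k, s j ^ (2 * i) with hE
  set P : ℝ := ∑ j, μ j * s j ^ (2 * k - 2) with hP
  have hJ : Jfun k s μ = E + k * P := by
    rw [Jfun, hE, hP, Finset.mul_sum, ← Finset.sum_add_distrib]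
    apply Finset.sum_congr rfl
    intro j _
    ring
  have habs : ∀ j, |s j| ^ (2 * k - 2) = s j ^ (2 * k - 2) := by
    intro j
    have : 2 * k - 2 = 2 * (k - 1) := by omega
    rw [this, pow_mul, pow_mul, sq_abs]
  have habs2 : ∀ j i, |s j| ^ (2 * i) = s j ^ (2 * i) := by
    intro j i; rw [pow_mul, pow_mul, sq_abs]
  have hP0 : 0 ≤ P := by
    apply Finset.sum_nonneg
    intro j _
    rw [← habs j]
    exact mul_nonneg (hμ j) (pow_nonneg (abs_nonneg _) _)
  have hE0 : 0 ≤ E := by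
    apply Finset.sum_nonneg
    intro j _
    refine mul_nonneg (hμ j) (Finset.sum_nonneg fun i _ => ?_)
    rw [← habs2 j]
    exact pow_nonneg (abs_nonneg _) _
  -- D as a moment sum
  have hDeq : D = ∑ j, μ j * ∑ l ∈ range (2 * k - 1), |s j| ^ l := by
    rw [hD]
    have e : 2 * k + 1 = (2 * k - 1) + 1 + 1 := by omega
    rw [e, Finset.sum_range_succ', Finset.sum_range_succ']
    rw [hG, coeff_mom_zero, coeff_mom_one, add_zero, add_zero]
    simp only [add_assoc, Nat.reduceAdd, coeff_mom_add_two]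
    rw [Finset.sum_comm]
    apply Finset.sum_congr rfl
    intro j _
    rw [Finset.mul_sum]
  have hDE : D ≤ 2 * E := by
    rw [hDeq, hE, Finset.mul_sum]
    apply Finset.sum_le_sum
    intro j _
    have := sum_pow_le_even' |s j| (abs_nonneg _) k hk
    simp only [habs2] at this
    calc μ j * ∑ l ∈ range (2 * k - 1), |s j| ^ l
        ≤ μ j * (2 * ∑ i ∈ range k, s j ^ (2 * i)) := mul_le_mul_of_nonneg_left this (hμ j)
      _ = _ := by ring
  set T : ℝ := 2 * D + 2 * k * P with hT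
  have hTb : ∀ a, a ≤ 2 * k → (a : ℝ) * coeff a G ≤ T := by
    intro a ha
    rcases a with _ | _ | i
    · simp only [Nat.cast_zero, zero_mul]
      positivity
    · rw [hG, coeff_mom_one, mul_zero]
      positivity
    · rw [hG, coeff_mom_add_two, Finset.mul_sum, hT, hDeq, hP, Finset.mul_sum, Finset.mul_sum,
        ← Finset.sum_add_distrib]
      apply Finset.sum_le_sum
      intro j _
      have := mul_pow_le |s j| (abs_nonneg _) k hk i (by omega)
      rw [habs] at this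
      have h2 := mul_le_mul_of_nonneg_left this (hμ j)
      push_cast
      calc ((i : ℝ) + 1 + 1) * (μ j * |s j| ^ i) = μ j * (((i : ℝ) + 2) * |s j| ^ i) := by ring
        _ ≤ _ := h2
        _ = _ := by ring
  have hT0 : 0 ≤ T := by positivity
  -- K - D > 0 and T ≤ K - D
  have hTK : T + D ≤ K := by
    rw [hJ] at h
    nlinarith
  by_cases hTz : T = 0
  · -- everything vanishes
    have hD00 : D = 0 := by nlinarith [mul_nonneg (by positivity : (0:ℝ) ≤ 2 * k) hP0]
    rw [q_eq_sum]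
    have : ∀ n ∈ range (2 * k + 1), ((2 * k : ℕ) : ℝ) / (n + 1) *
        coeff (2 * k) (mom s (fun j => μ j / K) ^ (n + 1)) ≤ 0 := by
      intro n _
      rw [mom_div, mul_pow, ← map_pow, coeff_C_mul]
      have h1 := abs_coeff_pow_le (abs_coeff_mom_le s μ hμ) (n + 1) (2 * k)
      have h2 := coeff_pow_succ_le hGpos (2 * k) n T hTb
      rw [hTz, zero_mul] at h2
      have h3 : coeff (2 * k) (mom s μ ^ (n + 1)) ≤ coeff (2 * k) (G ^ (n + 1)) :=
        (le_abs_self _).trans h1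
      have h4 : ((2 * k : ℕ) : ℝ) / (n + 1) * coeff (2 * k) (mom s μ ^ (n + 1)) ≤ 0 :=
        (mul_le_mul_of_nonneg_left h3 (by positivity)).trans h2
      have h5 : 0 ≤ (K⁻¹) ^ (n + 1) := by positivity
      calc ((2 * k : ℕ) : ℝ) / (n + 1) * (K⁻¹ ^ (n + 1) * coeff (2 * k) (mom s μ ^ (n + 1)))
          = K⁻¹ ^ (n + 1) * (((2 * k : ℕ) : ℝ) / (n + 1) * coeff (2 * k) (mom s μ ^ (n + 1))) := by
            ring
        _ ≤ 0 := mul_nonpos_of_nonneg_of_nonpos h5 h4
    exact (Finset.sum_nonpos this).trans zero_le_one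
  · have hTpos : 0 < T := lt_of_le_of_ne hT0 (Ne.symm hTz)
    have hKD : 0 < K - D := by linarith
    rw [q_eq_sum]
    have hterm : ∀ n ∈ range (2 * k + 1), ((2 * k : ℕ) : ℝ) / (n + 1) *
        coeff (2 * k) (mom s (fun j => μ j / K) ^ (n + 1)) ≤ T / K * (D / K) ^ n := by
      intro n _
      rw [mom_div, mul_pow, ← map_pow, coeff_C_mul]
      have h1 := abs_coeff_pow_le (abs_coeff_mom_le s μ hμ) (n + 1) (2 * k)
      have h2 := coeff_pow_succ_le hGpos (2 * k) n T hTb
      have h3 : coeff (2 * k) (mom s μ ^ (n + 1)) ≤ coeff (2 * k) (G ^ (n + 1)) :=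
        (le_abs_self _).trans h1
      have h4 : ((2 * k : ℕ) : ℝ) / (n + 1) * coeff (2 * k) (mom s μ ^ (n + 1)) ≤ T * D ^ n :=
        (mul_le_mul_of_nonneg_left h3 (by positivity)).trans h2
      have h5 : 0 ≤ (K⁻¹) ^ (n + 1) := by positivity
      calc ((2 * k : ℕ) : ℝ) / (n + 1) * (K⁻¹ ^ (n + 1) * coeff (2 * k) (mom s μ ^ (n + 1)))
          = K⁻¹ ^ (n + 1) * (((2 * k : ℕ) : ℝ) / (n + 1) * coeff (2 * k) (mom s μ ^ (n + 1))) := by
            ring
        _ ≤ K⁻¹ ^ (n + 1) * (T * D ^ n) := mul_le_mul_of_nonneg_left h4 h5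
        _ = T / K * (D / K) ^ n := by
            rw [div_pow, pow_succ, inv_pow]
            field_simp
    refine (Finset.sum_le_sum hterm).trans ?_
    rw [← Finset.mul_sum]
    have hx0 : 0 ≤ D / K := by positivity
    have hx1 : D / K < 1 := by rw [div_lt_one hK]; linarith
    have hgs : ∑ n ∈ range (2 * k + 1), (D / K) ^ n ≤ 1 / (1 - D / K) := by
      rw [le_div_iff₀ (by linarith), geom_sum_mul_neg]
      have := pow_nonneg hx0 (2 * k + 1)
      linarith
    calc T / K * ∑ n ∈ range (2 * k + 1), (D / K) ^ n ≤ T / K * (1 / (1 - D / K)) :=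
          mul_le_mul_of_nonneg_left hgs (by positivity)
      _ = T / (K - D) := by
          have : K - D ≠ 0 := hKD.ne'
          have h2 : 1 - D / K ≠ 0 := by
            intro h0
            have : D / K = 1 := by linarith
            linarith
          field_simp
      _ ≤ 1 := by rw [div_le_one hKD]; linarith

theorem Jfun_nonneg (k : ℕ) (s μ : ι → ℝ) (hμ : ∀ j, 0 ≤ μ j) : 0 ≤ Jfun k s μ := by
  apply Finset.sum_nonneg
  intro j _
  refine mul_nonneg (hμ j) (add_nonneg (Finset.sum_nonneg fun i _ => ?_) ?_)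
  · rw [pow_mul]; positivity
  · rcases k with _ | k
    · simp
    · have : 2 * (k + 1) - 2 = 2 * k := by omega
      rw [this, pow_mul]; positivity

theorem Jfun_sum {κ : Type*} [Fintype κ] (k : ℕ) (s : ι → ℝ) (f : κ → ℝ) (m : κ → ι → ℝ) :
    Jfun k s (fun j => ∑ c, f c * m c j) = ∑ c, f c * Jfun k s (m c) := by
  simp only [Jfun, Finset.sum_mul, Finset.mul_sum]
  rw [Finset.sum_comm]
  apply Finset.sum_congr rfl
  intro c _
  apply Finset.sum_congr rfl
  intro j _
  ring

theorem q_zero (k : ℕ) (s : ι → ℝ) : q k s (fun _ => 0) = 0 := by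
  rw [q_eq_sum]
  apply Finset.sum_eq_zero
  intro n _
  have : mom s (fun _ : ι => (0 : ℝ)) = 0 := by simp [mom]
  rw [this, zero_pow (Nat.succ_ne_zero n), map_zero, mul_zero]

/-- Scaled form of the `J` bound. -/
theorem Jfun_scaled_le (k : ℕ) (hk : 1 ≤ k) (s μ : ι → ℝ) (hμ : ∀ j, 0 ≤ μ j) (t : ℝ) (ht : 0 < t)
    (h : q k s μ ≤ t ^ (2 * k)) :
    Jfun k (fun j => t⁻¹ * s j) (fun j => t⁻¹ ^ 2 * μ j) ≤ 4 := by
  apply Jfun_le k hk
  · intro j; exact mul_nonneg (by positivity) (hμ j)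
  · rw [q_rescale]
    have h0 : 0 < t ^ (2 * k) := pow_pos ht _
    rw [inv_pow, inv_mul_le_iff₀ h0, mul_one]
    exact h

theorem q_scaled_div_le (k : ℕ) (hk : 1 ≤ k) (s μ : ι → ℝ) (hμ : ∀ j, 0 ≤ μ j) (t : ℝ) (ht : 0 < t)
    (K : ℝ) (hK : 0 < K)
    (h : 6 * Jfun k (fun j => t⁻¹ * s j) (fun j => t⁻¹ ^ 2 * μ j) ≤ K) :
    q k s (fun j => μ j / K) ≤ t ^ (2 * k) := by
  have h1 := q_div_le_one k hk (fun j => t⁻¹ * s j) (fun j => t⁻¹ ^ 2 * μ j)
    (fun j => mul_nonneg (by positivity) (hμ j)) K hK h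
  have e : (fun j => t⁻¹ ^ 2 * μ j / K) = fun j => t⁻¹ ^ 2 * (μ j / K) := by
    ext j; ring
  rw [e, q_rescale, inv_pow, inv_mul_le_iff₀ (pow_pos ht _), mul_one] at h1
  exact h1

/-- **One-site lemma** (row 109).  `m c` are the colour measures (common atoms `s`), `f` the colour
probabilities, `m̄ = ∑ f c • m c`.  If `24/ρ ≤ K`, then all colours outside a set of probability at
most `ρ` satisfy `q(m_c/K) ≤ q(m̄)`. -/
theorem oneSite {κ : Type*} [Fintype κ] (k : ℕ) (hk : 1 ≤ k) (s : ι → ℝ) (f : κ → ℝ)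
    (hf0 : ∀ c, 0 ≤ f c) (hf1 : ∑ c, f c = 1) (m : κ → ι → ℝ) (hm : ∀ c j, 0 ≤ m c j)
    (ρ : ℝ) (hρ : 0 < ρ) (K : ℝ) (hK : 24 / ρ ≤ K) :
    ∃ good : Finset κ,
      (∀ c ∈ good, q k s (fun j => m c j / K) ≤ q k s (fun j => ∑ c, f c * m c j)) ∧
      1 - ρ ≤ ∑ c ∈ good, f c := by
  classical
  have hKpos : 0 < K := lt_of_lt_of_le (by positivity) hK
  set mb : ι → ℝ := fun j => ∑ c, f c * m c j with hmb
  have hmb0 : ∀ j, 0 ≤ mb j := fun j => Finset.sum_nonneg fun c _ => mul_nonneg (hf0 c) (hm c j)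
  have hq0 : 0 ≤ q k s mb := q_nonneg k s mb hmb0
  rcases hq0.eq_or_lt with hz | hpos
  · -- q(mb) = 0: then mb = 0
    have hmbz : ∀ j, mb j = 0 := by
      intro j
      by_contra hne
      have hjpos : 0 < mb j := lt_of_le_of_ne (hmb0 j) (Ne.symm hne)
      set t : ℝ := Real.sqrt (mb j / 8) with ht
      have htpos : 0 < t := Real.sqrt_pos.mpr (by positivity)
      have ht2 : t ^ 2 = mb j / 8 := Real.sq_sqrt (by positivity)
      have h1 := Jfun_scaled_le k hk s mb hmb0 t htpos (by rw [← hz]; positivity)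
      have h2 : t⁻¹ ^ 2 * mb j ≤ Jfun k (fun j => t⁻¹ * s j) (fun j => t⁻¹ ^ 2 * mb j) := by
        rw [Jfun]
        have hterm : ∀ i, 0 ≤ t⁻¹ ^ 2 * mb i *
            (∑ l ∈ range k, (t⁻¹ * s i) ^ (2 * l) + k * (t⁻¹ * s i) ^ (2 * k - 2)) := by
          intro i
          refine mul_nonneg (mul_nonneg (by positivity) (hmb0 i)) (add_nonneg
            (Finset.sum_nonneg fun l _ => ?_) ?_)
          · rw [pow_mul]; positivity
          · have : 2 * k - 2 = 2 * (k - 1) := by omega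
            rw [this, pow_mul]; positivity
        refine le_trans ?_ (Finset.single_le_sum (f := fun i => t⁻¹ ^ 2 * mb i *
            (∑ l ∈ range k, (t⁻¹ * s i) ^ (2 * l) + k * (t⁻¹ * s i) ^ (2 * k - 2)))
            (fun i _ => hterm i) (Finset.mem_univ j))
        have h3 : (1 : ℝ) ≤ ∑ l ∈ range k, (t⁻¹ * s j) ^ (2 * l) := by
          have : (0 : ℕ) ∈ range k := Finset.mem_range.mpr hk
          refine le_trans ?_ (Finset.single_le_sum (f := fun l => (t⁻¹ * s j) ^ (2 * l))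
            (fun l _ => by simp only [pow_mul]; positivity) this)
          simp
        have h4 : 0 ≤ (k : ℝ) * (t⁻¹ * s j) ^ (2 * k - 2) := by
          have : 2 * k - 2 = 2 * (k - 1) := by omega
          rw [this, pow_mul]; positivity
        have h5 : 0 ≤ t⁻¹ ^ 2 * mb j := mul_nonneg (by positivity) (hmb0 j)
        calc t⁻¹ ^ 2 * mb j = t⁻¹ ^ 2 * mb j * 1 := (mul_one _).symm
          _ ≤ _ := mul_le_mul_of_nonneg_left (by linarith) h5
      have h3 : t⁻¹ ^ 2 * mb j = 8 := by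
        rw [inv_pow, ht2]
        field_simp
      linarith
    refine ⟨univ.filter (fun c => f c ≠ 0), ?_, ?_⟩
    · intro c hc
      have hfc : f c ≠ 0 := (Finset.mem_filter.mp hc).2
      have hmc : ∀ j, m c j = 0 := by
        intro j
        have h1 := hmbz j
        simp only [hmb] at h1
        rw [Finset.sum_eq_zero_iff_of_nonneg (fun c _ => mul_nonneg (hf0 c) (hm c j))] at h1
        exact (mul_eq_zero.mp (h1 c (Finset.mem_univ c))).resolve_left hfc
      have e1 : (fun j => m c j / K) = fun _ => (0 : ℝ) := by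
        ext j; rw [hmc j, zero_div]
      rw [e1, q_zero]
      exact hq0
    · have : ∑ c ∈ univ.filter (fun c => f c ≠ 0), f c = 1 := by
        rw [Finset.sum_filter_ne_zero, hf1]
      rw [this]; linarith
  · -- q(mb) = t^(2k), t > 0
    obtain ⟨t, ht, htq⟩ : ∃ t : ℝ, 0 < t ∧ t ^ (2 * k) = q k s mb := by
      refine ⟨(q k s mb) ^ ((1 : ℝ) / (2 * k : ℕ)), Real.rpow_pos_of_pos hpos _, ?_⟩
      rw [← Real.rpow_natCast, ← Real.rpow_mul hpos.le]
      have : ((2 * k : ℕ) : ℝ) ≠ 0 := by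
        have : 0 < 2 * k := by omega
        positivity
      rw [one_div, inv_mul_cancel₀ this, Real.rpow_one]
    have h1 := Jfun_scaled_le k hk s mb hmb0 t ht htq.ge
    set J' : κ → ℝ := fun c => Jfun k (fun j => t⁻¹ * s j) (fun j => t⁻¹ ^ 2 * m c j) with hJ'
    have hJ0 : ∀ c, 0 ≤ J' c := fun c =>
      Jfun_nonneg k _ _ (fun j => mul_nonneg (by positivity) (hm c j))
    have hsum : ∑ c, f c * J' c ≤ 4 := by
      have e : (fun j => t⁻¹ ^ 2 * mb j) = fun j => ∑ c, f c * (t⁻¹ ^ 2 * m c j) := by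
        ext j
        simp only [hmb, Finset.mul_sum]
        apply Finset.sum_congr rfl
        intro c _
        ring
      rw [e, Jfun_sum] at h1
      exact h1
    refine ⟨univ.filter (fun c => J' c ≤ 4 / ρ), ?_, ?_⟩
    · intro c hc
      have hc' : J' c ≤ 4 / ρ := (Finset.mem_filter.mp hc).2
      rw [← htq]
      apply q_scaled_div_le k hk s (m c) (hm c) t ht K hKpos
      calc 6 * J' c ≤ 6 * (4 / ρ) := by linarith
        _ = 24 / ρ := by ring
        _ ≤ K := hK
    · -- Markov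
      have h2 : ∑ c ∈ univ.filter (fun c => ¬ J' c ≤ 4 / ρ), f c * (4 / ρ) ≤ 4 := by
        calc ∑ c ∈ univ.filter (fun c => ¬ J' c ≤ 4 / ρ), f c * (4 / ρ)
            ≤ ∑ c ∈ univ.filter (fun c => ¬ J' c ≤ 4 / ρ), f c * J' c := by
              apply Finset.sum_le_sum
              intro c hc
              have := (Finset.mem_filter.mp hc).2
              push Not at this
              exact mul_le_mul_of_nonneg_left this.le (hf0 c)
          _ ≤ ∑ c, f c * J' c := by
              apply Finset.sum_le_sum_of_subset_of_nonneg (Finset.filter_subset _ _)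
              intro c _ _
              exact mul_nonneg (hf0 c) (hJ0 c)
          _ ≤ 4 := hsum
      rw [← Finset.sum_mul] at h2
      have h3 : ∑ c ∈ univ.filter (fun c => ¬ J' c ≤ 4 / ρ), f c ≤ ρ := by
        have h4 : (∑ c ∈ univ.filter (fun c => ¬ J' c ≤ 4 / ρ), f c) * (4 / ρ) ≤ ρ * (4 / ρ) := by
          have : ρ * (4 / ρ) = 4 := by field_simp
          rw [this]; exact h2
        exact le_of_mul_le_mul_right h4 (by positivity)
      have h5 := Finset.sum_filter_add_sum_filter_not univ (fun c => J' c ≤ 4 / ρ) f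
      rw [hf1] at h5
      linarith

/-- Uniform version: `r` colours, at most `ρ r` of them are bad. -/
theorem oneSite_uniform (k : ℕ) (hk : 1 ≤ k) (r : ℕ) (hr : 0 < r) (s : ι → ℝ)
    (m : Fin r → ι → ℝ) (hm : ∀ c j, 0 ≤ m c j) (ρ : ℝ) (hρ : 0 < ρ) (K : ℝ) (hK : 24 / ρ ≤ K) :
    ∃ good : Finset (Fin r),
      (∀ c ∈ good, q k s (fun j => m c j / K) ≤ q k s (fun j => (∑ c, m c j) / r)) ∧
      (1 - ρ) * r ≤ good.card := by
  have hr' : (0 : ℝ) < r := by exact_mod_cast hr
  obtain ⟨good, h1, h2⟩ := oneSite k hk s (fun _ : Fin r => (1 : ℝ) / r)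
    (fun _ => by positivity) (by simp; field_simp) m hm ρ hρ K hK
  refine ⟨good, ?_, ?_⟩
  · intro c hc
    have := h1 c hc
    have e : (fun j => ∑ c, 1 / (r : ℝ) * m c j) = fun j => (∑ c, m c j) / r := by
      ext j; rw [← Finset.mul_sum]; ring
    rwa [e] at this
  · rw [Finset.sum_const, nsmul_eq_mul] at h2
    have : (good.card : ℝ) * (1 / r) * r = good.card := by field_simp
    nlinarith

end Crest.Agent.R109
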