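import Crest.Agent.R109.FinStart1
import Crest.Agent.R109.OneSiteC

/-!
# Nevanlinna quotients in reversed form (row 109, helper135)

If `p K_i : ℝ[X]`, `p(0) = 1`, `K_i(0) = 0`, `p` has no zeros in the lower half plane and
`Im (K_i/p) ≥ 0` there, then `-y K_i(y) = p(y) * mom s (m i)(y)` with `m ≥ 0` and
`p = ∏ (1 - s_j y)`.
-/

set_option autoImplicit false

namespace Crest.Agent.R109

open Polynomial Finset

theorem eval_map_conj (P : ℝ[X]) (z : ℂ) :
    (P.map (algebraMap ℝ ℂ)).eval ((starRingEnd ℂ) z)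
      = (starRingEnd ℂ) ((P.map (algebraMap ℝ ℂ)).eval z) := by
  rw [Polynomial.eval_map, Polynomial.eval_map, Polynomial.hom_eval₂]
  congr 1
  ext x
  simp

/-- a monic real polynomial all of whose complex roots are real is a product of linear factors -/
theorem exists_prod_of_real_roots (P : ℝ[X]) (hP : P.Monic)
    (h : ∀ z : ℂ, (P.map (algebraMap ℝ ℂ)).eval z = 0 → z.im = 0) :
    ∃ s : Fin P.natDegree → ℝ, P = ∏ j, (X - C (s j)) := by
  set Q := P.map (algebraMap ℝ ℂ) with hQ
  have hQm : Q.Monic := hP.map _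
  have hsp : Q.Splits := IsAlgClosed.splits Q
  have h1 := hsp.eq_prod_roots_of_monic hQm
  set r : Multiset ℝ := Q.roots.map Complex.re with hr
  have h2 : (r.map (fun s : ℝ => X - C s)).prod = P := by
    apply Polynomial.map_injective _ (algebraMap ℝ ℂ).injective
    rw [← hQ]
    conv_rhs => rw [h1]
    rw [Polynomial.map_multiset_prod, Multiset.map_map, hr, Multiset.map_map]
    congr 1
    apply Multiset.map_congr rfl
    intro z hz
    have hz0 : Q.eval z = 0 := by
      have := (Polynomial.mem_roots hQm.ne_zero).mp hz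
      exact this
    have him := h z hz0
    simp only [Function.comp, Polynomial.map_sub, Polynomial.map_X, Polynomial.map_C]
    congr 2
    apply Complex.ext
    · simp
    · simp [him]
  have hcard : r.card = P.natDegree := by
    have := congrArg Polynomial.natDegree h2
    rw [Polynomial.natDegree_multiset_prod_X_sub_C_eq_card] at this
    exact this
  have hl : r.toList.length = P.natDegree := by rw [Multiset.length_toList, hcard]
  refine ⟨fun j => r.toList.get (Fin.cast hl.symm j), ?_⟩
  have h3 : (r.toList.map (fun s : ℝ => X - C s)).prod = P := by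
    rw [← h2]
    conv_rhs => rw [← Multiset.coe_toList r]
    rw [Multiset.map_coe, Multiset.prod_coe]
  conv_lhs => rw [← h3]
  rw [← List.prod_ofFn]
  congr 1
  apply List.ext_getElem
  · simp [hl]
  · intro i h1 h2
    simp

theorem reflect_prod_X_sub_C {ι : Type*} [DecidableEq ι] (s : ι → ℝ) (t : Finset ι) :
    reflect t.card (∏ j ∈ t, (X - C (s j))) = ∏ j ∈ t, (1 - C (s j) * X) := by
  induction t using Finset.induction_on with
  | empty =>
    simp only [Finset.card_empty, Finset.prod_empty]
    simp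
  | insert a t ha ih =>
    rw [Finset.prod_insert ha, Finset.prod_insert ha, Finset.card_insert_of_notMem ha, ← ih,
      mul_comm, mul_comm (1 - C (s a) * X)]
    have h1 : reflect 1 (X - C (s a)) = 1 - C (s a) * X := by
      rw [Polynomial.reflect_sub, Polynomial.reflect_one_X, Polynomial.reflect_C, pow_one]
    rw [Polynomial.reflect_mul, h1]
    · refine (natDegree_prod_le _ _).trans ?_
      simp
    · simp

theorem reflect_succ_of_natDegree_le (N : ℕ) (f : ℝ[X]) (hf : f.natDegree ≤ N) :
    reflect (N + 1) f = reflect N f * X := by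
  have h1 := Polynomial.reflect_mul f (1 : ℝ[X]) hf (G := 1) (by simp)
  rw [mul_one, Polynomial.reflect_one, pow_one] at h1
  exact h1

theorem reflect_of_natDegree_le_pred (n : ℕ) (hn : 1 ≤ n) (f : ℝ[X]) (hf : f.natDegree ≤ n - 1) :
    reflect n f = reflect (n - 1) f * X := by
  obtain ⟨N, rfl⟩ : ∃ N, n = N + 1 := ⟨n - 1, by omega⟩
  exact reflect_succ_of_natDegree_le N f hf

theorem coe_prod_PS {ι : Type*} (t : Finset ι) (f : ι → ℝ[X]) :
    ((∏ j ∈ t, f j : ℝ[X]) : PowerSeries ℝ) = ∏ j ∈ t, (f j : PowerSeries ℝ) := by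
  rw [← Polynomial.coeToPowerSeries.ringHom_apply, map_prod]
  simp

theorem coe_sum_PS {ι : Type*} (t : Finset ι) (f : ι → ℝ[X]) :
    ((∑ j ∈ t, f j : ℝ[X]) : PowerSeries ℝ) = ∑ j ∈ t, (f j : PowerSeries ℝ) := by
  rw [← Polynomial.coeToPowerSeries.ringHom_apply, map_sum]
  simp

theorem eval_reflect (N : ℕ) (f : ℝ[X]) (hf : f.natDegree ≤ N) (z : ℂ) (hz : z ≠ 0) :
    ((reflect N f).map (algebraMap ℝ ℂ)).eval z
      = z ^ N * (f.map (algebraMap ℝ ℂ)).eval z⁻¹ := by
  let _ : Invertible (z⁻¹) := invertibleOfNonzero (inv_ne_zero hz)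
  have h1 := Polynomial.eval₂_reflect_mul_pow (algebraMap ℝ ℂ) (z⁻¹) N f hf
  have h2 : ⅟(z⁻¹) = z := by rw [invOf_eq_inv, inv_inv]
  rw [h2] at h1
  rw [Polynomial.eval_map, Polynomial.eval_map, ← h1, inv_pow]
  field_simp

/-- **reversed partial fractions** -/
theorem nev_rev {κ : Type*} [Fintype κ] (p : ℝ[X]) (K : κ → ℝ[X]) (hp0 : p.coeff 0 = 1)
    (hK0 : ∀ i, (K i).coeff 0 = 0)
    (hst : ∀ ζ : ℂ, ζ.im < 0 → (p.map (algebraMap ℝ ℂ)).eval ζ ≠ 0)
    (him : ∀ i, ∀ ζ : ℂ, ζ.im < 0 →
      0 ≤ (((K i).map (algebraMap ℝ ℂ)).eval ζ / (p.map (algebraMap ℝ ℂ)).eval ζ).im) :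
    ∃ (n : ℕ) (s : Fin n → ℝ) (m : κ → Fin n → ℝ), (∀ i j, 0 ≤ m i j) ∧
      p = ∏ j, (1 - C (s j) * X) ∧
      ∀ i, - (PowerSeries.X * (K i : PowerSeries ℝ)) = mom s (m i) * (p : PowerSeries ℝ) := by
  classical
  -- common degree
  set n : ℕ := p.natDegree + ∑ i, (K i).natDegree with hn
  have hpn : p.natDegree ≤ n := Nat.le_add_right _ _
  have hKn : ∀ i, (K i).natDegree ≤ n := by
    intro i
    have := Finset.single_le_sum (f := fun i => (K i).natDegree) (fun j _ => Nat.zero_le _)
      (Finset.mem_univ i)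
    exact this.trans (Nat.le_add_left _ _)
  set P := reflect n p with hP
  have hPdeg : P.natDegree ≤ n := by
    refine (Polynomial.natDegree_reflect_le).trans ?_
    exact max_le le_rfl hpn
  have hPn : P.coeff n = 1 := by
    rw [hP, Polynomial.coeff_reflect, Polynomial.revAt_le le_rfl, Nat.sub_self, hp0]
  have hPm : P.Monic := by
    apply Polynomial.monic_of_natDegree_le_of_coeff_eq_one n hPdeg hPn
  have hPnat : P.natDegree = n :=
    le_antisymm hPdeg (Polynomial.le_natDegree_of_ne_zero (by rw [hPn]; exact one_ne_zero))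
  -- all complex roots are real
  have hst' : ∀ ζ : ℂ, ζ.im ≠ 0 → (p.map (algebraMap ℝ ℂ)).eval ζ ≠ 0 := by
    intro ζ hζ h0
    rcases lt_or_gt_of_ne hζ with h | h
    · exact hst ζ h h0
    · apply hst ((starRingEnd ℂ) ζ) (by rw [Complex.conj_im]; linarith)
      rw [eval_map_conj, h0, map_zero]
  have hreal : ∀ z : ℂ, (P.map (algebraMap ℝ ℂ)).eval z = 0 → z.im = 0 := by
    intro z hz
    by_contra him
    have hz0 : z ≠ 0 := by rintro rfl; simp at him
    rw [hP, eval_reflect n p hpn z hz0] at hz
    rcases mul_eq_zero.mp hz with h | h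
    · exact absurd h (pow_ne_zero n hz0)
    · refine hst' z⁻¹ ?_ h
      rw [Complex.inv_im]
      have := Complex.normSq_pos.mpr hz0
      intro h0
      rcases div_eq_zero_iff.mp h0 with h1 | h1
      · exact him (by linarith)
      · exact this.ne' h1
  obtain ⟨s', hs'⟩ := exists_prod_of_real_roots P hPm hreal
  obtain ⟨s, hs⟩ : ∃ s : Fin n → ℝ, P = ∏ j, (X - C (s j)) := by
    rw [← hPnat]; exact ⟨s', hs'⟩
  -- partial fractions for each i
  have hpf : ∀ i, ∃ a : Fin n → ℝ, (∀ k, 0 ≤ a k) ∧
      - reflect n (K i) = ∑ k, C (a k) * ∏ j ∈ univ.erase k, (X - C (s j)) := by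
    intro i
    have hq : (- reflect n (K i)).natDegree ≤ n := by
      rw [natDegree_neg]
      exact (Polynomial.natDegree_reflect_le).trans (max_le le_rfl (hKn i))
    obtain ⟨a, ha0, ha⟩ := Start.partial_fractions s n univ (by simp) (- reflect n (K i)) hq (by
      intro y hy
      have hy0 : y ≠ 0 := by rintro rfl; simp at hy
      have h1 : ∏ k, (y - (s k : ℂ)) = (P.map (algebraMap ℝ ℂ)).eval y := by
        rw [hs, Polynomial.map_prod, Polynomial.eval_prod]
        apply Finset.prod_congr rfl
        intro k _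
        simp
      rw [h1, hP, Polynomial.map_neg, Polynomial.eval_neg, eval_reflect n p hpn y hy0,
        eval_reflect n (K i) (hKn i) y hy0]
      have hyn : y ^ n ≠ 0 := pow_ne_zero _ hy0
      have hinv : (y⁻¹).im < 0 := by
        rw [Complex.inv_im]
        apply div_neg_of_neg_of_pos _ (Complex.normSq_pos.mpr hy0)
        linarith
      have h2 := him i y⁻¹ hinv
      have h3 : -(y ^ n * ((K i).map (algebraMap ℝ ℂ)).eval y⁻¹)
          / (y ^ n * (p.map (algebraMap ℝ ℂ)).eval y⁻¹)
          = -(((K i).map (algebraMap ℝ ℂ)).eval y⁻¹ / (p.map (algebraMap ℝ ℂ)).eval y⁻¹) := by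
        have := hst _ hinv
        field_simp
      rw [h3, Complex.neg_im]
      linarith)
    refine ⟨a, fun k => ha0 k (Finset.mem_univ k), ?_⟩
    have h0 : (- reflect n (K i)).coeff n = 0 := by
      rw [coeff_neg, Polynomial.coeff_reflect, Polynomial.revAt_le le_rfl, Nat.sub_self, hK0,
        neg_zero]
    rw [h0, C_0, zero_mul, zero_add] at ha
    exact ha
  choose m hm0 hm using hpf
  refine ⟨n, s, m, hm0, ?_, ?_⟩
  · have h1 : p = reflect n P := by rw [hP, Polynomial.reflect_reflect]
    have h2 := reflect_prod_X_sub_C s (univ : Finset (Fin n))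
    rw [Finset.card_univ, Fintype.card_fin] at h2
    rw [h1, hs, h2]
  · intro i
    have hp : p = ∏ j, (1 - C (s j) * X) := by
      have h1 : p = reflect n P := by rw [hP, Polynomial.reflect_reflect]
      have h2 := reflect_prod_X_sub_C s (univ : Finset (Fin n))
      rw [Finset.card_univ, Fintype.card_fin] at h2
      rw [h1, hs, h2]
    have hKi : - K i = ∑ k, C (m i k) * ((∏ j ∈ univ.erase k, (1 - C (s j) * X)) * X) := by
      have h1 : - K i = reflect n (- reflect n (K i)) := by
        rw [Polynomial.reflect_neg, Polynomial.reflect_reflect]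
      rw [h1, hm i]
      rw [← Finset.sum_hom_rel (f := fun k => C (m i k) * ∏ j ∈ univ.erase k, (X - C (s j)))
        (g := fun k => C (m i k) * ((∏ j ∈ univ.erase k, (1 - C (s j) * X)) * X))
        (r := fun a b => reflect n a = b)]
      · exact Polynomial.reflect_zero
      · intro k a b hab
        rw [Polynomial.reflect_add, hab]
        congr 1
        rw [Polynomial.reflect_C_mul]
        congr 1
        have hcard : (univ.erase k : Finset (Fin n)).card = n - 1 := by
          rw [Finset.card_erase_of_mem (Finset.mem_univ k), Finset.card_univ, Fintype.card_fin]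
        have hn1 : 1 ≤ n := k.pos
        have hd : (∏ j ∈ univ.erase k, (X - C (s j))).natDegree ≤ n - 1 := by
          refine (natDegree_prod_le _ _).trans ?_
          simp [hcard]
        rw [reflect_of_natDegree_le_pred n hn1 _ hd, ← hcard, reflect_prod_X_sub_C]
    have hKi' : -((K i : ℝ[X]) : PowerSeries ℝ)
        = ∑ k, PowerSeries.C (m i k) *
          ((∏ j ∈ univ.erase k, (1 - PowerSeries.C (s j) * PowerSeries.X)) * PowerSeries.X) := by
      rw [← Polynomial.coe_neg, hKi, coe_sum_PS]
      apply Finset.sum_congr rfl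
      intro k _
      rw [Polynomial.coe_mul, Polynomial.coe_mul, Polynomial.coe_C, Polynomial.coe_X, coe_prod_PS]
      congr 2
      apply Finset.prod_congr rfl
      intro j _
      rw [Polynomial.coe_sub, Polynomial.coe_one, Polynomial.coe_mul, Polynomial.coe_C,
        Polynomial.coe_X]
    have hp' : ((p : ℝ[X]) : PowerSeries ℝ)
        = ∏ j, (1 - PowerSeries.C (s j) * PowerSeries.X) := by
      rw [hp, coe_prod_PS]
      apply Finset.prod_congr rfl
      intro j _
      rw [Polynomial.coe_sub, Polynomial.coe_one, Polynomial.coe_mul, Polynomial.coe_C,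
        Polynomial.coe_X]
    have h1 : -(PowerSeries.X * ((K i : ℝ[X]) : PowerSeries ℝ))
        = PowerSeries.X * (-((K i : ℝ[X]) : PowerSeries ℝ)) := by ring
    rw [h1, hKi', mom, Finset.sum_mul, Finset.mul_sum]
    apply Finset.sum_congr rfl
    intro k _
    rw [hp', ← Finset.mul_prod_erase univ _ (Finset.mem_univ k)]
    have hg := geo_mul (s k)
    calc PowerSeries.X * (PowerSeries.C (m i k) *
          ((∏ j ∈ univ.erase k, (1 - PowerSeries.C (s j) * PowerSeries.X)) * PowerSeries.X))
        = PowerSeries.C (m i k) * (1 * PowerSeries.X ^ 2) *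
          (∏ j ∈ univ.erase k, (1 - PowerSeries.C (s j) * PowerSeries.X)) := by ring
      _ = PowerSeries.C (m i k) * (((1 - PowerSeries.C (s k) * PowerSeries.X) * geo (s k)) *
          PowerSeries.X ^ 2) *
          (∏ j ∈ univ.erase k, (1 - PowerSeries.C (s j) * PowerSeries.X)) := by rw [hg]
      _ = _ := by ring

end Crest.Agent.R109
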