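import Crest.Agent.R109.AnnLink
import Crest.Agent.R109.NevRev

/-!
# Flip identity for the power-sum potential (row 109, helper135)

`P2 k x a` = sum of the `2k`-th powers of the roots of `t ↦ t^N ann x (a / t)`.
* `link`, `P2_update`: changing the weights of one vertex changes `P2` by `q`;
* `one_vertex`: all but a fraction `ρ` of the colours do not increase `P2`;
* `P2_update_zero_le`: deleting a vertex does not increase `P2`;
* `P2_start`: `P2(update a v h) - P2(update a v 0) ≤ 2 R^(2k)` if `ann x (y a)` has no real zero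
  with `|y| R < 1`.
-/

set_option autoImplicit false
set_option linter.unusedSectionVars false

namespace Crest.Agent.R109.Lk

open Finset Crest.Agent.R109.Ann

variable {V C : Type*} [Fintype V] [DecidableEq V] [Fintype C] [DecidableEq C]

/-- the root power sum of order `2k` -/
noncomputable def P2 (k : ℕ) (x : V → V → ℂ) (a : V → C → ℝ) : ℝ :=
  PowerSeries.coeff (2 * k) (qS (1 - ((RP x a : Polynomial ℝ) : PowerSeries ℝ)))

theorem update_mul (a : V → C → ℝ) (v : V) (h : C → ℝ) (ζ : ℂ) :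
    (fun w i => ((Function.update a v h w i : ℝ) : ℂ) * ζ)
      = Function.update (fun w i => (a w i : ℂ) * ζ) v (fun i => (h i : ℂ) * ζ) := by
  funext w i
  by_cases hw : w = v
  · subst hw; simp
  · simp [Function.update_of_ne hw]

theorem update_nonneg {a : V → C → ℝ} (ha : ∀ v i, 0 ≤ a v i) (v : V) {h : C → ℝ}
    (hh : ∀ i, 0 ≤ h i) : ∀ w i, 0 ≤ Function.update a v h w i := by
  intro w i
  by_cases hw : w = v
  · subst hw; simpa using hh i
  · simpa [Function.update_of_ne hw] using ha w i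

theorem RP_ne_zero [Nonempty C] {x : V → V → ℂ} (hx : Herm x) (a : V → C → ℝ)
    (ha : ∀ v i, 0 ≤ a v i) (ζ : ℂ) (hζ : ζ.im < 0) :
    ((RP x a).map (algebraMap ℝ ℂ)).eval ζ ≠ 0 := by
  rw [eval_RP hx]
  exact stable hx a ha (fun _ => ζ) (fun _ => hζ)

theorem KP_im_nonneg [Nonempty C] {x : V → V → ℂ} (hx : Herm x) (a : V → C → ℝ)
    (ha : ∀ v i, 0 ≤ a v i) (v : V) (i : C) (ζ : ℂ) (hζ : ζ.im < 0) :
    0 ≤ (((KP x a v i).map (algebraMap ℝ ℂ)).eval ζ /
      ((RP x (Function.update a v 0)).map (algebraMap ℝ ℂ)).eval ζ).im := by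
  rw [eval_KP hx, eval_RP hx, update_mul]
  have := cof_im_nonneg hx a ha (fun _ => ζ) (fun _ => hζ) v i
  have h0 : (fun i => (((0 : C → ℝ) i : ℝ) : ℂ) * ζ) = (0 : C → ℂ) := by
    funext i; simp
  rw [h0]
  exact this

theorem mom_sum {ι κ : Type*} [Fintype ι] [Fintype κ] (s : ι → ℝ) (h : κ → ℝ) (m : κ → ι → ℝ) :
    mom s (fun j => ∑ i, h i * m i j) = ∑ i, PowerSeries.C (h i) * mom s (m i) := by
  simp only [mom, map_sum, map_mul, Finset.sum_mul, Finset.mul_sum]
  rw [Finset.sum_comm]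
  refine Finset.sum_congr rfl fun i _ => Finset.sum_congr rfl fun j _ => ?_
  ring

/-- **link** between the annealed determinant and moment series -/
theorem link [Nonempty C] {x : V → V → ℂ} (hx : Herm x) (hd : ∀ v, x v v = 0) (a : V → C → ℝ)
    (ha : ∀ v i, 0 ≤ a v i) (v : V) :
    ∃ (n : ℕ) (s : Fin n → ℝ) (m : C → Fin n → ℝ), (∀ i j, 0 ≤ m i j) ∧
      ∀ h : C → ℝ, ((RP x (Function.update a v h) : Polynomial ℝ) : PowerSeries ℝ)
        = ((RP x (Function.update a v 0) : Polynomial ℝ) : PowerSeries ℝ) *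
          (1 - mom s (fun j => ∑ i, h i * m i j)) := by
  obtain ⟨n, s, m, hm0, _, hK⟩ := nev_rev (RP x (Function.update a v 0)) (fun i => KP x a v i)
    (RP_coeff_zero hx _) (fun i => KP_coeff_zero hx hd a v i)
    (RP_ne_zero hx _ (update_nonneg ha v (fun i => le_rfl)))
    (fun i ζ hζ => KP_im_nonneg hx a ha v i ζ hζ)
  refine ⟨n, s, m, hm0, ?_⟩
  intro h
  rw [RP_update hx, Polynomial.coe_add, coe_sum_PS, mul_sub, mul_one, sub_eq_add_neg]
  congr 1
  rw [mom_sum, Finset.mul_sum, ← Finset.sum_neg_distrib]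
  refine Finset.sum_congr rfl fun i _ => ?_
  rw [Polynomial.coe_mul, Polynomial.coe_mul, Polynomial.coe_C, Polynomial.coe_X]
  calc PowerSeries.C (h i) * PowerSeries.X * ((KP x a v i : Polynomial ℝ) : PowerSeries ℝ)
      = - (PowerSeries.C (h i) * -(PowerSeries.X * ((KP x a v i : Polynomial ℝ) : PowerSeries ℝ))) := by
        ring
    _ = - (PowerSeries.C (h i) * (mom s (m i) *
          ((RP x (Function.update a v 0) : Polynomial ℝ) : PowerSeries ℝ))) := by rw [hK i]
    _ = _ := by ring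

theorem constantCoeff_one_sub_RP {x : V → V → ℂ} (hx : Herm x) (a : V → C → ℝ) :
    PowerSeries.constantCoeff (1 - ((RP x a : Polynomial ℝ) : PowerSeries ℝ)) = 0 := by
  rw [map_sub, map_one, Polynomial.constantCoeff_coe, RP_coeff_zero hx, sub_self]

/-- flip identity -/
theorem P2_update [Nonempty C] {x : V → V → ℂ} (hx : Herm x) (hd : ∀ v, x v v = 0)
    (a : V → C → ℝ) (ha : ∀ v i, 0 ≤ a v i) (v : V) (k : ℕ) :
    ∃ (n : ℕ) (s : Fin n → ℝ) (m : C → Fin n → ℝ), (∀ i j, 0 ≤ m i j) ∧
      ∀ h : C → ℝ, P2 k x (Function.update a v h)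
        = P2 k x (Function.update a v 0) + q k s (fun j => ∑ i, h i * m i j) := by
  obtain ⟨n, s, m, hm0, hl⟩ := link hx hd a ha v
  refine ⟨n, s, m, hm0, ?_⟩
  intro h
  rw [P2, P2, q, ← map_add, ← qS_of_mul (1 - ((RP x (Function.update a v 0) : Polynomial ℝ) : PowerSeries ℝ))
    (mom s (fun j => ∑ i, h i * m i j)) (1 - ((RP x (Function.update a v h) : Polynomial ℝ) : PowerSeries ℝ))
    (constantCoeff_one_sub_RP hx _) (constantCoeff_mom _ _)]
  rw [hl h]; ring

/-- deleting a vertex does not increase the potential -/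
theorem P2_update_zero_le [Nonempty C] {x : V → V → ℂ} (hx : Herm x) (hd : ∀ v, x v v = 0)
    (a : V → C → ℝ) (ha : ∀ v i, 0 ≤ a v i) (v : V) (k : ℕ) (h : C → ℝ) (hh : ∀ i, 0 ≤ h i) :
    P2 k x (Function.update a v 0) ≤ P2 k x (Function.update a v h) := by
  obtain ⟨n, s, m, hm0, hl⟩ := P2_update hx hd a ha v k
  rw [hl h]
  have := q_nonneg k s (fun j => ∑ i, h i * m i j)
    (fun j => Finset.sum_nonneg fun i _ => mul_nonneg (hh i) (hm0 i j))
  linarith

/-- **one-vertex lemma**: undecided = probability weights `f` at level `u`, decided `c` = weight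
`u/K` on the colour `c`. -/
theorem one_vertex [Nonempty C] {x : V → V → ℂ} (hx : Herm x) (hd : ∀ v, x v v = 0)
    (a : V → C → ℝ) (ha : ∀ v i, 0 ≤ a v i) (v : V) (k : ℕ) (hk : 1 ≤ k) (u : ℝ) (hu : 0 ≤ u)
    (f : C → ℝ) (hf0 : ∀ c, 0 ≤ f c) (hf1 : ∑ c, f c = 1)
    (ρ : ℝ) (hρ : 0 < ρ) (K : ℝ) (hK : 24 / ρ ≤ K) :
    ∃ good : Finset C,
      (∀ c ∈ good, P2 k x (Function.update a v (fun i => if i = c then u / K else 0))
        ≤ P2 k x (Function.update a v (fun i => f i * u))) ∧
      1 - ρ ≤ ∑ c ∈ good, f c := by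
  obtain ⟨n, s, m, hm0, hl⟩ := P2_update hx hd a ha v k
  obtain ⟨good, h1, h2⟩ := oneSite k hk s f hf0 hf1 (fun c j => u * m c j)
    (fun c j => mul_nonneg hu (hm0 c j)) ρ hρ K hK
  refine ⟨good, ?_, h2⟩
  intro c hc
  rw [hl (fun i => if i = c then u / K else 0), hl (fun i => f i * u)]
  have h3 := h1 c hc
  have e1 : (fun j => ∑ i, (if i = c then u / K else 0) * m i j) = fun j => u * m c j / K := by
    funext j
    rw [Finset.sum_eq_single c]
    · rw [if_pos rfl]; ring
    · intro i _ hi; rw [if_neg hi, zero_mul]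
    · intro h; exact absurd (Finset.mem_univ _) h
  have e2 : (fun j => ∑ i, f i * u * m i j) = fun j => ∑ c, f c * (u * m c j) := by
    funext j
    refine Finset.sum_congr rfl fun i _ => ?_
    ring
  rw [e1, e2]
  linarith

/-- uniform version: `r = card C` colours -/
theorem one_vertex_uniform [Nonempty C] {x : V → V → ℂ} (hx : Herm x) (hd : ∀ v, x v v = 0)
    (a : V → C → ℝ) (ha : ∀ v i, 0 ≤ a v i) (v : V) (k : ℕ) (hk : 1 ≤ k) (u : ℝ) (hu : 0 ≤ u)
    (ρ : ℝ) (hρ : 0 < ρ) (K : ℝ) (hK : 24 / ρ ≤ K) :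
    ∃ good : Finset C,
      (∀ c ∈ good, P2 k x (Function.update a v (fun i => if i = c then u / K else 0))
        ≤ P2 k x (Function.update a v (fun _ => u / Fintype.card C))) ∧
      (1 - ρ) * Fintype.card C ≤ good.card := by
  have hr : (0 : ℝ) < Fintype.card C := by exact_mod_cast Fintype.card_pos
  obtain ⟨good, h1, h2⟩ := one_vertex hx hd a ha v k hk u hu (fun _ => (1 : ℝ) / Fintype.card C)
    (fun _ => by positivity) (by
      rw [Finset.sum_const, Finset.card_univ, nsmul_eq_mul]; field_simp) ρ hρ K hK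
  refine ⟨good, ?_, ?_⟩
  · intro c hc
    have := h1 c hc
    have e : (fun _ : C => 1 / (Fintype.card C : ℝ) * u) = fun _ => u / Fintype.card C := by
      funext i; ring
    rwa [e] at this
  · rw [Finset.sum_const, nsmul_eq_mul] at h2
    have : (good.card : ℝ) * (1 / Fintype.card C) * Fintype.card C = good.card := by field_simp
    nlinarith

/-! ### start: the Green function -/

/-- if `(1 - mom s μ) * ∑ ν geo σ = 1`, `|σ| ≤ R`, `ν ≥ 0` then `q ≤ 2 R^(2k)` -/
theorem q_le_of_green {ι ι' : Type*} [Fintype ι] [Fintype ι'] (k : ℕ) (s μ : ι → ℝ)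
    (σ ν : ι' → ℝ) (hν : ∀ j, 0 ≤ ν j) (R : ℝ) (hR : 0 ≤ R) (hσ : ∀ j, |σ j| ≤ R)
    (h : (1 - mom s μ) * (∑ j, PowerSeries.C (ν j) * geo (σ j)) = 1) (hk : 1 ≤ k) :
    q k s μ ≤ 2 * R ^ (2 * k) := by
  classical
  set G : PowerSeries ℝ := ∑ j, PowerSeries.C (ν j) * geo (σ j) with hG
  have hGc : ∀ n, PowerSeries.coeff n G = ∑ j, ν j * σ j ^ n := by
    intro n; simp only [hG, map_sum, PowerSeries.coeff_C_mul, coeff_geo]
  have hM0 := constantCoeff_mom s μ
  have hG0 : PowerSeries.constantCoeff G = 1 := by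
    have := congrArg PowerSeries.constantCoeff h
    rw [map_mul, map_sub, map_one, hM0, sub_zero, one_mul] at this
    exact this
  have hG1 : PowerSeries.coeff 1 G = 0 := by
    have h1 := congrArg (PowerSeries.coeff 1) h
    have h2 : (1 - mom s μ) * G = G - mom s μ * G := by ring
    rw [h2, map_sub, PowerSeries.coeff_mul, PowerSeries.coeff_one, if_neg one_ne_zero] at h1
    have h3 : ∑ p ∈ antidiagonal 1, PowerSeries.coeff p.1 (mom s μ) * PowerSeries.coeff p.2 G = 0 := by
      apply Finset.sum_eq_zero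
      rintro ⟨i, j⟩ hp
      rw [HasAntidiagonal.mem_antidiagonal] at hp
      simp only at hp
      have : i = 0 ∨ i = 1 := by omega
      rcases this with h | h
      · subst h; rw [coeff_mom_zero, zero_mul]
      · subst h; rw [coeff_mom_one, zero_mul]
    rw [h3, sub_zero] at h1
    exact h1
  -- d
  set d : PowerSeries ℝ := mom σ (fun j => ν j * (R ^ 2 - σ j ^ 2)) with hd
  have hdpos : ∀ j, 0 ≤ ν j * (R ^ 2 - σ j ^ 2) := by
    intro j
    refine mul_nonneg (hν j) ?_
    have := sq_le_sq' (by linarith [neg_abs_le (σ j), hσ j, abs_nonneg (σ j)]) ((le_abs_self _).trans (hσ j))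
    linarith
  have hd1 : 1 - d = (1 - PowerSeries.C (R ^ 2) * PowerSeries.X ^ 2) * G := by
    ext n
    rcases n with _ | _ | n
    · rw [map_sub, hd, coeff_mom_zero, sub_zero, sub_mul, one_mul, map_sub, mul_assoc,
        PowerSeries.coeff_C_mul, PowerSeries.coeff_X_pow_mul']
      simp [hG0]
    · rw [map_sub, hd, zero_add, coeff_mom_one, sub_zero, sub_mul, one_mul, map_sub, mul_assoc,
        PowerSeries.coeff_C_mul, PowerSeries.coeff_X_pow_mul', hG1]
      simp [PowerSeries.coeff_one]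
    · rw [map_sub, hd, coeff_mom_add_two, sub_mul, one_mul, map_sub, mul_assoc,
        PowerSeries.coeff_C_mul, PowerSeries.coeff_X_pow_mul', if_pos (by omega : 2 ≤ n + 1 + 1),
        hGc, hGc, PowerSeries.coeff_one,
        if_neg (by omega), zero_sub, Finset.mul_sum, ← Finset.sum_sub_distrib,
        ← Finset.sum_neg_distrib]
      have hn2 : n + 1 + 1 - 2 = n := by omega
      rw [hn2]
      refine Finset.sum_congr rfl fun j _ => ?_
      ring
  have e1 : qS (mom s μ) + qS (1 - G) = 0 := by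
    rw [← qS_of_mul (mom s μ) (1 - G) 0 hM0 (by simp [hG0]) (by
      rw [sub_zero, sub_sub_cancel, h])]
    simp [qS]
  have e2 : qS d = qS (PowerSeries.C (R ^ 2) * PowerSeries.X ^ 2) + qS (1 - G) := by
    apply qS_of_mul _ _ _ (by simp) (by simp [hG0])
    rw [hd1]; ring
  have e3 : PowerSeries.coeff (2 * k) (qS (PowerSeries.C (R ^ 2) * PowerSeries.X ^ 2 : PowerSeries ℝ))
      = 2 * R ^ (2 * k) := by
    rw [coeff_qS _ (by simp)]
    have hXp : ∀ m : ℕ, ((PowerSeries.X ^ 2) ^ m : PowerSeries ℝ) = PowerSeries.X ^ (2 * m) :=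
      fun m => (pow_mul _ _ _).symm
    rw [Finset.sum_eq_single (k - 1)]
    · have hk1 : k - 1 + 1 = k := by omega
      rw [hk1, mul_pow, ← map_pow, hXp, PowerSeries.coeff_C_mul, PowerSeries.coeff_X_pow,
        if_pos rfl]
      have : ((k - 1 : ℕ) : ℝ) + 1 = k := by
        rw [← Nat.cast_add_one, hk1]
      rw [this, ← pow_mul]
      have hk0 : (k : ℝ) ≠ 0 := by positivity
      push_cast
      field_simp
    · intro n _ hn
      rw [mul_pow, ← map_pow, hXp, PowerSeries.coeff_C_mul, PowerSeries.coeff_X_pow,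
        if_neg (by omega)]
      ring
    · intro h; exact absurd (Finset.mem_range.mpr (by omega)) h
  have e4 : 0 ≤ PowerSeries.coeff (2 * k) (qS d) := q_nonneg k σ _ hdpos
  have e5 := congrArg (PowerSeries.coeff (2 * k)) e1
  have e6 := congrArg (PowerSeries.coeff (2 * k)) e2
  rw [map_add, map_zero] at e5
  rw [map_add, e3] at e6
  rw [q]
  linarith

/-- **start bound** for one vertex -/
theorem P2_start [Nonempty C] {x : V → V → ℂ} (hx : Herm x) (hd : ∀ v, x v v = 0)
    (a : V → C → ℝ) (ha : ∀ v i, 0 ≤ a v i) (v : V) (k : ℕ) (hk : 1 ≤ k) (h : C → ℝ)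
    (hh : ∀ i, 0 ≤ h i) (R : ℝ) (hR : 0 < R)
    (hroot : ∀ y : ℝ, |y| * R < 1 → (RP x (Function.update a v h)).eval y ≠ 0) :
    P2 k x (Function.update a v h) - P2 k x (Function.update a v 0) ≤ 2 * R ^ (2 * k) := by
  classical
  obtain ⟨n, s, m, hm0, hl⟩ := link hx hd a ha v
  set μ : Fin n → ℝ := fun j => ∑ i, h i * m i j with hμ
  have hP : P2 k x (Function.update a v h) - P2 k x (Function.update a v 0) = q k s μ := by
    rw [sub_eq_iff_eq_add', P2, P2, q, ← map_add, ← qS_of_mul
      (1 - ((RP x (Function.update a v 0) : Polynomial ℝ) : PowerSeries ℝ))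
      (mom s μ) (1 - ((RP x (Function.update a v h) : Polynomial ℝ) : PowerSeries ℝ))
      (constantCoeff_one_sub_RP hx _) (constantCoeff_mom _ _)]
    rw [hl h]; ring
  rw [hP]
  -- Green function
  set p := RP x (Function.update a v h) with hp
  set p0 := RP x (Function.update a v 0) with hp0
  have hah := update_nonneg ha v hh
  have ha0 := update_nonneg ha v (h := (0 : C → ℝ)) (fun i => le_rfl)
  obtain ⟨n', σ, ν, hν0, hfac, hK⟩ := nev_rev p (fun _ : Unit => - (Polynomial.X * p0))
    (RP_coeff_zero hx _) (fun _ => by simp)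
    (RP_ne_zero hx _ hah) (by
      intro _ ζ hζ
      have hζ0 : ζ ≠ 0 := by rintro rfl; simp at hζ
      have h1 := RP_ne_zero hx _ hah ζ hζ
      have h2 := RP_ne_zero hx _ ha0 ζ hζ
      rw [← hp] at h1
      rw [← hp0] at h2
      set A := (p.map (algebraMap ℝ ℂ)).eval ζ with hA
      set B := (p0.map (algebraMap ℝ ℂ)).eval ζ with hB
      have h3 : A = B + ∑ i, (h i : ℂ) * ζ * ((KP x a v i).map (algebraMap ℝ ℂ)).eval ζ := by
        rw [hA, hp, RP_update hx, Polynomial.map_add, Polynomial.eval_add, Polynomial.map_sum,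
          Polynomial.eval_finsetSum]
        congr 1
        refine Finset.sum_congr rfl fun i _ => ?_
        simp
      have h4 : A / (ζ * B) = ζ⁻¹ + ∑ i, (h i : ℂ) *
          (((KP x a v i).map (algebraMap ℝ ℂ)).eval ζ / B) := by
        rw [h3, add_div, Finset.sum_div]
        congr 1
        · field_simp
        · refine Finset.sum_congr rfl fun i _ => ?_
          field_simp
      have h5 : 0 < (A / (ζ * B)).im := by
        rw [h4, Complex.add_im, Complex.im_sum]
        have h6 : 0 < (ζ⁻¹).im := by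
          rw [Complex.inv_im]
          exact div_pos (by linarith) (Complex.normSq_pos.mpr hζ0)
        have h7 : 0 ≤ ∑ i, ((h i : ℂ) * (((KP x a v i).map (algebraMap ℝ ℂ)).eval ζ / B)).im := by
          refine Finset.sum_nonneg fun i _ => ?_
          rw [Complex.im_ofReal_mul]
          exact mul_nonneg (hh i) (KP_im_nonneg hx a ha v i ζ hζ)
        linarith
      have h8 : ((-(Polynomial.X * p0)).map (algebraMap ℝ ℂ)).eval ζ / A = - (A / (ζ * B))⁻¹ := by
        rw [Polynomial.map_neg, Polynomial.map_mul, Polynomial.map_X, Polynomial.eval_neg,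
          Polynomial.eval_mul, Polynomial.eval_X, ← hB]
        field_simp
      rw [h8, Complex.neg_im, Complex.inv_im]
      have h9 : 0 ≤ (A / (ζ * B)).im / Complex.normSq (A / (ζ * B)) :=
        div_nonneg h5.le (Complex.normSq_nonneg _)
      have : -(-(A / (ζ * B)).im / Complex.normSq (A / (ζ * B)))
          = (A / (ζ * B)).im / Complex.normSq (A / (ζ * B)) := by ring
      rw [this]; exact h9)
  have hK' := hK ()
  -- X^2 p0 = mom σ ν * p
  set G : PowerSeries ℝ := ∑ j, PowerSeries.C (ν () j) * geo (σ j) with hG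
  have hmom : mom σ (ν ()) = G * PowerSeries.X ^ 2 := by
    rw [mom, hG, Finset.sum_mul]
    refine Finset.sum_congr rfl fun j _ => ?_
    ring
  have h1 : (PowerSeries.X ^ 2 : PowerSeries ℝ) * (p0 : PowerSeries ℝ)
      = PowerSeries.X ^ 2 * (G * (p : PowerSeries ℝ)) := by
    have h2 : (-(Polynomial.X * p0) : Polynomial ℝ) = -(Polynomial.X * p0) := rfl
    rw [Polynomial.coe_neg, Polynomial.coe_mul, Polynomial.coe_X, hmom] at hK'
    calc (PowerSeries.X ^ 2 : PowerSeries ℝ) * (p0 : PowerSeries ℝ)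
        = -(PowerSeries.X * -(PowerSeries.X * (p0 : PowerSeries ℝ))) := by ring
      _ = _ := by rw [hK']; ring
  have h2 : (p0 : PowerSeries ℝ) = G * (p : PowerSeries ℝ) := by
    have hX : (PowerSeries.X ^ 2 : PowerSeries ℝ) ≠ 0 := pow_ne_zero 2 PowerSeries.X_ne_zero
    exact mul_left_cancel₀ hX h1
  have hpne : (p : PowerSeries ℝ) ≠ 0 := by
    intro h0
    have h3 : PowerSeries.constantCoeff (p : PowerSeries ℝ) = 1 := by
      rw [Polynomial.constantCoeff_coe, hp, RP_coeff_zero hx]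
    rw [h0, map_zero] at h3
    exact zero_ne_one h3
  have h3 : (1 - mom s μ) * G = 1 := by
    have h4 : (p : PowerSeries ℝ) * ((1 - mom s μ) * G) = (p : PowerSeries ℝ) * 1 := by
      calc (p : PowerSeries ℝ) * ((1 - mom s μ) * G) = (G * (p : PowerSeries ℝ)) * (1 - mom s μ) := by
            ring
        _ = (p0 : PowerSeries ℝ) * (1 - mom s μ) := by rw [← h2]
        _ = (p : PowerSeries ℝ) := by rw [hp, hl h]
        _ = _ := (mul_one _).symm
    exact mul_left_cancel₀ hpne h4
  have hσ : ∀ j, |σ j| ≤ R := by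
    intro j
    by_contra hcon
    push Not at hcon
    have hσ0 : σ j ≠ 0 := by
      intro h0; rw [h0, abs_zero] at hcon; linarith
    have habs : 0 < |σ j| := abs_pos.mpr hσ0
    apply hroot (σ j)⁻¹
    · rw [abs_inv, inv_mul_lt_iff₀ habs, mul_one]; exact hcon
    · rw [hfac, Polynomial.eval_prod]
      apply Finset.prod_eq_zero (Finset.mem_univ j)
      simp [hσ0]
  exact q_le_of_green k s μ σ (ν ()) (hν0 ()) R hR.le hσ h3 hk

end Crest.Agent.R109.Lk
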