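import Mathlib

/-!
# R109 / FinStart1 (helper585)

Polynomial lemmas for the barrier argument: partial fractions of a Nevanlinna quotient of
real rooted polynomials, and the one-group barrier inequality.
-/

set_option autoImplicit false

namespace Crest.Agent.R109.Start

open Polynomial Finset Filter Topology

/-- two angle argument: at a root of multiplicity at least two of the denominator the numerator
vanishes. -/
theorem mult_vanish {m : ℕ} (hm : 2 ≤ m) (g : ℂ → ℂ) (σ : ℝ) (hg : ContinuousAt g σ)
    (hreal : (g σ).im = 0)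
    (h : ∀ y : ℂ, 0 < y.im → (g y / (y - σ) ^ m).im ≤ 0) : g σ = 0 := by
  have key : ∀ θ : ℝ, 0 < θ → θ < Real.pi →
      -((g σ).re * Real.sin (m * θ)) ≤ 0 := by
    intro θ h0 h1
    set ω : ℂ := Complex.exp (θ * Complex.I) with hω
    have hωim : 0 < ω.im := by
      rw [hω, Complex.exp_ofReal_mul_I_im]
      exact Real.sin_pos_of_pos_of_lt_pi h0 h1
    have hlim : Tendsto (fun ε : ℝ => (g (σ + ε * ω) / ω ^ m).im) (𝓝[>] 0)
        (𝓝 ((g σ / ω ^ m).im)) := by
      have h1 : Tendsto (fun ε : ℝ => (σ : ℂ) + ε * ω) (𝓝[>] 0) (𝓝 (σ : ℂ)) := by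
        have : Tendsto (fun ε : ℝ => (σ : ℂ) + ε * ω) (𝓝 0) (𝓝 ((σ : ℂ) + (0 : ℝ) * ω)) := by
          apply Continuous.tendsto
          fun_prop
        simp only [Complex.ofReal_zero, zero_mul, add_zero] at this
        exact this.mono_left nhdsWithin_le_nhds
      have h2 := hg.tendsto.comp h1
      have h3 : Tendsto (fun ε : ℝ => g (σ + ε * ω) / ω ^ m) (𝓝[>] 0) (𝓝 (g σ / ω ^ m)) := by
        simpa [Function.comp] using h2.div_const (ω ^ m)
      exact (Complex.continuous_im.tendsto _).comp h3
    have hle : ∀ᶠ ε : ℝ in 𝓝[>] 0, (g (σ + ε * ω) / ω ^ m).im ≤ 0 := by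
      filter_upwards [self_mem_nhdsWithin] with ε hε
      have hε' : (0 : ℝ) < ε := hε
      have := h (σ + ε * ω) (by simp; positivity)
      have e1 : g (σ + ε * ω) / ((σ : ℂ) + ε * ω - σ) ^ m
          = (((ε ^ m)⁻¹ : ℝ) : ℂ) * (g (σ + ε * ω) / ω ^ m) := by
        have hωne : ω ≠ 0 := Complex.exp_ne_zero _
        have hεne : (ε : ℂ) ≠ 0 := by exact_mod_cast hε'.ne'
        have : (σ : ℂ) + ε * ω - σ = ε * ω := by ring
        rw [this, mul_pow]
        push_cast
        field_simp
      rw [e1, Complex.im_ofReal_mul] at this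
      have hp : 0 < (ε ^ m)⁻¹ := by positivity
      exact nonpos_of_mul_nonpos_right this hp
    have hfin := le_of_tendsto hlim hle
    have e2 : (g σ / ω ^ m).im = -((g σ).re * Real.sin (m * θ)) := by
      have : (ω ^ m)⁻¹ = Complex.exp ((-(m * θ) : ℝ) * Complex.I) := by
        rw [hω, ← Complex.exp_nat_mul, ← Complex.exp_neg]
        congr 1
        push_cast
        ring
      rw [div_eq_mul_inv, this, Complex.mul_im, Complex.exp_ofReal_mul_I_im,
        Complex.exp_ofReal_mul_I_re, hreal, Real.sin_neg]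
      ring
    rwa [e2] at hfin
  have hm0 : (0 : ℝ) < m := by
    have : 0 < m := by omega
    exact_mod_cast this
  have hm2 : (2 : ℝ) ≤ m := by exact_mod_cast hm
  have hpi := Real.pi_pos
  have k1 := key (Real.pi / (2 * m)) (by positivity) (by
    rw [div_lt_iff₀ (by positivity)]
    nlinarith)
  have k2 := key (3 * Real.pi / (2 * m)) (by positivity) (by
    rw [div_lt_iff₀ (by positivity)]
    nlinarith)
  have a1 : (m : ℝ) * (Real.pi / (2 * m)) = Real.pi / 2 := by field_simp
  have a2 : (m : ℝ) * (3 * Real.pi / (2 * m)) = Real.pi / 2 + Real.pi := by field_simp; ring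
  rw [a1, Real.sin_pi_div_two] at k1
  rw [a2, Real.sin_add_pi, Real.sin_pi_div_two] at k2
  apply Complex.ext
  · simp only [Complex.zero_re]; linarith
  · simpa using hreal

/-- sign of a simple residue -/
theorem residue_nonneg (g : ℂ → ℂ) (σ : ℝ) (hg : ContinuousAt g σ)
    (h : ∀ y : ℂ, 0 < y.im → (g y / (y - σ)).im ≤ 0) : 0 ≤ (g σ).re := by
  have h1 : Tendsto (fun ε : ℝ => (σ : ℂ) + ε * Complex.I) (𝓝[>] 0) (𝓝 (σ : ℂ)) := by
    have : Tendsto (fun ε : ℝ => (σ : ℂ) + ε * Complex.I) (𝓝 0)
        (𝓝 ((σ : ℂ) + (0 : ℝ) * Complex.I)) := by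
      apply Continuous.tendsto
      fun_prop
    simp only [Complex.ofReal_zero, zero_mul, add_zero] at this
    exact this.mono_left nhdsWithin_le_nhds
  have h2 : Tendsto (fun ε : ℝ => (g (σ + ε * Complex.I)).re) (𝓝[>] 0) (𝓝 (g σ).re) :=
    (Complex.continuous_re.tendsto _).comp (hg.tendsto.comp h1)
  refine ge_of_tendsto h2 ?_
  filter_upwards [self_mem_nhdsWithin] with ε hε
  have hε' : (0 : ℝ) < ε := hε
  have := h (σ + ε * Complex.I) (by simp; positivity)
  have e1 : g (σ + ε * Complex.I) / ((σ : ℂ) + ε * Complex.I - σ)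
      = ((ε⁻¹ : ℝ) : ℂ) * (-Complex.I * g (σ + ε * Complex.I)) := by
    have hεne : (ε : ℂ) ≠ 0 := by exact_mod_cast hε'.ne'
    have : (σ : ℂ) + ε * Complex.I - σ = ε * Complex.I := by ring
    rw [this]
    push_cast
    field_simp
    rw [Complex.I_sq]
    ring
  rw [e1, Complex.im_ofReal_mul] at this
  have hp : 0 < ε⁻¹ := by positivity
  have := nonpos_of_mul_nonpos_right this hp
  simp only [neg_mul, Complex.neg_im, Complex.I_mul_im] at this
  linarith

/-- evaluation of a real polynomial at a complex point is continuous -/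
theorem cont_eval (q : ℝ[X]) : Continuous (fun y : ℂ => (q.map (algebraMap ℝ ℂ)).eval y) := by
  exact (q.map (algebraMap ℝ ℂ)).continuous

theorem map_eval_ofReal (q : ℝ[X]) (y : ℝ) :
    (q.map (algebraMap ℝ ℂ)).eval (y : ℂ) = ((q.eval y : ℝ) : ℂ) := by
  rw [Polynomial.eval_map_algebraMap]
  exact (Polynomial.aeval_algebraMap_apply ℂ y q)

/-- **partial fractions of a Nevanlinna quotient with real poles (with multiplicities)** -/
theorem partial_fractions {ι : Type*} [DecidableEq ι] (ρ : ι → ℝ) :
    ∀ (n : ℕ) (s : Finset ι), s.card = n → ∀ q : ℝ[X], q.natDegree ≤ n →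
      (∀ y : ℂ, 0 < y.im →
        ((q.map (algebraMap ℝ ℂ)).eval y / ∏ k ∈ s, (y - (ρ k : ℂ))).im ≤ 0) →
      ∃ a : ι → ℝ, (∀ k ∈ s, 0 ≤ a k) ∧
        q = C (q.coeff n) * ∏ k ∈ s, (X - C (ρ k)) +
          ∑ k ∈ s, C (a k) * ∏ j ∈ s.erase k, (X - C (ρ j)) := by
  intro n
  induction n with
  | zero =>
    intro s hs q hq _
    have : s = ∅ := Finset.card_eq_zero.mp hs
    subst this
    refine ⟨fun _ => 0, by simp, ?_⟩
    simp only [Finset.prod_empty, mul_one, Finset.sum_empty, add_zero]
    exact Polynomial.eq_C_of_natDegree_le_zero hq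
  | succ n ih =>
    intro s hs q hq hN
    by_cases hinj : Set.InjOn ρ s
    · -- Lagrange
      set a : ι → ℝ := fun k => q.eval (ρ k) / ∏ j ∈ s.erase k, (ρ k - ρ j) with ha
      have hne : ∀ k ∈ s, ∏ j ∈ s.erase k, (ρ k - ρ j) ≠ 0 := by
        intro k hk
        rw [Finset.prod_ne_zero_iff]
        intro j hj
        have hj' := Finset.mem_erase.mp hj
        intro h0
        exact hj'.1 (hinj hj'.2 hk (by linarith [sub_eq_zero.mp h0]))
      refine ⟨a, ?_, ?_⟩
      · intro k hk
        have := residue_nonneg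
          (fun y => (q.map (algebraMap ℝ ℂ)).eval y / ∏ j ∈ s.erase k, (y - (ρ j : ℂ))) (ρ k)
          (by
            apply ContinuousAt.div
            · exact (cont_eval q).continuousAt
            · apply Continuous.continuousAt
              fun_prop
            · have := hne k hk
              have h2 : (∏ j ∈ s.erase k, ((ρ k : ℂ) - (ρ j : ℂ)))
                  = ((∏ j ∈ s.erase k, (ρ k - ρ j) : ℝ) : ℂ) := by push_cast; rfl
              rw [h2]
              exact_mod_cast this)
          (by
            intro y hy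
            have := hN y hy
            rw [← Finset.mul_prod_erase s _ hk] at this
            rw [div_div]
            rw [mul_comm (∏ j ∈ s.erase k, (y - (ρ j : ℂ)))]
            exact this)
        have e : ((q.map (algebraMap ℝ ℂ)).eval (ρ k : ℂ) /
            ∏ j ∈ s.erase k, ((ρ k : ℂ) - (ρ j : ℂ))) = ((a k : ℝ) : ℂ) := by
          rw [map_eval_ofReal, ha]
          push_cast
          rfl
        have this2 : 0 ≤ ((q.map (algebraMap ℝ ℂ)).eval (ρ k : ℂ) /
            ∏ j ∈ s.erase k, ((ρ k : ℂ) - (ρ j : ℂ))).re := this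
        rw [e, Complex.ofReal_re] at this2
        exact this2
      · -- equality of polynomials
        have hdeg : ∀ k ∈ s, (C (a k) * ∏ j ∈ s.erase k, (X - C (ρ j))).natDegree ≤ n := by
          intro k hk
          refine (natDegree_C_mul_le _ _).trans ?_
          refine (natDegree_prod_le _ _).trans ?_
          simp only [natDegree_X_sub_C, Finset.sum_const, smul_eq_mul, mul_one]
          rw [Finset.card_erase_of_mem hk, hs]
          simp
        have hPmonic : (∏ k ∈ s, (X - C (ρ k)) : ℝ[X]).Monic := monic_prod_X_sub_C ρ s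
        have hPdeg : (∏ k ∈ s, (X - C (ρ k)) : ℝ[X]).natDegree = n + 1 := by
          rw [natDegree_prod_of_monic _ _ (fun i _ => monic_X_sub_C _)]
          simp [hs]
        set R : ℝ[X] := q - C (q.coeff (n + 1)) * ∏ k ∈ s, (X - C (ρ k)) with hR
        have hRdeg : R.degree < s.card := by
          rw [hs]
          rw [Polynomial.degree_lt_iff_coeff_zero]
          intro m hm
          rw [hR, coeff_sub, coeff_C_mul]
          rcases eq_or_lt_of_le hm with h | h
          · rw [← h]
            have : (∏ k ∈ s, (X - C (ρ k)) : ℝ[X]).coeff (n + 1) = 1 := by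
              rw [← hPdeg]; exact hPmonic.coeff_natDegree
            rw [this]; ring
          · rw [coeff_eq_zero_of_natDegree_lt (by omega : q.natDegree < m),
              coeff_eq_zero_of_natDegree_lt
                (by omega : (∏ k ∈ s, (X - C (ρ k)) : ℝ[X]).natDegree < m)]
            ring
        have hSdeg : (∑ k ∈ s, C (a k) * ∏ j ∈ s.erase k, (X - C (ρ j))).degree < s.card := by
          rw [hs]
          rw [Polynomial.degree_lt_iff_coeff_zero]
          intro m hm
          rw [finsetSum_coeff]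
          apply Finset.sum_eq_zero
          intro k hk
          exact coeff_eq_zero_of_natDegree_lt (by have := hdeg k hk; omega)
        have heq : R = ∑ k ∈ s, C (a k) * ∏ j ∈ s.erase k, (X - C (ρ j)) := by
          refine Polynomial.eq_of_degrees_lt_of_eval_index_eq s hinj hRdeg hSdeg ?_
          intro i hi
          rw [hR, eval_sub, eval_mul, eval_prod, eval_finsetSum]
          rw [Finset.prod_eq_zero hi (by simp)]
          rw [Finset.sum_eq_single_of_mem i hi]
          · rw [eval_mul, eval_C, eval_prod]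
            simp only [eval_sub, eval_X, eval_C, mul_zero, sub_zero]
            rw [ha]
            field_simp [hne i hi]
          · intro j _ hji
            rw [eval_mul, eval_prod]
            rw [Finset.prod_eq_zero (Finset.mem_erase.mpr ⟨Ne.symm hji, hi⟩) (by simp)]
            ring
        rw [← heq, hR]
        ring
    · -- double root
      rw [Set.InjOn] at hinj
      push Not at hinj
      obtain ⟨i, hi, j, hj, hij, hne⟩ := hinj
      have hi : i ∈ s := hi
      have hj : j ∈ s := hj
      set σ : ℝ := ρ i with hσ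
      set m := (s.filter (fun k => ρ k = σ)).card with hm
      have hm2 : 2 ≤ m := by
        have : ({i, j} : Finset ι) ⊆ s.filter (fun k => ρ k = σ) := by
          intro k hk
          simp only [Finset.mem_insert, Finset.mem_singleton] at hk
          rcases hk with h | h
          · subst h; simp [hi, hσ]
          · subst h; simp [hj, hij.symm]
        have h2 := Finset.card_le_card this
        rw [Finset.card_pair hne] at h2
        exact h2
      have hsplit : ∀ y : ℂ, ∏ k ∈ s, (y - (ρ k : ℂ)) =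
          (∏ k ∈ s.filter (fun k => ¬ ρ k = σ), (y - (ρ k : ℂ))) * (y - σ) ^ m := by
        intro y
        rw [← Finset.prod_filter_mul_prod_filter_not s (fun k => ρ k = σ), mul_comm]
        congr 1
        rw [hm]
        rw [Finset.prod_congr rfl (g := fun _ => (y - (σ : ℂ)))]
        · simp
        · intro k hk
          rw [(Finset.mem_filter.mp hk).2]
      have hne2 : (∏ k ∈ s.filter (fun k => ¬ ρ k = σ), ((σ : ℂ) - (ρ k : ℂ))) ≠ 0 := by
        rw [Finset.prod_ne_zero_iff]
        intro k hk
        have := (Finset.mem_filter.mp hk).2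
        intro h0
        apply this
        have := sub_eq_zero.mp h0
        exact_mod_cast this.symm
      have hv := mult_vanish hm2
        (fun y => (q.map (algebraMap ℝ ℂ)).eval y /
          ∏ k ∈ s.filter (fun k => ¬ ρ k = σ), (y - (ρ k : ℂ))) σ
        (by
          apply ContinuousAt.div
          · exact (cont_eval q).continuousAt
          · apply Continuous.continuousAt
            fun_prop
          · exact hne2)
        (by
          have h2 : (∏ k ∈ s.filter (fun k => ¬ ρ k = σ), ((σ : ℂ) - (ρ k : ℂ)))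
                  = ((∏ k ∈ s.filter (fun k => ¬ ρ k = σ), (σ - ρ k) : ℝ) : ℂ) := by
            push_cast; rfl
          change ((q.map (algebraMap ℝ ℂ)).eval (σ : ℂ) /
            ∏ k ∈ s.filter (fun k => ¬ ρ k = σ), ((σ : ℂ) - (ρ k : ℂ))).im = 0
          rw [h2, map_eval_ofReal, ← Complex.ofReal_div, Complex.ofReal_im])
        (by
          intro y hy
          have := hN y hy
          rw [hsplit] at this
          rw [div_div]
          exact this)
      have hq0 : q.eval σ = 0 := by
        have h3 : (q.map (algebraMap ℝ ℂ)).eval (σ : ℂ) = 0 := by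
          rcases div_eq_zero_iff.mp hv with h | h
          · exact h
          · exact absurd h hne2
        rw [map_eval_ofReal] at h3
        exact_mod_cast h3
      -- factor
      obtain ⟨q1, hq1⟩ := (dvd_iff_isRoot (p := q) (a := σ)).mpr hq0
      have hcard : (s.erase i).card = n := by
        rw [Finset.card_erase_of_mem hi, hs]; simp
      have hq1deg : q1.natDegree ≤ n := by
        by_cases hz : q1 = 0
        · rw [hz]; simp
        · have : q.natDegree = 1 + q1.natDegree := by
            rw [hq1, natDegree_mul (X_sub_C_ne_zero _) hz, natDegree_X_sub_C]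
          omega
      obtain ⟨a, ha0, haeq⟩ := ih (s.erase i) hcard q1 hq1deg (by
        intro y hy
        have := hN y hy
        rw [hq1, ← Finset.mul_prod_erase s _ hi, ← hσ] at this
        have hyne : y - (σ : ℂ) ≠ 0 := by
          intro h0
          have := congrArg Complex.im h0
          simp at this
          exact hy.ne' this
        rw [Polynomial.map_mul, eval_mul, Polynomial.map_sub, map_X, map_C, eval_sub, eval_X,
          eval_C] at this
        rw [show (algebraMap ℝ ℂ) σ = (σ : ℂ) from rfl] at this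
        rw [mul_div_mul_left _ _ hyne] at this
        exact this)
      have hcoeff : q.coeff (n + 1) = q1.coeff n := by
        rw [hq1, sub_mul, coeff_sub, coeff_X_mul, coeff_C_mul,
          coeff_eq_zero_of_natDegree_lt (by omega : q1.natDegree < n + 1)]
        ring
      refine ⟨fun k => if k = i then 0 else a k, ?_, ?_⟩
      · intro k hk
        by_cases h : k = i
        · simp [h]
        · simp only [h, if_false]
          exact ha0 k (Finset.mem_erase.mpr ⟨h, hk⟩)
      · rw [hcoeff]
        rw [← Finset.mul_prod_erase s _ hi, ← Finset.add_sum_erase s _ hi]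
        simp only [if_true, C_0, zero_mul, zero_add]
        have h4 : ∑ k ∈ s.erase i, C (if k = i then 0 else a k) * ∏ j ∈ s.erase k, (X - C (ρ j))
            = (X - C σ) * ∑ k ∈ s.erase i, C (a k) * ∏ j ∈ (s.erase i).erase k, (X - C (ρ j)) := by
          rw [Finset.mul_sum]
          apply Finset.sum_congr rfl
          intro k hk
          have hki := (Finset.mem_erase.mp hk).1
          simp only [hki, if_false]
          have hik : i ∈ s.erase k := Finset.mem_erase.mpr ⟨Ne.symm hki, hi⟩
          rw [← Finset.mul_prod_erase (s.erase k) _ hik, Finset.erase_right_comm, ← hσ]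
          ring
        rw [h4, ← hσ]
        conv_lhs => rw [hq1, haeq]
        ring

/-- the consequences of the Nevanlinna property for two real rooted polynomials of degree `r` -/
theorem pair_barrier {r : ℕ} (hr : 0 < r) (A B : ℝ) (hA : 0 < A) (hB : 0 < B) (ρ σ : Fin r → ℝ)
    (hN : ∀ y : ℂ, 0 < y.im →
      (((B : ℂ) * ∏ k, (y - (σ k : ℂ))) / ((A : ℂ) * ∏ k, (y - (ρ k : ℂ)))).im ≤ 0) :
    (∑ k, σ k ≤ ∑ k, ρ k) ∧
    ∀ t y' m0 : ℝ, (∀ k, ρ k < t) → (∀ k, m0 ≤ ρ k) →
      (t - m0) / r ≤ y' - (∑ k, ρ k) / r →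
      (B * (y' - (∑ k, σ k) / r)) * (A * ∏ k, (t - ρ k)) ≤
        (B * ∏ k, (t - σ k)) * (A * (y' - (∑ k, ρ k) / r)) := by
  classical
  set q : ℝ[X] := C (B / A) * ∏ k, (X - C (σ k)) with hq
  have hmon : ∀ τ : Fin r → ℝ, (∏ k, (X - C (τ k)) : ℝ[X]).natDegree = r := by
    intro τ
    rw [natDegree_prod_of_monic _ _ (fun i _ => monic_X_sub_C _)]
    simp
  have hlead : ∀ τ : Fin r → ℝ, (∏ k, (X - C (τ k)) : ℝ[X]).coeff r = 1 := by
    intro τ
    have := (monic_prod_X_sub_C τ Finset.univ).coeff_natDegree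
    rwa [hmon τ] at this
  have hpred : ∀ τ : Fin r → ℝ, (∏ k, (X - C (τ k)) : ℝ[X]).coeff (r - 1) = - ∑ k, τ k := by
    intro τ
    have := Polynomial.prod_X_sub_C_coeff_card_pred (Finset.univ : Finset (Fin r)) τ
      (by simp [hr])
    simpa using this
  have hqdeg : q.natDegree ≤ r := by
    rw [hq]
    exact (natDegree_C_mul_le _ _).trans (hmon σ).le
  obtain ⟨a, ha0, haeq⟩ := partial_fractions ρ r Finset.univ (by simp) q hqdeg (by
    intro y hy
    have := hN y hy
    have e : ((q.map (algebraMap ℝ ℂ)).eval y / ∏ k, (y - (ρ k : ℂ))) =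
        (((B : ℂ) * ∏ k, (y - (σ k : ℂ))) / ((A : ℂ) * ∏ k, (y - (ρ k : ℂ)))) := by
      rw [hq, Polynomial.map_mul, Polynomial.map_C, eval_mul, eval_C, Polynomial.map_prod,
        eval_prod]
      simp only [Polynomial.map_sub, map_X, map_C, eval_sub, eval_X, eval_C]
      have hA' : (A : ℂ) ≠ 0 := by exact_mod_cast hA.ne'
      rw [show (algebraMap ℝ ℂ) (B / A) = (B : ℂ) / A by
        rw [← Complex.ofReal_div]; rfl]
      rw [show (fun x => y - (algebraMap ℝ ℂ) (σ x)) = fun x => y - (σ x : ℂ) from rfl]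
      rw [div_mul_eq_mul_div, div_div]
    rw [e]
    exact this)
  have hqr : q.coeff r = B / A := by
    rw [hq, coeff_C_mul, hlead]; ring
  rw [hqr] at haeq
  have ha0 : ∀ k, 0 ≤ a k := fun k => ha0 k (Finset.mem_univ k)
  have hcm : ∀ k, (C (a k) * ∏ j ∈ Finset.univ.erase k, (X - C (ρ j)) : ℝ[X]).coeff (r - 1)
      = a k := by
    intro k
    rw [coeff_C_mul]
    have h1 : (∏ j ∈ Finset.univ.erase k, (X - C (ρ j)) : ℝ[X]).natDegree = r - 1 := by
      rw [natDegree_prod_of_monic _ _ (fun i _ => monic_X_sub_C _)]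
      simp
    have h2 := (monic_prod_X_sub_C ρ (Finset.univ.erase k)).coeff_natDegree
    rw [h1] at h2
    rw [h2]; ring
  have hsum : (B / A) * (∑ k, σ k) = (B / A) * (∑ k, ρ k) - ∑ k, a k := by
    have h1 : q.coeff (r - 1) = -((B / A) * (∑ k, σ k)) := by
      rw [hq, coeff_C_mul, hpred]; ring
    have h2 := congrArg (fun P : ℝ[X] => P.coeff (r - 1)) haeq
    simp only [coeff_add, finsetSum_coeff] at h2
    rw [h1, coeff_C_mul, hpred] at h2
    rw [Finset.sum_congr rfl (fun k _ => hcm k)] at h2
    linarith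
  have hAB : 0 < B / A := div_pos hB hA
  have hasum : 0 ≤ ∑ k, a k := Finset.sum_nonneg (fun k _ => ha0 k)
  refine ⟨?_, ?_⟩
  · have : (B / A) * (∑ k, σ k) ≤ (B / A) * (∑ k, ρ k) := by linarith
    exact le_of_mul_le_mul_left this hAB
  · intro t y' m0 hlt hm0 hy'
    have hr' : (0 : ℝ) < r := by exact_mod_cast hr
    have hP : 0 < ∏ k, (t - ρ k) := Finset.prod_pos (fun k _ => by linarith [hlt k])
    set P := ∏ k, (t - ρ k) with hPdef
    have hev : (B / A) * ∏ k, (t - σ k) = (B / A) * P + ∑ k, a k * ∏ j ∈ Finset.univ.erase k,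
        (t - ρ j) := by
      have h2 := congrArg (fun Q : ℝ[X] => Q.eval t) haeq
      simp only [hq, eval_add, eval_mul, eval_C, eval_prod, eval_finsetSum, eval_sub, eval_X] at h2
      exact h2
    have hk0 : ∀ k : Fin r, 0 < t - m0 := by
      intro k
      linarith [hlt k, hm0 k]
    have htm : 0 < t - m0 := hk0 ⟨0, hr⟩
    have hs : 0 < y' - (∑ k, ρ k) / r := lt_of_lt_of_le (div_pos htm hr') hy'
    have hterm : ∀ k, a k * P / r ≤
        (a k * ∏ j ∈ Finset.univ.erase k, (t - ρ j)) * (y' - (∑ k, ρ k) / r) := by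
      intro k
      have hsplit : P = (t - ρ k) * ∏ j ∈ Finset.univ.erase k, (t - ρ j) :=
        (Finset.mul_prod_erase Finset.univ (fun j => t - ρ j) (Finset.mem_univ k)).symm
      set Q := ∏ j ∈ Finset.univ.erase k, (t - ρ j) with hQ
      have hQpos : 0 ≤ Q := Finset.prod_nonneg (fun j _ => by linarith [hlt j])
      have h1 : a k * P / r = (a k * Q) * ((t - ρ k) / r) := by
        rw [hsplit]; ring
      rw [h1]
      apply mul_le_mul_of_nonneg_left _ (mul_nonneg (ha0 k) hQpos)
      refine le_trans ?_ hy'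
      apply div_le_div_of_nonneg_right _ hr'.le
      linarith [hm0 k]
    have hnew : (B / A) * (y' - (∑ k, σ k) / r) =
        (B / A) * (y' - (∑ k, ρ k) / r) + (∑ k, a k) / r := by
      have : (B / A) * ((∑ k, σ k) / r) = ((B / A) * (∑ k, ρ k) - ∑ k, a k) / r := by
        rw [← hsum]; ring
      rw [mul_sub, this]; ring
    have hmain : ((B / A) * (y' - (∑ k, σ k) / r)) * P ≤
        ((B / A) * ∏ k, (t - σ k)) * (y' - (∑ k, ρ k) / r) := by
      rw [hnew, hev, add_mul, add_mul, Finset.sum_mul]
      have h1 : (∑ k, a k) / r * P = ∑ k, a k * P / r := by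
        rw [Finset.sum_div, Finset.sum_mul]
        apply Finset.sum_congr rfl
        intro k _
        ring
      rw [h1]
      have h2 := Finset.sum_le_sum (fun k (_ : k ∈ Finset.univ) => hterm k)
      linarith
    have h3 : (B * (y' - (∑ k, σ k) / r)) * (A * P) =
        (A * A) * (((B / A) * (y' - (∑ k, σ k) / r)) * P) := by
      field_simp
    have h4 : (B * ∏ k, (t - σ k)) * (A * (y' - (∑ k, ρ k) / r)) =
        (A * A) * (((B / A) * ∏ k, (t - σ k)) * (y' - (∑ k, ρ k) / r)) := by
      field_simp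
    rw [h3, h4]
    exact mul_le_mul_of_nonneg_left hmain (by positivity)

/-- AM-HM: how far the level can be lowered -/
theorem level_bound {r : ℕ} (hr : 0 < r) (ρ : Fin r → ℝ) (t φ : ℝ) (hφ : 0 < φ)
    (hlt : ∀ k, ρ k < t) (hsum : ∑ k, 1 / (t - ρ k) ≤ r * φ) :
    ∃ m0 : ℝ, (∀ k, m0 ≤ ρ k) ∧ ∀ y' : ℝ, t - (1 - 1 / r) ^ 2 / φ ≤ y' →
      (t - m0) / r ≤ y' - (∑ k, ρ k) / r := by
  classical
  have hr' : (0 : ℝ) < r := by exact_mod_cast hr
  haveI : Nonempty (Fin r) := ⟨⟨0, hr⟩⟩
  obtain ⟨k0, _, hk0⟩ := Finset.exists_min_image (Finset.univ : Finset (Fin r)) ρ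
    Finset.univ_nonempty
  refine ⟨ρ k0, fun k => hk0 k (Finset.mem_univ k), ?_⟩
  intro y' hy'
  have hcs : ((r : ℝ) - 1) ^ 2 ≤ (∑ k ∈ Finset.univ.erase k0, (t - ρ k)) *
      (∑ k ∈ Finset.univ.erase k0, 1 / (t - ρ k)) := by
    have := Finset.sum_sq_le_sum_mul_sum_of_sq_eq_mul (Finset.univ.erase k0)
      (r := fun _ : Fin r => (1 : ℝ)) (f := fun k => t - ρ k) (g := fun k => 1 / (t - ρ k))
      (fun i _ => by linarith [hlt i]) (fun i _ => by
        have : 0 < t - ρ i := by linarith [hlt i]
        positivity) (fun i _ => by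
        have : 0 < t - ρ i := by linarith [hlt i]
        field_simp)
    simp only [Finset.sum_const, Finset.card_erase_of_mem (Finset.mem_univ k0),
      Finset.card_univ, Fintype.card_fin, nsmul_eq_mul, mul_one] at this
    rw [Nat.cast_sub (by omega : 1 ≤ r)] at this
    simpa using this
  have h1 : ∑ k ∈ Finset.univ.erase k0, 1 / (t - ρ k) ≤ r * φ := by
    refine le_trans (Finset.sum_le_sum_of_subset_of_nonneg (Finset.erase_subset _ _) ?_) hsum
    intro i _ _
    have : 0 < t - ρ i := by linarith [hlt i]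
    positivity
  have h0 : 0 ≤ ∑ k ∈ Finset.univ.erase k0, (t - ρ k) :=
    Finset.sum_nonneg (fun i _ => by linarith [hlt i])
  have h2 : ((r : ℝ) - 1) ^ 2 ≤ (∑ k ∈ Finset.univ.erase k0, (t - ρ k)) * (r * φ) :=
    hcs.trans (mul_le_mul_of_nonneg_left h1 h0)
  have h3 : (1 - 1 / (r : ℝ)) ^ 2 / φ ≤ (∑ k ∈ Finset.univ.erase k0, (t - ρ k)) / r := by
    rw [div_le_div_iff₀ hφ hr']
    have : (1 - 1 / (r : ℝ)) ^ 2 * r = ((r : ℝ) - 1) ^ 2 / r := by
      field_simp
    rw [this, div_le_iff₀ hr']
    linarith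
  have h4 : ∑ k, (t - ρ k) = (t - ρ k0) + ∑ k ∈ Finset.univ.erase k0, (t - ρ k) :=
    (Finset.add_sum_erase Finset.univ (fun k => t - ρ k) (Finset.mem_univ k0)).symm
  have h5 : ∑ k, (t - ρ k) = r * t - ∑ k, ρ k := by
    rw [Finset.sum_sub_distrib]
    simp
  have h6 : (∑ k, ρ k) / r = t - (t - ρ k0) / r -
      (∑ k ∈ Finset.univ.erase k0, (t - ρ k)) / r := by
    have : ∑ k, ρ k = r * t - ((t - ρ k0) + ∑ k ∈ Finset.univ.erase k0, (t - ρ k)) := by
      rw [← h4, h5]; ring
    rw [this]
    field_simp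
    ring
  rw [h6]
  linarith

end Crest.Agent.R109.Start
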