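import Crest.Agent.R109.Annealed
import Crest.Agent.R109.FinStart1
import Crest.Agent.R109.OneSiteC

/-!
# Link between annealed determinants and moment series (row 109, helper135)

`RP x a : ℝ[X]` is the reversed characteristic polynomial `y ↦ ann x (y a)`, `KP x a v i` the
cofactor of the weight of colour `i` at `v`.  Main result `link`:
`RP x (update a v h) = RP x (update a v 0) * (1 - ∑_i h i * mom s (m i))`, `m ≥ 0`.
-/

set_option autoImplicit false
set_option linter.unusedSectionVars false

namespace Crest.Agent.R109.Lk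

open Matrix Finset Polynomial Crest.Agent.R109.Ann

variable {V C : Type*} [Fintype V] [DecidableEq V] [Fintype C] [DecidableEq C]

/-! ### reality of the coefficients -/

theorem det_N_real {x : V → V → ℂ} (hx : Herm x) (c : V → Option C) :
    (((N x c).det.re : ℝ) : ℂ) = (N x c).det := by
  have h1 : (starRingEnd ℂ) (N x c).det = (N x c).det := by
    rw [RingHom.map_det]
    have h2 : (starRingEnd ℂ).mapMatrix (N x c) = (N x c)ᵀ := by
      ext u w
      simp only [RingHom.mapMatrix_apply, Matrix.map_apply, Matrix.transpose_apply, N,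
        Matrix.of_apply, map_sub]
      congr 1
      · by_cases h : u = w ∧ c u = none
        · rw [if_pos h, if_pos ⟨h.1.symm, h.1 ▸ h.2⟩, map_one]
        · rw [if_neg h, if_neg, map_zero]
          rintro ⟨h3, h4⟩; exact h ⟨h3.symm, h3 ▸ h4⟩
      · by_cases h : c u = c w ∧ c u ≠ none
        · rw [if_pos h, if_pos ⟨h.1.symm, h.1 ▸ h.2⟩, hx u w]
        · rw [if_neg h, if_neg, map_zero]
          rintro ⟨h3, h4⟩; exact h ⟨h3.symm, h3 ▸ h4⟩
    rw [h2, Matrix.det_transpose]
  exact Complex.conj_eq_iff_re.mp h1

/-- the real multilinear form with polynomial arguments -/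
noncomputable def LP (x : V → V → ℂ) (w : V → Option C → ℝ[X]) : ℝ[X] :=
  ∑ c : V → Option C, Polynomial.C ((N x c).det.re) * ∏ v, w v (c v)

theorem map_LP {x : V → V → ℂ} (hx : Herm x) (w : V → Option C → ℝ[X]) :
    (LP x w).map (algebraMap ℝ ℂ)
      = lam (fun u v => (Polynomial.C (x u v) : ℂ[X])) (fun v o => (w v o).map (algebraMap ℝ ℂ)) := by
  rw [LP, Polynomial.map_sum, lam_apply]
  refine Finset.sum_congr rfl fun c _ => ?_
  rw [Polynomial.map_mul, Polynomial.map_C, Polynomial.map_prod]
  congr 1
  have h1 : (algebraMap ℝ ℂ) ((N x c).det.re) = (N x c).det := det_N_real hx c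
  rw [h1, RingHom.map_det]
  congr 1
  ext u v
  simp only [N, RingHom.mapMatrix_apply, Matrix.map_apply, Matrix.of_apply, map_sub]
  split_ifs <;> simp

/-- weights `y a` -/
noncomputable def pw (a : V → C → ℝ) : V → Option C → ℝ[X] :=
  fun v => wt (fun i => Polynomial.C (a v i) * X)

/-- `y ↦ ann x (y a)` -/
noncomputable def RP (x : V → V → ℂ) (a : V → C → ℝ) : ℝ[X] := LP x (pw a)

/-- the cofactor polynomial -/
noncomputable def KP (x : V → V → ℂ) (a : V → C → ℝ) (v : V) (i : C) : ℝ[X] :=
  LP x (Function.update (pw a) v (Pi.single (some i) 1))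

theorem map_wt (h : C → ℝ) :
    (fun o => (wt (fun i => Polynomial.C (h i) * X) o).map (algebraMap ℝ ℂ))
      = wt (fun i => Polynomial.C ((h i : ℝ) : ℂ) * X) := by
  funext o
  cases o <;> simp

theorem map_RP {x : V → V → ℂ} (hx : Herm x) (a : V → C → ℝ) :
    (RP x a).map (algebraMap ℝ ℂ)
      = ann (fun u v => (Polynomial.C (x u v) : ℂ[X]))
        (fun v i => Polynomial.C ((a v i : ℝ) : ℂ) * X) := by
  rw [RP, map_LP hx, ann]
  congr 1
  funext v
  exact map_wt (a v)

theorem map_KP {x : V → V → ℂ} (hx : Herm x) (a : V → C → ℝ) (v : V) (i : C) :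
    (KP x a v i).map (algebraMap ℝ ℂ)
      = cof (fun u v => (Polynomial.C (x u v) : ℂ[X]))
        (fun v i => Polynomial.C ((a v i : ℝ) : ℂ) * X) v i := by
  rw [KP, map_LP hx, cof]
  congr 1
  funext w
  by_cases hw : w = v
  · subst hw
    simp only [Function.update_self]
    funext o
    by_cases ho : o = some i
    · subst ho; simp
    · simp [Pi.single_eq_of_ne ho]
  · simp only [Function.update_of_ne hw]
    exact map_wt (a w)

theorem map_inj : Function.Injective (Polynomial.map (algebraMap ℝ ℂ)) :=
  Polynomial.map_injective _ (algebraMap ℝ ℂ).injective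

theorem RP_update {x : V → V → ℂ} (hx : Herm x) (a : V → C → ℝ) (v : V) (h : C → ℝ) :
    RP x (Function.update a v h)
      = RP x (Function.update a v 0) + ∑ i, Polynomial.C (h i) * X * KP x a v i := by
  apply map_inj
  have hup : ∀ h : C → ℝ, (fun w i => (Polynomial.C ((Function.update a v h w i : ℝ) : ℂ) * X : ℂ[X]))
      = Function.update (fun w i => (Polynomial.C ((a w i : ℝ) : ℂ) * X : ℂ[X])) v
        (fun i => Polynomial.C ((h i : ℝ) : ℂ) * X) := by
    intro h
    funext w i
    by_cases hw : w = v
    · subst hw; simp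
    · simp [Function.update_of_ne hw]
  rw [Polynomial.map_add, map_RP hx, map_RP hx, hup, hup, ann_update, Polynomial.map_sum]
  congr 1
  · congr 2
    funext i; simp
  · refine Finset.sum_congr rfl fun i _ => ?_
    rw [Polynomial.map_mul, Polynomial.map_mul, Polynomial.map_C, Polynomial.map_X, map_KP hx]
    rfl

theorem KP_update (x : V → V → ℂ) (a : V → C → ℝ) (v : V) (h : C → ℝ) (i : C) :
    KP x (Function.update a v h) v i = KP x a v i := by
  rw [KP, KP]
  congr 1
  funext w
  by_cases hw : w = v
  · subst hw; simp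
  · simp [Function.update_of_ne hw, pw]

theorem eval_ann (x : V → V → ℂ) (a : V → C → ℝ) (ζ : ℂ) :
    (ann (fun u v => (Polynomial.C (x u v) : ℂ[X]))
        (fun v i => Polynomial.C ((a v i : ℝ) : ℂ) * X)).eval ζ
      = ann x (fun v i => (a v i : ℂ) * ζ) := by
  have := map_ann (Polynomial.evalRingHom ζ) (fun u v => (Polynomial.C (x u v) : ℂ[X]))
        (fun v i => Polynomial.C ((a v i : ℝ) : ℂ) * X)
  simpa using this

theorem eval_RP {x : V → V → ℂ} (hx : Herm x) (a : V → C → ℝ) (ζ : ℂ) :
    ((RP x a).map (algebraMap ℝ ℂ)).eval ζ = ann x (fun v i => (a v i : ℂ) * ζ) := by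
  rw [map_RP hx, eval_ann]

theorem map_lam {R S : Type*} [CommRing R] [CommRing S] (φ : R →+* S) (x : V → V → R)
    (w : V → Option C → R) :
    φ (lam x w) = lam (fun u v => φ (x u v)) (fun v o => φ (w v o)) := by
  simp only [lam_apply, map_sum, map_mul, map_prod, RingHom.map_det]
  refine Finset.sum_congr rfl fun c _ => ?_
  congr 2
  ext u w
  simp only [N, RingHom.mapMatrix_apply, Matrix.map_apply, Matrix.of_apply, map_sub]
  split_ifs <;> simp

theorem eval_KP {x : V → V → ℂ} (hx : Herm x) (a : V → C → ℝ) (v : V) (i : C) (ζ : ℂ) :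
    ((KP x a v i).map (algebraMap ℝ ℂ)).eval ζ = cof x (fun v i => (a v i : ℂ) * ζ) v i := by
  rw [map_KP hx, cof, cof]
  have := map_lam (Polynomial.evalRingHom ζ) (fun u v => (Polynomial.C (x u v) : ℂ[X]))
    (Function.update (fun w => wt (fun i => (Polynomial.C ((a w i : ℝ) : ℂ) * X : ℂ[X]))) v
      (Pi.single (some i) 1))
  simp only [Polynomial.coe_evalRingHom, Polynomial.eval_C] at this
  rw [this]
  congr 1
  funext w o
  by_cases hw : w = v
  · subst hw
    simp only [Function.update_self]
    by_cases ho : o = some i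
    · subst ho; simp
    · simp [Pi.single_eq_of_ne ho]
  · simp only [Function.update_of_ne hw]
    cases o <;> simp

/-! ### constant coefficients -/

theorem ann_zero {R : Type*} [CommRing R] (x : V → V → R) : ann x (0 : V → C → R) = 1 := by
  have h0 : (fun v => wt ((0 : V → C → R) v)) = fun _ => Pi.single none 1 := by
    funext v; exact wt_zero
  rw [ann, h0, lam_apply, Finset.sum_eq_single (fun _ => none)]
  · have : N x (fun _ => (none : Option C)) = 1 := by
      ext u w
      simp [N, Matrix.one_apply]
    simp [this]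
  · intro c _ hc
    obtain ⟨v, hv⟩ := Function.ne_iff.mp hc
    rw [Finset.prod_eq_zero (Finset.mem_univ v), mul_zero]
    rw [Pi.single_eq_of_ne hv]
  · intro h; exact absurd (Finset.mem_univ _) h

theorem RP_coeff_zero {x : V → V → ℂ} (hx : Herm x) (a : V → C → ℝ) : (RP x a).coeff 0 = 1 := by
  have h1 := eval_RP hx a 0
  have h2 : (fun v i => ((a v i : ℝ) : ℂ) * 0) = (0 : V → C → ℂ) := by
    funext v i; simp
  rw [h2, ann_zero, ← Polynomial.coeff_zero_eq_eval_zero, Polynomial.coeff_map] at h1
  exact (algebraMap ℝ ℂ).injective (h1.trans (map_one _).symm)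

theorem KP_coeff_zero {x : V → V → ℂ} (hx : Herm x) (hd : ∀ v, x v v = 0) (a : V → C → ℝ) (v : V)
    (i : C) : (KP x a v i).coeff 0 = 0 := by
  have h1 := eval_KP hx a v i 0
  have h2 : (fun v i => ((a v i : ℝ) : ℂ) * 0) = (0 : V → C → ℂ) := by
    funext v i; simp
  rw [h2, ← Polynomial.coeff_zero_eq_eval_zero, Polynomial.coeff_map] at h1
  have h3 : cof x (0 : V → C → ℂ) v i = 0 := by
    rw [cof, lam_apply, Finset.sum_eq_single (Function.update (fun _ => none) v (some i))]
    · have : (N x (Function.update (fun _ => none) v (some i))).det = 0 := by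
        apply Matrix.det_eq_zero_of_row_eq_zero v
        intro w
        simp only [N, Matrix.of_apply, Function.update_self]
        by_cases hw : w = v
        · subst hw; simp [hd]
        · simp [Function.update_of_ne hw]
      rw [this, zero_mul]
    · intro c _ hc
      obtain ⟨w, hw⟩ := Function.ne_iff.mp hc
      rw [Finset.prod_eq_zero (Finset.mem_univ w), mul_zero]
      by_cases hwv : w = v
      · subst hwv
        rw [Function.update_self] at hw
        rw [Function.update_self, Pi.single_eq_of_ne hw]
      · rw [Function.update_of_ne hwv] at hw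
        rw [Function.update_of_ne hwv]
        cases hcw : c w with
        | none => exact absurd hcw hw
        | some j => simp
    · intro h; exact absurd (Finset.mem_univ _) h
  rw [h3] at h1
  exact (algebraMap ℝ ℂ).injective (h1.trans (map_zero _).symm)

end Crest.Agent.R109.Lk
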