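import Mathlib

/-!
# Annealed determinants (finite volume), row 109

`V` finite vertex set, `C` finite set of colours, `x : V → V → R` a kernel over a commutative ring.
A *state* is a family of weights `g : V → C → R` (undecided: `1/(r β)` on every colour, decided `c`:
`δ_c / (K β)`, deleted: `0`).  The annealed determinant is
`ann x g = ∑_{c : V → Option C} ∏_v wt (g v) (c v) * det (N x c)`,
`wt g none = 1`, `wt g (some i) = g i`, `N x c` = minus the colour-diagonal part of `x` on the coloured
vertices, identity on the others.
-/

set_option autoImplicit false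
set_option linter.unusedSectionVars false
set_option linter.unusedSimpArgs false

namespace Crest.Agent.R109.Ann

open Matrix Finset

section Defs

variable {V C R : Type*} [Fintype V] [DecidableEq V] [Fintype C] [DecidableEq C] [CommRing R]

/-- the colour-diagonal part of `x` -/
def blk (x : V → V → R) (c : V → Option C) : Matrix V V R :=
  Matrix.of fun u w => if c u = c w ∧ c u ≠ none then x u w else 0

/-- identity on the uncoloured vertices, minus the colour-diagonal part of `x` -/
def N (x : V → V → R) (c : V → Option C) : Matrix V V R :=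
  Matrix.of fun u w => (if u = w ∧ c u = none then 1 else 0) - (if c u = c w ∧ c u ≠ none then x u w else 0)

/-- the multilinear form behind `ann` -/
noncomputable def lam (x : V → V → R) : MultilinearMap R (fun _ : V => Option C → R) R :=
  ∑ c : V → Option C, (N x c).det •
    (MultilinearMap.mkPiAlgebra R V R).compLinearMap (fun v => LinearMap.proj (c v))

theorem lam_apply (x : V → V → R) (w : V → Option C → R) :
    lam x w = ∑ c : V → Option C, (N x c).det * ∏ v, w v (c v) := by
  simp only [lam, _root_.sum_apply]
  refine Finset.sum_congr rfl fun c _ => ?_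
  simp only [_root_.smul_apply, MultilinearMap.compLinearMap_apply,
    MultilinearMap.mkPiAlgebra_apply, smul_eq_mul, LinearMap.proj_apply]

/-- weight of the options of one vertex -/
def wt (g : C → R) : Option C → R := fun o => o.elim 1 g

@[simp] theorem wt_none (g : C → R) : wt g none = 1 := rfl
@[simp] theorem wt_some (g : C → R) (i : C) : wt g (some i) = g i := rfl

theorem wt_zero : wt (0 : C → R) = Pi.single none 1 := by
  funext o
  cases o with
  | none => simp
  | some i => simp

theorem wt_eq (g : C → R) :
    wt g = Pi.single none 1 + ∑ i, g i • (Pi.single (some i) 1 : Option C → R) := by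
  funext o
  cases o with
  | none =>
    simp [Finset.sum_apply]
  | some i =>
    simp only [wt_some, Pi.add_apply, Finset.sum_apply, Pi.smul_apply, smul_eq_mul]
    rw [Finset.sum_eq_single i]
    · simp
    · intro j _ hj
      rw [Pi.single_eq_of_ne]
      · simp
      · intro h; exact hj (Option.some.inj h).symm
    · simp

/-- the annealed determinant -/
noncomputable def ann (x : V → V → R) (g : V → C → R) : R := lam x (fun v => wt (g v))

theorem ann_apply (x : V → V → R) (g : V → C → R) :
    ann x g = ∑ c : V → Option C, (N x c).det * ∏ v, wt (g v) (c v) := lam_apply _ _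

/-- the coefficient of `g v i` -/
noncomputable def cof (x : V → V → R) (g : V → C → R) (v : V) (i : C) : R :=
  lam x (Function.update (fun w => wt (g w)) v (Pi.single (some i) 1))

theorem update_wt (g : V → C → R) (v : V) (h : C → R) :
    (fun w => wt (Function.update g v h w)) = Function.update (fun w => wt (g w)) v (wt h) := by
  funext w
  by_cases hw : w = v
  · subst hw; simp
  · simp [Function.update_of_ne hw]

/-- changing the weights of one vertex -/
theorem ann_update (x : V → V → R) (g : V → C → R) (v : V) (h : C → R) :
    ann x (Function.update g v h)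
      = ann x (Function.update g v 0) + ∑ i, h i * cof x g v i := by
  simp only [ann, cof, update_wt]
  rw [wt_zero, wt_eq h, MultilinearMap.map_update_add, MultilinearMap.map_update_sum]
  congr 1
  refine Finset.sum_congr rfl fun i _ => ?_
  rw [MultilinearMap.map_update_smul, smul_eq_mul]

theorem ann_eq (x : V → V → R) (g : V → C → R) (v : V) :
    ann x g = ann x (Function.update g v 0) + ∑ i, g v i * cof x g v i := by
  conv_lhs => rw [← Function.update_eq_self v g]
  exact ann_update x g v (g v)

theorem cof_update (x : V → V → R) (g : V → C → R) (v : V) (h : C → R) (i : C) :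
    cof x (Function.update g v h) v i = cof x g v i := by
  simp only [cof, update_wt, Function.update_idem]

theorem map_ann {S : Type*} [CommRing S] (φ : R →+* S) (x : V → V → R) (g : V → C → R) :
    φ (ann x g) = ann (fun u w => φ (x u w)) (fun v i => φ (g v i)) := by
  simp only [ann_apply, map_sum, map_mul, map_prod, RingHom.map_det]
  refine Finset.sum_congr rfl fun c _ => ?_
  congr 1
  · congr 1
    ext u w
    simp only [N, RingHom.mapMatrix_apply, Matrix.map_apply, Matrix.of_apply, map_sub]
    split_ifs <;> simp
  · refine Finset.prod_congr rfl fun v _ => ?_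
    cases c v <;> simp

end Defs

section Pure

variable {V C R : Type*} [Fintype V] [DecidableEq V] [Fintype C] [DecidableEq C] [CommRing R]

/-- homogeneity -/
theorem ann_smul (y : R) (x : V → V → R) (g : V → C → R) :
    ann (fun u w => y * x u w) g = ann x (fun v i => y * g v i) := by
  simp only [ann_apply]
  refine Finset.sum_congr rfl fun c _ => ?_
  have h1 : N (fun u w => y * x u w) c
      = Matrix.diagonal (fun u => if c u = none then (1 : R) else y) * N x c := by
    ext u w
    simp only [N, Matrix.diagonal_mul, Matrix.of_apply]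
    by_cases hu : c u = none
    · simp [hu]
    · simp only [hu, and_false, if_false, ne_eq, not_false_eq_true, and_true]
      split_ifs <;> ring
  rw [h1, Matrix.det_mul, Matrix.det_diagonal, mul_right_comm, ← Finset.prod_mul_distrib, mul_comm]
  congr 1
  refine Finset.prod_congr rfl fun v _ => ?_
  cases hv : c v <;> simp [hv]

/-- restriction of a colouring -/
def rs (c : V → C) (s : Finset V) : V → Option C := fun v => if v ∈ s then some (c v) else none

/-- the colour-diagonal part for a total colouring -/
def tot (x : V → V → R) (c : V → C) : Matrix V V R :=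
  Matrix.of fun u w => if c u = c w then x u w else 0

theorem lam_piecewise (x : V → V → R) (c : V → C) (a : V → R) (s : Finset V) :
    lam x (s.piecewise (fun v => a v • (Pi.single (some (c v)) 1 : Option C → R))
      (fun _ => Pi.single none 1)) = (∏ v ∈ s, a v) * (N x (rs c s)).det := by
  rw [lam_apply, Finset.sum_eq_single (rs c s)]
  · rw [mul_comm]
    congr 1
    rw [← Finset.prod_subset (Finset.subset_univ s)]
    · refine Finset.prod_congr rfl fun v hv => ?_
      simp [Finset.piecewise_eq_of_mem _ _ _ hv, rs, hv]
    · intro v _ hv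
      simp [Finset.piecewise_eq_of_notMem _ _ _ hv, rs, hv]
  · intro c' _ hc'
    obtain ⟨v, hv⟩ := Function.ne_iff.mp hc'
    have : (s.piecewise (fun v => a v • (Pi.single (some (c v)) 1 : Option C → R))
      (fun _ => Pi.single none 1)) v (c' v) = 0 := by
      by_cases hs : v ∈ s
      · rw [Finset.piecewise_eq_of_mem _ _ _ hs]
        simp only [rs, hs, if_true] at hv
        simp [Pi.single_apply, hv]
      · rw [Finset.piecewise_eq_of_notMem _ _ _ hs]
        simp only [rs, hs, if_false] at hv
        simp [Pi.single_apply, hv]
    rw [Finset.prod_eq_zero (Finset.mem_univ v) this, mul_zero]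
  · intro h; exact absurd (Finset.mem_univ _) h

theorem det_piecewise (x : V → V → R) (c : V → C) (a : V → R) (s : Finset V) :
    Matrix.det (Matrix.of (s.piecewise (fun u w => -(a u * (if c u = c w then x u w else 0)))
      (fun u w => if u = w then (1 : R) else 0))) = (∏ v ∈ s, a v) * (N x (rs c s)).det := by
  have h1 : (Matrix.of (s.piecewise (fun u w => -(a u * (if c u = c w then x u w else 0)))
      (fun u w => if u = w then (1 : R) else 0)) : Matrix V V R)
      = Matrix.diagonal (fun u => if u ∈ s then a u else 1) *
        Matrix.of (s.piecewise (fun u w => -(if c u = c w then x u w else 0))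
      (fun u w => if u = w then (1 : R) else 0)) := by
    ext u w
    rw [Matrix.diagonal_mul, Matrix.of_apply, Matrix.of_apply]
    by_cases hu : u ∈ s
    · simp [Finset.piecewise_eq_of_mem _ _ _ hu, hu]
    · simp [Finset.piecewise_eq_of_notMem _ _ _ hu, hu]
  rw [h1, Matrix.det_mul, Matrix.det_diagonal]
  congr 1
  · rw [← Finset.prod_subset (Finset.subset_univ s)]
    · exact Finset.prod_congr rfl fun v hv => by simp [hv]
    · intro v _ hv; simp [hv]
  · rw [Matrix.twoBlockTriangular_det _ (fun v => v ∈ s), Matrix.twoBlockTriangular_det (N x _) (fun v => v ∈ s)]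
    · congr 2
      · ext ⟨u, hu⟩ ⟨w, hw⟩
        simp [Matrix.toSquareBlockProp, Finset.piecewise_eq_of_mem _ _ _ hu, N, rs, hu, hw]
      · ext ⟨u, hu⟩ ⟨w, hw⟩
        simp [Matrix.toSquareBlockProp, Finset.piecewise_eq_of_notMem _ _ _ hu, N, rs, hu, hw]
    · intro i hi j hj
      have : i ≠ j := by rintro rfl; exact hi hj
      simp [N, rs, hi, hj, this]
    · intro i hi j hj
      have : i ≠ j := by rintro rfl; exact hi hj
      simp [Finset.piecewise_eq_of_notMem _ _ _ hi, this]

/-- one-colour states: an honest determinant -/
theorem lam_pure (x : V → V → R) (c : V → C) (a : V → R) :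
    lam x (fun v => Pi.single none 1 + a v • (Pi.single (some (c v)) 1 : Option C → R))
      = Matrix.det (1 - Matrix.diagonal a * tot x c) := by
  have h1 : (fun v => Pi.single none 1 + a v • (Pi.single (some (c v)) 1 : Option C → R))
      = (fun v => a v • (Pi.single (some (c v)) 1 : Option C → R)) + (fun _ => Pi.single none 1) := by
    funext v; simp [add_comm]
  have h2 : (1 - Matrix.diagonal a * tot x c : Matrix V V R)
      = Matrix.of ((fun u w => -(a u * (if c u = c w then x u w else 0)))
        + (fun u w => if u = w then (1 : R) else 0)) := by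
    ext u w
    rw [Matrix.of_apply, Pi.add_apply, Pi.add_apply, Matrix.sub_apply, Matrix.diagonal_mul, tot,
      Matrix.of_apply, Matrix.one_apply]
    ring
  rw [h1, MultilinearMap.map_add_univ]
  have h3 : Matrix.det (1 - Matrix.diagonal a * tot x c)
      = (Matrix.detRowAlternating (n := V) (R := R)).toMultilinearMap
        ((fun u w => -(a u * (if c u = c w then x u w else 0)))
        + (fun u w => if u = w then (1 : R) else 0)) := by
    rw [h2]; rfl
  rw [h3, MultilinearMap.map_add_univ]
  refine Finset.sum_congr rfl fun s _ => ?_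
  rw [lam_piecewise, ← det_piecewise]
  rfl

theorem wt_one (c : C) (a : R) :
    wt (fun i => if i = c then a else 0)
      = Pi.single none 1 + a • (Pi.single (some c) 1 : Option C → R) := by
  funext o
  cases o with
  | none => simp
  | some i =>
    by_cases h : i = c
    · simp [h]
    · simp [h, Pi.single_apply]

theorem ann_pure (x : V → V → R) (c : V → C) (a : V → R) :
    ann x (fun v i => if i = c v then a v else 0)
      = Matrix.det (1 - Matrix.diagonal a * tot x c) := by
  rw [← lam_pure, ann]
  congr 1
  funext v
  exact wt_one (c v) (a v)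

/-- mixtures: the annealed determinant is the average of the determinants -/
theorem ann_mix (x : V → V → R) (f : V → C → R) (hf : ∀ v, ∑ i, f v i = 1) (a : V → R) :
    ann x (fun v i => f v i * a v)
      = ∑ c : V → C, (∏ v, f v (c v)) * Matrix.det (1 - Matrix.diagonal a * tot x c) := by
  have h1 : ∀ v, wt (fun i => f v i * a v)
      = ∑ i, f v i • (Pi.single none 1 + a v • (Pi.single (some i) 1 : Option C → R)) := by
    intro v
    rw [wt_eq]
    simp only [smul_add, Finset.sum_add_distrib, ← Finset.sum_smul, hf v, one_smul, smul_smul]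
  rw [ann]
  simp only [h1]
  rw [MultilinearMap.map_sum]
  refine Finset.sum_congr rfl fun c _ => ?_
  rw [MultilinearMap.map_smul_univ, smul_eq_mul, lam_pure]

end Pure

section Stab

variable {V C : Type*} [Fintype V] [DecidableEq V] [Fintype C] [DecidableEq C]

/-- Hermitian kernels -/
def Herm {V : Type*} (x : V → V → ℂ) : Prop := ∀ u w, x w u = (starRingEnd ℂ) (x u w)

/-- one-colour states: nonvanishing of the determinant -/
theorem det_ne_zero {x : V → V → ℂ} (hx : Herm x) (c : V → C) (α : V → ℝ) (hα : ∀ v, 0 ≤ α v)
    (ζ : V → ℂ) (hζ : ∀ v, (ζ v).im < 0) :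
    Matrix.det (1 - Matrix.diagonal (fun v => (α v : ℂ) * ζ v) * tot x c) ≠ 0 := by
  intro hdet
  obtain ⟨ξ, hξ0, hξ⟩ := Matrix.exists_mulVec_eq_zero_iff.mpr hdet
  rw [Matrix.sub_mulVec, Matrix.one_mulVec, sub_eq_zero, ← Matrix.mulVec_mulVec] at hξ
  have hv : ∀ v, ξ v = (α v : ℂ) * ζ v * (tot x c *ᵥ ξ) v := by
    intro v
    conv_lhs => rw [hξ]
    rw [Matrix.mulVec_diagonal]
  have hζ0 : ∀ v, ζ v ≠ 0 := fun v h => by have := hζ v; rw [h] at this; simp at this
  -- the quadratic form is real
  have hreal : (∑ v, (starRingEnd ℂ) (ξ v) * (tot x c *ᵥ ξ) v).im = 0 := by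
    have h1 : (starRingEnd ℂ) (∑ v, (starRingEnd ℂ) (ξ v) * (tot x c *ᵥ ξ) v)
        = ∑ v, (starRingEnd ℂ) (ξ v) * (tot x c *ᵥ ξ) v := by
      simp only [Matrix.mulVec, dotProduct, Finset.mul_sum, map_sum, map_mul, Complex.conj_conj]
      rw [Finset.sum_comm]
      refine Finset.sum_congr rfl fun u _ => Finset.sum_congr rfl fun w _ => ?_
      have : (starRingEnd ℂ) (tot x c w u) = tot x c u w := by
        simp only [tot, Matrix.of_apply]
        by_cases h : c w = c u
        · rw [if_pos h, if_pos h.symm, hx w u]
        · rw [if_neg h, if_neg (fun h' => h h'.symm), map_zero]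
      rw [this]; ring
    have := congrArg Complex.im h1
    rw [Complex.conj_im] at this
    linarith
  have hterm : ∀ v, (starRingEnd ℂ) (ξ v) * (tot x c *ᵥ ξ) v
      = if α v = 0 then 0 else ((Complex.normSq (ξ v) : ℝ) : ℂ) * ((α v : ℂ) * ζ v)⁻¹ := by
    intro v
    by_cases h : α v = 0
    · have : ξ v = 0 := by rw [hv v, h]; simp
      rw [if_pos h, this]; simp
    · have h2 : (α v : ℂ) * ζ v ≠ 0 := mul_ne_zero (by exact_mod_cast h) (hζ0 v)
      have h3 : (tot x c *ᵥ ξ) v = ξ v * ((α v : ℂ) * ζ v)⁻¹ := by
        conv_rhs => rw [hv v, mul_comm ((α v : ℂ) * ζ v) _, mul_assoc, mul_inv_cancel₀ h2, mul_one]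
      rw [if_neg h, h3, ← mul_assoc, mul_comm ((starRingEnd ℂ) (ξ v)), Complex.mul_conj]
  have him : ∀ v, α v ≠ 0 → (((Complex.normSq (ξ v) : ℝ) : ℂ) * ((α v : ℂ) * ζ v)⁻¹).im
      = Complex.normSq (ξ v) * ((α v)⁻¹ * (-(ζ v).im / Complex.normSq (ζ v))) := by
    intro v _
    rw [Complex.im_ofReal_mul, mul_inv, ← Complex.ofReal_inv, Complex.im_ofReal_mul, Complex.inv_im]
  have hnn : ∀ v, 0 ≤ (((starRingEnd ℂ) (ξ v) * (tot x c *ᵥ ξ) v)).im := by
    intro v
    rw [hterm v]
    split_ifs with h
    · simp
    · rw [him v h]
      have h1 := Complex.normSq_nonneg (ξ v)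
      have h2 := Complex.normSq_nonneg (ζ v)
      have h3 := hα v
      have h4 : 0 ≤ -(ζ v).im := by have := hζ v; linarith
      positivity
  rw [Complex.im_sum] at hreal
  have hzero := (Finset.sum_eq_zero_iff_of_nonneg (fun v _ => hnn v)).mp hreal
  apply hξ0
  funext v
  have hz := hzero v (Finset.mem_univ v)
  rw [hterm v] at hz
  by_cases h : α v = 0
  · rw [hv v, h]; simp
  · rw [if_neg h, him v h] at hz
    have h3 : 0 < α v := lt_of_le_of_ne (hα v) (Ne.symm h)
    have h4 : 0 < -(ζ v).im := by have := hζ v; linarith
    have h5 : 0 < Complex.normSq (ζ v) := Complex.normSq_pos.mpr (hζ0 v)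
    have h6 : 0 < (α v)⁻¹ * (-(ζ v).im / Complex.normSq (ζ v)) := by positivity
    rcases mul_eq_zero.mp hz with h7 | h7
    · exact Complex.normSq_eq_zero.mp h7
    · exact absurd h7 h6.ne'

/-- a vertex all of whose weight sits on one colour -/
def OneCol (a : C → ℝ) : Prop := ∃ c : C, ∀ i, i ≠ c → a i = 0

/-- **stability** of the annealed determinant: all nonnegative weights -/
theorem stable [Nonempty C] {x : V → V → ℂ} (hx : Herm x) (a : V → C → ℝ) (ha : ∀ v i, 0 ≤ a v i)
    (ζ : V → ℂ) (hζ : ∀ v, (ζ v).im < 0) :
    ann x (fun v i => (a v i : ℂ) * ζ v) ≠ 0 := by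
  classical
  induction hn : (Finset.univ.filter (fun v => ¬ OneCol (a v))).card using Nat.strong_induction_on
    generalizing a ζ with
  | _ n ih =>
    by_cases hall : ∀ v, OneCol (a v)
    · choose c hc using hall
      have h1 : (fun v i => (a v i : ℂ) * ζ v)
          = fun v i => if i = c v then ((a v (c v) : ℝ) : ℂ) * ζ v else 0 := by
        funext v i
        by_cases h : i = c v
        · rw [if_pos h, h]
        · rw [if_neg h, hc v i h]; simp
      rw [h1, ann_pure]
      exact det_ne_zero hx c _ (fun v => ha v _) ζ hζ
    · push Not at hall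
      obtain ⟨v, hv⟩ := hall
      have hlt : ∀ b : C → ℝ, OneCol b →
          (Finset.univ.filter (fun w => ¬ OneCol (Function.update a v b w))).card < n := by
        intro b hb
        rw [← hn]
        apply Finset.card_lt_card
        rw [Finset.ssubset_iff_of_subset]
        · refine ⟨v, by simp [hv], by simp [hb]⟩
        · intro w hw
          simp only [Finset.mem_filter, Finset.mem_univ, true_and] at hw ⊢
          by_cases hwv : w = v
          · subst hwv; exact hv
          · rwa [Function.update_of_ne hwv] at hw
      have hup : ∀ (b : C → ℝ) (ζ' : ℂ),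
          (fun w i => ((Function.update a v b w i : ℝ) : ℂ) * Function.update ζ v ζ' w)
          = Function.update (fun w i => (a w i : ℂ) * ζ w) v (fun i => (b i : ℂ) * ζ') := by
        intro b ζ'
        funext w i
        by_cases hwv : w = v
        · subst hwv; simp
        · simp [Function.update_of_ne hwv]
      have hne : ∀ (b : C → ℝ) (_ : OneCol b) (_ : ∀ i, 0 ≤ b i) (ζ' : ℂ) (_ : ζ'.im < 0),
          ann x (Function.update (fun w i => (a w i : ℂ) * ζ w) v (fun i => (b i : ℂ) * ζ')) ≠ 0 := by
        intro b hb hb0 ζ' hζ'
        rw [← hup]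
        refine ih _ (hlt b hb) _ ?_ _ ?_ rfl
        · intro w i
          by_cases hwv : w = v
          · subst hwv; simpa using hb0 i
          · simpa [Function.update_of_ne hwv] using ha w i
        · intro w
          by_cases hwv : w = v
          · subst hwv; simpa using hζ'
          · simpa [Function.update_of_ne hwv] using hζ w
      set g : V → C → ℂ := fun w i => (a w i : ℂ) * ζ w with hg
      set A0 : ℂ := ann x (Function.update g v 0) with hA0
      have hA0ne : A0 ≠ 0 := by
        have := hne 0 ⟨Classical.arbitrary C, by simp⟩ (by simp) (ζ v) (hζ v)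
        have h0 : (fun i => (((0 : C → ℝ) i : ℝ) : ℂ) * ζ v) = (0 : C → ℂ) := by
          funext i; simp
        rwa [h0] at this
      have hcof : ∀ i, 0 ≤ (cof x g v i / A0).im := by
        intro i
        by_contra hneg
        push Not at hneg
        set ρ := cof x g v i / A0 with hρ
        have hρ0 : ρ ≠ 0 := by intro h; rw [h] at hneg; simp at hneg
        -- ζ' = -1/ρ has negative imaginary part
        have hζ' : (-(1 / ρ)).im < 0 := by
          rw [Complex.neg_im, one_div, Complex.inv_im]
          have := Complex.normSq_pos.mpr hρ0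
          have : 0 < -ρ.im / Complex.normSq ρ := by
            apply div_pos _ this; linarith
          linarith
        have h1 := hne (fun j => if j = i then 1 else 0) ⟨i, by intro j hj; simp [hj]⟩
          (by intro j; split_ifs <;> norm_num) (-(1 / ρ)) hζ'
        apply h1
        rw [ann_update, ← hA0]
        rw [Finset.sum_eq_single i]
        · have h2 : cof x g v i = ρ * A0 := by rw [hρ]; field_simp
          rw [h2]
          simp only [if_true, Complex.ofReal_one, one_mul]
          field_simp
          ring
        · intro j _ hj; simp [hj]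
        · simp
      have h3 : ann x g = A0 * (1 + ∑ i, g v i * (cof x g v i / A0)) := by
        rw [ann_eq x g v, ← hA0, mul_add, mul_one, Finset.mul_sum]
        congr 1
        refine Finset.sum_congr rfl fun i _ => ?_
        field_simp
      have hζ0 : ζ v ≠ 0 := fun h => by have := hζ v; rw [h] at this; simp at this
      have h4 : (1 : ℂ) + ∑ i, g v i * (cof x g v i / A0)
          = ζ v * ((ζ v)⁻¹ + ∑ i, (a v i : ℂ) * (cof x g v i / A0)) := by
        rw [mul_add, mul_inv_cancel₀ hζ0, Finset.mul_sum]
        congr 1
        refine Finset.sum_congr rfl fun i _ => ?_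
        simp only [hg]; ring
      rw [h3, h4]
      refine mul_ne_zero hA0ne (mul_ne_zero hζ0 ?_)
      intro h5
      have h6 := congrArg Complex.im h5
      rw [Complex.add_im, Complex.im_sum, Complex.zero_im, Complex.inv_im] at h6
      have h7 : 0 < -(ζ v).im / Complex.normSq (ζ v) :=
        div_pos (by have := hζ v; linarith) (Complex.normSq_pos.mpr hζ0)
      have h8 : 0 ≤ ∑ i, ((a v i : ℂ) * (cof x g v i / A0)).im := by
        refine Finset.sum_nonneg fun i _ => ?_
        rw [Complex.im_ofReal_mul]
        exact mul_nonneg (ha v i) (hcof i)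
      linarith

/-- the single-vertex cofactor ratios lie in the closed upper half plane -/
theorem cof_im_nonneg [Nonempty C] {x : V → V → ℂ} (hx : Herm x) (a : V → C → ℝ)
    (ha : ∀ v i, 0 ≤ a v i) (ζ : V → ℂ) (hζ : ∀ v, (ζ v).im < 0) (v : V) (i : C) :
    0 ≤ (cof x (fun w i => (a w i : ℂ) * ζ w) v i
      / ann x (Function.update (fun w i => (a w i : ℂ) * ζ w) v 0)).im := by
  classical
  set g : V → C → ℂ := fun w i => (a w i : ℂ) * ζ w with hg
  have hup : ∀ (b : C → ℝ) (ζ' : ℂ),
      (fun w i => ((Function.update a v b w i : ℝ) : ℂ) * Function.update ζ v ζ' w)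
      = Function.update (fun w i => (a w i : ℂ) * ζ w) v (fun i => (b i : ℂ) * ζ') := by
    intro b ζ'
    funext w i
    by_cases hwv : w = v
    · subst hwv; simp
    · simp [Function.update_of_ne hwv]
  have hne : ∀ (b : C → ℝ) (_ : ∀ i, 0 ≤ b i) (ζ' : ℂ) (_ : ζ'.im < 0),
      ann x (Function.update (fun w i => (a w i : ℂ) * ζ w) v (fun i => (b i : ℂ) * ζ')) ≠ 0 := by
    intro b hb0 ζ' hζ'
    rw [← hup]
    apply stable hx
    · intro w i
      by_cases hwv : w = v
      · subst hwv; simpa using hb0 i
      · simpa [Function.update_of_ne hwv] using ha w i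
    · intro w
      by_cases hwv : w = v
      · subst hwv; simpa using hζ'
      · simpa [Function.update_of_ne hwv] using hζ w
  set A0 : ℂ := ann x (Function.update g v 0) with hA0
  have hA0ne : A0 ≠ 0 := by
    have := hne 0 (by simp) (ζ v) (hζ v)
    have h0 : (fun i => (((0 : C → ℝ) i : ℝ) : ℂ) * ζ v) = (0 : C → ℂ) := by
      funext i; simp
    rwa [h0] at this
  by_contra hneg
  push Not at hneg
  set ρ := cof x g v i / A0 with hρ
  have hρ0 : ρ ≠ 0 := by intro h; rw [h] at hneg; simp at hneg
  have hζ' : (-(1 / ρ)).im < 0 := by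
    rw [Complex.neg_im, one_div, Complex.inv_im]
    have := Complex.normSq_pos.mpr hρ0
    have : 0 < -ρ.im / Complex.normSq ρ := by
      apply div_pos _ this; linarith
    linarith
  have h1 := hne (fun j => if j = i then 1 else 0)
    (by intro j; split_ifs <;> norm_num) (-(1 / ρ)) hζ'
  apply h1
  rw [ann_update, ← hA0]
  rw [Finset.sum_eq_single i]
  · have h2 : cof x g v i = ρ * A0 := by rw [hρ]; field_simp
    rw [h2]
    simp only [if_true, Complex.ofReal_one, one_mul]
    field_simp
    ring
  · intro j _ hj; simp [hj]
  · simp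

end Stab

end Crest.Agent.R109.Ann
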