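import Mathlib
import Crest.Agent.R109.Annealed
import Crest.Agent.R109.FinStart1

/-!
# Annealed determinants as real rooted polynomials, row 109
-/

set_option autoImplicit false
set_option linter.unusedSectionVars false
set_option linter.unusedSimpArgs false

namespace Crest.Agent.R109.Ann

open Matrix Finset Polynomial

section General

variable {V K R : Type*} [Fintype V] [DecidableEq V] [Fintype K] [DecidableEq K] [CommRing R]

/-- the multilinear form with coefficients `D` -/
noncomputable def ml (D : (V → Option K) → R) : MultilinearMap R (fun _ : V => Option K → R) R :=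
  ∑ c : V → Option K, (D c) •
    (MultilinearMap.mkPiAlgebra R V R).compLinearMap (fun v => LinearMap.proj (c v))

theorem ml_apply (D : (V → Option K) → R) (w : V → Option K → R) :
    ml D w = ∑ c : V → Option K, D c * ∏ v, w v (c v) := by
  simp only [ml, _root_.sum_apply]
  refine Finset.sum_congr rfl fun c _ => ?_
  simp only [_root_.smul_apply, MultilinearMap.compLinearMap_apply,
    MultilinearMap.mkPiAlgebra_apply, smul_eq_mul, LinearMap.proj_apply]

noncomputable def annD (D : (V → Option K) → R) (g : V → K → R) : R := ml D (fun v => wt (g v))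

noncomputable def cofD (D : (V → Option K) → R) (g : V → K → R) (v : V) (i : K) : R :=
  ml D (Function.update (fun w => wt (g w)) v (Pi.single (some i) 1))

theorem annD_apply (D : (V → Option K) → R) (g : V → K → R) :
    annD D g = ∑ c : V → Option K, D c * ∏ v, wt (g v) (c v) := ml_apply _ _

theorem annD_update (D : (V → Option K) → R) (g : V → K → R) (v : V) (h : K → R) :
    annD D (Function.update g v h)
      = annD D (Function.update g v 0) + ∑ i, h i * cofD D g v i := by
  simp only [annD, cofD, update_wt]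
  rw [wt_zero, wt_eq h, MultilinearMap.map_update_add, MultilinearMap.map_update_sum]
  congr 1
  refine Finset.sum_congr rfl fun i _ => ?_
  rw [MultilinearMap.map_update_smul, smul_eq_mul]

theorem map_wt {S : Type*} [CommRing S] (φ : R →+* S) (g : K → R) (o : Option K) :
    φ (wt g o) = wt (fun i => φ (g i)) o := by
  cases o <;> simp

theorem map_annD {S : Type*} [CommRing S] (φ : R →+* S) (D : (V → Option K) → R) (g : V → K → R) :
    φ (annD D g) = annD (fun c => φ (D c)) (fun v i => φ (g v i)) := by
  simp only [annD_apply, map_sum, map_mul, map_prod, map_wt]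

theorem map_cofD {S : Type*} [CommRing S] (φ : R →+* S) (D : (V → Option K) → R) (g : V → K → R)
    (v : V) (i : K) :
    φ (cofD D g v i) = cofD (fun c => φ (D c)) (fun v i => φ (g v i)) v i := by
  simp only [cofD, ml_apply, map_sum, map_mul, map_prod]
  refine Finset.sum_congr rfl fun c _ => ?_
  congr 1
  refine Finset.prod_congr rfl fun w _ => ?_
  by_cases hw : w = v
  · subst hw
    simp only [Function.update_self, Pi.single_apply]
    split_ifs <;> simp
  · simp only [Function.update_of_ne hw, map_wt]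

/-- the coloured vertices -/
def sup (c : V → Option K) : Finset V := Finset.univ.filter (fun v => c v ≠ none)

theorem prod_wt_smul (y : R) (g : V → K → R) (c : V → Option K) :
    ∏ v, wt (fun i => g v i * y) (c v) = y ^ (sup c).card * ∏ v, wt (g v) (c v) := by
  rw [← Finset.prod_const, sup, Finset.prod_filter, ← Finset.prod_mul_distrib]
  refine Finset.prod_congr rfl fun v _ => ?_
  cases hv : c v <;> simp [mul_comm]

theorem prod_upd_smul (y : R) (g : V → K → R) (c : V → Option K) (v : V) (i : K) :
    y * ∏ w, (Function.update (fun w => wt (fun i => g w i * y)) v (Pi.single (some i) 1)) w (c w)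
      = y ^ (sup c).card * ∏ w, (Function.update (fun w => wt (g w)) v (Pi.single (some i) 1)) w (c w) := by
  rw [← Finset.prod_const, sup, Finset.prod_filter, ← Finset.prod_mul_distrib]
  rw [← Finset.mul_prod_erase _ _ (Finset.mem_univ v), ← Finset.mul_prod_erase _ _ (Finset.mem_univ v)]
  have h1 : ∀ w ∈ Finset.univ.erase v,
      (Function.update (fun w => wt (fun i => g w i * y)) v (Pi.single (some i) 1)) w (c w)
      = (if c w ≠ none then y else 1) *
        (Function.update (fun w => wt (g w)) v (Pi.single (some i) 1)) w (c w) := by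
    intro w hw
    have hwv := (Finset.mem_erase.mp hw).1
    rw [Function.update_of_ne hwv, Function.update_of_ne hwv]
    cases hv : c w <;> simp [mul_comm]
  rw [Finset.prod_congr rfl h1, ← mul_assoc]
  congr 1
  rw [Function.update_self, Function.update_self]
  by_cases h : c v = some i
  · simp [h]
  · simp [Pi.single_apply, h]

end General

section Real

variable {V K : Type*} [Fintype V] [DecidableEq V] [Fintype K] [DecidableEq K]

theorem det_N_im {x : V → V → ℂ} (hx : Herm x) (c : V → Option K) : ((N x c).det).im = 0 := by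
  have h1 : (N x c).conjTranspose = N x c := by
    ext u w
    simp only [Matrix.conjTranspose_apply, N, Matrix.of_apply, RCLike.star_def, map_sub]
    by_cases h : u = w
    · subst h
      by_cases h2 : c u = none
      · simp [h2]
      · simp [h2, ← hx u u]
    · have h' : ¬ w = u := fun h' => h h'.symm
      by_cases h3 : c w = c u
      · by_cases h2 : c u = none
        · simp [h, h', h3, h2]
        · simp [h, h', h3, h2, ← hx w u]
      · have h3' : ¬ c u = c w := fun h4 => h3 h4.symm
        simp [h, h', h3, h3']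
  have h2 : (starRingEnd ℂ) (N x c).det = (N x c).det := by
    have := Matrix.det_conjTranspose (N x c)
    rw [h1] at this
    exact this.symm
  have := congrArg Complex.im h2
  rw [Complex.conj_im] at this
  linarith

/-- coefficient function of `pol` -/
noncomputable def Dp (x : V → V → ℂ) (c : V → Option K) : ℝ[X] :=
  C ((N x c).det.re) * X ^ (sup c).card

/-- the annealed polynomial `P(y)`, `y = 1/t` -/
noncomputable def pol (x : V → V → ℂ) (γ : V → K → ℝ) : ℝ[X] :=
  annD (Dp x) (fun v i => C (γ v i))

/-- coefficient of `h i` in `pol x (update γ v h)` -/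
noncomputable def cpol (x : V → V → ℂ) (γ : V → K → ℝ) (v : V) (i : K) : ℝ[X] :=
  cofD (Dp x) (fun v i => C (γ v i)) v i

theorem upd_C (γ : V → K → ℝ) (v : V) (h : K → ℝ) :
    (fun w i => (C (Function.update γ v h w i) : ℝ[X]))
      = Function.update (fun w i => (C (γ w i) : ℝ[X])) v (fun i => C (h i)) := by
  funext w
  by_cases hw : w = v
  · subst hw; simp
  · simp [Function.update_of_ne hw]

theorem pol_update (x : V → V → ℂ) (γ : V → K → ℝ) (v : V) (h : K → ℝ) :
    pol x (Function.update γ v h)
      = pol x (Function.update γ v 0) + ∑ i, C (h i) * cpol x γ v i := by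
  simp only [pol, cpol, upd_C]
  rw [annD_update]
  congr 2
  · funext w
    by_cases hw : w = v
    · subst hw; funext i; simp
    · simp [Function.update_of_ne hw]

theorem eval_pol {x : V → V → ℂ} (hx : Herm x) (γ : V → K → ℝ) (y : ℂ) :
    ((pol x γ).map (algebraMap ℝ ℂ)).eval y = ann x (fun v i => (γ v i : ℂ) * y) := by
  have h1 : ((pol x γ).map (algebraMap ℝ ℂ)).eval y
      = ((Polynomial.evalRingHom y).comp (Polynomial.mapRingHom (algebraMap ℝ ℂ))) (pol x γ) := rfl
  rw [h1, pol, map_annD, annD_apply, ann_apply]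
  refine Finset.sum_congr rfl fun c _ => ?_
  rw [prod_wt_smul]
  have h2 : ((Polynomial.evalRingHom y).comp (Polynomial.mapRingHom (algebraMap ℝ ℂ))) (Dp x c)
      = (N x c).det * y ^ (sup c).card := by
    simp only [Dp, RingHom.comp_apply, Polynomial.coe_mapRingHom, Polynomial.map_mul,
      Polynomial.map_C, Polynomial.map_pow, Polynomial.map_X, Polynomial.coe_evalRingHom,
      Polynomial.eval_mul, Polynomial.eval_C, Polynomial.eval_pow, Polynomial.eval_X]
    congr 1
    exact Complex.ext (by simp) (by simp [det_N_im hx c])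
  rw [h2, mul_assoc]
  congr 2
  refine Finset.prod_congr rfl fun v _ => ?_
  congr 1
  funext i
  simp

theorem eval_cpol {x : V → V → ℂ} (hx : Herm x) (γ : V → K → ℝ) (y : ℂ) (v : V) (i : K) :
    ((cpol x γ v i).map (algebraMap ℝ ℂ)).eval y
      = y * cof x (fun v i => (γ v i : ℂ) * y) v i := by
  have h1 : ((cpol x γ v i).map (algebraMap ℝ ℂ)).eval y
      = ((Polynomial.evalRingHom y).comp (Polynomial.mapRingHom (algebraMap ℝ ℂ))) (cpol x γ v i) := rfl
  rw [h1, cpol, map_cofD, cofD, ml_apply, cof, lam_apply, Finset.mul_sum]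
  refine Finset.sum_congr rfl fun c _ => ?_
  rw [mul_left_comm, prod_upd_smul]
  have h2 : ((Polynomial.evalRingHom y).comp (Polynomial.mapRingHom (algebraMap ℝ ℂ))) (Dp x c)
      = (N x c).det * y ^ (sup c).card := by
    simp only [Dp, RingHom.comp_apply, Polynomial.coe_mapRingHom, Polynomial.map_mul,
      Polynomial.map_C, Polynomial.map_pow, Polynomial.map_X, Polynomial.coe_evalRingHom,
      Polynomial.eval_mul, Polynomial.eval_C, Polynomial.eval_pow, Polynomial.eval_X]
    congr 1
    exact Complex.ext (by simp) (by simp [det_N_im hx c])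
  have h3 : (fun w => wt (fun i => ((Polynomial.evalRingHom y).comp
      (Polynomial.mapRingHom (algebraMap ℝ ℂ))) (C (γ w i)))) = fun w => wt (fun i => (γ w i : ℂ)) := by
    funext w; congr 1; funext i; simp
  rw [h2, mul_assoc, h3]

/-! ### degrees and low coefficients -/

theorem prod_wt_ne {γ : V → K → ℝ} {v : V} (hv : γ v = 0) {c : V → Option K} (hc : c v ≠ none) :
    ∏ w, wt (fun i => (C (γ w i) : ℝ[X])) (c w) = 0 := by
  apply Finset.prod_eq_zero (Finset.mem_univ v)
  cases h : c v with
  | none => exact absurd h hc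
  | some i => simp [hv]

theorem pol_coeff_zero (x : V → V → ℂ) (γ : V → K → ℝ) : (pol x γ).coeff 0 = 1 := by
  rw [pol, annD_apply, Polynomial.finsetSum_coeff, Finset.sum_eq_single (fun _ => none)]
  · have h1 : N x (fun _ : V => (none : Option K)) = 1 := by
      ext u w
      simp [N, Matrix.one_apply]
    simp [Dp, h1, sup]
  · intro c _ hc
    obtain ⟨v, hv⟩ := Function.ne_iff.mp hc
    have h1 : 0 < (sup c).card := Finset.card_pos.mpr ⟨v, by simp [sup, hv]⟩
    rw [Dp, mul_assoc, Polynomial.coeff_C_mul, Polynomial.coeff_X_pow_mul']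
    rw [if_neg (by omega)]
    simp
  · intro h; exact absurd (Finset.mem_univ _) h

theorem natDegree_wt (γ : V → K → ℝ) (c : V → Option K) :
    (∏ w, wt (fun i => (C (γ w i) : ℝ[X])) (c w)).natDegree = 0 := by
  have : (∏ w, wt (fun i => (C (γ w i) : ℝ[X])) (c w)) = C (∏ w, wt (γ w) (c w)) := by
    rw [map_prod]
    refine Finset.prod_congr rfl fun w _ => ?_
    cases c w <;> simp
  rw [this, Polynomial.natDegree_C]

theorem natDegree_Dp_mul (x : V → V → ℂ) (c : V → Option K) (p : ℝ[X]) (hp : p.natDegree = 0) :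
    (Dp x c * p).natDegree ≤ (sup c).card := by
  refine (Polynomial.natDegree_mul_le).trans ?_
  rw [hp, add_zero, Dp]
  exact (Polynomial.natDegree_C_mul_X_pow_le _ _)

theorem pol_natDegree_le (x : V → V → ℂ) (γ : V → K → ℝ) :
    (pol x γ).natDegree ≤ Fintype.card V := by
  rw [pol, annD_apply]
  refine Polynomial.natDegree_sum_le_of_forall_le _ _ fun c _ => ?_
  exact (natDegree_Dp_mul x c _ (natDegree_wt γ c)).trans (Finset.card_le_univ _)

theorem pol_natDegree_le_of_zero (x : V → V → ℂ) (γ : V → K → ℝ) (v : V) (hv : γ v = 0) :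
    (pol x γ).natDegree ≤ Fintype.card V - 1 := by
  rw [pol, annD_apply]
  refine Polynomial.natDegree_sum_le_of_forall_le _ _ fun c _ => ?_
  by_cases hc : c v = none
  · refine (natDegree_Dp_mul x c _ (natDegree_wt γ c)).trans ?_
    have h1 : (sup c) ⊆ Finset.univ.erase v := by
      intro w hw
      rw [Finset.mem_erase]
      refine ⟨?_, Finset.mem_univ _⟩
      rintro rfl
      simp [sup, hc] at hw
    have := Finset.card_le_card h1
    rwa [Finset.card_erase_of_mem (Finset.mem_univ _), Finset.card_univ] at this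
  · rw [prod_wt_ne hv hc]; simp

theorem cpol_prod (γ : V → K → ℝ) (v : V) (i : K) (c : V → Option K) :
    (∏ w, (Function.update (fun w => wt (fun i => (C (γ w i) : ℝ[X]))) v (Pi.single (some i) 1)) w (c w)).natDegree = 0 := by
  have : (∏ w, (Function.update (fun w => wt (fun i => (C (γ w i) : ℝ[X]))) v
        (Pi.single (some i) 1)) w (c w))
      = C (∏ w, (Function.update (fun w => wt (γ w)) v (Pi.single (some i) 1)) w (c w)) := by
    rw [map_prod]
    refine Finset.prod_congr rfl fun w _ => ?_
    by_cases hw : w = v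
    · subst hw
      simp only [Function.update_self, Pi.single_apply]
      split_ifs <;> simp
    · simp only [Function.update_of_ne hw]
      cases c w <;> simp
  rw [this, Polynomial.natDegree_C]

theorem cpol_natDegree_le (x : V → V → ℂ) (γ : V → K → ℝ) (v : V) (i : K) :
    (cpol x γ v i).natDegree ≤ Fintype.card V := by
  rw [cpol, cofD, ml_apply]
  refine Polynomial.natDegree_sum_le_of_forall_le _ _ fun c _ => ?_
  exact (natDegree_Dp_mul x c _ (cpol_prod γ v i c)).trans (Finset.card_le_univ _)

theorem cpol_coeff_low {x : V → V → ℂ} (hd : ∀ v, x v v = 0) (γ : V → K → ℝ) (v : V) (i : K)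
    (n : ℕ) (hn : n < 2) : (cpol x γ v i).coeff n = 0 := by
  rw [cpol, cofD, ml_apply, Polynomial.finsetSum_coeff]
  refine Finset.sum_eq_zero fun c _ => ?_
  by_cases hc : c v = some i
  · by_cases hcard : 2 ≤ (sup c).card
    · rw [Dp, mul_assoc, Polynomial.coeff_C_mul, Polynomial.coeff_X_pow_mul', if_neg (by omega)]
      simp
    · -- support is {v}
      have hv : v ∈ sup c := by simp [sup, hc]
      have h1 : ∀ w, c w = some i → w = v := by
        intro w hw
        by_contra hne
        apply hcard
        have : ({w, v} : Finset V) ⊆ sup c := by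
          intro z hz
          simp only [Finset.mem_insert, Finset.mem_singleton] at hz
          rcases hz with h | h
          · subst h; simp [sup, hw]
          · subst h; exact hv
        have h2 := Finset.card_le_card this
        rwa [Finset.card_pair hne] at h2
      have h3 : (N x c).det = 0 := by
        apply Matrix.det_eq_zero_of_row_eq_zero v
        intro w
        simp only [N, Matrix.of_apply, hc]
        by_cases hw : some i = c w
        · have := h1 w hw.symm
          subst this
          simp [hd]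
        · simp [hw]
      rw [Dp, h3]; simp
  · have : ∏ w, (Function.update (fun w => wt (fun i => (C (γ w i) : ℝ[X]))) v
        (Pi.single (some i) 1)) w (c w) = 0 := by
      apply Finset.prod_eq_zero (Finset.mem_univ v)
      simp [Pi.single_apply, hc]
    rw [this]; simp

/-! ### real rootedness -/

theorem real_rooted_factor : ∀ (n : ℕ) (T : ℝ[X]), T.Monic → T.natDegree = n →
    (∀ y : ℂ, y.im ≠ 0 → (T.map (algebraMap ℝ ℂ)).eval y ≠ 0) →
    ∃ ρ : Fin n → ℝ, T = ∏ j, (X - C (ρ j)) := by
  intro n
  induction n with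
  | zero =>
    intro T hT hdeg _
    refine ⟨Fin.elim0, ?_⟩
    simpa using Polynomial.eq_one_of_monic_natDegree_zero hT hdeg
  | succ n ih =>
    intro T hT hdeg hne
    have hTm : (T.map (algebraMap ℝ ℂ)).degree ≠ 0 := by
      rw [Polynomial.degree_map, Polynomial.degree_eq_natDegree hT.ne_zero, hdeg]
      exact_mod_cast Nat.succ_ne_zero n
    obtain ⟨z, hz⟩ := IsAlgClosed.exists_root (T.map (algebraMap ℝ ℂ)) hTm
    have hzim : z.im = 0 := by
      by_contra h
      exact hne z h hz
    have hzr : ((z.re : ℝ) : ℂ) = z := Complex.ext (by simp) (by simp [hzim])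
    have hroot : T.eval z.re = 0 := by
      have h1 := hz
      rw [Polynomial.IsRoot, ← hzr, Start.map_eval_ofReal] at h1
      exact_mod_cast h1
    obtain ⟨T', hT'⟩ := (Polynomial.dvd_iff_isRoot (p := T) (a := z.re)).mpr hroot
    have hmon' : T'.Monic := by
      refine Polynomial.Monic.of_mul_monic_left (Polynomial.monic_X_sub_C z.re) ?_
      rw [← hT']; exact hT
    have hdeg' : T'.natDegree = n := by
      have h1 : T.natDegree = 1 + T'.natDegree := by
        rw [hT', (Polynomial.monic_X_sub_C z.re).natDegree_mul hmon', Polynomial.natDegree_X_sub_C]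
      omega
    obtain ⟨ρ, hρ⟩ := ih T' hmon' hdeg' (by
      intro y hy h0
      apply hne y hy
      rw [hT', Polynomial.map_mul, Polynomial.eval_mul, h0, mul_zero])
    refine ⟨Fin.cons z.re ρ, ?_⟩
    rw [Fin.prod_univ_succ, hT', hρ]
    simp

variable [Nonempty K]

theorem eval_pol_ne_zero {x : V → V → ℂ} (hx : Herm x) {γ : V → K → ℝ} (hγ : ∀ v i, 0 ≤ γ v i)
    {y : ℂ} (hy : y.im ≠ 0) : ((pol x γ).map (algebraMap ℝ ℂ)).eval y ≠ 0 := by
  rcases lt_or_gt_of_ne hy with h | h
  · rw [eval_pol hx]
    exact stable hx γ hγ (fun _ => y) (fun _ => h)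
  · have h1 : ((pol x γ).map (algebraMap ℝ ℂ)).eval ((starRingEnd ℂ) y)
        = (starRingEnd ℂ) (((pol x γ).map (algebraMap ℝ ℂ)).eval y) := by
      rw [Polynomial.eval_map, Polynomial.eval_map, Polynomial.eval₂_eq_sum_range,
        Polynomial.eval₂_eq_sum_range, map_sum]
      refine Finset.sum_congr rfl fun i _ => ?_
      simp
    intro h0
    rw [h0, map_zero, eval_pol hx] at h1
    exact stable hx γ hγ (fun _ => (starRingEnd ℂ) y) (fun _ => by simpa using h) h1

theorem eval_reflect {n : ℕ} {p : ℝ[X]} (hp : p.natDegree ≤ n) {t : ℂ} (ht : t ≠ 0) :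
    ((Polynomial.reflect n p).map (algebraMap ℝ ℂ)).eval t
      = t ^ n * (p.map (algebraMap ℝ ℂ)).eval t⁻¹ := by
  have hinv : Invertible t⁻¹ := invertibleOfNonzero (inv_ne_zero ht)
  have h1 := Polynomial.eval₂_reflect_mul_pow (algebraMap ℝ ℂ) (t⁻¹) n p hp
  have h2 : ⅟(t⁻¹) = t := by rw [invOf_eq_inv, inv_inv]
  rw [h2] at h1
  rw [Polynomial.eval_map, Polynomial.eval_map, ← h1, mul_comm, mul_assoc, ← mul_pow,
    inv_mul_cancel₀ ht, one_pow, mul_one]

theorem reflect_monic {n : ℕ} {p : ℝ[X]} (h0 : p.coeff 0 = 1) :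
    (Polynomial.reflect n p).coeff n = 1 := by
  rw [Polynomial.coeff_reflect, Polynomial.revAt_le le_rfl, Nat.sub_self, h0]

theorem natDegree_reflect_le {n : ℕ} {p : ℝ[X]} (hp : p.natDegree ≤ n) :
    (Polynomial.reflect n p).natDegree ≤ n := by
  rw [Polynomial.natDegree_le_iff_coeff_eq_zero]
  intro N hN
  rw [Polynomial.coeff_reflect, Polynomial.revAt_eq_self_of_lt hN]
  exact Polynomial.coeff_eq_zero_of_natDegree_lt (lt_of_le_of_lt hp hN)

/-- a real polynomial with constant term one and no nonreal zeros is `∏ (1 - ρ_j y)` -/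
theorem factor_one {n : ℕ} {p : ℝ[X]} (hp : p.natDegree ≤ n) (h0 : p.coeff 0 = 1)
    (hne : ∀ y : ℂ, y.im ≠ 0 → (p.map (algebraMap ℝ ℂ)).eval y ≠ 0) :
    ∃ ρ : Fin n → ℝ, Polynomial.reflect n p = ∏ j, (X - C (ρ j)) ∧ p = ∏ j, (1 - C (ρ j) * X) := by
  have hc := reflect_monic (n := n) h0
  have hle := natDegree_reflect_le hp
  have hdeg : (Polynomial.reflect n p).natDegree = n := by
    apply le_antisymm hle
    apply Polynomial.le_natDegree_of_ne_zero
    rw [hc]; exact one_ne_zero
  have hmon : (Polynomial.reflect n p).Monic := by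
    rw [Polynomial.Monic, Polynomial.leadingCoeff, hdeg, hc]
  obtain ⟨ρ, hρ⟩ := real_rooted_factor n _ hmon hdeg (by
    intro y hy
    have hy0 : y ≠ 0 := by rintro rfl; simp at hy
    rw [eval_reflect hp hy0]
    refine mul_ne_zero (pow_ne_zero _ hy0) (hne _ ?_)
    rw [Complex.inv_im]
    exact div_ne_zero (neg_ne_zero.mpr hy) (Complex.normSq_pos.mpr hy0).ne')
  refine ⟨ρ, hρ, ?_⟩
  apply Polynomial.funext
  intro y
  by_cases hy : y = 0
  · subst hy
    rw [← Polynomial.coeff_zero_eq_eval_zero, h0, Polynomial.eval_prod]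
    simp
  · have hyc : ((y⁻¹ : ℝ) : ℂ) ≠ 0 := by exact_mod_cast inv_ne_zero hy
    have h1 := eval_reflect hp hyc
    rw [hρ, Start.map_eval_ofReal, ← Complex.ofReal_inv, inv_inv, Start.map_eval_ofReal,
      ← Complex.ofReal_pow, ← Complex.ofReal_mul] at h1
    have h2 := Complex.ofReal_injective h1
    rw [Polynomial.eval_prod] at h2
    have h3 : Polynomial.eval y p = y ^ n * ∏ j, Polynomial.eval y⁻¹ (X - C (ρ j)) := by
      rw [h2, ← mul_assoc, ← mul_pow, mul_inv_cancel₀ hy, one_pow, one_mul]
    have h4 : (y ^ n : ℝ) = ∏ _j : Fin n, y := by simp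
    rw [h3, h4, ← Finset.prod_mul_distrib, Polynomial.eval_prod]
    refine Finset.prod_congr rfl fun j _ => ?_
    simp only [Polynomial.eval_sub, Polynomial.eval_X, Polynomial.eval_C, Polynomial.eval_one,
      Polynomial.eval_mul]
    field_simp

theorem pol_factor {x : V → V → ℂ} (hx : Herm x) {γ : V → K → ℝ} (hγ : ∀ v i, 0 ≤ γ v i) :
    ∃ ρ : Fin (Fintype.card V) → ℝ, pol x γ = ∏ j, (1 - C (ρ j) * X) := by
  obtain ⟨ρ, _, h⟩ := factor_one (pol_natDegree_le x γ) (pol_coeff_zero x γ)
    (fun y hy => eval_pol_ne_zero hx hγ hy)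
  exact ⟨ρ, h⟩

/-- **one vertex**: the polynomial as a function of the weights of the vertex `v` -/
theorem one_vertex {x : V → V → ℂ} (hx : Herm x) (hd : ∀ v, x v v = 0) {γ : V → K → ℝ}
    (hγ : ∀ v i, 0 ≤ γ v i) (v : V) :
    ∃ (s : Fin (Fintype.card V - 1) → ℝ) (m : K → Fin (Fintype.card V - 1) → ℝ),
      (∀ i j, 0 ≤ m i j) ∧
      pol x (Function.update γ v 0) = ∏ j, (1 - C (s j) * X) ∧
      ∀ h : K → ℝ, pol x (Function.update γ v h)
        = ∏ j, (1 - C (s j) * X)
          - ∑ j, C (∑ i, h i * m i j) * (X ^ 2 * ∏ k ∈ Finset.univ.erase j, (1 - C (s k) * X)) := by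
  classical
  obtain ⟨n, hn⟩ : ∃ n, Fintype.card V = n + 1 :=
    ⟨Fintype.card V - 1, by have := Fintype.card_pos_iff.mpr ⟨v⟩; omega⟩
  have hn' : Fintype.card V - 1 = n := by omega
  rw [hn']
  set γ0 := Function.update γ v 0 with hγ0
  have hγ0nn : ∀ w i, 0 ≤ γ0 w i := by
    intro w i
    by_cases hw : w = v
    · subst hw; simp [hγ0]
    · simpa [hγ0, Function.update_of_ne hw] using hγ w i
  have hdeg0 : (pol x γ0).natDegree ≤ n := by
    have := pol_natDegree_le_of_zero x γ0 v (by simp [hγ0])
    omega
  obtain ⟨s, hs1, hs2⟩ := factor_one hdeg0 (pol_coeff_zero x γ0)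
    (fun y hy => eval_pol_ne_zero hx hγ0nn hy)
  -- the cofactor polynomials
  have hcdeg : ∀ i, (cpol x γ v i).natDegree ≤ n + 1 := fun i => by
    have := cpol_natDegree_le x γ v i; omega
  set Rr : K → ℝ[X] := fun i => - Polynomial.reflect (n + 1) (cpol x γ v i) with hRr
  have hRdeg : ∀ i, (Rr i).natDegree ≤ n := by
    intro i
    rw [hRr]
    simp only [Polynomial.natDegree_neg]
    rw [Polynomial.natDegree_le_iff_coeff_eq_zero]
    intro N hN
    rw [Polynomial.coeff_reflect]
    rcases Nat.lt_or_ge (n + 1) N with h | h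
    · rw [Polynomial.revAt_eq_self_of_lt h]
      exact Polynomial.coeff_eq_zero_of_natDegree_lt (lt_of_le_of_lt (hcdeg i) h)
    · rw [Polynomial.revAt_le h]
      exact cpol_coeff_low hd γ v i _ (by omega)
  have hRcoeff : ∀ i, (Rr i).coeff n = 0 := by
    intro i
    rw [hRr]
    simp only [Polynomial.coeff_neg]
    rw [Polynomial.coeff_reflect, Polynomial.revAt_le (Nat.le_succ n),
      cpol_coeff_low hd γ v i _ (by omega), neg_zero]
  have hRim : ∀ i, ∀ t : ℂ, 0 < t.im →
      (((Rr i).map (algebraMap ℝ ℂ)).eval t / ∏ k ∈ Finset.univ, (t - (s k : ℂ))).im ≤ 0 := by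
    intro i t ht
    have ht0 : t ≠ 0 := by rintro rfl; simp at ht
    have hy : (t⁻¹).im < 0 := by
      rw [Complex.inv_im]
      exact div_neg_of_neg_of_pos (by linarith) (Complex.normSq_pos.mpr ht0)
    have h1 : ∏ k ∈ Finset.univ, (t - (s k : ℂ))
        = ((Polynomial.reflect n (pol x γ0)).map (algebraMap ℝ ℂ)).eval t := by
      rw [hs1, Polynomial.map_prod, Polynomial.eval_prod]
      refine Finset.prod_congr rfl fun k _ => ?_
      simp
    rw [h1, eval_reflect hdeg0 ht0, hRr]
    simp only [Polynomial.map_neg, Polynomial.eval_neg]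
    rw [eval_reflect (hcdeg i) ht0, eval_cpol hx, eval_pol hx]
    have h2 := cof_im_nonneg hx γ hγ (fun _ => t⁻¹) (fun _ => hy) v i
    have h3 : (fun w j => (γ0 w j : ℂ) * t⁻¹)
        = Function.update (fun w i => (γ w i : ℂ) * t⁻¹) v 0 := by
      funext w
      by_cases hw : w = v
      · subst hw; funext j; simp [hγ0]
      · simp [hγ0, Function.update_of_ne hw]
    rw [h3]
    set A := cof x (fun w i => (γ w i : ℂ) * t⁻¹) v i
    set B := ann x (Function.update (fun w i => (γ w i : ℂ) * t⁻¹) v 0)
    have h4 : -(t ^ (n + 1) * (t⁻¹ * A)) / (t ^ n * B) = -(A / B) := by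
      have : t ^ (n + 1) * (t⁻¹ * A) = t ^ n * A := by
        rw [pow_succ, mul_assoc, ← mul_assoc t, mul_inv_cancel₀ ht0, one_mul]
      rw [this, neg_div, mul_div_mul_left _ _ (pow_ne_zero n ht0)]
    rw [h4, Complex.neg_im]
    linarith
  have hpf := fun i => Start.partial_fractions s n Finset.univ (by simp) (Rr i) (hRdeg i) (hRim i)
  choose a ha0 ha using hpf
  refine ⟨s, a, fun i j => ha0 i j (Finset.mem_univ j), hs2, ?_⟩
  intro h
  have hcp : ∀ i, cpol x γ v i
      = - ∑ j, C (a i j) * (X ^ 2 * ∏ k ∈ Finset.univ.erase j, (1 - C (s k) * X)) := by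
    intro i
    apply Polynomial.funext
    intro y
    by_cases hy : y = 0
    · subst hy
      rw [← Polynomial.coeff_zero_eq_eval_zero, cpol_coeff_low hd γ v i _ (by norm_num)]
      simp [Polynomial.eval_finsetSum]
    · have hyc : ((y⁻¹ : ℝ) : ℂ) ≠ 0 := by exact_mod_cast inv_ne_zero hy
      have h1 := eval_reflect (hcdeg i) hyc
      rw [Start.map_eval_ofReal, ← Complex.ofReal_inv, inv_inv, Start.map_eval_ofReal,
        ← Complex.ofReal_pow, ← Complex.ofReal_mul] at h1
      have h2 := Complex.ofReal_injective h1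
      have h3 : Polynomial.reflect (n + 1) (cpol x γ v i) = - Rr i := by rw [hRr]; simp
      rw [h3, ha i, hRcoeff i] at h2
      have h4 : Polynomial.eval y (cpol x γ v i)
          = y ^ (n + 1) * Polynomial.eval y⁻¹ (-(C 0 * ∏ k, (X - C (s k)) +
            ∑ k, C (a i k) * ∏ j ∈ Finset.univ.erase k, (X - C (s j)))) := by
        rw [h2, ← mul_assoc, ← mul_pow, mul_inv_cancel₀ hy, one_pow, one_mul]
      rw [h4]
      simp only [map_zero, zero_mul, zero_add, Polynomial.eval_neg, Polynomial.eval_finsetSum,
        mul_neg, neg_inj, Finset.mul_sum, Polynomial.eval_mul, Polynomial.eval_C,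
        Polynomial.eval_prod, Polynomial.eval_pow, Polynomial.eval_X, Polynomial.eval_sub,
        Polynomial.eval_one]
      refine Finset.sum_congr rfl fun j _ => ?_
      have h5 : (y : ℝ) ^ (n + 1) = y ^ 2 * ∏ _k ∈ Finset.univ.erase j, y := by
        rw [Finset.prod_const, Finset.card_erase_of_mem (Finset.mem_univ j), Finset.card_univ,
          Fintype.card_fin]
        have hn1 : 1 ≤ n := by have := j.pos; omega
        rw [← pow_add]
        congr 1; omega
      rw [h5]
      rw [show (y ^ 2 * (∏ _k ∈ Finset.univ.erase j, y)) *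
          (a i j * (∏ x ∈ Finset.univ.erase j, (y⁻¹ - s x)))
        = a i j * (y ^ 2 * ((∏ _k ∈ Finset.univ.erase j, y) *
          (∏ x ∈ Finset.univ.erase j, (y⁻¹ - s x))))
        by ring, ← Finset.prod_mul_distrib]
      congr 2
      refine Finset.prod_congr rfl fun k _ => ?_
      field_simp
  rw [pol_update, ← hγ0, hs2]
  have h6 : ∑ i, C (h i) * cpol x γ v i
      = - ∑ j, C (∑ i, h i * a i j) * (X ^ 2 * ∏ k ∈ Finset.univ.erase j, (1 - C (s k) * X)) := by
    simp only [hcp, mul_neg, Finset.sum_neg_distrib, Finset.mul_sum, map_sum, map_mul,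
      Finset.sum_mul]
    rw [Finset.sum_comm]
    congr 1
    refine Finset.sum_congr rfl fun j _ => Finset.sum_congr rfl fun i _ => ?_
    ring
  rw [h6]; ring

end Real

end Crest.Agent.R109.Ann
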