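import Mathlib
import Crest.Agent.R109.AnnealedReal

/-!
# Invariances and continuity of the annealed polynomial (row 109)
-/

set_option autoImplicit false
set_option linter.unusedSectionVars false
set_option linter.unusedSimpArgs false

namespace Crest.Agent.R109.Ann

open Matrix Finset Polynomial

variable {V W K : Type*} [Fintype V] [DecidableEq V] [Fintype W] [DecidableEq W]
  [Fintype K] [DecidableEq K]

theorem pol_apply (x : V → V → ℂ) (γ : V → K → ℝ) :
    pol x γ = ∑ c : V → Option K,
      C ((N x c).det.re * ∏ v, wt (γ v) (c v)) * X ^ (sup c).card := by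
  rw [pol, annD_apply]
  refine Finset.sum_congr rfl fun c _ => ?_
  have : (∏ w, wt (fun i => (C (γ w i) : ℝ[X])) (c w)) = C (∏ w, wt (γ w) (c w)) := by
    rw [map_prod]
    refine Finset.prod_congr rfl fun w _ => ?_
    cases c w <;> simp
  rw [this, Dp, map_mul]; ring

theorem N_reindex (e : V ≃ W) (x : W → W → ℂ) (c : W → Option K) :
    N (fun u w => x (e u) (e w)) (fun v => c (e v)) = (N x c).submatrix e e := by
  ext u w
  simp only [N, Matrix.of_apply, Matrix.submatrix_apply, EmbeddingLike.apply_eq_iff_eq]

theorem pol_reindex (e : V ≃ W) (x : W → W → ℂ) (γ : W → K → ℝ) :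
    pol (fun u w => x (e u) (e w)) (fun v => γ (e v)) = pol x γ := by
  rw [pol_apply, pol_apply]
  refine (Fintype.sum_equiv (e.arrowCongr (Equiv.refl (Option K))).symm _ _ fun c => ?_).symm
  have hc : (e.arrowCongr (Equiv.refl (Option K))).symm c = fun v => c (e v) := by
    funext v; simp [Equiv.arrowCongr]
  rw [hc, N_reindex, Matrix.det_submatrix_equiv_self]
  congr 1
  · congr 2
    exact (Equiv.prod_comp e (fun w => wt (γ w) (c w))).symm
  · congr 1
    rw [sup, sup]
    apply Finset.card_bij' (fun w _ => e.symm w) (fun v _ => e v) <;> simp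

/-- gauge invariance: conjugation by a diagonal unitary -/
theorem pol_gauge (d : V → ℂ) (hd : ∀ v, (starRingEnd ℂ) (d v) * d v = 1) (x : V → V → ℂ)
    (γ : V → K → ℝ) :
    pol (fun u w => (starRingEnd ℂ) (d u) * x u w * d w) γ = pol x γ := by
  rw [pol_apply, pol_apply]
  refine Finset.sum_congr rfl fun c _ => ?_
  congr 3
  have h1 : N (fun u w => (starRingEnd ℂ) (d u) * x u w * d w) c
      = Matrix.diagonal (fun u => (starRingEnd ℂ) (d u)) * N x c * Matrix.diagonal d := by
    ext u w
    simp only [N, Matrix.of_apply, Matrix.diagonal_mul, Matrix.mul_diagonal]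
    by_cases h : u = w ∧ c u = none
    · obtain ⟨rfl, h2⟩ := h
      simp only [h2, and_self, if_true, ne_eq, not_true_eq_false, and_false, if_false, sub_zero,
        mul_one]
      rw [hd u]
    · rw [if_neg h]
      split_ifs <;> ring
  rw [h1, Matrix.det_mul, Matrix.det_mul, Matrix.det_diagonal, Matrix.det_diagonal,
    mul_right_comm, ← Finset.prod_mul_distrib]
  simp [hd]

/-- changing the sign of the kernel -/
theorem pol_neg (x : V → V → ℂ) (γ : V → K → ℝ) :
    pol (fun u w => - x u w) γ = (pol x γ).comp (-X) := by
  rw [pol_apply, pol_apply, Polynomial.sum_comp]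
  refine Finset.sum_congr rfl fun c _ => ?_
  have h1 : N (fun u w => - x u w) c
      = Matrix.diagonal (fun u => if c u = none then (1 : ℂ) else -1) * N x c := by
    ext u w
    simp only [N, Matrix.diagonal_mul, Matrix.of_apply]
    by_cases hu : c u = none
    · simp [hu]
    · simp only [hu, and_false, if_false, ne_eq, not_false_eq_true, and_true]
      split_ifs <;> ring
  have h2 : ∏ u, (if c u = none then (1 : ℂ) else -1) = (((-1 : ℝ) ^ (sup c).card : ℝ) : ℂ) := by
    rw [← Finset.prod_const, sup, Finset.prod_filter]
    push_cast
    refine Finset.prod_congr rfl fun u _ => ?_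
    by_cases hu : c u = none <;> simp [hu]
  rw [h1, Matrix.det_mul, Matrix.det_diagonal, h2, Complex.re_ofReal_mul]
  simp only [Polynomial.mul_comp, Polynomial.C_comp, Polynomial.pow_comp, Polynomial.X_comp,
    map_mul, map_pow, map_neg, map_one]
  rw [neg_pow (X : ℝ[X])]
  ring

/-- vertices of weight zero can be dropped -/
theorem pol_drop (ι : W → V) (hι : Function.Injective ι) (x : V → V → ℂ) (γ : V → K → ℝ)
    (h0 : ∀ v, v ∉ Set.range ι → γ v = 0) :
    pol x γ = pol (fun u w => x (ι u) (ι w)) (fun w => γ (ι w)) := by
  classical
  rw [pol_apply, pol_apply]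
  have hext : ∀ (c : W → Option K) (w : W),
      Function.extend ι c (fun _ => none) (ι w) = c w := fun c w => hι.extend_apply _ _ _
  have hext' : ∀ (c : W → Option K) (v : V), v ∉ Set.range ι →
      Function.extend ι c (fun _ => none) v = none := by
    intro c v hv
    exact Function.extend_apply' _ _ _ (by simpa using hv)
  have hinj : Function.Injective (fun c : W → Option K => Function.extend ι c (fun _ => none)) := by
    intro c c' h
    funext w
    have := congrFun h (ι w)
    simpa [hext] using this
  rw [← Finset.sum_subset (Finset.subset_univ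
    (Finset.univ.map ⟨fun c : W → Option K => Function.extend ι c (fun _ => none), hinj⟩))]
  · rw [Finset.sum_map]
    refine Finset.sum_congr rfl fun c _ => ?_
    simp only [Function.Embedding.coeFn_mk]
    have hdet : (N x (Function.extend ι c (fun _ => none))).det
        = (N (fun u w => x (ι u) (ι w)) c).det := by
      rw [Matrix.twoBlockTriangular_det _ (fun v => v ∈ Set.range ι)]
      · have h1 : (N x (Function.extend ι c (fun _ => none))).toSquareBlockProp
            (fun v => ¬ v ∈ Set.range ι) = 1 := by
          ext ⟨u, hu⟩ ⟨w, hw⟩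
          have e1 := hext' c u hu
          simp only [Matrix.toSquareBlockProp, Matrix.toBlock_apply, Matrix.of_apply, N,
            Matrix.one_apply, Subtype.mk.injEq, e1]
          simp
        rw [h1, Matrix.det_one, mul_one]
        have h2 : (N (fun u w => x (ι u) (ι w)) c)
            = ((N x (Function.extend ι c (fun _ => none))).toSquareBlockProp
              (fun v => v ∈ Set.range ι)).submatrix (Equiv.ofInjective ι hι) (Equiv.ofInjective ι hι) := by
          ext u w
          simp only [Matrix.submatrix_apply, Matrix.toSquareBlockProp, Matrix.toBlock_apply,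
            Matrix.of_apply, N, Equiv.ofInjective_apply, hext, hι.eq_iff]
        rw [h2, Matrix.det_submatrix_equiv_self]
        convert rfl
      · intro i hi j hj
        have hij : i ≠ j := by rintro rfl; exact hi hj
        simp [N, hext' c i hi, hij]
    have hprod : ∏ v, wt (γ v) (Function.extend ι c (fun _ => none) v)
        = ∏ w, wt (γ (ι w)) (c w) := by
      rw [← Finset.prod_subset (Finset.subset_univ (Finset.univ.map ⟨ι, hι⟩))]
      · rw [Finset.prod_map]
        exact Finset.prod_congr rfl fun w _ => by simp [hext]
      · intro v _ hv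
        rw [hext' c v (by simpa using hv)]
        simp
    have hcard : (sup (Function.extend ι c (fun _ => none))).card = (sup c).card := by
      have : sup (Function.extend ι c (fun _ => none)) = (sup c).map ⟨ι, hι⟩ := by
        ext v
        simp only [sup, Finset.mem_filter, Finset.mem_univ, true_and, Finset.mem_map,
          Function.Embedding.coeFn_mk]
        constructor
        · intro h
          by_cases hv : v ∈ Set.range ι
          · obtain ⟨w, rfl⟩ := hv
            exact ⟨w, by simpa [hext] using h, rfl⟩
          · exact absurd (hext' c v hv) h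
        · rintro ⟨w, hw, rfl⟩
          simpa [hext] using hw
      rw [this, Finset.card_map]
    rw [hdet, hprod, hcard]
  · intro c _ hc
    have : ∃ v, v ∉ Set.range ι ∧ c v ≠ none := by
      by_contra hall
      push Not at hall
      apply hc
      rw [Finset.mem_map]
      refine ⟨fun w => c (ι w), Finset.mem_univ _, ?_⟩
      simp only [Function.Embedding.coeFn_mk]
      funext v
      by_cases hv : v ∈ Set.range ι
      · obtain ⟨w, rfl⟩ := hv
        rw [hext]
      · rw [hext' _ v hv, hall v hv]
    obtain ⟨v, hv, hcv⟩ := this
    have h3 : ∏ v, wt (γ v) (c v) = 0 := by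
      apply Finset.prod_eq_zero (Finset.mem_univ v)
      cases h : c v with
      | none => exact absurd h hcv
      | some i => simp [h0 v hv]
    rw [h3]; simp

/-- joint continuity of the coefficients -/
theorem continuous_coeff (n : ℕ) :
    Continuous (fun p : (V → V → ℂ) × (V → K → ℝ) => (pol p.1 p.2).coeff n) := by
  have h1 : (fun p : (V → V → ℂ) × (V → K → ℝ) => (pol p.1 p.2).coeff n)
      = fun p => ∑ c : V → Option K, if n = (sup c).card then
        (N p.1 c).det.re * ∏ v, wt (p.2 v) (c v) else 0 := by
    funext p
    rw [pol_apply, Polynomial.finsetSum_coeff]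
    refine Finset.sum_congr rfl fun c _ => ?_
    rw [Polynomial.coeff_C_mul, Polynomial.coeff_X_pow]
    split_ifs <;> simp
  rw [h1]
  refine continuous_finsetSum _ fun c _ => ?_
  split_ifs
  · refine Continuous.mul ?_ ?_
    · refine Complex.continuous_re.comp ?_
      refine Continuous.matrix_det ?_
      refine continuous_matrix fun u w => ?_
      simp only [N, Matrix.of_apply]
      refine continuous_const.sub ?_
      split_ifs
      · fun_prop
      · fun_prop
    · refine continuous_finsetProd _ fun v _ => ?_
      cases c v with
      | none => simp only [wt_none]; fun_prop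
      | some i => simp only [wt_some]; fun_prop
  · fun_prop

/-- one-colour states -/
theorem eval_pol_pure {x : V → V → ℂ} (hx : Herm x) (c : V → K) (a : V → ℝ) (y : ℂ) :
    ((pol x (fun v i => if i = c v then a v else 0)).map (algebraMap ℝ ℂ)).eval y
      = Matrix.det (1 - Matrix.diagonal (fun v => (a v : ℂ) * y) * tot x c) := by
  rw [eval_pol hx, ← ann_pure]
  congr 1
  funext v i
  split_ifs <;> simp

end Crest.Agent.R109.Ann
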