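import Crest.Agent.R109.Asm2

/-!
# Row 109, module ASM: final assembly of `NCE_q`
-/

set_option autoImplicit false
set_option linter.unusedSectionVars false

namespace Crest.Agent.R109

open Crest.Agent.R124 Crest.Agent.R121
open scoped InnerProductSpace

universe u

variable {H : Type u} [NormedAddCommGroup H] [InnerProductSpace ℂ H] [CompleteSpace H]
variable {M : VonNeumannAlgebra H} {A : StarSubalgebra ℂ (H →L[ℂ] H)} {η : H}

/-- quadratic majorant of the diffuse part -/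
lemma quad_T2 (Q : FP A) {r : ℕ} (c : Fin Q.n → Fin r)
    (S : Fin r → Finset (Fin Q.n)) (hS : ∀ j, j ∈ S (c j)) {z : H →L[ℂ] H} (hz : IsSelfAdjoint z)
    {s : ℝ} (hs : 0 < s) {m : ℕ} (hm : 1 ≤ m) (v : H) :
    |(⟪pav (pcol Q c) z v, v⟫_ℂ).re| ≤ s * ‖v‖ ^ 2 + ∑ i, s * (s⁻¹) ^ (2 * m) *
      ‖((blk Q (S i) * z * blk Q (S i)) ^ m) (pcol Q c i v)‖ ^ 2 := by
  have hp := part_pcol Q c
  rw [re_inner_pav hp, ← hp.sum_sq v, Finset.mul_sum, ← Finset.sum_add_distrib]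
  refine (Finset.abs_sum_le_sum_abs _ _).trans (Finset.sum_le_sum fun i _ => ?_)
  have hi : ∀ j, c j = i → j ∈ S i := fun j hj => hj ▸ hS j
  have h1 : blk Q (S i) (pcol Q c i v) = pcol Q c i v := by
    change (blk Q (S i) * pcol Q c i) v = _
    rw [blk_mul_pcol Q c hi]
  have hb : star (blk Q (S i)) = blk Q (S i) := (blk_proj Q (S i)).isSelfAdjoint.star_eq
  have h2 : ⟪z (pcol Q c i v), pcol Q c i v⟫_ℂ
      = ⟪(blk Q (S i) * z * blk Q (S i)) (pcol Q c i v), pcol Q c i v⟫_ℂ := by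
    calc ⟪z (pcol Q c i v), pcol Q c i v⟫_ℂ
        = ⟪z (pcol Q c i v), blk Q (S i) (pcol Q c i v)⟫_ℂ := by rw [h1]
      _ = ⟪(star (blk Q (S i))) (z (pcol Q c i v)), pcol Q c i v⟫_ℂ :=
          (inner_star_left _ _ _).symm
      _ = ⟪(blk Q (S i)) (z (blk Q (S i) (pcol Q c i v))), pcol Q c i v⟫_ℂ := by
          rw [hb, h1]
      _ = _ := rfl
  rw [h2]
  have hsa : IsSelfAdjoint (blk Q (S i) * z * blk Q (S i)) := by
    rw [isSelfAdjoint_iff, star_mul, star_mul, hb, hz.star_eq, mul_assoc]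
  exact moment_le hsa hs hm _

/-- existence of exponents -/
lemma exists_pow_half {C τ : ℝ} (hτ : 0 < τ) : ∃ k : ℕ, 1 ≤ k ∧ C * (1 / 2) ^ (2 * k) < τ := by
  have h1 : Filter.Tendsto (fun k : ℕ => C * ((1 / 2 : ℝ) ^ 2) ^ k) Filter.atTop (nhds (C * 0)) :=
    (tendsto_pow_atTop_nhds_zero_of_lt_one (by norm_num) (by norm_num)).const_mul C
  rw [mul_zero] at h1
  obtain ⟨k, hk1, hk2⟩ := ((h1.eventually_lt_const hτ).and
    (Filter.eventually_ge_atTop 1)).exists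
  exact ⟨k, hk2, by rw [pow_mul]; exact hk1⟩

/-! ### numbers -/

lemma num1 {s τ N b κ : ℝ} (hs0 : 0 < s) {k : ℕ} (hτ : 2 * s * (1 / 2) ^ (2 * k) < τ)
    (hκ : 2 * (s * (s⁻¹) ^ (2 * k)) * κ = τ) (hb0 : 0 ≤ b) (hb : b ≤ s / 2)
    (hN : N ≤ b ^ (2 * k) + κ) : 2 * (s * (s⁻¹) ^ (2 * k)) * N ≤ τ + τ := by
  have h3 : b ^ (2 * k) ≤ (s / 2) ^ (2 * k) := pow_le_pow_left₀ hb0 hb _
  have h4 : 2 * (s * (s⁻¹) ^ (2 * k)) * N
      ≤ 2 * (s * (s⁻¹) ^ (2 * k)) * ((s / 2) ^ (2 * k) + κ) :=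
    mul_le_mul_of_nonneg_left (hN.trans (by linarith)) (by positivity)
  have h5 : (s⁻¹) ^ (2 * k) * (s / 2) ^ (2 * k) = (1 / 2) ^ (2 * k) := by
    rw [← mul_pow]; congr 1; field_simp
  have h7 : 2 * (s * (s⁻¹) ^ (2 * k)) * ((s / 2) ^ (2 * k) + κ)
      = 2 * s * (1 / 2) ^ (2 * k) + τ := by
    rw [mul_add, hκ, ← h5]; ring
  rw [h7] at h4
  linarith

lemma num2 {s τ r N : ℝ} (hs0 : 0 < s) {m : ℕ} (hτ : s * r * (1 / 2) ^ (2 * m) < τ)
    (hN : N ≤ r * (((s / 2) ^ m) ^ 2)) : s * (s⁻¹) ^ (2 * m) * N ≤ τ := by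
  have h3 : s * (s⁻¹) ^ (2 * m) * N ≤ s * (s⁻¹) ^ (2 * m) * (r * (((s / 2) ^ m) ^ 2)) :=
    mul_le_mul_of_nonneg_left hN (by positivity)
  have h4 : (s⁻¹) ^ (2 * m) * ((s / 2) ^ m) ^ 2 = (1 / 2) ^ (2 * m) := by
    rw [← pow_mul, mul_comm m 2, ← mul_pow]; congr 1; field_simp
  have h5 : s * (s⁻¹) ^ (2 * m) * (r * (((s / 2) ^ m) ^ 2)) = s * r * (1 / 2) ^ (2 * m) := by
    rw [← h4]; ring
  rw [h5] at h3
  linarith

lemma num3 {s τ a κ : ℝ} (hs0 : 0 < s) (hτ : 0 < τ) (ha0 : 0 ≤ a) (ha : a ≤ κ + κ)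
    (hκ : κ ≤ Real.sqrt (τ * s) / 2) : s * (s⁻¹) ^ (2 * 1) * a ^ 2 ≤ τ := by
  have h2 : κ + κ ≤ Real.sqrt (τ * s) := by linarith
  have h3 : a ^ 2 ≤ τ * s := by
    rw [← Real.sq_sqrt (show 0 ≤ τ * s by positivity)]
    exact pow_le_pow_left₀ ha0 (ha.trans h2) 2
  have h4 : s * (s⁻¹) ^ (2 * 1) * a ^ 2 ≤ s * (s⁻¹) ^ (2 * 1) * (τ * s) :=
    mul_le_mul_of_nonneg_left h3 (by positivity)
  have h5 : s * (s⁻¹) ^ (2 * 1) * (τ * s) = τ := by
    rw [mul_one]; field_simp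
  linarith

lemma norm_sq_smul_sqrt (a : ℝ) (X : H →L[ℂ] H) (v : H) (ha : 0 ≤ a) :
    ‖((Real.sqrt a : ℂ) • X) v‖ ^ 2 = a * ‖X v‖ ^ 2 := by
  have h1 : ((Real.sqrt a : ℂ) • X) v = (Real.sqrt a : ℂ) • X v := rfl
  rw [h1, norm_smul, Complex.norm_real, Real.norm_of_nonneg (Real.sqrt_nonneg _), mul_pow,
    Real.sq_sqrt ha]

/-- the cut for a sum of three parts -/
lemma three_parts (hM : Masa M A) (hc : CVec M A η) (Q : FP A) {r : ℕ} (c : Fin Q.n → Fin r)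
    (S : Fin r → Finset (Fin Q.n)) (hS : ∀ j, j ∈ S (c j)) {y z t : H →L[ℂ] H}
    (hy : y ∈ M) (hz : z ∈ M) (ht : t ∈ M) (hys : IsSelfAdjoint y) (hzs : IsSelfAdjoint z)
    (hts : IsSelfAdjoint t) {s : ℝ} (hs0 : 0 < s) {k m : ℕ} (hk1 : 1 ≤ k) (hm1 : 1 ≤ m) :
    ∃ q ∈ M, IsStarProjection q ∧
      4 * s * ‖(1 - q) η‖ ^ 2 ≤
        2 * (s * (s⁻¹) ^ (2 * k)) * ‖(pav (pcol Q c) y ^ k) η‖ ^ 2 +
        (s * (s⁻¹) ^ (2 * 1) * ‖pav (pcol Q c) t η‖ ^ 2 +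
        s * (s⁻¹) ^ (2 * m) * ∑ i, ‖((blk Q (S i) * z * blk Q (S i)) ^ m) η‖ ^ 2) ∧
      ‖q * ((2 : ℂ) • pav (pcol Q c) y + pav (pcol Q c) z + pav (pcol Q c) t) * q‖
        ≤ 2 * (4 * s) := by
  have hp := part_pcol Q c
  have hT1s : IsSelfAdjoint (pav (pcol Q c) y) := pav_sa hp hys
  have hT2s : IsSelfAdjoint (pav (pcol Q c) z) := pav_sa hp hzs
  have hT3s : IsSelfAdjoint (pav (pcol Q c) t) := pav_sa hp hts
  have hTs : IsSelfAdjoint ((2 : ℂ) • pav (pcol Q c) y + pav (pcol Q c) z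
      + pav (pcol Q c) t) := by
    refine (IsSelfAdjoint.add ?_ hT2s).add hT3s
    rw [isSelfAdjoint_iff, star_smul, hT1s.star_eq]
    congr 1
    simp
  let B : Option (Option (Fin r)) → H →L[ℂ] H := fun j => match j with
    | none => (Real.sqrt (2 * (s * (s⁻¹) ^ (2 * k))) : ℂ) • pav (pcol Q c) y ^ k
    | some none => (Real.sqrt (s * (s⁻¹) ^ (2 * 1)) : ℂ) • pav (pcol Q c) t
    | some (some i) => (Real.sqrt (s * (s⁻¹) ^ (2 * m)) : ℂ) •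
        ((blk Q (S i) * z * blk Q (S i)) ^ m * pcol Q c i)
  have hbM : ∀ B : Finset (Fin Q.n), blk Q B ∈ M := fun B => hM.le (blk_mem Q B)
  have hBM : ∀ j, B j ∈ M := by
    rintro (_ | _ | i)
    · exact M.toStarSubalgebra.smul_mem (pow_mem (pav_mem hM hp hy) k) _
    · exact M.toStarSubalgebra.smul_mem (pav_mem hM hp ht) _
    · exact M.toStarSubalgebra.smul_mem (mul_mem (pow_mem (mul_mem (mul_mem (hbM _) hz)
        (hbM _)) m) (hM.le (hp.mem i))) _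
  have hBsum : ∀ v, ∑ j, ‖B j v‖ ^ 2
      = 2 * (s * (s⁻¹) ^ (2 * k)) * ‖(pav (pcol Q c) y ^ k) v‖ ^ 2 +
      (s * (s⁻¹) ^ (2 * 1) * ‖pav (pcol Q c) t v‖ ^ 2 +
      ∑ i, s * (s⁻¹) ^ (2 * m) *
        ‖((blk Q (S i) * z * blk Q (S i)) ^ m) (pcol Q c i v)‖ ^ 2) := by
    intro v
    rw [Fintype.sum_option, Fintype.sum_option]
    congr 1
    · exact norm_sq_smul_sqrt _ _ v (by positivity)
    congr 1
    · exact norm_sq_smul_sqrt _ _ v (by positivity)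
    · refine Finset.sum_congr rfl fun i _ => ?_
      exact norm_sq_smul_sqrt _ _ v (by positivity)
  have hquad : ∀ v, |(⟪((2 : ℂ) • pav (pcol Q c) y + pav (pcol Q c) z
      + pav (pcol Q c) t) v, v⟫_ℂ).re| ≤ (4 * s) * ‖v‖ ^ 2 + ∑ j, ‖B j v‖ ^ 2 := by
    intro v
    rw [hBsum]
    have h1 := moment_le hT1s hs0 hk1 v
    have h2 := quad_T2 Q c S hS hzs hs0 hm1 v
    have h3 := moment_le hT3s hs0 (le_refl 1) v
    rw [pow_one] at h3
    have h4 : (⟪((2 : ℂ) • pav (pcol Q c) y + pav (pcol Q c) z + pav (pcol Q c) t) v, v⟫_ℂ).re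
        = 2 * (⟪pav (pcol Q c) y v, v⟫_ℂ).re + (⟪pav (pcol Q c) z v, v⟫_ℂ).re
          + (⟪pav (pcol Q c) t v, v⟫_ℂ).re := by
      have e1 : ((2 : ℂ) • pav (pcol Q c) y + pav (pcol Q c) z + pav (pcol Q c) t) v
        = (2 : ℂ) • pav (pcol Q c) y v + pav (pcol Q c) z v + pav (pcol Q c) t v := rfl
      rw [e1, inner_add_left, inner_add_left, inner_smul_left, Complex.add_re, Complex.add_re]
      simp
    rw [h4]
    rw [abs_le] at h1 h2 h3 ⊢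
    constructor <;> linarith [h1.1, h1.2, h2.1, h2.2, h3.1, h3.2]
  obtain ⟨q, hqM, hqp, hqη, hqT⟩ := gamma_cut M hTs hBM (by positivity : 0 < 4 * s) hquad η
  refine ⟨q, hqM, hqp, ?_, hqT⟩
  rw [hBsum] at hqη
  have h1 : ∑ i, s * (s⁻¹) ^ (2 * m) *
      ‖((blk Q (S i) * z * blk Q (S i)) ^ m) (pcol Q c i η)‖ ^ 2
      ≤ s * (s⁻¹) ^ (2 * m) * ∑ i, ‖((blk Q (S i) * z * blk Q (S i)) ^ m) η‖ ^ 2 := by
    rw [Finset.mul_sum]
    refine Finset.sum_le_sum fun i _ => mul_le_mul_of_nonneg_left ?_ (by positivity)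
    exact hc.norm_mul_proj_le hM (pow_mem (mul_mem (mul_mem (hbM _) hz) (hbM _)) m)
      (hp.mem i) (hp.proj i)
  linarith

set_option maxHeartbeats 1000000 in
/-- the unit vector version -/
theorem nce_unit {Bd : BandPred.{u}} (hB : BdHalf Bd) (hD : DecompProp Bd) (hC : CartanProp Bd)
    (hX : X2Prop.{u}) (hCh : ChoiceProp) (hA : Amp M) (h : NCE M A η) (hη : ‖η‖ = 1)
    {x : H →L[ℂ] H} (hx : x ∈ M) (hxs : IsSelfAdjoint x) (hx1 : ‖x‖ ≤ 1) (hx0 : CE A η x = 0)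
    {ε : ℝ} (hε : 0 < ε) (hε1 : ε < 1) {r : ℕ} (hr : 10 ^ 8 / ε ^ 2 ≤ (r : ℝ)) {δ : ℝ}
    (hδ : 0 < δ) :
    ∃ p : Fin r → H →L[ℂ] H, Part A 1 p ∧ ∃ q ∈ M, IsStarProjection q ∧ ‖(1 - q) η‖ < δ ∧
      ‖q * (∑ i, p i * x * p i) * q‖ ≤ ε := by
  have hM := h.masa
  have hc := h.cvec
  -- numbers
  have hr8 : (10 : ℝ) ^ 8 ≤ r := by
    refine le_trans ?_ hr
    rw [le_div_iff₀ (by positivity)]
    nlinarith
  have hr100 : 100 ≤ r := by
    have : (100 : ℝ) ≤ r := by linarith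
    exact_mod_cast this
  have hr0 : (0 : ℝ) < r := by linarith
  have hsqrt : 10 ^ 4 / ε ≤ Real.sqrt r := by
    apply Real.le_sqrt_of_sq_le
    rw [div_pow]
    norm_num at hr ⊢
    linarith
  have hsq0 : 0 < Real.sqrt r := Real.sqrt_pos.2 hr0
  set s : ℝ := ε / 8 with hs
  have hs0 : 0 < s := by positivity
  have hb1 : 500 / Real.sqrt r ≤ s / 2 := by
    rw [div_le_iff₀ hsq0]
    have h1 : s / 2 * (10 ^ 4 / ε) ≤ s / 2 * Real.sqrt r :=
      mul_le_mul_of_nonneg_left hsqrt (by positivity)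
    have h2 : s / 2 * (10 ^ 4 / ε) = 625 := by
      rw [hs]; field_simp; norm_num
    linarith
  have hb2 : 6 * Real.sqrt (2 / r) ≤ s / 4 := by
    have h1 : Real.sqrt (2 / r) ≤ s / 24 := by
      apply Real.sqrt_le_iff.2
      refine ⟨by positivity, ?_⟩
      rw [div_le_iff₀ hr0]
      have h2 : (s / 24) ^ 2 * (10 ^ 8 / ε ^ 2) ≤ (s / 24) ^ 2 * r :=
        mul_le_mul_of_nonneg_left hr (by positivity)
      have h3 : (s / 24) ^ 2 * (10 ^ 8 / ε ^ 2) = 10 ^ 8 / 36864 := by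
        rw [hs]; field_simp; norm_num
      rw [h3] at h2
      have h4 : (2 : ℝ) ≤ 10 ^ 8 / 36864 := by norm_num
      linarith
    linarith
  -- total budget
  set τ : ℝ := s * δ ^ 2 / 2 with hτ
  have hτ0 : 0 < τ := by positivity
  obtain ⟨k, hk1, hk⟩ := exists_pow_half (C := 2 * s) hτ0
  obtain ⟨m, hm1, hm⟩ := exists_pow_half (C := s * r) hτ0
  set κ₁ : ℝ := τ / (2 * s * (s⁻¹) ^ (2 * k)) with hκ₁
  have hκ₁0 : 0 < κ₁ := by positivity
  set κ₃ : ℝ := min (s / 4) (Real.sqrt (τ * s) / 2) with hκ₃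
  have hκ₃0 : 0 < κ₃ := lt_min (by positivity) (by positivity)
  -- the decomposition
  obtain ⟨y, hyM, hyB, hys, hy2, hy0, z, hzM, hzs, hz3, hzD, hxyz⟩ :=
    hD H M A η hA h hη x hx hxs hx1 hx0 κ₃ hκ₃0
  obtain ⟨P1, hP1⟩ := hX H M A η hA h hη z hzM hzs hz3 hzD r hr100 m hm1 κ₃ hκ₃0
  set y' : H →L[ℂ] H := (1 / 2 : ℂ) • y with hy'
  have hhalf : ‖(1 / 2 : ℂ)‖ = 1 / 2 := by norm_num
  have hy'M : y' ∈ M := by
    have := M.toStarSubalgebra.smul_mem hyM (1 / 2 : ℂ)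
    exact this
  have hy's : IsSelfAdjoint y' := by
    rw [isSelfAdjoint_iff, hy', star_smul, hys.star_eq]
    congr 1
    simp
  have hy'1 : ‖y'‖ ≤ 1 := by
    rw [hy', norm_smul, hhalf]; linarith
  have hy'0 : CE A η y' = 0 := by
    rw [hy', h.CE_smul hyM, hy0, smul_zero]
  obtain ⟨Q, hQ, L, hL⟩ := hC H M A η hA h hη y' hy'M (hB H M A η y hyB) hy's hy'1 hy'0 r hr100
    k hk1 κ₁ hκ₁0 P1
  obtain ⟨z2, hz2M, hz2s, hz2n, hz2, hsum⟩ := hP1 Q hQ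
  obtain ⟨c, S, hcL, hcS, hW⟩ := hCh Q.n r (by omega) L
    (fun _ B => ‖((blk Q B * z2 * blk Q B) ^ m) η‖ ^ 2) (fun _ _ => by positivity)
  have hcart := hL c hcL
  have hp := part_pcol Q c
  refine ⟨pcol Q c, hp, ?_⟩
  -- the three parts
  set t : H →L[ℂ] H := x - y - z2 with ht
  have htM : t ∈ M := sub_mem (sub_mem hx hyM) hz2M
  have hts : IsSelfAdjoint t := (hxs.sub hys).sub hz2s
  have hT : ∑ i, pcol Q c i * x * pcol Q c i = (2 : ℂ) • pav (pcol Q c) y'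
      + pav (pcol Q c) z2 + pav (pcol Q c) t := by
    have h1 : x = (2 : ℂ) • y' + z2 + t := by
      rw [ht, hy', smul_smul]; norm_num
    change pav (pcol Q c) x = _
    conv_lhs => rw [h1]
    rw [pav_add, pav_add, pav_smul]
  rw [hT]
  obtain ⟨q, hqM, hqp, hqη, hqT⟩ := three_parts hM hc Q c S hcS hy'M hz2M htM hy's hz2s hts hs0
    hk1 hm1 (s := s) (k := k) (m := m)
  refine ⟨q, hqM, hqp, ?_, ?_⟩
  · -- the bound at `η`
    have hE1 : 2 * (s * (s⁻¹) ^ (2 * k)) * ‖(pav (pcol Q c) y' ^ k) η‖ ^ 2 ≤ τ + τ := by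
      refine num1 hs0 hk ?_ (by positivity) hb1 ?_ (κ := κ₁) (b := 500 / Real.sqrt r)
      · rw [hκ₁]; field_simp
      · refine le_trans (le_of_eq ?_) hcart
        rw [norm_sq_eq_re]
        congr 1
        have h2 : star (pav (pcol Q c) y' ^ k) = pav (pcol Q c) y' ^ k :=
          ((pav_sa hp hy's).pow k).star_eq
        calc ⟪(pav (pcol Q c) y' ^ k) η, (pav (pcol Q c) y' ^ k) η⟫_ℂ
            = ⟪(star (pav (pcol Q c) y' ^ k)) η, (pav (pcol Q c) y' ^ k) η⟫_ℂ := by rw [h2]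
          _ = ⟪η, (pav (pcol Q c) y' ^ k) ((pav (pcol Q c) y' ^ k) η)⟫_ℂ :=
            inner_star_left _ _ _
          _ = ⟪η, (pav (pcol Q c) y' ^ (2 * k)) η⟫_ℂ := by
            rw [two_mul, pow_add]; rfl
    have hE3 : s * (s⁻¹) ^ (2 * 1) * ‖pav (pcol Q c) t η‖ ^ 2 ≤ τ := by
      refine num3 hs0 hτ0 (norm_nonneg _) ?_ (min_le_right _ _) (κ := κ₃)
      refine (norm_pav_le hM hc hp htM).trans ?_
      have h2 : t η = (x - y - z) η + (z - z2) η := by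
        rw [ht]
        change _ = (x - y - z + (z - z2)) η
        congr 1; abel
      rw [h2]
      exact (norm_add_le _ _).trans (add_le_add hxyz hz2)
    have hE2 : s * (s⁻¹) ^ (2 * m) *
        ∑ i, ‖((blk Q (S i) * z2 * blk Q (S i)) ^ m) η‖ ^ 2 ≤ τ := by
      refine num2 hs0 hm (hW.trans ?_)
      rw [Finset.sum_const, Finset.card_univ, Fintype.card_fin, nsmul_eq_mul]
      refine mul_le_mul_of_nonneg_left (hsum.trans ?_) hr0.le
      refine pow_le_pow_left₀ (by positivity) (pow_le_pow_left₀ (by positivity) ?_ m) 2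
      have := min_le_left (s / 4) (Real.sqrt (τ * s) / 2)
      linarith
    have h7 : ‖(1 - q) η‖ ^ 2 ≤ τ / s := by
      rw [le_div_iff₀ hs0]; linarith
    have h8 : τ / s = δ ^ 2 / 2 := by rw [hτ]; field_simp
    rw [h8] at h7
    exact lt_of_pow_lt_pow_left₀ 2 hδ.le (by nlinarith)
  · refine hqT.trans ?_
    rw [hs]; linarith

/-- the final assembly -/
theorem nce_q_of {Bd : BandPred.{u}} (hB : BdHalf Bd) (hD : DecompProp Bd) (hC : CartanProp Bd)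
    (hX : X2Prop.{u}) (hCh : ChoiceProp) : NCE_q.{u} := by
  intro H _ _ _ M A hM hA η hc hsep x hx hxs hx1 hx0 ε hε hε1 r hr δ hδ
  by_cases hη : η = 0
  · -- everything is zero
    have h1 : (1 : H →L[ℂ] H) = 0 := hsep 1 (one_mem M) (by rw [hη, map_zero])
    have h2 : ∀ T : H →L[ℂ] H, T = 0 := fun T => by rw [← mul_one T, h1, mul_zero]
    refine ⟨fun _ => 0, ⟨fun _ => zero_mem A, fun _ => ⟨by simp [IsIdempotentElem], by simp⟩,
      fun _ _ _ => by simp, by rw [h2 (∑ i : Fin r, (0 : H →L[ℂ] H)), h1]⟩, 0, zero_mem M,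
      ⟨by simp [IsIdempotentElem], by simp⟩, ?_, ?_⟩
    · rw [hη, map_zero, norm_zero]; exact hδ
    · rw [h2 (_ * _), norm_zero]; exact hε.le
  · have hn : 0 < ‖η‖ := norm_pos_iff.2 hη
    set ζ : H := ((‖η‖⁻¹ : ℝ) : ℂ) • η with hζ
    have hζn : ‖ζ‖ = 1 := by
      rw [hζ, norm_smul, Complex.norm_real, Real.norm_of_nonneg (by positivity)]
      field_simp
    have hηζ : η = ((‖η‖ : ℝ) : ℂ) • ζ := by
      rw [hζ, smul_smul, ← Complex.ofReal_mul, mul_inv_cancel₀ hn.ne', Complex.ofReal_one,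
        one_smul]
    have hinner : ∀ T : H →L[ℂ] H, ⟪ζ, T ζ⟫_ℂ
        = ((‖η‖⁻¹ : ℝ) : ℂ) * (((‖η‖⁻¹ : ℝ) : ℂ) * ⟪η, T η⟫_ℂ) := by
      intro T
      rw [hζ, map_smul, inner_smul_left, inner_smul_right, Complex.conj_ofReal]
    have h : NCE M A ζ := by
      refine ⟨hM, ?_, ?_⟩
      · intro a ha y hy
        rw [hinner, hinner, hc a ha y hy]
      · intro y hy hy0
        refine hsep y hy ?_
        rw [hηζ, map_smul, hy0, smul_zero]
    have hx0' : CE A ζ x = 0 := by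
      refine h.CE_unique hx (zero_mem A) fun a ha => ?_
      rw [hinner, hinner, hx0 a ha]
      simp
    obtain ⟨p, hp, q, hqM, hqp, hq1, hq2⟩ := nce_unit hB hD hC hX hCh hA h hζn hx hxs hx1 hx0'
      hε hε1 hr (δ := δ / ‖η‖) (by positivity)
    refine ⟨p, hp, q, hqM, hqp, ?_, hq2⟩
    rw [hηζ, map_smul, norm_smul, Complex.norm_real, Real.norm_of_nonneg hn.le]
    rw [lt_div_iff₀ hn] at hq1
    linarith

end Crest.Agent.R109
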