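import Crest.Agent.R109.AsmIface

/-!
# Row 109, module ASM, part 1: elementary facts on pinchings
-/

set_option autoImplicit false
set_option linter.unusedSectionVars false

namespace Crest.Agent.R109

open Crest.Agent.R124 Crest.Agent.R121
open scoped InnerProductSpace

universe u

variable {H : Type u} [NormedAddCommGroup H] [InnerProductSpace ℂ H] [CompleteSpace H]
variable {M : VonNeumannAlgebra H} {A : StarSubalgebra ℂ (H →L[ℂ] H)} {η : H}

lemma norm_sq_eq_re {v : H} : ‖v‖ ^ 2 = (⟪v, v⟫_ℂ).re := by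
  have := inner_self_eq_norm_sq (𝕜 := ℂ) v
  exact this.symm

lemma inner_star_left (K : H →L[ℂ] H) (v w : H) : ⟪(star K) v, w⟫_ℂ = ⟪v, K w⟫_ℂ :=
  ContinuousLinearMap.adjoint_inner_left K w v

lemma inner_star_right (K : H →L[ℂ] H) (v w : H) : ⟪v, (star K) w⟫_ℂ = ⟪K v, w⟫_ℂ :=
  ContinuousLinearMap.adjoint_inner_right K v w

/-- `‖K p η‖² = re ⟪η, K* K p η⟫` for a projection `p ∈ A` and an `A`-central vector `η` -/
lemma CVec.norm_sq_mul_proj (hM : Masa M A) (hc : CVec M A η) {K p : H →L[ℂ] H} (hK : K ∈ M)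
    (hp : p ∈ A) (hpp : IsStarProjection p) :
    ‖K (p η)‖ ^ 2 = (⟪η, (star K * K * p) η⟫_ℂ).re := by
  have hX : star K * K * p ∈ M := mul_mem (mul_mem (star_mem hK) hK) (hM.le hp)
  have h1 := hc p hp _ hX
  have h2 : star K * K * p * p = star K * K * p := by
    rw [mul_assoc, hpp.isIdempotentElem.eq]
  rw [h2] at h1
  rw [← h1, norm_sq_eq_re]
  congr 1
  change ⟪K (p η), K (p η)⟫_ℂ = ⟪η, p ((star K) (K (p η)))⟫_ℂ
  have h3 : star p = p := hpp.isSelfAdjoint
  calc ⟪K (p η), K (p η)⟫_ℂ = ⟪p η, (star K) (K (p η))⟫_ℂ := (inner_star_right _ _ _).symm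
    _ = ⟪(star p) η, (star K) (K (p η))⟫_ℂ := by rw [h3]
    _ = _ := inner_star_left _ _ _

lemma CVec.sum_norm_sq (hM : Masa M A) (hc : CVec M A η) {K : H →L[ℂ] H} (hK : K ∈ M)
    {ι : Type*} [Fintype ι] {p : ι → H →L[ℂ] H} (hp : Part A 1 p) :
    ∑ i, ‖K (p i η)‖ ^ 2 = ‖K η‖ ^ 2 := by
  have h1 : ∀ i, ‖K (p i η)‖ ^ 2 = (⟪η, (star K * K * p i) η⟫_ℂ).re := fun i =>
    hc.norm_sq_mul_proj hM hK (hp.mem i) (hp.proj i)
  simp only [h1]
  rw [← Complex.re_sum, ← inner_sum]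
  have h2 : ∑ i, (star K * K * p i) η = (star K * K) η := by
    rw [← ContinuousLinearMap.sum_apply, ← Finset.mul_sum, hp.sum, mul_one]
  rw [h2, norm_sq_eq_re]
  congr 1
  change ⟪η, (star K) (K η)⟫_ℂ = _
  exact inner_star_right _ _ _

lemma CVec.norm_mul_proj_le (hM : Masa M A) (hc : CVec M A η) {K p : H →L[ℂ] H} (hK : K ∈ M)
    (hp : p ∈ A) (hpp : IsStarProjection p) : ‖K (p η)‖ ^ 2 ≤ ‖K η‖ ^ 2 := by
  have h1 := hc.norm_sq_mul_proj hM hK hp hpp
  have h2 := hc.norm_sq_mul_proj hM hK (sub_mem (one_mem A) hp) hpp.one_sub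
  have h3 : ‖K η‖ ^ 2 = (⟪η, (star K * K) η⟫_ℂ).re := by
    rw [norm_sq_eq_re]
    congr 1
    exact (inner_star_right _ _ _).symm
  have h4 : (star K * K * p) η + (star K * K * (1 - p)) η = (star K * K) η := by
    rw [← ContinuousLinearMap.add_apply, ← mul_add, add_sub_cancel, mul_one]
  have h5 : ‖K (p η)‖ ^ 2 + ‖K ((1 - p) η)‖ ^ 2 = ‖K η‖ ^ 2 := by
    rw [h1, h2, h3, ← h4, inner_add_right, Complex.add_re]
  nlinarith [sq_nonneg ‖K ((1 - p) η)‖]

section Pav

variable {r : ℕ} {p : Fin r → H →L[ℂ] H}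

lemma pav_add (x y : H →L[ℂ] H) : pav p (x + y) = pav p x + pav p y := by
  simp [pav, mul_add, add_mul, Finset.sum_add_distrib]

lemma pav_sub (x y : H →L[ℂ] H) : pav p (x - y) = pav p x - pav p y := by
  simp [pav, mul_sub, sub_mul, Finset.sum_sub_distrib]

lemma pav_smul (a : ℂ) (x : H →L[ℂ] H) : pav p (a • x) = a • pav p x := by
  simp [pav, Finset.smul_sum]

lemma pav_mem (hM : Masa M A) (hp : Part A 1 p) {x : H →L[ℂ] H} (hx : x ∈ M) : pav p x ∈ M :=
  sum_mem fun i _ => mul_mem (mul_mem (hM.le (hp.mem i)) hx) (hM.le (hp.mem i))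

lemma pav_sa (hp : Part A 1 p) {x : H →L[ℂ] H} (hx : IsSelfAdjoint x) :
    IsSelfAdjoint (pav p x) := by
  rw [isSelfAdjoint_iff]
  simp only [pav, star_sum, star_mul]
  refine Finset.sum_congr rfl fun i _ => ?_
  rw [(hp.proj i).isSelfAdjoint.star_eq, hx.star_eq, mul_assoc]

/-- Pythagoras for a partition of `1` -/
lemma Part.sum_sq (hp : Part A 1 p) (v : H) : ∑ i, ‖p i v‖ ^ 2 = ‖v‖ ^ 2 := by
  have h1 : ∀ i, ‖p i v‖ ^ 2 = (⟪v, p i v⟫_ℂ).re := by
    intro i
    rw [norm_sq_eq_re]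
    congr 1
    have h3 : star (p i) = p i := (hp.proj i).isSelfAdjoint
    calc ⟪p i v, p i v⟫_ℂ = ⟪(star (p i)) v, p i v⟫_ℂ := by rw [h3]
      _ = ⟪v, p i (p i v)⟫_ℂ := inner_star_left _ _ _
      _ = ⟪v, (p i * p i) v⟫_ℂ := rfl
      _ = _ := by rw [(hp.proj i).isIdempotentElem.eq]
  simp only [h1]
  rw [← Complex.re_sum, ← inner_sum, ← ContinuousLinearMap.sum_apply, hp.sum, norm_sq_eq_re]
  rfl

lemma proj_pav (hp : Part A 1 p) (x : H →L[ℂ] H) (i : Fin r) :
    p i * pav p x = p i * x * p i := by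
  rw [pav, Finset.mul_sum, Finset.sum_eq_single i]
  · rw [← mul_assoc, ← mul_assoc, (hp.proj i).isIdempotentElem.eq]
  · intro j _ hj
    rw [← mul_assoc, ← mul_assoc, hp.orth i j (Ne.symm hj), zero_mul, zero_mul]
  · intro h; exact absurd (Finset.mem_univ i) h

/-- pinching is a contraction at an `A`-central vector -/
lemma norm_pav_le (hM : Masa M A) (hc : CVec M A η) (hp : Part A 1 p) {t : H →L[ℂ] H}
    (ht : t ∈ M) : ‖pav p t η‖ ≤ ‖t η‖ := by
  have h1 : ‖pav p t η‖ ^ 2 ≤ ‖t η‖ ^ 2 := by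
    rw [← hp.sum_sq, ← hc.sum_norm_sq hM ht hp]
    refine Finset.sum_le_sum fun i _ => ?_
    have h2 : p i (pav p t η) = p i (t (p i η)) := by
      change (p i * pav p t) η = _
      rw [proj_pav hp]
      rfl
    rw [h2]
    have h3 : ‖p i (t (p i η))‖ ≤ ‖t (p i η)‖ := by
      refine (ContinuousLinearMap.le_opNorm _ _).trans ?_
      have := (hp.proj i).norm_le
      nlinarith [norm_nonneg (t (p i η))]
    exact pow_le_pow_left₀ (norm_nonneg _) h3 2
  exact le_of_sq_le_sq h1 (norm_nonneg _)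

/-- the quadratic form of a pinching -/
lemma re_inner_pav (hp : Part A 1 p) (x : H →L[ℂ] H) (v : H) :
    (⟪pav p x v, v⟫_ℂ).re = ∑ i, (⟪x (p i v), p i v⟫_ℂ).re := by
  rw [pav, ContinuousLinearMap.sum_apply, sum_inner, Complex.re_sum]
  refine Finset.sum_congr rfl fun i _ => ?_
  congr 1
  have h3 : star (p i) = p i := (hp.proj i).isSelfAdjoint
  calc ⟪(p i * x * p i) v, v⟫_ℂ = ⟪p i (x (p i v)), v⟫_ℂ := rfl
    _ = ⟪(star (p i)) (x (p i v)), v⟫_ℂ := by rw [h3]
    _ = _ := inner_star_left _ _ _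

end Pav

/-! ### colourings of the cells of a finite partition -/

section Cells

variable (Q : FP A) {r : ℕ} (c : Fin Q.n → Fin r)

lemma pcol_eq_blk (i : Fin r) : pcol Q c i = blk Q (Finset.univ.filter fun j => c j = i) := by
  rw [pcol, blk, Finset.sum_filter]

lemma e_mul_blk (S : Finset (Fin Q.n)) (j : Fin Q.n) :
    Q.e j * blk Q S = if j ∈ S then Q.e j else 0 := by
  rw [blk, Finset.mul_sum]
  simp only [FP.e_mul]
  rw [Finset.sum_ite_eq]

lemma blk_mul_blk (S T : Finset (Fin Q.n)) : blk Q S * blk Q T = blk Q (S ∩ T) := by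
  rw [blk, Finset.sum_mul]
  simp only [e_mul_blk]
  rw [blk, ← Finset.sum_filter, Finset.filter_mem_eq_inter]

lemma blk_mem (S : Finset (Fin Q.n)) : blk Q S ∈ A := sum_mem fun j _ => Q.part.mem j

lemma blk_proj (S : Finset (Fin Q.n)) : IsStarProjection (blk Q S) := by
  refine ⟨?_, ?_⟩
  · change _ * _ = _
    rw [blk_mul_blk, Finset.inter_self]
  · rw [isSelfAdjoint_iff, blk, star_sum]
    exact Finset.sum_congr rfl fun j _ => Q.star_e j

lemma part_pcol : Part A 1 (pcol Q c) := by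
  refine ⟨fun i => ?_, fun i => ?_, fun i j hij => ?_, ?_⟩
  · rw [pcol_eq_blk]; exact blk_mem Q _
  · rw [pcol_eq_blk]; exact blk_proj Q _
  · rw [pcol_eq_blk, pcol_eq_blk, blk_mul_blk]
    have : (Finset.univ.filter fun l => c l = i) ∩ (Finset.univ.filter fun l => c l = j) = ∅ := by
      ext l
      simp only [Finset.mem_inter, Finset.mem_filter, Finset.mem_univ, true_and,
        Finset.notMem_empty, iff_false, not_and]
      rintro rfl h
      exact hij h
    rw [this, blk, Finset.sum_empty]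
  · simp only [pcol]
    rw [Finset.sum_comm]
    simp only [Finset.sum_ite_eq, Finset.mem_univ, if_true]
    exact Q.part.sum

lemma pcol_mul_blk {S : Finset (Fin Q.n)} {i : Fin r} (h : ∀ j, c j = i → j ∈ S) :
    pcol Q c i * blk Q S = pcol Q c i := by
  rw [pcol_eq_blk, blk_mul_blk]
  congr 1
  ext l
  simp only [Finset.mem_inter, Finset.mem_filter, Finset.mem_univ, true_and]
  exact ⟨fun hl => hl.1, fun hl => ⟨hl, h l hl⟩⟩

lemma blk_mul_pcol {S : Finset (Fin Q.n)} {i : Fin r} (h : ∀ j, c j = i → j ∈ S) :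
    blk Q S * pcol Q c i = pcol Q c i := by
  rw [pcol_eq_blk, blk_mul_blk]
  congr 1
  ext l
  simp only [Finset.mem_inter, Finset.mem_filter, Finset.mem_univ, true_and]
  exact ⟨fun hl => hl.2, fun hl => ⟨h l hl, hl⟩⟩

end Cells

end Crest.Agent.R109
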