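import Crest.Agent.R109.Simple

/-!
# Row 109: spectral cuts
-/

set_option autoImplicit false
set_option linter.unusedSectionVars false

namespace Crest.Agent.R109

open scoped InnerProductSpace
open ContinuousLinearMap Crest.Agent.R124 Crest.Agent.R121

universe u

variable {H : Type u} [NormedAddCommGroup H] [InnerProductSpace ℂ H] [CompleteSpace H]

/-- decomposition of a positive operator at the level `t` -/
lemma tr_dec {K : H →L[ℂ] H} (hK : 0 ≤ K) (t : ℝ) : ∃ g : H →L[ℂ] H, 0 ≤ g ∧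
    K = (t : ℂ) • 1 + tr K t - g ∧ g * rp (tr K t) = 0 ∧ 0 ≤ tr K t := by
  have hsa : IsSelfAdjoint K := hK.isSelfAdjoint
  refine ⟨cfc (fun s : ℝ => max (t - s) 0) K, ?_, ?_, ?_, ?_⟩
  · exact cfc_nonneg (fun s _ => le_max_right _ _)
  · have h1 : tr K t - cfc (fun s : ℝ => max (t - s) 0) K = K - (t : ℂ) • 1 := by
      unfold tr
      rw [← cfc_sub (fun s : ℝ => max (s - t) 0) (fun s : ℝ => max (t - s) 0) K
        (by fun_prop) (by fun_prop)]
      have h2 : (fun s : ℝ => max (s - t) 0 - max (t - s) 0) = fun s : ℝ => s - t := by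
        funext s
        rcases le_total s t with h | h
        · rw [max_eq_right (by linarith), max_eq_left (by linarith)]; ring
        · rw [max_eq_left (by linarith), max_eq_right (by linarith)]; ring
      rw [h2, cfc_sub (fun s : ℝ => s) (fun _ : ℝ => t) K (by fun_prop) (by fun_prop), cfc_id' ℝ K,
        cfc_const t K]
      rw [Algebra.algebraMap_eq_smul_one]
      congr 1
    rw [add_sub_assoc, h1]; abel
  · apply mul_rp_eq_zero
    unfold tr
    rw [← cfc_mul (fun s : ℝ => max (t - s) 0) (fun s : ℝ => max (s - t) 0) K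
        (by fun_prop) (by fun_prop)]
    have h2 : (fun s : ℝ => max (t - s) 0 * max (s - t) 0) = fun _ : ℝ => 0 := by
      funext s
      rcases le_total s t with h | h
      · rw [max_eq_right (show s - t ≤ 0 by linarith)]; ring
      · rw [max_eq_right (show t - s ≤ 0 by linarith)]; ring
    rw [h2, cfc_const_zero]
  · exact cfc_nonneg (fun s _ => le_max_right _ _)

lemma re_inner_self' (v : H) : (⟪v, v⟫_ℂ).re = ‖v‖ ^ 2 := by
  rw [inner_self_eq_norm_sq_to_K]; norm_cast

lemma inner_proj_split {p : H →L[ℂ] H} (hp : IsStarProjection p) (ζ : H) :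
    ‖ζ‖ ^ 2 = ‖p ζ‖ ^ 2 + ‖(1 - p) ζ‖ ^ 2 := by
  have h1 : (⟪ζ, ζ⟫_ℂ).re = ‖ζ‖ ^ 2 := by
    rw [inner_self_eq_norm_sq_to_K]; norm_cast
  rw [← re_inner_proj hp, ← re_inner_proj hp.one_sub, ← h1, sub_apply, inner_sub_left]
  simp

section
variable {K : H →L[ℂ] H} (hK : 0 ≤ K) (t : ℝ)
include hK

lemma rp_tr_comm : K * rp (tr K t) = rp (tr K t) * K := by
  have hsa : star K = K := hK.isSelfAdjoint
  have h : K * tr K t = tr K t * K := by
    have h1 : Commute K K := Commute.refl K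
    exact (Commute.cfc_real h1 _).symm.eq
  exact rp_comm h (by rw [hsa]; exact h)

lemma rp_tr_lower (ζ : H) : t * ‖rp (tr K t) ζ‖ ^ 2 ≤ (⟪K ζ, ζ⟫_ℂ).re := by
  set p := rp (tr K t) with hp
  have hpp : IsStarProjection p := rp_proj _
  obtain ⟨g, hg0, hKd, hgp, htr⟩ := tr_dec hK t
  have hc := rp_tr_comm hK t
  rw [← hp] at hc hgp
  have hs : adjoint p = p := hpp.isSelfAdjoint
  have hpp2 : p * p = p := hpp.isIdempotentElem.eq
  -- split
  have e1 : K = p * K * p + (1 - p) * K * (1 - p) := by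
    have a1 : p * K * p = p * K := by rw [mul_assoc, hc, ← mul_assoc, hpp2]
    have a2 : (1 - p) * K * (1 - p) = K - p * K := by
      have : (1 - p) * K * (1 - p) = K - p * K - K * p + p * K * p := by noncomm_ring
      rw [this, a1, hc]; abel
    rw [a1, a2]; abel
  have e2 : (⟪K ζ, ζ⟫_ℂ).re = (⟪K (p ζ), p ζ⟫_ℂ).re + (⟪K ((1 - p) ζ), (1 - p) ζ⟫_ℂ).re := by
    conv_lhs => rw [e1]
    rw [add_apply, inner_add_left, Complex.add_re]
    have hs' : adjoint (1 - p) = 1 - p := hpp.one_sub.isSelfAdjoint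
    congr 2
    · change ⟪p (K (p ζ)), ζ⟫_ℂ = _
      rw [← adjoint_inner_right, hs]
    · change ⟪(1 - p) (K ((1 - p) ζ)), ζ⟫_ℂ = _
      rw [← adjoint_inner_right, hs']
  have e3 : K (p ζ) = (t : ℂ) • p ζ + (tr K t) (p ζ) := by
    have : K * p = (t : ℂ) • p + tr K t * p := by
      conv_lhs => rw [hKd]
      rw [sub_mul, add_mul, hgp, smul_mul_assoc, one_mul, sub_zero]
    exact congrArg (fun R : H →L[ℂ] H => R ζ) this
  have e4 : (⟪K (p ζ), p ζ⟫_ℂ).re = t * ‖p ζ‖ ^ 2 + (⟪(tr K t) (p ζ), p ζ⟫_ℂ).re := by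
    rw [e3, inner_add_left, inner_smul_left, Complex.add_re, Complex.conj_ofReal,
      Complex.re_ofReal_mul, re_inner_self']
  rw [e2, e4]
  have h1 := re_inner_nonneg htr (p ζ)
  have h2 := re_inner_nonneg hK ((1 - p) ζ)
  linarith

lemma rp_tr_upper (ζ : H) : (⟪K ((1 - rp (tr K t)) ζ), (1 - rp (tr K t)) ζ⟫_ℂ).re
    ≤ t * ‖(1 - rp (tr K t)) ζ‖ ^ 2 := by
  set p := rp (tr K t) with hp
  have hpp : IsStarProjection p := rp_proj _
  obtain ⟨g, hg0, hKd, hgp, htr⟩ := tr_dec hK t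
  have h0 : tr K t * (1 - p) = 0 := by
    have h1 : (1 - p) * tr K t = 0 := by rw [sub_mul, one_mul, hp, rp_mul_self, sub_self]
    have h2 := congrArg star h1
    rw [star_mul, star_zero, tr_sa hK] at h2
    have h3 : star (1 - p) = 1 - p := hpp.one_sub.isSelfAdjoint
    rwa [h3] at h2
  have e3 : K ((1 - p) ζ) = (t : ℂ) • (1 - p) ζ - g ((1 - p) ζ) := by
    have : K * (1 - p) = (t : ℂ) • (1 - p) - g * (1 - p) := by
      conv_lhs => rw [hKd]
      rw [sub_mul, add_mul, h0, smul_mul_assoc, one_mul, add_zero]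
    exact congrArg (fun R : H →L[ℂ] H => R ζ) this
  rw [e3, inner_sub_left, inner_smul_left, Complex.sub_re, Complex.conj_ofReal,
      Complex.re_ofReal_mul, re_inner_self']
  have h1 := re_inner_nonneg hg0 ((1 - p) ζ)
  linarith

end

lemma tr_mul_of {K c : H →L[ℂ] H} (hK : 0 ≤ K) {t : ℝ} (ht : 0 ≤ t) (h : c * K = 0) :
    c * tr K t = 0 := by
  rcases ht.eq_or_lt with h0 | h0
  · rw [← h0, tr_zero hK, h]
  · obtain ⟨d, hd⟩ := tr_factor hK (t := 0) h0
    rw [zero_add] at hd
    rw [hd, tr_zero hK, ← mul_assoc, h, zero_mul]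

/-- a spectral cut of a positive operator below a projection -/
theorem exists_cut (M : VonNeumannAlgebra H) {K q : H →L[ℂ] H} (hK : 0 ≤ K) (hKM : K ∈ M)
    (hq : IsStarProjection q) (hqM : q ∈ M) (hqK : q * K = K) {t : ℝ} (ht : 0 ≤ t) :
    ∃ s ∈ M, IsStarProjection s ∧ q * s = s ∧
      (∀ ζ, t * ‖(q - s) ζ‖ ^ 2 ≤ (⟪K ζ, ζ⟫_ℂ).re) ∧
      (∀ ζ, (⟪K (s ζ), s ζ⟫_ℂ).re ≤ t * ‖s ζ‖ ^ 2) ∧
      (∀ c : H →L[ℂ] H, c * K = K * c → star c * K = K * star c → c * q = q * c → c * s = s * c) := by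
  set p := rp (tr K t) with hp
  have hpp : IsStarProjection p := rp_proj _
  have hps : star p = p := hpp.isSelfAdjoint
  have hqs : star q = q := hq.isSelfAdjoint
  have hpp2 : p * p = p := hpp.isIdempotentElem.eq
  have hqq : q * q = q := hq.isIdempotentElem.eq
  have hqp : q * p = p := by
    have h1 : (1 - q) * K = 0 := by rw [sub_mul, one_mul, hqK, sub_self]
    have h2 : (1 - q) * p = 0 := mul_rp_eq_zero (tr_mul_of hK ht h1)
    rw [sub_mul, one_mul, sub_eq_zero] at h2
    exact h2.symm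
  have hpq : p * q = p := by
    have := congrArg star hqp
    rwa [star_mul, hps, hqs] at this
  have hpM : p ∈ M := rp_mem M (cfc_mem M hKM _)
  have hKs : star K = K := hK.isSelfAdjoint
  have hpar : IsStarProjection (q - p) := by
    refine ⟨?_, ?_⟩
    · change (q - p) * (q - p) = q - p
      have : (q - p) * (q - p) = q * q - q * p - p * q + p * p := by noncomm_ring
      rw [this, hqq, hqp, hpq, hpp2]; abel
    · change star (q - p) = q - p
      rw [star_sub, hps, hqs]
  refine ⟨q - p, sub_mem hqM hpM, hpar, ?_, ?_, ?_, ?_⟩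
  · rw [mul_sub, hqq, hqp]
  · intro ζ
    rw [sub_sub_cancel]
    exact rp_tr_lower hK t ζ
  · intro ζ
    have e : (q - p) ζ = (1 - p) (q ζ) := by
      have : (1 - p) * q = q - p := by rw [sub_mul, one_mul, hpq]
      exact (congrArg (fun R : H →L[ℂ] H => R ζ) this).symm
    rw [e]
    exact rp_tr_upper hK t (q ζ)
  · intro c hc hc' hcq
    have hcp : c * p = p * c := by
      apply rp_comm
      · have h1 : Commute K c := hc.symm
        exact (Commute.cfc_real h1 _).symm.eq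
      · have h1 : Commute K (star c) := hc'.symm
        exact (Commute.cfc_real h1 _).symm.eq
    rw [mul_sub, sub_mul, hcq, hcp]

end Crest.Agent.R109
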