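import Crest.Agent.R109.Asm1
import Crest.Agent.R109.Cut

/-!
# Row 109, module ASM, part 2: spectral cut of a majorant and the moment lemma
-/

set_option autoImplicit false
set_option linter.unusedSectionVars false

namespace Crest.Agent.R109

open Crest.Agent.R124 Crest.Agent.R121
open scoped InnerProductSpace

universe u

variable {H : Type u} [NormedAddCommGroup H] [InnerProductSpace ℂ H] [CompleteSpace H]

/-- norm of a self-adjoint operator from its quadratic form -/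
lemma norm_le_of_quad {S : H →L[ℂ] H} (hS : IsSelfAdjoint S) {c : ℝ} (hc : 0 ≤ c)
    (h : ∀ v, |(⟪S v, v⟫_ℂ).re| ≤ c * ‖v‖ ^ 2) : ‖S‖ ≤ c := by
  have key : ∀ u v : H, (⟪S u, v⟫_ℂ).re ≤ c / 2 * (‖u‖ ^ 2 + ‖v‖ ^ 2) := by
    intro u v
    have h1 := (abs_le.1 (h (u + v))).2
    have h2 := (abs_le.1 (h (u - v))).1
    have h3 : (⟪S v, u⟫_ℂ).re = (⟪S u, v⟫_ℂ).re := by
      have h4 : ⟪S v, u⟫_ℂ = ⟪v, S u⟫_ℂ := by
        have h5 := inner_star_left S v u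
        rwa [hS.star_eq] at h5
      rw [h4, ← inner_conj_symm, Complex.conj_re]
    rw [map_add, inner_add_left, inner_add_right, inner_add_right] at h1
    rw [map_sub, inner_sub_left, inner_sub_right, inner_sub_right] at h2
    simp only [Complex.add_re, Complex.sub_re] at h1 h2
    have h7 : ‖u + v‖ ^ 2 + ‖u - v‖ ^ 2 = 2 * (‖u‖ ^ 2 + ‖v‖ ^ 2) := by
      have h8 := parallelogram_law_with_norm ℂ u v
      nlinarith [h8]
    nlinarith
  refine ContinuousLinearMap.opNorm_le_bound _ hc fun u => ?_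
  by_cases hu : u = 0
  · simp [hu]
  by_cases hSu : S u = 0
  · rw [hSu, norm_zero]; positivity
  have hu' : 0 < ‖u‖ := norm_pos_iff.2 hu
  have hs' : 0 < ‖S u‖ := norm_pos_iff.2 hSu
  have h1 := key u (((‖u‖ / ‖S u‖ : ℝ) : ℂ) • S u)
  have h2 : (⟪S u, ((‖u‖ / ‖S u‖ : ℝ) : ℂ) • S u⟫_ℂ).re = ‖u‖ * ‖S u‖ := by
    rw [inner_smul_right, Complex.re_ofReal_mul, ← norm_sq_eq_re]
    field_simp
  have h3 : ‖((‖u‖ / ‖S u‖ : ℝ) : ℂ) • S u‖ = ‖u‖ := by
    rw [norm_smul, Complex.norm_real, Real.norm_of_nonneg (by positivity)]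
    field_simp
  rw [h2, h3] at h1
  have h4 : ‖u‖ * ‖S u‖ ≤ ‖u‖ * (c * ‖u‖) := by nlinarith
  exact le_of_mul_le_mul_left h4 hu'

/-- the moment lemma: `|t| ≤ s + s (t/s)^(2n)` -/
lemma moment_le {T : H →L[ℂ] H} (hT : IsSelfAdjoint T) {s : ℝ} (hs : 0 < s) {n : ℕ}
    (hn : 1 ≤ n) (v : H) :
    |(⟪T v, v⟫_ℂ).re| ≤ s * ‖v‖ ^ 2 + s * (s⁻¹) ^ (2 * n) * ‖(T ^ n) v‖ ^ 2 := by
  have hreal : ∀ t : ℝ, |t| ≤ s + s * (s⁻¹) ^ (2 * n) * t ^ (2 * n) := by
    intro t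
    rw [mul_assoc, ← mul_pow]
    have h0 : (s⁻¹ * t) ^ (2 * n) = (|t| / s) ^ (2 * n) := by
      rw [pow_mul, pow_mul, div_pow, sq_abs, mul_pow, inv_pow]
      congr 1
      field_simp
    rw [h0]
    rcases le_total |t| s with h | h
    · have : 0 ≤ s * (|t| / s) ^ (2 * n) := by positivity
      linarith
    · have h1 : 1 ≤ |t| / s := by rwa [one_le_div hs]
      have h2 : |t| / s ≤ (|t| / s) ^ (2 * n) := le_self_pow₀ h1 (by omega)
      have h3 : |t| = s * (|t| / s) := by field_simp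
      nlinarith
  have hpow : ‖(T ^ n) v‖ ^ 2 = (⟪(T ^ (2 * n)) v, v⟫_ℂ).re := by
    rw [norm_sq_eq_re]
    congr 1
    have h1 : star (T ^ n) = T ^ n := (hT.pow n).star_eq
    calc ⟪(T ^ n) v, (T ^ n) v⟫_ℂ = ⟪(star (T ^ n)) ((T ^ n) v), v⟫_ℂ :=
          (inner_star_left _ _ _).symm
      _ = _ := by
        rw [h1]
        congr 1
        change (T ^ n * T ^ n) v = _
        rw [← pow_add, two_mul]
  have hpos : ∀ σ : ℝ, (σ = 1 ∨ σ = -1) →
      0 ≤ (s : ℝ) • (1 : H →L[ℂ] H) + (s * (s⁻¹) ^ (2 * n)) • T ^ (2 * n) - σ • T := by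
    intro σ hσ
    have h1 : cfc (fun t : ℝ => s + s * (s⁻¹) ^ (2 * n) * t ^ (2 * n) - σ * t) T
        = (s : ℝ) • (1 : H →L[ℂ] H) + (s * (s⁻¹) ^ (2 * n)) • T ^ (2 * n) - σ • T := by
      rw [cfc_sub (fun t : ℝ => s + s * (s⁻¹) ^ (2 * n) * t ^ (2 * n)) (fun t : ℝ => σ * t) T
        (by fun_prop) (by fun_prop),
        cfc_add (a := T) (fun _ : ℝ => s) (fun t : ℝ => s * (s⁻¹) ^ (2 * n) * t ^ (2 * n))
        (by fun_prop) (by fun_prop), cfc_const s T, Algebra.algebraMap_eq_smul_one,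
        cfc_const_mul _ (fun t : ℝ => t ^ (2 * n)) T (by fun_prop), cfc_pow_id T (2 * n),
        cfc_const_mul _ (fun t : ℝ => t) T (by fun_prop), cfc_id' ℝ T]
    rw [← h1]
    refine cfc_nonneg fun t _ => ?_
    have h2 := hreal t
    have h3 := abs_le.1 h2
    rcases hσ with rfl | rfl
    · linarith [h3.2]
    · linarith [h3.1]
  have hq : ∀ σ : ℝ, (σ = 1 ∨ σ = -1) → σ * (⟪T v, v⟫_ℂ).re ≤
      s * ‖v‖ ^ 2 + s * (s⁻¹) ^ (2 * n) * ‖(T ^ n) v‖ ^ 2 := by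
    intro σ hσ
    have h1 := re_inner_nonneg (hpos σ hσ) v
    have h2 : ((s : ℝ) • (1 : H →L[ℂ] H) + (s * (s⁻¹) ^ (2 * n)) • T ^ (2 * n) - σ • T) v
        = (s : ℂ) • v + ((s * (s⁻¹) ^ (2 * n) : ℝ) : ℂ) • (T ^ (2 * n)) v - (σ : ℂ) • T v := by
      simp only [ContinuousLinearMap.sub_apply, ContinuousLinearMap.add_apply,
        ContinuousLinearMap.smul_apply, ContinuousLinearMap.one_apply]
      simp only [RCLike.real_smul_eq_coe_smul (K := ℂ)]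
      rfl
    rw [h2, inner_sub_left, inner_add_left, inner_smul_left, inner_smul_left, inner_smul_left,
      Complex.conj_ofReal, Complex.conj_ofReal, Complex.conj_ofReal, Complex.sub_re,
      Complex.add_re, Complex.re_ofReal_mul, Complex.re_ofReal_mul, Complex.re_ofReal_mul,
      ← norm_sq_eq_re, ← hpow] at h1
    linarith
  rw [abs_le]
  have h1 := hq 1 (Or.inl rfl)
  have h2 := hq (-1) (Or.inr rfl)
  constructor <;> linarith

/-- spectral cut of a majorant -/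
theorem gamma_cut (M : VonNeumannAlgebra H) {T : H →L[ℂ] H} (hTs : IsSelfAdjoint T)
    {ι : Type*} [Fintype ι] {B : ι → H →L[ℂ] H} (hB : ∀ j, B j ∈ M) {e : ℝ} (he : 0 < e)
    (h : ∀ v, |(⟪T v, v⟫_ℂ).re| ≤ e * ‖v‖ ^ 2 + ∑ j, ‖B j v‖ ^ 2) (η : H) :
    ∃ q ∈ M, IsStarProjection q ∧ e * ‖(1 - q) η‖ ^ 2 ≤ ∑ j, ‖B j η‖ ^ 2 ∧
      ‖q * T * q‖ ≤ 2 * e := by
  set Γ : H →L[ℂ] H := ∑ j, star (B j) * B j with hΓ
  have hΓ0 : 0 ≤ Γ := Finset.sum_nonneg fun j _ => star_mul_self_nonneg _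
  have hΓM : Γ ∈ M := sum_mem fun j _ => mul_mem (star_mem (hB j)) (hB j)
  have hquad : ∀ v, (⟪Γ v, v⟫_ℂ).re = ∑ j, ‖B j v‖ ^ 2 := by
    intro v
    rw [hΓ, ContinuousLinearMap.sum_apply, sum_inner, Complex.re_sum]
    refine Finset.sum_congr rfl fun j _ => ?_
    rw [norm_sq_eq_re]
    congr 1
    exact inner_star_left _ _ _
  have htrM : tr Γ e ∈ M := R124.cfc_mem M hΓM _
  set p : H →L[ℂ] H := rp (tr Γ e) with hp
  have hpp : IsStarProjection p := rp_proj _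
  have hpM : p ∈ M := R121.rp_mem M htrM
  refine ⟨1 - p, sub_mem (one_mem M) hpM, hpp.one_sub, ?_, ?_⟩
  · rw [sub_sub_cancel, ← hquad]
    exact rp_tr_lower hΓ0 e η
  · have hqs : star (1 - p) = 1 - p := hpp.one_sub.isSelfAdjoint.star_eq
    have hS : IsSelfAdjoint ((1 - p) * T * (1 - p)) := by
      rw [isSelfAdjoint_iff, star_mul, star_mul, hqs, hTs.star_eq, mul_assoc]
    refine norm_le_of_quad hS (by positivity) fun v => ?_
    have h1 : ⟪((1 - p) * T * (1 - p)) v, v⟫_ℂ = ⟪T ((1 - p) v), (1 - p) v⟫_ℂ := by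
      calc ⟪((1 - p) * T * (1 - p)) v, v⟫_ℂ = ⟪(star (1 - p)) (T ((1 - p) v)), v⟫_ℂ := by
            rw [hqs]; rfl
        _ = _ := inner_star_left _ _ _
    rw [h1]
    refine (h _).trans ?_
    rw [← hquad]
    have h2 := rp_tr_upper hΓ0 e v
    rw [← hp] at h2
    have h3 : ‖(1 - p) v‖ ^ 2 ≤ ‖v‖ ^ 2 := norm_proj_le hpp.one_sub v
    nlinarith
end Crest.Agent.R109
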