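import Crest.Agent.R109.CE

/-!
# Row 109, module ASM: the interface of the final assembly of `NCE_q`
(list form, notes 9244 and 9432; frozen 13:02)

All definitions are real (no `sorry`). `Asm.lean` proves
`nce_q_of : BdHalf Bd → DecompProp Bd → CartanProp Bd → X2Prop → ChoiceProp → NCE_q`
for every predicate `Bd` ("banded", `y ∈ N0`).
-/

set_option autoImplicit false
set_option linter.unusedSectionVars false

namespace Crest.Agent.R109

open scoped InnerProductSpace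

universe u

section

variable {H : Type u} [NormedAddCommGroup H] [InnerProductSpace ℂ H] [CompleteSpace H]

/-- the pinching `∑ i, p i * x * p i` -/
noncomputable def pav {r : ℕ} (p : Fin r → H →L[ℂ] H) (x : H →L[ℂ] H) : H →L[ℂ] H :=
  ∑ i, p i * x * p i

/-- union `L_S` of the cells of `P` with index in `S` -/
noncomputable def blk {A : StarSubalgebra ℂ (H →L[ℂ] H)} (P : FP A) (S : Finset (Fin P.n)) :
    H →L[ℂ] H := ∑ j ∈ S, P.e j

/-- colour projections of a colouring `c` of the cells of `P` -/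
noncomputable def pcol {A : StarSubalgebra ℂ (H →L[ℂ] H)} (P : FP A) {r : ℕ}
    (c : Fin P.n → Fin r) (i : Fin r) : H →L[ℂ] H := ∑ j, if c j = i then P.e j else 0

/-- the diffuse property (DIFF) -/
def Diff (A : StarSubalgebra ℂ (H →L[ℂ] H)) (η : H) (z : H →L[ℂ] H) : Prop :=
  ∀ κ : ℝ, 0 < κ → ∃ P : FP A, ∑ i, ‖CE A η (z * P.e i * z) η‖ ^ 2 ≤ κ

end

/-- sequential lists: the admissible colours of the cell `j` depend only on the colours of the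
earlier cells, and at least half of the colours are admissible -/
structure Lists (n r : ℕ) where
  Adm : Fin n → (Fin n → Fin r) → Finset (Fin r)
  past : ∀ (j : Fin n) (c c' : Fin n → Fin r), (∀ l, l < j → c l = c' l) → Adm j c = Adm j c'
  card : ∀ (j : Fin n) (c : Fin n → Fin r), r ≤ 2 * (Adm j c).card

/-- predicates on operators ("banded") -/
def BandPred : Type (u + 1) :=
  ∀ (H : Type u) [NormedAddCommGroup H] [InnerProductSpace ℂ H] [CompleteSpace H],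
    VonNeumannAlgebra H → StarSubalgebra ℂ (H →L[ℂ] H) → H → (H →L[ℂ] H) → Prop

/-- banded elements can be halved -/
def BdHalf (Bd : BandPred.{u}) : Prop :=
  ∀ (H : Type u) [NormedAddCommGroup H] [InnerProductSpace ℂ H] [CompleteSpace H]
    (M : VonNeumannAlgebra H) (A : StarSubalgebra ℂ (H →L[ℂ] H)) (η : H) (y : H →L[ℂ] H),
    Bd H M A η y → Bd H M A η ((1 / 2 : ℂ) • y)

/-- structure theory: `x = y + z + t`, `y` banded, `z` diffuse, `t = x - y - z` small at `η` -/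
def DecompProp (Bd : BandPred.{u}) : Prop :=
  ∀ (H : Type u) [NormedAddCommGroup H] [InnerProductSpace ℂ H] [CompleteSpace H]
    (M : VonNeumannAlgebra H) (A : StarSubalgebra ℂ (H →L[ℂ] H)) (η : H), Amp M → NCE M A η →
    ‖η‖ = 1 → ∀ x ∈ M, IsSelfAdjoint x → ‖x‖ ≤ 1 → CE A η x = 0 → ∀ κ : ℝ, 0 < κ →
    ∃ y ∈ M, Bd H M A η y ∧ IsSelfAdjoint y ∧ ‖y‖ ≤ 2 ∧ CE A η y = 0 ∧
    ∃ z ∈ M, IsSelfAdjoint z ∧ ‖z‖ ≤ 3 ∧ Diff A η z ∧ ‖(x - y - z) η‖ ≤ κ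

/-- the Cartan colouring theorem, list form -/
def CartanProp (Bd : BandPred.{u}) : Prop :=
  ∀ (H : Type u) [NormedAddCommGroup H] [InnerProductSpace ℂ H] [CompleteSpace H]
    (M : VonNeumannAlgebra H) (A : StarSubalgebra ℂ (H →L[ℂ] H)) (η : H), Amp M → NCE M A η →
    ‖η‖ = 1 → ∀ y ∈ M, Bd H M A η y → IsSelfAdjoint y → ‖y‖ ≤ 1 → CE A η y = 0 →
    ∀ r : ℕ, 100 ≤ r → ∀ n : ℕ, 1 ≤ n → ∀ κ : ℝ, 0 < κ → ∀ P1 : FP A,
    ∃ Q : FP A, P1 ≤ Q ∧ ∃ L : Lists Q.n r, ∀ c : Fin Q.n → Fin r, (∀ j, c j ∈ L.Adm j c) →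
      (⟪η, (pav (pcol Q c) y ^ (2 * n)) η⟫_ℂ).re ≤ (500 / Real.sqrt r) ^ (2 * n) + κ

/-- the diffuse part, pure form: a Bernoulli(`2/r`) set of cells; `z2` = small block
approximation of `z` -/
def X2Prop : Prop :=
  ∀ (H : Type u) [NormedAddCommGroup H] [InnerProductSpace ℂ H] [CompleteSpace H]
    (M : VonNeumannAlgebra H) (A : StarSubalgebra ℂ (H →L[ℂ] H)) (η : H), Amp M → NCE M A η →
    ‖η‖ = 1 → ∀ z ∈ M, IsSelfAdjoint z → ‖z‖ ≤ 3 → Diff A η z →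
    ∀ r : ℕ, 100 ≤ r → ∀ n : ℕ, 1 ≤ n → ∀ κ : ℝ, 0 < κ →
    ∃ P1 : FP A, ∀ Q : FP A, P1 ≤ Q → ∃ z2 ∈ M, IsSelfAdjoint z2 ∧ ‖z2‖ ≤ ‖z‖ ∧
      ‖(z - z2) η‖ ≤ κ ∧
      ∑ S : Finset (Fin Q.n), (2 / (r : ℝ)) ^ S.card * (1 - 2 / (r : ℝ)) ^ (Q.n - S.card) *
        ‖((blk Q S * z2 * blk Q S) ^ n) η‖ ^ 2 ≤
        ((6 * Real.sqrt (2 / r) + κ) ^ n) ^ 2

/-- helper171's domination trick -/
def ChoiceProp : Prop :=
  ∀ (N r : ℕ), 2 ≤ r → ∀ (L : Lists N r) (W : Fin r → Finset (Fin N) → ℝ),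
    (∀ i S, 0 ≤ W i S) → ∃ (c : Fin N → Fin r) (S : Fin r → Finset (Fin N)),
      (∀ j, c j ∈ L.Adm j c) ∧ (∀ j, j ∈ S (c j)) ∧
      ∑ i, W i (S i) ≤ ∑ i, ∑ B : Finset (Fin N),
        (2 / (r : ℝ)) ^ B.card * (1 - 2 / (r : ℝ)) ^ (N - B.card) * W i B

end Crest.Agent.R109
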