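import Mathlib.Topology.ExtremallyDisconnected
import Mathlib.Topology.Homeomorph.Lemmas
import Mathlib.Order.Zorn

/-!
# Row 109: Frolik's theorem for homeomorphisms of extremally disconnected spaces

The set of non-fixed points of a homeomorphism `T` of an extremally disconnected Hausdorff space is
clopen, and it is the union of the three clopen sets `U`, `T U`, `T⁻¹ U`, with `U` disjoint from
`T U`.
-/

set_option autoImplicit false

namespace Crest.Agent.R109.Ball

open Set

variable {X : Type*} [TopologicalSpace X]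

theorem isOpen_disjoint_closure [ExtremallyDisconnected X] {U V : Set X} (hU : IsOpen U)
    (hV : IsOpen V) (h : Disjoint U V) : Disjoint (closure U) (closure V) := by
  have h1 : Disjoint (closure U) V := h.closure_left hV
  exact h1.closure_right (ExtremallyDisconnected.open_closure U hU)

/-- **Frolik's theorem** -/
theorem frolik [T2Space X] [ExtremallyDisconnected X] (T : X ≃ₜ X) :
    ∃ U : Set X, IsClopen U ∧ Disjoint U (T '' U) ∧ {x | T x ≠ x} = U ∪ T '' U ∪ T ⁻¹' U := by
  obtain ⟨U, -, hU, hmax⟩ := zorn_subset_nonempty {U : Set X | IsOpen U ∧ Disjoint U (T '' U)}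
    (by
      intro c hc hchain _
      refine ⟨⋃₀ c, ⟨isOpen_sUnion fun s hs => (hc hs).1, ?_⟩, fun s hs => subset_sUnion_of_mem hs⟩
      rw [Set.disjoint_left]
      rintro x ⟨s, hs, hxs⟩ ⟨y, ⟨t, ht, hyt⟩, rfl⟩
      rcases hchain.total hs ht with h | h
      · exact Set.disjoint_left.1 (hc ht).2 (h hxs) ⟨y, hyt, rfl⟩
      · exact Set.disjoint_left.1 (hc hs).2 hxs ⟨y, h hyt, rfl⟩)
    ∅ ⟨isOpen_empty, by simp⟩
  have hmax' : ∀ V : Set X, IsOpen V → Disjoint V (T '' V) → U ⊆ V → V = U := fun V h1 h2 h3 =>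
    Subset.antisymm (hmax ⟨h1, h2⟩ h3) h3
  have hTU : IsOpen (T '' U) := T.isOpen_image.2 hU.1
  -- `U` is clopen
  have hcl : closure U = U := by
    apply hmax' _ (ExtremallyDisconnected.open_closure U hU.1) _ subset_closure
    rw [T.image_closure]
    exact isOpen_disjoint_closure hU.1 hTU hU.2
  have hclop : IsClopen U := ⟨closure_eq_iff_isClosed.1 hcl, hU.1⟩
  have hTc : IsClopen (T '' U) := ⟨T.isClosed_image.2 hclop.1, hTU⟩
  have hTi : IsClopen (T ⁻¹' U) := hclop.preimage T.continuous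
  refine ⟨U, hclop, hU.2, Subset.antisymm ?_ ?_⟩
  · intro x hx
    by_contra hxU
    set W : Set X := (U ∪ T '' U ∪ T ⁻¹' U)ᶜ with hW
    have hWo : IsOpen W := ((hclop.union hTc).union hTi).1.isOpen_compl
    obtain ⟨N1, N2, hN1, hN2, hx1, hx2, hN⟩ := t2_separation (show T x ≠ x from hx)
    -- N = W ∩ N2 ∩ T⁻¹ N1
    set N : Set X := W ∩ N2 ∩ T ⁻¹' N1 with hNdef
    have hNo : IsOpen N := (hWo.inter hN2).inter (hN1.preimage T.continuous)
    have hxN : x ∈ N := ⟨⟨hxU, hx2⟩, hx1⟩
    have h1 := hmax' (U ∪ N) (hU.1.union hNo) (by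
      rw [Set.disjoint_left]
      rintro y (hy | hy) ⟨z, (hz | hz), rfl⟩
      · exact Set.disjoint_left.1 hU.2 hy ⟨z, hz, rfl⟩
      · exact hz.1.1 (Or.inr hy)
      · exact hy.1.1 (Or.inl (Or.inr ⟨z, hz, rfl⟩))
      · exact Set.disjoint_left.1 hN hz.2 hy.1.2) subset_union_left
    have : x ∈ U := by rw [← h1]; exact Or.inr hxN
    exact hxU (Or.inl (Or.inl this))
  · rintro x ((hx | hx) | hx) hfix
    · exact Set.disjoint_left.1 hU.2 hx ⟨x, hx, hfix⟩
    · obtain ⟨y, hy, rfl⟩ := hx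
      have : T y = y := T.injective hfix
      rw [this] at hfix
      exact Set.disjoint_left.1 hU.2 hy ⟨y, hy, this⟩
    · have h2 : T x ∈ U := hx
      rw [hfix] at h2
      exact Set.disjoint_left.1 hU.2 h2 ⟨x, h2, hfix⟩

theorem frolik_clopen [T2Space X] [ExtremallyDisconnected X] (T : X ≃ₜ X) :
    IsClopen {x | T x = x} := by
  obtain ⟨U, hU, -, h⟩ := frolik T
  have h1 : IsClopen (U ∪ T '' U ∪ T ⁻¹' U) :=
    (hU.union ⟨T.isClosed_image.2 hU.1, T.isOpen_image.2 hU.2⟩).union (hU.preimage T.continuous)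
  rw [← h] at h1
  have : {x | T x = x} = {x | T x ≠ x}ᶜ := by ext x; simp
  rw [this]
  exact h1.compl

end Crest.Agent.R109.Ball
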