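import Crest.Agent.R109.Defs
import Mathlib.Topology.ExtremallyDisconnected
import Mathlib.Analysis.CStarAlgebra.GelfandDuality
import Mathlib.Topology.ContinuousMap.StarOrdered
import Mathlib.Topology.ContinuousMap.ContinuousSqrt
import Mathlib.Topology.LocallyConstant.Algebra
import Mathlib.Topology.Separation.Profinite

/-!
# Row 109: the spectrum of a MASA

For a MASA `A` of a von Neumann algebra `M` on `H`: an isometric `*`-isomorphism `Φ : C(X) → A` with
`X` compact Hausdorff and extremally disconnected, and the normality lemma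
(`X` is hyperstonean seen from vectors).
-/

set_option autoImplicit false
set_option linter.unusedSectionVars false
set_option linter.style.haveILetI false

namespace Crest.Agent.R109

open scoped InnerProductSpace ComplexOrder
open ContinuousLinearMap Set TopologicalSpace

universe u

variable {H : Type u} [NormedAddCommGroup H] [InnerProductSpace ℂ H] [CompleteSpace H]
variable {M : VonNeumannAlgebra H} {A : StarSubalgebra ℂ (H →L[ℂ] H)}

/-! ### projections onto closed spans -/

/-- projection onto the closed span of a set of vectors -/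
noncomputable def pspan (W : Set H) : H →L[ℂ] H :=
  haveI : CompleteSpace (Submodule.span ℂ W).topologicalClosure :=
    (Submodule.isClosed_topologicalClosure _).completeSpace_coe
  (Submodule.span ℂ W).topologicalClosure.starProjection

lemma pspan_proj (W : Set H) : IsStarProjection (pspan W) := by
  have : CompleteSpace (Submodule.span ℂ W).topologicalClosure :=
    (Submodule.isClosed_topologicalClosure _).completeSpace_coe
  exact isStarProjection_starProjection

lemma pspan_self {W : Set H} {w : H} (hw : w ∈ W) : pspan W w = w := by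
  have : CompleteSpace (Submodule.span ℂ W).topologicalClosure :=
    (Submodule.isClosed_topologicalClosure _).completeSpace_coe
  exact Submodule.starProjection_eq_self_iff.2
    (Submodule.le_topologicalClosure _ (Submodule.subset_span hw))

lemma pspan_apply_mem (W : Set H) (t : H) :
    pspan W t ∈ closure ((Submodule.span ℂ W : Submodule ℂ H) : Set H) := by
  have : CompleteSpace (Submodule.span ℂ W).topologicalClosure :=
    (Submodule.isClosed_topologicalClosure _).completeSpace_coe
  have h := Submodule.starProjection_apply_mem (Submodule.span ℂ W).topologicalClosure t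
  have h2 : pspan W t ∈ ((Submodule.span ℂ W).topologicalClosure : Set H) := h
  rwa [Submodule.topologicalClosure_coe] at h2

lemma mul_pspan_eq_zero {W : Set H} {B : H →L[ℂ] H} (h : ∀ w ∈ W, B w = 0) : B * pspan W = 0 := by
  ext t
  change B (pspan W t) = 0
  have hcl : IsClosed {z : H | B z = 0} := isClosed_eq (by fun_prop) continuous_const
  refine closure_minimal ?_ hcl (pspan_apply_mem W t)
  intro w hw
  refine Submodule.span_induction (p := fun y _ => B y = 0) ?_ ?_ ?_ ?_ hw
  · exact fun w hw => h w hw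
  · exact map_zero B
  · intro a b _ _ ha hb; rw [map_add, ha, hb, add_zero]
  · intro c a _ ha; rw [map_smul, ha, smul_zero]

lemma pspan_comm {W : Set H} {T : H →L[ℂ] H} (h1 : ∀ w ∈ W, T w ∈ W) (h2 : ∀ w ∈ W, star T w ∈ W) :
    T * pspan W = pspan W * T := by
  have hs : star (pspan W) = pspan W := (pspan_proj W).isSelfAdjoint
  have key : ∀ T : H →L[ℂ] H, (∀ w ∈ W, T w ∈ W) → (1 - pspan W) * T * pspan W = 0 := by
    intro T hT
    apply mul_pspan_eq_zero
    intro w hw
    change T w - pspan W (T w) = 0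
    rw [sub_eq_zero, pspan_self (hT w hw)]
  have h1 := key T h1
  have h2 := congrArg star (key (star T) h2)
  rw [star_mul, star_mul, star_star, star_sub, star_one, hs, star_zero] at h2
  rw [sub_mul, one_mul, sub_mul, sub_eq_zero] at h1
  rw [mul_sub, mul_one, mul_sub, sub_eq_zero, ← mul_assoc] at h2
  exact h1.trans h2.symm

/-! ### the MASA is a commutative C*-algebra -/

lemma commutant_comm {x T : H →L[ℂ] H} (hx : x ∈ M) (hT : T ∈ M.commutant) : T * x = x * T :=
  ((VonNeumannAlgebra.mem_commutant_iff.1 hT) x hx).symm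

lemma mem_of_commutant {x : H →L[ℂ] H} (h : ∀ T ∈ M.commutant, T * x = x * T) : x ∈ M := by
  rw [← VonNeumannAlgebra.commutant_commutant M]
  exact VonNeumannAlgebra.mem_commutant_iff.2 fun T hT => h T hT

/-- an operator commuting with the whole commutant of the MASA belongs to it -/
lemma Masa.mem_of_comm (hA : Masa M A) {y : H →L[ℂ] H}
    (h : ∀ T : H →L[ℂ] H, (∀ a ∈ A, a * T = T * a) → T * y = y * T) : y ∈ A := by
  refine hA.max y (mem_of_commutant fun T hT => h T fun a ha => ?_) fun a ha => h a fun b hb => ?_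
  · exact (commutant_comm (hA.le ha) hT).symm
  · exact hA.comm b hb a ha

lemma Masa.isClosed (hA : Masa M A) : IsClosed (A : Set (H →L[ℂ] H)) := by
  have : (A : Set (H →L[ℂ] H)) =
      ⋂ (T : {T : H →L[ℂ] H // ∀ a ∈ A, a * T = T * a}), {y | T.1 * y = y * T.1} := by
    ext y
    constructor
    · intro hy
      exact mem_iInter.2 fun T => (T.2 y hy).symm
    · intro hy
      exact hA.mem_of_comm fun T hT => mem_iInter.1 hy ⟨T, hT⟩
  rw [this]
  exact isClosed_iInter fun T => isClosed_eq (continuous_const.mul continuous_id)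
    (continuous_id.mul continuous_const)

/-- a model of a commutative operator algebra as `C(X)` -/
structure Model (A : StarSubalgebra ℂ (H →L[ℂ] H)) where
  X : Type u
  [top : TopologicalSpace X]
  [comp : CompactSpace X]
  [t2 : T2Space X]
  Φ : C(X, ℂ) →⋆ₐ[ℂ] (H →L[ℂ] H)
  iso : ∀ f, ‖Φ f‖ = ‖f‖
  mem_iff : ∀ a, a ∈ A ↔ ∃ f, Φ f = a

attribute [instance] Model.top Model.comp Model.t2

theorem Masa.exists_model (hA : Masa M A) : Nonempty (Model A) := by
  have hcl : IsClosed (A : Set (H →L[ℂ] H)) := hA.isClosed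
  letI : CStarAlgebra A := StarSubalgebra.cstarAlgebra A
  letI : CommCStarAlgebra A :=
    { (inferInstance : CStarAlgebra A) with
      mul_comm := fun a b => Subtype.ext (hA.comm a a.2 b b.2) }
  let G := gelfandStarTransform A
  refine ⟨{ X := WeakDual.characterSpace ℂ A
            Φ := A.subtype.comp (G.symm : C(WeakDual.characterSpace ℂ A, ℂ) →⋆ₐ[ℂ] A)
            iso := ?_
            mem_iff := ?_ }⟩
  · intro f
    change ‖(G.symm f : A)‖ = ‖f‖
    have h := (AddMonoidHomClass.isometry_iff_norm (WeakDual.gelfandTransform ℂ A)).1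
      (gelfandTransform_isometry A) (G.symm f)
    have h2 : WeakDual.gelfandTransform ℂ A (G.symm f) = f := G.apply_symm_apply f
    rw [h2] at h
    exact h.symm
  · intro a
    constructor
    · intro ha
      refine ⟨G ⟨a, ha⟩, ?_⟩
      change ((G.symm (G ⟨a, ha⟩) : A) : H →L[ℂ] H) = a
      rw [G.symm_apply_apply]
    · rintro ⟨f, rfl⟩
      exact (G.symm f).2

namespace Model

variable (m : Model A)

lemma mem (f : C(m.X, ℂ)) : m.Φ f ∈ A := (m.mem_iff _).2 ⟨f, rfl⟩

lemma inj : Function.Injective m.Φ := by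
  intro f g h
  rw [← sub_eq_zero, ← norm_eq_zero, ← m.iso, map_sub, h, sub_self, norm_zero]

lemma eq_zero_iff {f : C(m.X, ℂ)} : m.Φ f = 0 ↔ f = 0 := by
  rw [← map_zero m.Φ]; exact m.inj.eq_iff

/-- indicator function of a clopen set -/
noncomputable def ind (V : Clopens m.X) : C(m.X, ℂ) :=
  ⟨Set.indicator (V : Set m.X) 1, by
    have := (LocallyConstant.charFn ℂ V.isClopen).continuous
    rwa [LocallyConstant.coe_charFn] at this⟩

lemma ind_of_mem {V : Clopens m.X} {x : m.X} (h : x ∈ V) : m.ind V x = 1 :=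
  Set.indicator_of_mem (show x ∈ (V : Set m.X) from h) _

lemma ind_of_notMem {V : Clopens m.X} {x : m.X} (h : x ∉ V) : m.ind V x = 0 :=
  Set.indicator_of_notMem (show x ∉ (V : Set m.X) from h) _

lemma ind_eq_one_iff {V : Clopens m.X} {x : m.X} : m.ind V x = 1 ↔ x ∈ V := by
  by_cases h : x ∈ V
  · simp [m.ind_of_mem h, h]
  · simp [m.ind_of_notMem h, h]

lemma ind_apply (V : Clopens m.X) (x : m.X) [Decidable (x ∈ V)] :
    m.ind V x = if x ∈ V then 1 else 0 := by
  split_ifs with h
  · exact m.ind_of_mem h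
  · exact m.ind_of_notMem h

lemma ind_inf (V W : Clopens m.X) : m.ind (V ⊓ W) = m.ind V * m.ind W := by
  classical
  ext x
  have : x ∈ V ⊓ W ↔ x ∈ V ∧ x ∈ W := Iff.rfl
  simp only [ContinuousMap.mul_apply, ind_apply, this]
  by_cases h1 : x ∈ V <;> by_cases h2 : x ∈ W <;> simp [h1, h2]

lemma ind_top : m.ind ⊤ = 1 := by
  ext x
  rw [m.ind_of_mem (show x ∈ (⊤ : Clopens m.X) from trivial)]
  rfl

lemma ind_bot : m.ind ⊥ = 0 := by
  ext x
  rw [m.ind_of_notMem (show x ∉ (⊥ : Clopens m.X) from fun h => h)]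
  rfl

lemma ind_compl (V : Clopens m.X) : m.ind Vᶜ = 1 - m.ind V := by
  classical
  ext x
  have : x ∈ Vᶜ ↔ ¬ x ∈ V := Iff.rfl
  simp only [ContinuousMap.sub_apply, ContinuousMap.one_apply, ind_apply, this]
  by_cases h1 : x ∈ V <;> simp [h1]

lemma ind_sup (V W : Clopens m.X) (h : Disjoint V W) : m.ind (V ⊔ W) = m.ind V + m.ind W := by
  classical
  ext x
  have h1 : x ∈ V ⊔ W ↔ x ∈ V ∨ x ∈ W := Iff.rfl
  have h2 : ¬ (x ∈ V ∧ x ∈ W) := fun hx => by
    have : x ∈ V ⊓ W := hx
    rw [disjoint_iff.1 h] at this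
    exact this
  simp only [ContinuousMap.add_apply, ind_apply, h1]
  by_cases h3 : x ∈ V <;> by_cases h4 : x ∈ W <;> simp_all

lemma star_ind (V : Clopens m.X) : star (m.ind V) = m.ind V := by
  classical
  ext x
  rw [ContinuousMap.star_apply, ind_apply]
  split_ifs <;> simp

/-- the projection of `A` given by a clopen set -/
noncomputable def pr (V : Clopens m.X) : H →L[ℂ] H := m.Φ (m.ind V)

lemma pr_mem (V : Clopens m.X) : m.pr V ∈ A := m.mem _

lemma pr_inf (V W : Clopens m.X) : m.pr (V ⊓ W) = m.pr V * m.pr W := by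
  rw [pr, ind_inf, map_mul]; rfl

lemma pr_top : m.pr ⊤ = 1 := by rw [pr, ind_top, map_one]

lemma pr_bot : m.pr ⊥ = 0 := by rw [pr, ind_bot, map_zero]

lemma pr_compl (V : Clopens m.X) : m.pr Vᶜ = 1 - m.pr V := by
  rw [pr, ind_compl, map_sub, map_one]; rfl

lemma pr_sup (V W : Clopens m.X) (h : Disjoint V W) : m.pr (V ⊔ W) = m.pr V + m.pr W := by
  rw [pr, ind_sup _ _ _ h, map_add]; rfl

lemma star_pr (V : Clopens m.X) : star (m.pr V) = m.pr V := by
  rw [pr, ← map_star, star_ind]

lemma pr_idem (V : Clopens m.X) : m.pr V * m.pr V = m.pr V := by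
  rw [← pr_inf, inf_idem]

lemma pr_proj (V : Clopens m.X) : IsStarProjection (m.pr V) :=
  ⟨m.pr_idem V, m.star_pr V⟩

lemma pr_mul_of_disjoint {V W : Clopens m.X} (h : Disjoint V W) : m.pr V * m.pr W = 0 := by
  rw [← pr_inf, disjoint_iff.1 h, pr_bot]

lemma pr_mul_of_le {V W : Clopens m.X} (h : V ≤ W) : m.pr V * m.pr W = m.pr V := by
  rw [← pr_inf, inf_eq_left.2 h]

lemma mul_pr_of_le {V W : Clopens m.X} (h : V ≤ W) : m.pr W * m.pr V = m.pr V := by
  rw [← pr_inf, inf_eq_right.2 h]

lemma pr_injective : Function.Injective m.pr := by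
  intro V W h
  have := m.inj h
  ext x
  change x ∈ V ↔ x ∈ W
  rw [← m.ind_eq_one_iff, ← m.ind_eq_one_iff, this]

/-- every projection of `A` is the projection of a clopen set -/
lemma exists_pr {p : H →L[ℂ] H} (hp : p ∈ A) (hpp : IsStarProjection p) :
    ∃ V : Clopens m.X, m.pr V = p := by
  obtain ⟨f, rfl⟩ := (m.mem_iff p).1 hp
  have hid : f * f = f := m.inj (by rw [map_mul]; exact hpp.isIdempotentElem)
  have hval : ∀ x, f x = 0 ∨ f x = 1 := fun x => by
    have h := congrArg (fun g : C(m.X, ℂ) => g x) hid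
    simp only [ContinuousMap.mul_apply] at h
    have h2 : f x * (f x - 1) = 0 := by rw [mul_sub, h, mul_one, sub_self]
    rcases mul_eq_zero.1 h2 with h3 | h3
    · exact Or.inl h3
    · exact Or.inr (sub_eq_zero.1 h3)
  have hcl : IsClopen (f ⁻¹' {1}) := by
    constructor
    · exact isClosed_singleton.preimage f.continuous
    · have : (f ⁻¹' {1}) = (f ⁻¹' {0})ᶜ := by
        ext x
        simp only [mem_preimage, mem_singleton_iff, mem_compl_iff]
        rcases hval x with h | h <;> simp [h]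
      rw [this]
      exact (isClosed_singleton.preimage f.continuous).isOpen_compl
  refine ⟨⟨f ⁻¹' {1}, hcl⟩, ?_⟩
  rw [pr]
  congr 1
  ext x
  rcases hval x with h | h
  · rw [h, m.ind_of_notMem]
    intro hx
    have : f x = 1 := hx
    rw [this] at h
    exact one_ne_zero h
  · rw [h, m.ind_of_mem]
    exact h


/-- real part order: `0 ≤ f` pointwise gives a positive operator -/
lemma nonneg_of_nonneg {f : C(m.X, ℂ)} (hf : 0 ≤ f) : 0 ≤ m.Φ f :=
  map_nonneg m.Φ hf

lemma mono {f g : C(m.X, ℂ)} (h : f ≤ g) : m.Φ f ≤ m.Φ g := by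
  rw [← sub_nonneg, ← map_sub]
  exact m.nonneg_of_nonneg (sub_nonneg.2 h)

/-! ### extremal disconnectedness and normality -/

variable (hA : Masa M A)

include hA in
/-- For an open set `U`, the projection onto the closed span of the ranges of the functions
supported in `U` is the indicator of the closure of `U`, which is clopen. -/
lemma exists_clopen_closure (U : Set m.X) (hU : IsOpen U) :
    ∃ V : Clopens m.X, (V : Set m.X) = closure U ∧
      m.pr V = pspan {w : H | ∃ f : C(m.X, ℂ), (∀ x ∉ U, f x = 0) ∧ ∃ ζ, w = m.Φ f ζ} := by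
  set W : Set H := {w : H | ∃ f : C(m.X, ℂ), (∀ x ∉ U, f x = 0) ∧ ∃ ζ, w = m.Φ f ζ} with hW
  have hP : pspan W ∈ A := by
    apply hA.mem_of_comm
    intro T hT
    apply pspan_comm
    · rintro _ ⟨f, hf, ζ, rfl⟩
      refine ⟨f, hf, T ζ, ?_⟩
      have := congrArg (fun S : H →L[ℂ] H => S ζ) (hT _ (m.mem f))
      exact this.symm
    · rintro _ ⟨f, hf, ζ, rfl⟩
      refine ⟨f, hf, star T ζ, ?_⟩
      have h1 := congrArg star (hT _ (m.mem (star f)))
      rw [star_mul, star_mul, ← map_star, star_star] at h1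
      exact congrArg (fun S : H →L[ℂ] H => S ζ) h1
  obtain ⟨V, hV⟩ := m.exists_pr hP (pspan_proj W)
  refine ⟨V, ?_, hV⟩
  have hmul : ∀ f : C(m.X, ℂ), (∀ x ∉ U, f x = 0) → m.ind V * f = f := by
    intro f hf
    apply m.inj
    rw [map_mul]
    change m.pr V * m.Φ f = m.Φ f
    ext ζ
    rw [hV]
    exact pspan_self ⟨f, hf, ζ, rfl⟩
  have hzero : ∀ b : C(m.X, ℂ), (∀ x ∈ U, b x = 0) → b * m.ind V = 0 := by
    intro b hb
    apply m.inj
    rw [map_mul, map_zero]
    change m.Φ b * m.pr V = 0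
    rw [hV]
    apply mul_pspan_eq_zero
    rintro _ ⟨f, hf, ζ, rfl⟩
    have : b * f = 0 := by
      ext x
      by_cases hx : x ∈ U
      · simp [hb x hx]
      · simp [hf x hx]
    change (m.Φ b * m.Φ f) ζ = 0
    rw [← map_mul, this, map_zero]
    rfl
  apply Subset.antisymm
  · intro x hx
    by_contra hxc
    obtain ⟨f, hf0, hf1, hf⟩ := exists_continuous_zero_one_of_isClosed (isClosed_closure (s := U))
      (isClosed_singleton (x := x)) (disjoint_singleton_right.2 hxc)
    let b : C(m.X, ℂ) := ⟨fun y => (f y : ℂ), Complex.continuous_ofReal.comp f.continuous⟩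
    have h1 := hzero b fun y hy => by
      change ((f y : ℝ) : ℂ) = 0
      rw [hf0 (subset_closure hy)]; simp
    have h2 := congrArg (fun g : C(m.X, ℂ) => g x) h1
    have h3 : b x = 1 := by
      change ((f x : ℝ) : ℂ) = 1
      rw [hf1 rfl]; simp
    simp only [ContinuousMap.mul_apply, h3, one_mul] at h2
    rw [m.ind_of_mem hx] at h2
    exact one_ne_zero h2
  · refine closure_minimal ?_ V.isClopen.1
    intro x hx
    obtain ⟨f, hf0, hf1, hf⟩ := exists_continuous_zero_one_of_isClosed hU.isClosed_compl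
      (isClosed_singleton (x := x)) (disjoint_singleton_right.2 fun h => h hx)
    let b : C(m.X, ℂ) := ⟨fun y => (f y : ℂ), Complex.continuous_ofReal.comp f.continuous⟩
    have h1 := hmul b fun y hy => by
      change ((f y : ℝ) : ℂ) = 0
      rw [hf0 hy]; simp
    have h2 := congrArg (fun g : C(m.X, ℂ) => g x) h1
    have h3 : b x = 1 := by
      change ((f x : ℝ) : ℂ) = 1
      rw [hf1 rfl]; simp
    simp only [ContinuousMap.mul_apply, h3, mul_one] at h2
    exact m.ind_eq_one_iff.1 h2

include hA in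
theorem extremallyDisconnected : ExtremallyDisconnected m.X := by
  refine ⟨fun U hU => ?_⟩
  obtain ⟨V, hV, -⟩ := m.exists_clopen_closure hA U hU
  rw [← hV]
  exact V.isClopen.2

include hA in
lemma totallySeparated : TotallySeparatedSpace m.X := by
  have := m.extremallyDisconnected hA
  infer_instance

include hA in
/-- clopen sets form a basis -/
lemma exists_clopen_between {x : m.X} {U : Set m.X} (hU : IsOpen U) (hx : x ∈ U) :
    ∃ V : Clopens m.X, x ∈ V ∧ (V : Set m.X) ⊆ U := by
  have := m.totallySeparated hA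
  obtain ⟨V, hV, hxV, hVU⟩ := compact_exists_isClopen_in_isOpen hU hx
  exact ⟨⟨V, hV⟩, hxV, hVU⟩

include hA in
/-- clopen neighbourhood of a compact set in an open set -/
lemma exists_clopen_of_isCompact {K U : Set m.X} (hK : IsClosed K) (hU : IsOpen U) (h : K ⊆ U) :
    ∃ V : Clopens m.X, K ⊆ (V : Set m.X) ∧ (V : Set m.X) ⊆ U := by
  choose! V hxV hVU using fun (x : m.X) (hx : x ∈ K) =>
    m.exists_clopen_between hA hU (h hx)
  obtain ⟨t, hcov⟩ := hK.isCompact.elim_nhds_subcover' (fun x _ => (V x : Set m.X))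
    fun x hx => (V x).isClopen.2.mem_nhds (hxV x hx)
  refine ⟨t.sup fun x => V x.1, ?_, ?_⟩
  · intro y hy
    obtain ⟨x, hx, hyx⟩ := mem_iUnion₂.1 (hcov hy)
    exact (Finset.le_sup (f := fun x : K => V x.1) hx : V x.1 ≤ _) hyx
  · have : ∀ s : Finset K, ((s.sup fun x => V x.1 : Clopens m.X) : Set m.X) ⊆ U := by
      classical
      intro s
      induction s using Finset.induction_on with
      | empty => simp
      | insert a s _ ih =>
        rw [Finset.sup_insert]
        exact union_subset (hVU _ a.2) ih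
    exact this t

include hA in
/-- NORMALITY: inside an open set there are clopen sets close (seen from a vector) to the closure -/
theorem exists_clopen_inside (U : Set m.X) (hU : IsOpen U) (W : Clopens m.X)
    (hW : (W : Set m.X) ⊆ closure U) (η : H) {κ : ℝ} (hκ : 0 < κ) :
    ∃ V : Clopens m.X, (V : Set m.X) ⊆ U ∧ V ≤ W ∧ ‖(m.pr W - m.pr V) η‖ < κ := by
  classical
  obtain ⟨C, hC, hprC⟩ := m.exists_clopen_closure hA U hU
  set S : Set H := {w : H | ∃ f : C(m.X, ℂ), (∀ x ∉ U, f x = 0) ∧ ∃ ζ, w = m.Φ f ζ} with hS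
  -- every vector of the span is almost fixed by a clopen subset
  have key : ∀ w ∈ Submodule.span ℂ S, ∀ κ : ℝ, 0 < κ → ∃ V : Clopens m.X, (V : Set m.X) ⊆ U ∧
      ∀ V' : Clopens m.X, V ≤ V' → ‖(1 - m.pr V') w‖ < κ := by
    intro w hw
    refine Submodule.span_induction (p := fun w _ => ∀ κ : ℝ, 0 < κ → ∃ V : Clopens m.X,
      (V : Set m.X) ⊆ U ∧ ∀ V' : Clopens m.X, V ≤ V' → ‖(1 - m.pr V') w‖ < κ) ?_ ?_ ?_ ?_ hw
    · rintro _ ⟨f, hf, ζ, rfl⟩ κ hκ
      -- K = {|f| ≥ κ/(‖ζ‖+1)}
      set c : ℝ := κ / (‖ζ‖ + 1) with hc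
      have hc0 : 0 < c := by positivity
      have hK : IsClosed {x : m.X | c ≤ ‖f x‖} :=
        isClosed_le continuous_const f.continuous.norm
      have hKU : {x : m.X | c ≤ ‖f x‖} ⊆ U := by
        intro x hx
        by_contra h
        have : c ≤ ‖f x‖ := hx
        rw [hf x h, norm_zero] at this
        exact absurd hc0 (not_lt.2 this)
      obtain ⟨V, hKV, hVU⟩ := m.exists_clopen_of_isCompact hA hK hU hKU
      refine ⟨V, hVU, fun V' hV' => ?_⟩
      have h1 : (1 - m.pr V') (m.Φ f ζ) = m.Φ ((1 - m.ind V') * f) ζ := by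
        rw [map_mul, map_sub, map_one]; rfl
      rw [h1]
      have h2 : ‖(1 - m.ind V') * f‖ ≤ c := by
        rw [ContinuousMap.norm_le _ hc0.le]
        intro x
        by_cases hx : x ∈ V'
        · simp [m.ind_of_mem hx, hc0.le]
        · have : x ∉ V := fun h => hx (hV' h)
          have h3 : ¬ c ≤ ‖f x‖ := fun h => this (hKV h)
          simp only [ContinuousMap.mul_apply, ContinuousMap.sub_apply, ContinuousMap.one_apply,
            m.ind_of_notMem hx, sub_zero, one_mul]
          exact (not_le.1 h3).le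
      calc ‖m.Φ ((1 - m.ind V') * f) ζ‖ ≤ ‖m.Φ ((1 - m.ind V') * f)‖ * ‖ζ‖ := le_opNorm _ _
        _ ≤ c * ‖ζ‖ := by rw [m.iso]; gcongr
        _ < κ := by
          rw [hc, div_mul_eq_mul_div, div_lt_iff₀ (by positivity)]
          nlinarith [norm_nonneg ζ]
    · intro κ hκ
      exact ⟨⊥, by simp, fun V' _ => by simpa using hκ⟩
    · intro a b _ _ ha hb κ hκ
      obtain ⟨V1, hV1, h1⟩ := ha (κ / 2) (by positivity)
      obtain ⟨V2, hV2, h2⟩ := hb (κ / 2) (by positivity)
      refine ⟨V1 ⊔ V2, union_subset hV1 hV2, fun V' hV' => ?_⟩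
      rw [map_add]
      calc _ ≤ _ := norm_add_le _ _
        _ < κ / 2 + κ / 2 := add_lt_add (h1 V' (le_sup_left.trans hV')) (h2 V' (le_sup_right.trans hV'))
        _ = κ := by ring
    · intro c a _ ha κ hκ
      obtain ⟨V, hV, h1⟩ := ha (κ / (‖c‖ + 1)) (by positivity)
      refine ⟨V, hV, fun V' hV' => ?_⟩
      rw [map_smul, norm_smul]
      have h2 := h1 V' hV'
      rw [lt_div_iff₀ (by positivity)] at h2
      nlinarith [norm_nonneg ((1 - m.pr V') a), norm_nonneg c]
  -- approximate `P η` by a vector in the span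
  have hη : m.pr C η ∈ closure ((Submodule.span ℂ S : Submodule ℂ H) : Set H) := by
    rw [hprC]
    exact pspan_apply_mem S η
  obtain ⟨w, hw, hwη⟩ := Metric.mem_closure_iff.1 hη (κ / 2) (by positivity)
  obtain ⟨V, hVU, hV⟩ := key w hw (κ / 2) (by positivity)
  have hVC : V ≤ C := fun x hx => by
    have : x ∈ (C : Set m.X) := by rw [hC]; exact subset_closure (hVU hx)
    exact this
  have hWC : W ≤ C := fun x hx => by
    have : x ∈ (C : Set m.X) := by rw [hC]; exact hW hx
    exact this
  refine ⟨V ⊓ W, fun x hx => hVU hx.1, inf_le_right, ?_⟩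
  have h1 : (m.pr W - m.pr (V ⊓ W)) η = m.pr W ((1 - m.pr V) (m.pr C η)) := by
    have : m.pr W - m.pr (V ⊓ W) = m.pr W * ((1 - m.pr V) * m.pr C) := by
      rw [sub_mul, one_mul, ← m.pr_inf V C, inf_eq_left.2 hVC, mul_sub, ← m.pr_inf, ← m.pr_inf,
        inf_eq_left.2 hWC, inf_comm W V]
    rw [this]; rfl
  rw [h1]
  have hn : ∀ (V : Clopens m.X) (ζ : H), ‖m.pr V ζ‖ ≤ ‖ζ‖ := fun V ζ => by
    have hle : ‖m.pr V‖ ≤ 1 := (m.pr_proj V).norm_le
    calc _ ≤ ‖m.pr V‖ * ‖ζ‖ := le_opNorm _ _
      _ ≤ 1 * ‖ζ‖ := by gcongr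
      _ = ‖ζ‖ := one_mul _
  calc ‖m.pr W ((1 - m.pr V) (m.pr C η))‖ ≤ ‖(1 - m.pr V) (m.pr C η)‖ := hn _ _
    _ = ‖(1 - m.pr V) (m.pr C η - w) + (1 - m.pr V) w‖ := by rw [← map_add]; simp
    _ ≤ ‖(1 - m.pr V) (m.pr C η - w)‖ + ‖(1 - m.pr V) w‖ := norm_add_le _ _
    _ ≤ ‖m.pr C η - w‖ + ‖(1 - m.pr V) w‖ := by
        rw [← m.pr_compl]
        gcongr
        exact hn _ _
    _ < κ / 2 + κ / 2 := by
        gcongr
        · rwa [dist_eq_norm] at hwη
        · exact hV V le_rfl
    _ = κ := by ring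

end Model

end Crest.Agent.R109
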