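import Mathlib

/-!
# Row 109, module BOOK: finitely many separated classes

If for each `g` of a finite set `S` of transformations the non-fixed part of `g` is covered by a set
`E` with `E ∩ g E = ∅` and its two translates (Frolik), then `X` is a finite union of `S`-separated
classes.  The classes lie in every algebra of sets that contains the sets `E` and their translates.
-/

set_option autoImplicit false

namespace Crest.Agent.R109.Book

open Set

variable {Gam X : Type*} [Group Gam] [MulAction Gam X]

/-- the data of Frolik's theorem for one transformation `g`, inside the algebra `P` of sets -/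
def FrolikAt (P : Set X → Prop) (g : Gam) : Prop :=
  ∃ E : Set X, P E ∧ P {x | g • x ∈ E} ∧ P {x | g⁻¹ • x ∈ E} ∧ (∀ x ∈ E, g • x ∉ E) ∧
    ∀ x, g • x ≠ x → x ∈ E ∨ g • x ∈ E ∨ g⁻¹ • x ∈ E

/-- one transformation: a function with at most 4 values separating `x` from `g x` -/
theorem exists_sep_one (P : Set X → Prop) (hcompl : ∀ s, P s → P sᶜ)
    (hinter : ∀ s t, P s → P t → P (s ∩ t)) (g : Gam) (h : FrolikAt P g) :
    ∃ f : X → Fin 4, (∀ i, P {x | f x = i}) ∧ ∀ x, f (g • x) = f x → g • x = x := by
  classical
  obtain ⟨E, hE, hE1, hE2, hdis, hcov⟩ := h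
  have hunion : ∀ s t, P s → P t → P (s ∪ t) := by
    intro s t hs ht
    have := hcompl _ (hinter _ _ (hcompl _ hs) (hcompl _ ht))
    rwa [← compl_union, compl_compl] at this
  set A1 : Set X := {x | g • x ∈ E} with hA1
  set A2 : Set X := {x | g⁻¹ • x ∈ E} with hA2
  set f : X → Fin 4 := fun x => if x ∈ E then 1 else if x ∈ A1 then 2 else if x ∈ A2 then 3 else 0
    with hf
  have h1 : {x | f x = 1} = E := by
    ext x
    simp only [hf, mem_ofPred_eq]
    split_ifs with a b c <;> simp_all
  have h2 : {x | f x = 2} = A1 ∩ Eᶜ := by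
    ext x
    simp only [hf, mem_ofPred_eq, mem_inter_iff, mem_compl_iff]
    split_ifs with a b c <;> simp_all
  have h3 : {x | f x = 3} = A2 ∩ (A1ᶜ ∩ Eᶜ) := by
    ext x
    simp only [hf, mem_ofPred_eq, mem_inter_iff, mem_compl_iff]
    split_ifs with a b c <;> simp_all
  have h0 : {x | f x = 0} = (E ∪ (A1 ∪ A2))ᶜ := by
    ext x
    simp only [hf, mem_ofPred_eq, mem_compl_iff, mem_union]
    split_ifs with a b c <;> simp_all
  refine ⟨f, ?_, ?_⟩
  · intro i
    fin_cases i
    · change P {x | f x = 0}
      rw [h0]
      exact hcompl _ (hunion _ _ hE (hunion _ _ hE1 hE2))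
    · change P {x | f x = 1}
      rw [h1]; exact hE
    · change P {x | f x = 2}
      rw [h2]; exact hinter _ _ hE1 (hcompl _ hE)
    · change P {x | f x = 3}
      rw [h3]; exact hinter _ _ hE2 (hinter _ _ (hcompl _ hE1) (hcompl _ hE))
  · intro x hx
    by_contra hne
    have hcases := hcov x hne
    -- the value at x is 1, 2 or 3
    by_cases hxE : x ∈ E
    · have e1 : f x = 1 := by simp [hf, hxE]
      have e2 : g • x ∉ E := hdis x hxE
      have : f (g • x) ≠ 1 := by
        intro h
        have : g • x ∈ {y | f y = 1} := h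
        rw [h1] at this
        exact e2 this
      exact this (hx.trans e1)
    · by_cases hx1 : x ∈ A1
      · have e1 : f x = 2 := by simp [hf, hxE, hx1]
        have : g • x ∈ {y | f y = 2} := hx.trans e1
        rw [h2] at this
        exact this.2 hx1
      · have hx2 : x ∈ A2 := by
          rcases hcases with h | h | h
          · exact absurd h hxE
          · exact absurd h hx1
          · exact h
        have e1 : f x = 3 := by simp [hf, hxE, hx1, hx2]
        have : g • x ∈ {y | f y = 3} := hx.trans e1
        rw [h3] at this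
        have h4 : x ∈ E := by
          have := this.1
          simpa [hA2] using this
        exact hxE h4

/-- **M3**: finitely many `S`-separated classes inside any algebra of sets -/
theorem exists_sep_classes_alg (P : Set X → Prop) (huniv : P univ) (hcompl : ∀ s, P s → P sᶜ)
    (hinter : ∀ s t, P s → P t → P (s ∩ t)) (S : Finset Gam) (h : ∀ g ∈ S, FrolikAt P g) :
    ∃ (N : ℕ) (cl : X → Fin N), (∀ i, P {x | cl x = i}) ∧
      ∀ g ∈ S, ∀ x, cl (g • x) = cl x → g • x = x := by
  classical
  choose! f hf using fun (g : S) => exists_sep_one P hcompl hinter g.1 (h g.1 g.2)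
  let F : X → (S → Fin 4) := fun x g => f g x
  let e : (S → Fin 4) ≃ Fin (Fintype.card (S → Fin 4)) := Fintype.equivFin _
  refine ⟨Fintype.card (S → Fin 4), fun x => e (F x), ?_, ?_⟩
  · intro i
    have h1 : {x | e (F x) = i} = ⋂ g : S, {x | f g x = (e.symm i) g} := by
      ext x
      simp only [mem_ofPred_eq, mem_iInter]
      constructor
      · intro hx g
        rw [← hx, Equiv.symm_apply_apply]
      · intro hx
        rw [← Equiv.eq_symm_apply]
        funext g
        exact hx g
    rw [h1]
    have : ∀ t : Finset S, P (⋂ g ∈ t, {x | f g x = (e.symm i) g}) := by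
      intro t
      induction t using Finset.induction_on with
      | empty => simpa using huniv
      | insert a s ha ih =>
        rw [Finset.set_biInter_insert]
        exact hinter _ _ ((hf a).1 _) ih
    simpa using this Finset.univ
  · intro g hg x hx
    have : F (g • x) = F x := e.injective hx
    exact (hf ⟨g, hg⟩).2 x (congrFun this ⟨g, hg⟩)

/-- the join of two finite class functions -/
theorem exists_join (P : Set X → Prop) (hinter : ∀ s t, P s → P t → P (s ∩ t))
    {N M : ℕ} (a : X → Fin N) (b : X → Fin M) (ha : ∀ i, P {x | a x = i})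
    (hb : ∀ i, P {x | b x = i}) :
    ∃ (K : ℕ) (c : X → Fin K) (u : Fin K → Fin N) (v : Fin K → Fin M),
      (∀ i, P {x | c x = i}) ∧ (∀ x, u (c x) = a x) ∧ ∀ x, v (c x) = b x := by
  refine ⟨N * M, fun x => finProdFinEquiv (a x, b x), fun k => (finProdFinEquiv.symm k).1,
    fun k => (finProdFinEquiv.symm k).2, ?_, fun x => by simp, fun x => by simp⟩
  intro i
  have : {x | finProdFinEquiv (a x, b x) = i}
      = {x | a x = (finProdFinEquiv.symm i).1} ∩ {x | b x = (finProdFinEquiv.symm i).2} := by
    ext x
    simp only [mem_ofPred_eq, mem_inter_iff]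
    rw [← Equiv.eq_symm_apply, Prod.ext_iff]
  rw [this]
  exact hinter _ _ (ha _) (hb _)

/-- **M3**, measurable version -/
theorem exists_sep_classes [MeasurableSpace X] (S : Finset Gam)
    (h : ∀ g ∈ S, FrolikAt (fun s : Set X => MeasurableSet s) g) :
    ∃ (N : ℕ) (cl : X → Fin N), Measurable cl ∧
      ∀ g ∈ S, ∀ x, cl (g • x) = cl x → g • x = x := by
  obtain ⟨N, cl, h1, h2⟩ := exists_sep_classes_alg (fun s : Set X => MeasurableSet s)
    MeasurableSet.univ (fun s hs => hs.compl) (fun s t hs ht => hs.inter ht) S h
  exact ⟨N, cl, measurable_to_countable' h1, h2⟩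

/-- **M3**, clopen version -/
theorem exists_sep_classes_clopen [TopologicalSpace X] (S : Finset Gam)
    (h : ∀ g ∈ S, FrolikAt (fun s : Set X => IsClopen s) g) :
    ∃ (N : ℕ) (cl : X → Fin N), (∀ i, IsClopen {x | cl x = i}) ∧
      ∀ g ∈ S, ∀ x, cl (g • x) = cl x → g • x = x :=
  exists_sep_classes_alg (fun s : Set X => IsClopen s)
    isClopen_univ (fun s hs => hs.compl) (fun s t hs ht => hs.inter ht) S h

end Crest.Agent.R109.Book
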