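import Crest.Agent.R109.RN

/-!
# Row 109, module Dom: domination of `A`-central vectors, cutting of normalisers
-/

set_option autoImplicit false
set_option linter.unusedSectionVars false
set_option linter.style.haveILetI false

namespace Crest.Agent.R109

open Crest.Agent.R124 Crest.Agent.R121 Filter Topology
open scoped InnerProductSpace

universe u

variable {H : Type u} [NormedAddCommGroup H] [InnerProductSpace ℂ H] [CompleteSpace H]
variable {M : VonNeumannAlgebra H} {A : StarSubalgebra ℂ (H →L[ℂ] H)} {η : H}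

section

variable (h : NCE M A η)
include h

/-- absolute continuity: bounded elements which are small at the separating vector are small at
any vector -/
theorem NCE.small_of_small (ζ : H) {δ : ℝ} (hδ : 0 < δ) :
    ∃ δ' > 0, ∀ x ∈ M, ‖x‖ ≤ 1 → ‖x η‖ < δ' → ‖x ζ‖ < δ := by
  obtain ⟨w, hw, hwζ⟩ := Metric.mem_closure_iff.1 (mem_closure_vspan M h.sep ζ) (δ / 2)
    (half_pos hδ)
  have hK : ∃ K : ℝ, 0 ≤ K ∧ ∀ x ∈ M, ‖x w‖ ≤ K * ‖x η‖ := by
    refine Submodule.span_induction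
      (p := fun y _ => ∃ K : ℝ, 0 ≤ K ∧ ∀ x ∈ M, ‖x y‖ ≤ K * ‖x η‖) ?_ ?_ ?_ ?_ hw
    · rintro _ ⟨T, hT, rfl⟩
      refine ⟨‖T‖, norm_nonneg _, fun x hx => ?_⟩
      have h1 : x (T η) = T (x η) :=
        congrArg (fun R : H →L[ℂ] H => R η) (commutant_comm M hx hT).symm
      change ‖x (T η)‖ ≤ _
      rw [h1]
      exact T.le_opNorm _
    · exact ⟨0, le_rfl, fun x _ => by simp⟩
    · rintro y z - - ⟨K, hK0, hK⟩ ⟨K', hK0', hK'⟩
      refine ⟨K + K', add_nonneg hK0 hK0', fun x hx => ?_⟩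
      rw [map_add, add_mul]
      exact (norm_add_le _ _).trans (add_le_add (hK x hx) (hK' x hx))
    · rintro c y - ⟨K, hK0, hK⟩
      refine ⟨‖c‖ * K, mul_nonneg (norm_nonneg _) hK0, fun x hx => ?_⟩
      rw [map_smul, norm_smul, mul_assoc]
      exact mul_le_mul_of_nonneg_left (hK x hx) (norm_nonneg _)
  obtain ⟨K, hK0, hK⟩ := hK
  refine ⟨δ / (2 * (K + 1)), by positivity, fun x hx hx1 hxη => ?_⟩
  have h1 : ‖x (ζ - w)‖ ≤ ‖ζ - w‖ := by
    calc ‖x (ζ - w)‖ ≤ ‖x‖ * ‖ζ - w‖ := x.le_opNorm _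
      _ ≤ 1 * ‖ζ - w‖ := mul_le_mul_of_nonneg_right hx1 (norm_nonneg _)
      _ = ‖ζ - w‖ := one_mul _
  have h2 : ‖x w‖ < δ / 2 := by
    refine (hK x hx).trans_lt ?_
    have h3 : K * ‖x η‖ ≤ (K + 1) * ‖x η‖ := by nlinarith [norm_nonneg (x η)]
    refine h3.trans_lt ?_
    have h4 : (K + 1) * ‖x η‖ < (K + 1) * (δ / (2 * (K + 1))) :=
      mul_lt_mul_of_pos_left hxη (by positivity)
    refine h4.trans_eq ?_
    field_simp
  rw [dist_eq_norm] at hwζ
  calc ‖x ζ‖ = ‖x (ζ - w) + x w‖ := by rw [← map_add, sub_add_cancel]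
    _ ≤ ‖x (ζ - w)‖ + ‖x w‖ := norm_add_le _ _
    _ < δ := by linarith

lemma NCE.inner_nonneg_of_nonneg {a : H →L[ℂ] H} (h0 : 0 ≤ a) (ζ : H) :
    0 ≤ (⟪ζ, a ζ⟫_ℂ).re := by
  have := re_inner_nonneg h0 ζ
  rwa [← inner_conj_symm, Complex.conj_re] at this

end

lemma inner_star_mul (x : H →L[ℂ] H) (ζ : H) : ⟪ζ, (star x * x) ζ⟫_ℂ = ((‖x ζ‖ ^ 2 : ℝ) : ℂ) := by
  have h1 : ⟪x ζ, x ζ⟫_ℂ = ⟪ζ, (star x * x) ζ⟫_ℂ := by
    rw [ContinuousLinearMap.star_eq_adjoint]
    exact (ContinuousLinearMap.adjoint_inner_right _ _ _).symm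
  rw [← h1, inner_self_eq_norm_sq_to_K]
  norm_cast

lemma inner_mono {a b : H →L[ℂ] H} (hab : a ≤ b) (ζ : H) :
    (⟪ζ, a ζ⟫_ℂ).re ≤ (⟪ζ, b ζ⟫_ℂ).re := by
  have := re_inner_nonneg (sub_nonneg.2 hab) ζ
  rw [sub_apply, inner_sub_left, Complex.sub_re] at this
  rw [← inner_conj_symm ζ (a ζ), Complex.conj_re, ← inner_conj_symm ζ (b ζ), Complex.conj_re]
  linarith

/-- for `A`-central vectors the square norm factors through `CE` -/
lemma NCE.norm_sq_central (h : NCE M A η) {β : H} (hβ : CVec M A β) {y : H →L[ℂ] H}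
    (hy : y ∈ M) : ((‖y β‖ ^ 2 : ℝ) : ℂ) = ⟪β, CE A η (star y * y) β⟫_ℂ := by
  rw [h.inner_CE_central (fun b hb z hz => hβ b hb z hz) (mul_mem (star_mem hy) hy),
    inner_star_mul]

lemma NCE.norm_mul_proj_central (h : NCE M A η) {β : H} (hβ : CVec M A β) {y p : H →L[ℂ] H}
    (hy : y ∈ M) (hp : p ∈ A) (hpp : IsStarProjection p) :
    ((‖y (p β)‖ ^ 2 : ℝ) : ℂ) = ⟪β, (p * CE A η (star y * y)) β⟫_ℂ := by
  have h1 := h.norm_sq_central hβ (mul_mem hy (h.masa.memM hp))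
  change ((‖y (p β)‖ ^ 2 : ℝ) : ℂ) = _ at h1
  rw [h1]
  have h2 : star (y * p) * (y * p) = p * (star y * y) * p := by
    rw [star_mul, hpp.isSelfAdjoint.star_eq]; simp only [mul_assoc]
  have hyy : star y * y ∈ M := mul_mem (star_mem hy) hy
  rw [h2, h.CE_mul_right hp (mul_mem (h.masa.memM hp) hyy), h.CE_mul_left hp hyy, mul_assoc,
    h.masa.comm _ (h.CE_mem hyy) p hp, ← mul_assoc, hpp.isIdempotentElem.eq]

lemma proj_mul_le {p a : H →L[ℂ] H} (hpp : IsStarProjection p) (h0 : 0 ≤ a)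
    (hc : p * a = a * p) : p * a ≤ a := by
  rw [← sub_nonneg]
  have h1 : a - p * a = (1 - p) * a := by rw [sub_mul, one_mul]
  rw [h1]
  refine Commute.mul_nonneg ?_ h0 ?_
  · exact hpp.one_sub.nonneg
  · change (1 - p) * a = a * (1 - p)
    rw [sub_mul, mul_sub, one_mul, mul_one, hc]

lemma NCE.norm_mul_proj_le (h : NCE M A η) {β : H} (hβ : CVec M A β) {y p : H →L[ℂ] H}
    (hy : y ∈ M) (hp : p ∈ A) (hpp : IsStarProjection p) : ‖y (p β)‖ ≤ ‖y β‖ := by
  apply le_of_sq_le_sq _ (norm_nonneg _)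
  have h1 := congrArg Complex.re (h.norm_mul_proj_central hβ hy hp hpp)
  have h2 := congrArg Complex.re (h.norm_sq_central hβ hy)
  rw [Complex.ofReal_re] at h1 h2
  rw [h1, h2]
  have hyy : star y * y ∈ M := mul_mem (star_mem hy) hy
  have h0 : 0 ≤ CE A η (star y * y) := h.CE_nonneg hyy (star_mul_self_nonneg y)
  exact inner_mono (proj_mul_le hpp h0 (h.masa.comm p hp _ (h.CE_mem hyy))) β

/-- the spectral cut of a positive element of a masa -/
lemma exists_spec_cut (hM : Masa M A) {F : H →L[ℂ] H} (hF : F ∈ A) (h0 : 0 ≤ F) (t : ℝ) :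
    ∃ p ∈ A, IsStarProjection p ∧ (t : ℂ) • p ≤ F * p ∧
      F * (1 - p) ≤ (t : ℂ) • (1 - p) := by
  have hsa : IsSelfAdjoint F := h0.isSelfAdjoint
  set P := tr F t with hP
  set N := cfc (fun s : ℝ => max (t - s) 0) F with hN
  have hPA : P ∈ A := hM.cfc_mem hF _
  have hNA : N ∈ A := hM.cfc_mem hF _
  have hP0 : 0 ≤ P := cfc_nonneg fun s _ => le_max_right _ _
  have hN0 : 0 ≤ N := cfc_nonneg fun s _ => le_max_right _ _
  have h1 : P - N = F - (t : ℂ) • 1 := by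
    have e1 : P - N = cfc (fun s : ℝ => max (s - t) 0 - max (t - s) 0) F := by
      rw [hP, hN]; unfold tr
      rw [cfc_sub (fun s : ℝ => max (s - t) 0) (fun s : ℝ => max (t - s) 0) F (by fun_prop)
        (by fun_prop)]
    have e2 : cfc (fun s : ℝ => max (s - t) 0 - max (t - s) 0) F = cfc (fun s : ℝ => s - t) F := by
      apply cfc_congr
      intro s _
      rcases le_total s t with hst | hst
      · simp only
        rw [max_eq_right (by linarith), max_eq_left (by linarith)]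
        ring
      · simp only
        rw [max_eq_left (by linarith), max_eq_right (by linarith)]
        ring
    have e3 : cfc (fun s : ℝ => s - t) F = F - algebraMap ℝ _ t := by
      rw [cfc_sub (fun s : ℝ => s) (fun _ : ℝ => t) F (by fun_prop) (by fun_prop), cfc_id' ℝ F,
        cfc_const t F]
    rw [e1, e2, e3, Algebra.algebraMap_eq_smul_one]
    congr 1
  have h2 : N * P = 0 := by
    rw [hN, hP]; unfold tr
    rw [← cfc_mul (fun s : ℝ => max (t - s) 0) (fun s : ℝ => max (s - t) 0) F (by fun_prop)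
      (by fun_prop)]
    have : (fun s : ℝ => max (t - s) 0 * max (s - t) 0) = fun _ => 0 := by
      funext s
      rcases le_total s t with hst | hst
      · rw [max_eq_right (show s - t ≤ 0 by linarith), mul_zero]
      · rw [max_eq_right (show t - s ≤ 0 by linarith), zero_mul]
    rw [this, cfc_const_zero]
  refine ⟨rp P, hM.rp_mem hPA, rp_proj P, ?_, ?_⟩
  · have e1 : N * rp P = 0 := mul_rp_eq_zero h2
    have e2 : P * rp P = P := by
      rw [hM.comm _ hPA _ (hM.rp_mem hPA), rp_mul_self]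
    have e3 : F * rp P - (t : ℂ) • rp P = P := by
      have : (F - (t : ℂ) • 1) * rp P = F * rp P - (t : ℂ) • rp P := by
        rw [sub_mul, smul_mul_assoc, one_mul]
      rw [← this, ← h1, sub_mul, e1, e2, sub_zero]
    rw [← sub_nonneg, e3]
    exact hP0
  · have e1 : N * rp P = 0 := mul_rp_eq_zero h2
    have e2 : P * (1 - rp P) = 0 := by
      rw [mul_sub, mul_one, hM.comm _ hPA _ (hM.rp_mem hPA), rp_mul_self, sub_self]
    have e3 : (t : ℂ) • (1 - rp P) - F * (1 - rp P) = N := by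
      have : (F - (t : ℂ) • 1) * (1 - rp P) = F * (1 - rp P) - (t : ℂ) • (1 - rp P) := by
        rw [sub_mul, smul_mul_assoc, one_mul]
      rw [← neg_sub (F * (1 - rp P)), ← this, ← h1, sub_mul, e2, mul_sub, e1, mul_one]
      simp
    rw [← sub_nonneg, e3]
    exact hN0

/-- **Cutting**: up to a small piece an `A`-central vector is dominated by `η`. -/
theorem NCE.exists_dom_cut (h : NCE M A η) {β : H} (hβ : CVec M A β) {δ : ℝ} (hδ : 0 < δ) :
    ∃ p ∈ A, IsStarProjection p ∧ ‖(1 - p) η‖ < δ ∧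
      ∃ C : ℝ, 0 ≤ C ∧ ∀ y ∈ M, ‖y (p β)‖ ≤ C * ‖y η‖ := by
  obtain ⟨F, hFA, hF0, hF1, hF⟩ := h.exists_mart (β := β) (γ := η) (C := 1) zero_le_one
    (fun p _ _ => by nlinarith [sq_nonneg ‖p β‖])
  -- choose `t`
  set t : ℝ := min (1 / 2) (δ ^ 2 / (4 * (‖β‖ ^ 2 + 1))) with ht
  have ht0 : 0 < t := lt_min (by norm_num) (by positivity)
  have ht2 : t ≤ 1 / 2 := min_le_left _ _
  have ht3 : t * (4 * (‖β‖ ^ 2 + 1)) ≤ δ ^ 2 := by
    have : t ≤ δ ^ 2 / (4 * (‖β‖ ^ 2 + 1)) := min_le_right _ _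
    rwa [le_div_iff₀ (by positivity)] at this
  obtain ⟨p, hp, hpp, hp1, hp2⟩ := exists_spec_cut h.masa hFA hF0 t
  have hF1' : F ≤ 1 := by
    have := (CStarAlgebra.norm_le_iff_le_algebraMap F zero_le_one hF0).1 hF1
    simpa using this
  have hqq : IsStarProjection (1 - p) := hpp.one_sub
  have hqA : 1 - p ∈ A := sub_mem (one_mem A) hp
  have hnorm : ∀ (q : H →L[ℂ] H), IsStarProjection q → ∀ ζ : H,
      (⟪ζ, q ζ⟫_ℂ).re = ‖q ζ‖ ^ 2 := by
    intro q hq ζ
    rw [← inner_conj_symm, Complex.conj_re, re_inner_proj hq]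
  refine ⟨p, hp, hpp, ?_, t⁻¹, by positivity, ?_⟩
  · -- smallness
    have h1 := congrArg Complex.re (hF (1 - p) hqA)
    rw [Complex.add_re, hnorm _ hqq] at h1
    have h2 := inner_mono hp2 η
    have h3 := inner_mono hp2 β
    have e : ∀ ζ : H, (⟪ζ, ((t : ℂ) • (1 - p)) ζ⟫_ℂ).re = t * ‖(1 - p) ζ‖ ^ 2 := by
      intro ζ
      change (⟪ζ, (t : ℂ) • ((1 - p) ζ)⟫_ℂ).re = _
      rw [inner_smul_right, Complex.re_ofReal_mul, hnorm _ hqq]
    rw [e] at h2 h3
    have h4 : ‖(1 - p) β‖ ^ 2 ≤ ‖β‖ ^ 2 := norm_proj_le hqq β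
    have h5 : ‖(1 - p) η‖ ^ 2 ≤ 1 / 2 * ‖(1 - p) η‖ ^ 2 + t * ‖β‖ ^ 2 := by
      have : t * ‖(1 - p) η‖ ^ 2 ≤ 1 / 2 * ‖(1 - p) η‖ ^ 2 :=
        mul_le_mul_of_nonneg_right ht2 (by positivity)
      have : t * ‖(1 - p) β‖ ^ 2 ≤ t * ‖β‖ ^ 2 := mul_le_mul_of_nonneg_left h4 ht0.le
      linarith
    apply lt_of_pow_lt_pow_left₀ 2 hδ.le
    have h6 : t * ‖β‖ ^ 2 ≤ δ ^ 2 / 4 := by nlinarith
    have : 0 < δ ^ 2 := by positivity
    linarith
  · intro y hy
    have hyy : star y * y ∈ M := mul_mem (star_mem hy) hy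
    set a := CE A η (star y * y) with ha
    have haA : a ∈ A := h.CE_mem hyy
    have ha0 : 0 ≤ a := h.CE_nonneg hyy (star_mul_self_nonneg y)
    -- `t ψ(p a) ≤ ψ(F p a) ≤ φ(p a)`
    have h1 : (t : ℂ) • (p * a) ≤ F * (p * a) := by
      rw [← sub_nonneg]
      have e1 : F * (p * a) - (t : ℂ) • (p * a) = (F * p - (t : ℂ) • p) * a := by
        rw [sub_mul, mul_assoc, smul_mul_assoc]
      rw [e1]
      refine Commute.mul_nonneg (sub_nonneg.2 hp1) ha0 ?_
      exact h.masa.comm _ (sub_mem (mul_mem hFA hp) (A.smul_mem hp _)) _ haA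
    have h2 := inner_mono h1 β
    have h3 := congrArg Complex.re (hF (p * a) (mul_mem hp haA))
    rw [Complex.add_re] at h3
    have hpa0 : 0 ≤ p * a := Commute.mul_nonneg hpp.nonneg ha0 (h.masa.comm _ hp _ haA)
    have h4 : 0 ≤ (⟪η, (F * (p * a)) η⟫_ℂ).re := by
      apply h.inner_nonneg_of_nonneg
      exact Commute.mul_nonneg hF0 hpa0 (h.masa.comm _ hFA _ (mul_mem hp haA))
    have e2 : (⟪β, ((t : ℂ) • (p * a)) β⟫_ℂ).re = t * (⟪β, (p * a) β⟫_ℂ).re := by
      change (⟪β, (t : ℂ) • ((p * a) β)⟫_ℂ).re = _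
      rw [inner_smul_right, Complex.re_ofReal_mul]
    rw [e2] at h2
    have h5 := congrArg Complex.re (h.norm_mul_proj_central hβ hy hp hpp)
    have h6 := congrArg Complex.re (h.norm_mul_proj_central h.cvec hy hp hpp)
    rw [Complex.ofReal_re] at h5 h6
    have h7 : ‖y (p η)‖ ≤ ‖y η‖ := h.norm_mul_proj_le h.cvec hy hp hpp
    have h8 : t * ‖y (p β)‖ ^ 2 ≤ ‖y η‖ ^ 2 := by
      rw [h5]
      have : ‖y (p η)‖ ^ 2 ≤ ‖y η‖ ^ 2 := pow_le_pow_left₀ (norm_nonneg _) h7 2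
      rw [h6] at this
      linarith
    apply le_of_sq_le_sq _ (by positivity)
    rw [mul_pow]
    have h9 : 1 ≤ t⁻¹ := by
      rw [one_le_inv₀ ht0]; linarith
    have h10 : ‖y (p β)‖ ^ 2 ≤ t⁻¹ * ‖y η‖ ^ 2 := by
      rw [inv_mul_eq_div, le_div_iff₀ ht0]
      linarith
    refine h10.trans ?_
    have : t⁻¹ ≤ t⁻¹ ^ 2 := by nlinarith
    exact mul_le_mul_of_nonneg_right this (by positivity)

/-! ### domination for normalisers -/

/-- right multiplication by `u` is bounded on `M η` -/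
def Dom (M : VonNeumannAlgebra H) (η : H) (u : H →L[ℂ] H) (C : ℝ) : Prop :=
  ∀ y ∈ M, ‖y (u η)‖ ≤ C * ‖y η‖

lemma Dom.mono {u : H →L[ℂ] H} {C C' : ℝ} (hu : Dom M η u C) (hC : C ≤ C') : Dom M η u C' :=
  fun y hy => (hu y hy).trans (mul_le_mul_of_nonneg_right hC (norm_nonneg _))

lemma Dom.mul {u v : H →L[ℂ] H} {C C' : ℝ} (huM : u ∈ M) (hC' : 0 ≤ C') (hu : Dom M η u C)
    (hv : Dom M η v C') : Dom M η (u * v) (C' * C) := by
  intro y hy
  have h1 := hv (y * u) (mul_mem hy huM)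
  have h2 := hu y hy
  change ‖y (u (v η))‖ ≤ _
  calc ‖y (u (v η))‖ ≤ C' * ‖y (u η)‖ := h1
    _ ≤ C' * (C * ‖y η‖) := mul_le_mul_of_nonneg_left h2 hC'
    _ = _ := by ring

lemma Dom.add {u v : H →L[ℂ] H} {C C' : ℝ} (hu : Dom M η u C) (hv : Dom M η v C') :
    Dom M η (u + v) (C + C') := by
  intro y hy
  change ‖y (u η + v η)‖ ≤ _
  rw [map_add, add_mul]
  exact (norm_add_le _ _).trans (add_le_add (hu y hy) (hv y hy))

/-- `u η` is `A`-central for normalising `u` -/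
lemma GN.cvec (hM : Masa M A) (hη : CVec M A η) {u : H →L[ℂ] H} (hu : GN M A u) :
    CVec M A (u η) := by
  intro a ha x hx
  have e : ∀ z : H →L[ℂ] H, ⟪u η, z (u η)⟫_ℂ = ⟪η, (star u * z * u) η⟫_ℂ := by
    intro z
    rw [ContinuousLinearMap.star_eq_adjoint]
    exact (ContinuousLinearMap.adjoint_inner_right _ _ _).symm
  rw [e, e]
  have e1 : star u * (a * x) * u = (star u * a * u) * (star u * x * u) := by
    have h1 : (star u * a * u) * (star u * x * u) = star u * (a * (u * star u)) * x * u := by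
      simp only [mul_assoc]
    rw [h1, ← hu.rng_comm hM ha]
    have h2 : star u * (u * star u * a) * x * u = (star u * u * star u) * (a * x) * u := by
      simp only [mul_assoc]
    rw [h2, hu.part']
  have e2 : star u * (x * a) * u = (star u * x * u) * (star u * a * u) := by
    have h1 : (star u * x * u) * (star u * a * u) = star u * x * (u * star u * a) * u := by
      simp only [mul_assoc]
    rw [h1, hu.rng_comm hM ha]
    have h2 : star u * x * (a * (u * star u)) * u = star u * (x * a) * (u * star u * u) := by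
      simp only [mul_assoc]
    rw [h2, hu.part]
  rw [e1, e2]
  exact hη _ (hu.conj' a ha) _ (mul_mem (mul_mem (star_mem hu.mem) hx) hu.mem)

/-- right multiplication by elements of `A` -/
lemma NCE.dom_of_mem (h : NCE M A η) {a : H →L[ℂ] H} (ha : a ∈ A) : Dom M η a ‖a‖ := by
  intro y hy
  apply le_of_sq_le_sq _ (by positivity)
  have e1 : ((‖y (a η)‖ ^ 2 : ℝ) : ℂ) = ⟪η, (star a * a * CE A η (star y * y)) η⟫_ℂ := by
    have h1 := h.norm_sq_apply (mul_mem hy (h.masa.memM ha))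
    change ((‖y (a η)‖ ^ 2 : ℝ) : ℂ) = _ at h1
    have hyy : star y * y ∈ M := mul_mem (star_mem hy) hy
    have h2 : star (y * a) * (y * a) = star a * (star y * y) * a := by
      rw [star_mul]; simp only [mul_assoc]
    rw [h1, h2, h.CE_mul_right ha (mul_mem (h.masa.memM (star_mem ha)) hyy),
      h.CE_mul_left (star_mem ha) hyy, mul_assoc, h.masa.comm _ (h.CE_mem hyy) a ha, ← mul_assoc]
  have e2 := h.norm_sq_apply hy
  have h3 := congrArg Complex.re e1
  have h4 := congrArg Complex.re e2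
  rw [Complex.ofReal_re] at h3 h4
  have hyy : star y * y ∈ M := mul_mem (star_mem hy) hy
  have haa : star a * a ∈ A := mul_mem (star_mem ha) ha
  have h0 : 0 ≤ CE A η (star y * y) := h.CE_nonneg hyy (star_mul_self_nonneg y)
  have h5 : star a * a * CE A η (star y * y) ≤ ((‖a‖ ^ 2 : ℝ) : ℂ) • CE A η (star y * y) := by
    rw [← sub_nonneg]
    have e3 : ((‖a‖ ^ 2 : ℝ) : ℂ) • CE A η (star y * y) - star a * a * CE A η (star y * y)
        = (((‖a‖ ^ 2 : ℝ) : ℂ) • 1 - star a * a) * CE A η (star y * y) := by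
      rw [sub_mul, smul_mul_assoc, one_mul]
    rw [e3]
    refine Commute.mul_nonneg ?_ h0 ?_
    · have h6 : ‖star a * a‖ ≤ ‖a‖ ^ 2 := by rw [CStarRing.norm_star_mul_self, sq]
      have h7 := (CStarAlgebra.norm_le_iff_le_algebraMap (star a * a) (by positivity)
        (star_mul_self_nonneg a)).1 h6
      rw [Algebra.algebraMap_eq_smul_one] at h7
      rw [sub_nonneg]
      refine h7.trans_eq ?_
      exact (Complex.coe_smul _ _).symm
    · exact h.masa.comm _ (sub_mem (A.smul_mem (one_mem A) _) haa) _ (h.CE_mem hyy)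
  have h8 := inner_mono h5 η
  have e4 : (⟪η, (((‖a‖ ^ 2 : ℝ) : ℂ) • CE A η (star y * y)) η⟫_ℂ).re
      = ‖a‖ ^ 2 * (⟪η, CE A η (star y * y) η⟫_ℂ).re := by
    change (⟪η, ((‖a‖ ^ 2 : ℝ) : ℂ) • (CE A η (star y * y) η)⟫_ℂ).re = _
    rw [inner_smul_right, Complex.re_ofReal_mul]
  rw [e4] at h8
  rw [mul_pow, h3, h4]
  exact h8

/-- **Cutting of normalisers**: up to a small piece of the source, right multiplication by `u` and
by `star u` is bounded. -/
theorem NCE.cut_dom (h : NCE M A η) {u : H →L[ℂ] H} (hu : GN M A u) {δ : ℝ} (hδ : 0 < δ) :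
    ∃ p ∈ A, IsStarProjection p ∧ p * (star u * u) = p ∧ ‖(star u * u - p) η‖ < δ ∧
      ∃ C : ℝ, 0 ≤ C ∧ Dom M η (u * p) C ∧ Dom M η (star (u * p)) C := by
  obtain ⟨δ', hδ', hsmall⟩ := h.small_of_small (u η) (half_pos hδ)
  obtain ⟨p₁, hp₁, hpp₁, hs₁, C₁, hC₁, hd₁⟩ := h.exists_dom_cut (hu.cvec h.masa h.cvec) hδ'
  obtain ⟨p₂, hp₂, hpp₂, hs₂, C₂, hC₂, hd₂⟩ :=
    h.exists_dom_cut (hu.star.cvec h.masa h.cvec) (half_pos hδ)
  have hp₁' := hu.conj' p₁ hp₁
  have hpp₁' := hu.conj'_proj h.masa hp₁ hpp₁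
  have hc12 : (star u * p₁ * u) * p₂ = p₂ * (star u * p₁ * u) := h.masa.comm _ hp₁' _ hp₂
  have hu1 : u * (star u * p₁ * u) = p₁ * u := (hu.mul_eq h.masa hp₁).symm
  refine ⟨(star u * p₁ * u) * p₂, mul_mem hp₁' hp₂, ?_, ?_, ?_, max C₁ C₂,
    le_max_of_le_left hC₁, ?_, ?_⟩
  · refine ⟨?_, ?_⟩
    · change _ * _ = _
      calc (star u * p₁ * u) * p₂ * ((star u * p₁ * u) * p₂)
          = (star u * p₁ * u) * (p₂ * (star u * p₁ * u)) * p₂ := by simp only [mul_assoc]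
        _ = ((star u * p₁ * u) * (star u * p₁ * u)) * (p₂ * p₂) := by
            rw [← hc12]; simp only [mul_assoc]
        _ = _ := by rw [hpp₁'.isIdempotentElem.eq, hpp₂.isIdempotentElem.eq]
    · rw [isSelfAdjoint_iff, star_mul, hpp₂.isSelfAdjoint.star_eq, hpp₁'.isSelfAdjoint.star_eq,
        hc12]
  · rw [hc12, mul_assoc]
    have : star u * p₁ * u * (star u * u) = star u * p₁ * (u * star u * u) := by
      simp only [mul_assoc]
    rw [this, hu.part]
  · have e1 : (star u * u - (star u * p₁ * u) * p₂)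
        = star u * (1 - p₁) * u + (star u * p₁ * u) * (1 - p₂) := by
      rw [mul_sub, mul_one, mul_sub, sub_mul, mul_one]; abel
    have e2 : (star u * u - (star u * p₁ * u) * p₂) η
        = (star u) ((1 - p₁) (u η)) + (star u * p₁ * u) ((1 - p₂) η) := by
      rw [e1]; rfl
    rw [e2]
    have n1 : ‖(star u) ((1 - p₁) (u η))‖ ≤ ‖(1 - p₁) (u η)‖ := by
      calc ‖(star u) ((1 - p₁) (u η))‖ ≤ ‖star u‖ * ‖(1 - p₁) (u η)‖ := (star u).le_opNorm _
        _ ≤ 1 * ‖(1 - p₁) (u η)‖ :=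
          mul_le_mul_of_nonneg_right hu.star.norm_le (norm_nonneg _)
        _ = _ := one_mul _
    have n2 : ‖(star u * p₁ * u) ((1 - p₂) η)‖ ≤ ‖(1 - p₂) η‖ := by
      apply le_of_sq_le_sq _ (norm_nonneg _)
      exact norm_proj_le hpp₁' _
    have n3 := hsmall (1 - p₁) (h.masa.memM (sub_mem (one_mem A) hp₁)) hpp₁.one_sub.norm_le hs₁
    calc _ ≤ ‖(star u) ((1 - p₁) (u η))‖ + ‖(star u * p₁ * u) ((1 - p₂) η)‖ := norm_add_le _ _
      _ < δ := by linarith
  · -- `u p = p₁ u p₂`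
    have e1 : u * ((star u * p₁ * u) * p₂) = p₁ * u * p₂ := by rw [← mul_assoc, hu1]
    rw [e1]
    intro y hy
    have h1 : ‖y ((p₁ * u * p₂) η)‖ ≤ ‖y (p₁ (u η))‖ := by
      have := h.norm_mul_proj_le h.cvec (mul_mem (mul_mem hy (h.masa.memM hp₁)) hu.mem) hp₂ hpp₂
      exact this
    refine h1.trans ((hd₁ y hy).trans ?_)
    exact mul_le_mul_of_nonneg_right (le_max_left _ _) (norm_nonneg _)
  · have e1 : star (u * ((star u * p₁ * u) * p₂)) = p₂ * star u * p₁ := by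
      rw [← mul_assoc u, hu1, star_mul, star_mul, hpp₂.isSelfAdjoint.star_eq,
        hpp₁.isSelfAdjoint.star_eq, mul_assoc]
    rw [e1]
    intro y hy
    have h1 : ‖y ((p₂ * star u * p₁) η)‖ ≤ ‖y (p₂ ((star u) η))‖ := by
      have := h.norm_mul_proj_le h.cvec
        (mul_mem (mul_mem hy (h.masa.memM hp₂)) (star_mem hu.mem)) hp₁ hpp₁
      exact this
    refine h1.trans ((hd₂ y hy).trans ?_)
    exact mul_le_mul_of_nonneg_right (le_max_right _ _) (norm_nonneg _)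

/-- **Radon-Nikodym derivative of a dominated normaliser** -/
theorem NCE.exists_rn (h : NCE M A η) {u : H →L[ℂ] H} (hu : GN M A u) {C : ℝ}
    (hd : Dom M η u C) : ∃ D ∈ A, 0 ≤ D ∧ ‖D‖ ≤ C ^ 2 ∧
      ∀ x ∈ M, ⟪u η, x (u η)⟫_ℂ = ⟪η, (D * x) η⟫_ℂ := by
  obtain ⟨F, hFA, hF0, hF1, hF⟩ := h.exists_mart (β := 0) (γ := u η) (C := C ^ 2) (by positivity)
    (fun p hp hpp => by
      have := hd p (h.masa.memM hp)
      have h2 := pow_le_pow_left₀ (norm_nonneg _) this 2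
      rw [mul_pow] at h2
      simpa using h2)
  refine ⟨F, hFA, hF0, hF1, fun x hx => ?_⟩
  have hc := hu.cvec h.masa h.cvec
  rw [← h.inner_CE_central (fun b hb z hz => hc b hb z hz) hx, hF _ (h.CE_mem hx)]
  simp only [map_zero, inner_zero_right, add_zero]
  rw [h.inner_CE hx hFA]


/-! ### identities for the Radon-Nikodym derivative -/

/-- `Dv` is the Radon-Nikodym derivative of `u` -/
def IsRN (M : VonNeumannAlgebra H) (η : H) (u Dv : H →L[ℂ] H) : Prop :=
  ∀ x ∈ M, ⟪u η, x (u η)⟫_ℂ = ⟪η, (Dv * x) η⟫_ℂ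

lemma inner_conj_eq (u z : H →L[ℂ] H) (ζ : H) : ⟪u ζ, z (u ζ)⟫_ℂ = ⟪ζ, (star u * z * u) ζ⟫_ℂ := by
  rw [ContinuousLinearMap.star_eq_adjoint]
  exact (ContinuousLinearMap.adjoint_inner_right _ _ _).symm

lemma IsRN.apply {u Dv : H →L[ℂ] H} (hD : IsRN M η u Dv) {x : H →L[ℂ] H} (hx : x ∈ M) :
    ⟪η, (star u * x * u) η⟫_ℂ = ⟪η, (Dv * x) η⟫_ℂ := by
  rw [← inner_conj_eq, hD x hx]

section

variable (h : NCE M A η)
include h

lemma NCE.rn_unique {u D₁ D₂ : H →L[ℂ] H} (h1 : D₁ ∈ A) (h2 : D₂ ∈ A) (hD₁ : IsRN M η u D₁)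
    (hD₂ : IsRN M η u D₂) : D₁ = D₂ := by
  refine h.uniq h1 h2 fun a ha => ?_
  rw [h.masa.comm a ha _ h1, h.masa.comm a ha _ h2, ← hD₁ a (h.masa.memM ha),
    ← hD₂ a (h.masa.memM ha)]

/-- the derivative lives under the range projection -/
lemma NCE.rn_rng {u Dv : H →L[ℂ] H} (hu : GN M A u) (hDA : Dv ∈ A) (hD : IsRN M η u Dv) :
    Dv * (u * star u) = Dv := by
  refine h.rn_unique (mul_mem hDA hu.rng) hDA (fun x hx => ?_) hD
  have h1 : Dv * (u * star u) * x = Dv * (u * star u * x) := mul_assoc _ _ _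
  rw [h1, ← hD _ (mul_mem (h.masa.memM hu.rng) hx)]
  rw [inner_conj_eq, inner_conj_eq]
  have h2 : star u * (u * star u * x) * u = (star u * u * star u) * x * u := by
    simp only [mul_assoc]
  rw [h2, hu.part']

/-- cocycle identity -/
lemma NCE.rn_mul {u v Du Dw : H →L[ℂ] H} (hu : GN M A u) (hv : GN M A v) (hDw : Dw ∈ A)
    (h1 : IsRN M η u Du) (h2 : IsRN M η v Dw) :
    IsRN M η (u * v) (Du * (u * Dw * star u)) := by
  intro x hx
  rw [inner_conj_eq]
  have e1 : star (u * v) * x * (u * v) = star v * (star u * x * u) * v := by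
    rw [star_mul]; simp only [mul_assoc]
  rw [e1, h2.apply (mul_mem (mul_mem (star_mem hu.mem) hx) hu.mem)]
  have e2 : Dw * (star u * x * u) = star u * ((u * Dw * star u) * x) * u := by
    have e3 : Dw * star u = star u * (u * Dw * star u) := by
      have := hu.star.mul_eq h.masa hDw
      rwa [star_star] at this
    calc Dw * (star u * x * u) = (Dw * star u) * x * u := by simp only [mul_assoc]
      _ = (star u * (u * Dw * star u)) * x * u := by rw [← e3]
      _ = _ := by simp only [mul_assoc]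
  rw [e2, h1.apply (mul_mem (h.masa.memM (hu.conj _ hDw)) hx),
    ← mul_assoc Du (u * Dw * star u) x]

/-- the derivative of a projection of `A` -/
lemma NCE.rn_proj {p : H →L[ℂ] H} (hp : p ∈ A) (hpp : IsStarProjection p) : IsRN M η p p := by
  intro x hx
  rw [inner_conj_eq, hpp.isSelfAdjoint.star_eq, h.cvec p hp _ (mul_mem (h.masa.memM hp) hx) |>.symm,
    ← mul_assoc, hpp.isIdempotentElem.eq]

/-- the inverse of the derivative -/
lemma NCE.rn_inv {u Du Dw : H →L[ℂ] H} (hu : GN M A u) (hDu : Du ∈ A) (hDw : Dw ∈ A)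
    (h1 : IsRN M η u Du) (h2 : IsRN M η (star u) Dw) : Du * (u * Dw * star u) = u * star u := by
  refine h.rn_unique (mul_mem hDu (hu.conj _ hDw)) hu.rng (h.rn_mul hu hu.star hDw h1 h2)
    (h.rn_proj hu.rng hu.rng_proj)

end

end Crest.Agent.R109
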