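import Crest.Agent.R109.BallA
import Crest.Agent.R109.Dom
import Crest.Agent.R109.BallMeas
import Crest.Agent.R109.Book1
import Crest.Agent.R109.BookSep

/-!
# Row 109: the orbit model on the spectrum of the masa (B)

The Baire σ-algebra of `m.X`, the measure `m.mu η` with `∫ f dμ = ⟪η, Φ f η⟫`, the Radon-Nikodym
cocycle and the quasi-invariant structure `m.qi`.
-/

set_option autoImplicit false
set_option linter.unusedSectionVars false

namespace Crest.Agent.R109

open scoped InnerProductSpace ComplexOrder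
open ContinuousLinearMap Set TopologicalSpace MeasureTheory

universe u

variable {H : Type u} [NormedAddCommGroup H] [InnerProductSpace ℂ H] [CompleteSpace H]
variable {M : VonNeumannAlgebra H} {A : StarSubalgebra ℂ (H →L[ℂ] H)} {η : H}

/-- `BDom` in terms of right multiplication -/
lemma BDom.dom {u : H →L[ℂ] H} {C : ℝ} (hC : BDom M η u C) : Dom M η u (Real.sqrt |C|) := by
  intro y hy
  have h1 := hC (star y * y) (mul_mem (star_mem hy) hy) (star_mul_self_nonneg y)
  rw [← inner_conj_eq, inner_star_mul, inner_star_mul, Complex.ofReal_re, Complex.ofReal_re] at h1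
  have h2 : ‖y (u η)‖ ^ 2 ≤ |C| * ‖y η‖ ^ 2 :=
    h1.trans (mul_le_mul_of_nonneg_right (le_abs_self C) (by positivity))
  apply le_of_sq_le_sq _ (by positivity)
  rw [mul_pow, Real.sq_sqrt (abs_nonneg C)]
  exact h2

lemma Dom.bdom {u : H →L[ℂ] H} {C : ℝ} (hC : Dom M η u C) : BDom M η u (C ^ 2) := by
  intro x hx h0
  obtain ⟨y, hy, rfl⟩ : ∃ y ∈ M, x = star y * y := by
    have hxs : IsSelfAdjoint x := h0.isSelfAdjoint
    refine ⟨cfc Real.sqrt x, Crest.Agent.R124.cfc_mem M hx _, ?_⟩
    have h1 : star (cfc Real.sqrt x) = cfc Real.sqrt x := (cfc_predicate Real.sqrt x).star_eq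
    have hc : ContinuousOn Real.sqrt (spectrum ℝ x) := Real.continuous_sqrt.continuousOn
    rw [h1, ← cfc_mul Real.sqrt Real.sqrt x hc hc]
    have h2 : Set.EqOn (fun t : ℝ => Real.sqrt t * Real.sqrt t) id (spectrum ℝ x) := fun t ht =>
      Real.mul_self_sqrt (spectrum_nonneg_of_nonneg h0 ht)
    rw [cfc_congr h2, cfc_id ℝ x hxs]
  rw [← inner_conj_eq, inner_star_mul, inner_star_mul, Complex.ofReal_re, Complex.ofReal_re,
    ← mul_pow]
  exact pow_le_pow_left₀ (norm_nonneg _) (hC y hy) 2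

namespace Model

variable (m : Model A)

instance : MeasurableSpace m.X := Ball.baire m.X

lemma measurableSet_clopen {s : Set m.X} (hs : IsClopen s) : MeasurableSet s :=
  Ball.baire_measurableSet hs

lemma measurable_real (hA : Masa M A) {f : m.X → ℝ} (hf : Continuous f) : Measurable f := by
  have := m.totallySeparated hA
  exact Ball.baire_measurable_real hf

lemma measurable_complex (hA : Masa M A) {f : m.X → ℂ} (hf : Continuous f) : Measurable f := by
  have h1 : Measurable fun x => (f x).re := m.measurable_real hA (Complex.continuous_re.comp hf)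
  have h2 : Measurable fun x => (f x).im := m.measurable_real hA (Complex.continuous_im.comp hf)
  have h3 : f = fun x => ((f x).re : ℂ) + ((f x).im : ℂ) * Complex.I := by
    funext x
    exact (Complex.re_add_im (f x)).symm
  rw [h3]
  exact (Complex.measurable_ofReal.comp h1).add
    ((Complex.measurable_ofReal.comp h2).mul measurable_const)

/-- continuous maps of `m.X` into itself are measurable -/
lemma measurable_self {f : m.X → m.X} (hf : Continuous f) : Measurable f := by
  apply measurable_generateFrom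
  intro s hs
  exact m.measurableSet_clopen (IsClopen.preimage hs hf)

/-- a real function as a complex one -/
noncomputable def ofR (f : C(m.X, ℝ)) : C(m.X, ℂ) := ⟨fun x => (f x : ℂ), by fun_prop⟩

@[simp] lemma ofR_apply (f : C(m.X, ℝ)) (x : m.X) : m.ofR f x = (f x : ℂ) := rfl

lemma ofR_mul (f k : C(m.X, ℝ)) : m.ofR (f * k) = m.ofR f * m.ofR k := by
  ext x; simp

/-- the functional on real functions -/
noncomputable def lam (η : H) : C(m.X, ℝ) →ₗ[ℝ] ℝ where
  toFun f := (⟪η, m.Φ (m.ofR f) η⟫_ℂ).re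
  map_add' f k := by
    have : m.ofR (f + k) = m.ofR f + m.ofR k := by ext x; simp
    rw [this, map_add, add_apply, inner_add_right, Complex.add_re]
  map_smul' c f := by
    have : m.ofR (c • f) = (c : ℂ) • m.ofR f := by ext x; simp
    rw [this, map_smul, RingHom.id_apply]
    change (⟪η, (c : ℂ) • (m.Φ (m.ofR f) η)⟫_ℂ).re = _
    rw [inner_smul_right, Complex.re_ofReal_mul, smul_eq_mul]

lemma lam_nonneg (η : H) {f : C(m.X, ℝ)} (hf : 0 ≤ f) : 0 ≤ m.lam η f := by
  apply inner_nonneg_re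
  apply m.nonneg_of_nonneg
  intro x
  change (0 : ℂ) ≤ ((f x : ℝ) : ℂ)
  exact_mod_cast hf x

/-- the measure given by the vector `η` -/
noncomputable def mu (η : H) : Measure m.X :=
  Classical.epsilon fun μ : Measure m.X => IsFiniteMeasure μ ∧
    ∀ f : C(m.X, ℝ), ∫ x, f x ∂μ = m.lam η f

section Mu

variable (hA : Masa M A)
include hA

lemma mu_spec (η : H) : IsFiniteMeasure (m.mu η) ∧
    ∀ f : C(m.X, ℝ), ∫ x, f x ∂(m.mu η) = m.lam η f := by
  have := m.totallySeparated hA
  exact Classical.epsilon_spec (p := fun μ : Measure m.X => IsFiniteMeasure μ ∧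
    ∀ f : C(m.X, ℝ), ∫ x, f x ∂μ = m.lam η f)
    (Ball.exists_measure_baire (m.lam η) fun f hf => m.lam_nonneg η hf)

lemma isFiniteMeasure_mu (η : H) : IsFiniteMeasure (m.mu η) := (m.mu_spec hA η).1

lemma integral_mu (η : H) (f : C(m.X, ℝ)) :
    ∫ x, f x ∂(m.mu η) = (⟪η, m.Φ (m.ofR f) η⟫_ℂ).re := (m.mu_spec hA η).2 f

lemma integrable_real (η : H) {f : m.X → ℝ} (hf : Continuous f) : Integrable f (m.mu η) := by
  have := m.isFiniteMeasure_mu hA η
  obtain ⟨C, hC⟩ := (isCompact_range hf).isBounded.exists_norm_le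
  exact Integrable.of_bound (m.measurable_real hA hf).aestronglyMeasurable C
    (Filter.Eventually.of_forall fun x => hC _ ⟨x, rfl⟩)

lemma mu_real_clopen (η : H) (V : Clopens m.X) :
    (m.mu η).real (V : Set m.X) = ‖m.pr V η‖ ^ 2 := by
  have := m.isFiniteMeasure_mu hA η
  let f : C(m.X, ℝ) := ⟨Set.indicator (V : Set m.X) 1, by
    have := (LocallyConstant.charFn ℝ V.isClopen).continuous
    rwa [LocallyConstant.coe_charFn] at this⟩
  have h1 : m.ofR f = m.ind V := by
    ext x
    change ((Set.indicator (V : Set m.X) (1 : m.X → ℝ) x : ℝ) : ℂ) = m.ind V x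
    by_cases hx : x ∈ V
    · rw [m.ind_of_mem hx, Set.indicator_of_mem (show x ∈ (V : Set m.X) from hx)]; simp
    · rw [m.ind_of_notMem hx, Set.indicator_of_notMem (show x ∉ (V : Set m.X) from hx)]; simp
  have h2 := m.integral_mu hA η f
  have h3 : ∫ x, f x ∂(m.mu η) = (m.mu η).real (V : Set m.X) := by
    change ∫ x, Set.indicator (V : Set m.X) (1 : m.X → ℝ) x ∂(m.mu η) = _
    rw [integral_indicator_one (m.measurableSet_clopen V.isClopen)]
  rw [← h3, h2, h1]
  have h4 : m.Φ (m.ind V) = star (m.pr V) * m.pr V := by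
    rw [m.star_pr, m.pr_idem]; rfl
  rw [h4]
  change (⟪η, star (m.pr V) (m.pr V η)⟫_ℂ).re = _
  rw [ContinuousLinearMap.star_eq_adjoint, ContinuousLinearMap.adjoint_inner_right,
    inner_self_eq_norm_sq_to_K]
  norm_cast

lemma mu_univ (η : H) : (m.mu η).real Set.univ = ‖η‖ ^ 2 := by
  have := m.mu_real_clopen hA η ⊤
  rw [m.pr_top] at this
  simpa using this

/-- integral of complex continuous functions -/
lemma integral_mu_complex (η : H) (f : C(m.X, ℂ)) :
    ∫ x, f x ∂(m.mu η) = ⟪η, m.Φ f η⟫_ℂ := by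
  let f1 : C(m.X, ℝ) := ⟨fun x => (f x).re, by fun_prop⟩
  let f2 : C(m.X, ℝ) := ⟨fun x => (f x).im, by fun_prop⟩
  have hreal : ∀ k : C(m.X, ℝ), ⟪η, m.Φ (m.ofR k) η⟫_ℂ = ((∫ x, k x ∂(m.mu η) : ℝ) : ℂ) := by
    intro k
    rw [m.integral_mu hA η k]
    apply Complex.ext
    · simp
    · rw [Complex.ofReal_im, ← Complex.conj_eq_iff_im, inner_conj_symm,
        ← ContinuousLinearMap.adjoint_inner_right, ← ContinuousLinearMap.star_eq_adjoint,
        ← map_star]
      congr 2
      congr 1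
      ext x
      simp
  have h1 : f = m.ofR f1 + Complex.I • m.ofR f2 := by
    ext x
    simp only [ContinuousMap.add_apply, ContinuousMap.smul_apply, ofR_apply, smul_eq_mul]
    change f x = ((f x).re : ℂ) + Complex.I * ((f x).im : ℂ)
    rw [mul_comm, Complex.re_add_im]
  have h2 : ⟪η, m.Φ f η⟫_ℂ = ((∫ x, f1 x ∂(m.mu η) : ℝ) : ℂ)
      + Complex.I * ((∫ x, f2 x ∂(m.mu η) : ℝ) : ℂ) := by
    conv_lhs => rw [h1]
    rw [map_add, map_smul, add_apply, inner_add_right, hreal, ← hreal f2]
    change _ + ⟪η, Complex.I • (m.Φ (m.ofR f2) η)⟫_ℂ = _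
    rw [inner_smul_right]
  have e1 : ((∫ x, f1 x ∂(m.mu η) : ℝ) : ℂ) = ∫ x, ((f1 x : ℝ) : ℂ) ∂(m.mu η) :=
    integral_ofReal.symm
  have e2 : ((∫ x, f2 x ∂(m.mu η) : ℝ) : ℂ) = ∫ x, ((f2 x : ℝ) : ℂ) ∂(m.mu η) :=
    integral_ofReal.symm
  rw [h2, e1, e2]
  have i1 : Integrable (fun x => ((f1 x : ℝ) : ℂ)) (m.mu η) :=
    (m.integrable_real hA η f1.continuous).ofReal
  have i2 : Integrable (fun x => ((f2 x : ℝ) : ℂ)) (m.mu η) :=
    (m.integrable_real hA η f2.continuous).ofReal
  have h3 : ∫ x, f x ∂(m.mu η) = ∫ x, (((f1 x : ℝ) : ℂ) + Complex.I * ((f2 x : ℝ) : ℂ)) ∂(m.mu η) := by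
    congr 1
    funext x
    change f x = ((f x).re : ℂ) + Complex.I * ((f x).im : ℂ)
    rw [mul_comm, Complex.re_add_im]
  rw [h3, integral_add i1 (i2.const_mul _), integral_const_mul]

end Mu

section RN

variable (hN : NCE M A η)
include hN

/-- an element of `A` is determined by its pairings -/
lemma ext_inner {f k : C(m.X, ℂ)}
    (hfk : ∀ q : C(m.X, ℂ), ⟪η, m.Φ (q * f) η⟫_ℂ = ⟪η, m.Φ (q * k) η⟫_ℂ) : f = k := by
  apply m.inj
  apply hN.uniq (m.mem f) (m.mem k)
  intro a ha
  obtain ⟨q, rfl⟩ := (m.mem_iff a).1 ha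
  rw [← map_mul, ← map_mul]
  exact hfk q

/-- Radon-Nikodym derivative as a continuous function -/
lemma exists_rnC (g : UN M A η) : ∃ D : C(m.X, ℝ), (∀ x, 0 ≤ D x) ∧
    ∀ x ∈ M, ⟪η, (star g.op * x * g.op) η⟫_ℂ = ⟪η, (m.Φ (m.ofR D) * x) η⟫_ℂ := by
  obtain ⟨C, hC⟩ := g.dom
  have hg : GN M A g.op := GN.of_unitary g.mem g.star_mul_self (fun _ ha => g.conj ha)
    (fun _ ha => g.conj' ha)
  obtain ⟨D, hDA, hD0, -, hD⟩ := hN.exists_rn hg hC.dom
  obtain ⟨f, rfl⟩ := (m.mem_iff D).1 hDA
  have hf : ∀ x, 0 ≤ f x := m.nonneg_of_Φ hD0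
  let D' : C(m.X, ℝ) := ⟨fun x => (f x).re, by fun_prop⟩
  have hDD : m.ofR D' = f := by
    ext x
    change ((f x).re : ℂ) = f x
    have := hf x
    rw [Complex.le_def] at this
    apply Complex.ext
    · simp
    · simpa using this.2
  refine ⟨D', fun x => ?_, fun x hx => ?_⟩
  · have := hf x
    rw [Complex.le_def] at this
    exact this.1
  · rw [hDD, ← hD x hx, inner_conj_eq]

/-- the Radon-Nikodym cocycle `D g x = dμ(g x)/dμ(x)` -/
noncomputable def rn (g : UN M A η) : C(m.X, ℝ) := (m.exists_rnC hN g⁻¹).choose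

lemma rn_nonneg (g : UN M A η) (x : m.X) : 0 ≤ m.rn hN g x := (m.exists_rnC hN g⁻¹).choose_spec.1 x

lemma rn_spec (g : UN M A η) {x : H →L[ℂ] H} (hx : x ∈ M) :
    ⟪η, (g.op * x * star g.op) η⟫_ℂ = ⟪η, (m.Φ (m.ofR (m.rn hN g)) * x) η⟫_ℂ := by
  have h1 : ⟪η, (star (star g.op) * x * star g.op) η⟫_ℂ
      = ⟪η, (m.Φ (m.ofR (m.rn hN g)) * x) η⟫_ℂ := (m.exists_rnC hN g⁻¹).choose_spec.2 x hx
  rw [star_star] at h1
  exact h1

/-- composition with the action -/
noncomputable def cmp (g : UN M A η) (f : C(m.X, ℂ)) : C(m.X, ℂ) := f.comp ⟨_, m.continuous_smul g⟩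

omit hN in
@[simp] lemma cmp_apply (g : UN M A η) (f : C(m.X, ℂ)) (x : m.X) : m.cmp g f x = f (g • x) := rfl

/-- change of variables for continuous functions -/
lemma change_cont (g : UN M A η) (f : C(m.X, ℂ)) :
    ⟪η, m.Φ f η⟫_ℂ = ⟪η, m.Φ (m.ofR (m.rn hN g) * m.cmp g f) η⟫_ℂ := by
  have h1 := m.rn_spec hN g (x := m.Φ (m.cmp g f)) (hN.masa.le (m.mem _))
  rw [cmp, ← m.Φ_comp g f] at h1
  have h2 : g.op * (star g.op * m.Φ f * g.op) * star g.op = m.Φ f := by
    calc _ = (g.op * star g.op) * m.Φ f * (g.op * star g.op) := by simp only [mul_assoc]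
      _ = _ := by rw [g.mul_star_self, one_mul, mul_one]
  rw [h2, m.Φ_comp g f, ← map_mul] at h1
  exact h1

lemma rn_key (g k : UN M A η) (F : C(m.X, ℂ)) :
    ⟪η, m.Φ (m.ofR (m.rn hN (g * k)) * m.cmp (g * k) F) η⟫_ℂ
      = ⟪η, m.Φ (m.ofR (m.rn hN k) * m.cmp k (m.ofR (m.rn hN g) * m.cmp g F)) η⟫_ℂ := by
  rw [← m.change_cont hN (g * k) F, ← m.change_cont hN k (m.ofR (m.rn hN g) * m.cmp g F),
    ← m.change_cont hN g F]

omit hN in
lemma cmp_inv (g : UN M A η) (q : C(m.X, ℂ)) : m.cmp g (m.cmp g⁻¹ q) = q := by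
  ext x
  rw [cmp_apply, cmp_apply, inv_smul_smul]

omit hN in
lemma cmp_mul (g k : UN M A η) (q : C(m.X, ℂ)) : m.cmp (g * k) q = m.cmp k (m.cmp g q) := by
  ext x
  rw [cmp_apply, cmp_apply, cmp_apply, mul_smul]

omit hN in
lemma cmp_mul_fun (g : UN M A η) (q r : C(m.X, ℂ)) : m.cmp g (q * r) = m.cmp g q * m.cmp g r := by
  ext x
  simp

lemma ofR_rn_mul (g k : UN M A η) :
    m.ofR (m.rn hN (g * k)) = m.cmp k (m.ofR (m.rn hN g)) * m.ofR (m.rn hN k) := by
  apply m.ext_inner hN
  intro q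
  have h1 := m.rn_key hN g k (m.cmp (g * k)⁻¹ q)
  rw [m.cmp_inv, m.cmp_mul_fun, ← m.cmp_mul, m.cmp_inv] at h1
  have h2 : m.ofR (m.rn hN k) * (m.cmp k (m.ofR (m.rn hN g)) * q)
      = q * (m.cmp k (m.ofR (m.rn hN g)) * m.ofR (m.rn hN k)) := by
    ext x
    simp only [ContinuousMap.mul_apply]
    ring
  rw [mul_comm q, h1, h2]

lemma rn_mul (g k : UN M A η) (x : m.X) :
    m.rn hN (g * k) x = m.rn hN g (k • x) * m.rn hN k x := by
  have := congrArg (fun f : C(m.X, ℂ) => f x) (m.ofR_rn_mul hN g k)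
  simp only [ContinuousMap.mul_apply, cmp_apply, ofR_apply] at this
  exact_mod_cast this

lemma rn_fix (g : UN M A η) {x : m.X} (hx : g • x = x) : m.rn hN g x = 1 := by
  have key : m.ofR (m.rn hN g) * m.ind (m.fixC g hN.masa) = m.ind (m.fixC g hN.masa) := by
    apply m.ext_inner hN
    intro q
    have h1 := m.change_cont hN g (q * m.ind (m.fixC g hN.masa))
    have h2 : m.ofR (m.rn hN g) * m.cmp g (q * m.ind (m.fixC g hN.masa))
        = q * (m.ofR (m.rn hN g) * m.ind (m.fixC g hN.masa)) := by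
      ext t
      simp only [ContinuousMap.mul_apply, cmp_apply]
      by_cases ht : t ∈ m.fixC g hN.masa
      · rw [(m.mem_fixC g hN.masa).1 ht]
        ring
      · have ht' : g • t ∉ m.fixC g hN.masa := by
          intro h
          rw [m.mem_fixC g hN.masa] at h
          exact ht ((m.mem_fixC g hN.masa).2 (MulAction.injective g h))
        rw [m.ind_of_notMem ht, m.ind_of_notMem ht']
        ring
    rw [h2] at h1
    exact h1.symm
  have := congrArg (fun f : C(m.X, ℂ) => f x) key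
  simp only [ContinuousMap.mul_apply, ofR_apply] at this
  rw [m.ind_of_mem ((m.mem_fixC g hN.masa).2 hx), mul_one] at this
  exact_mod_cast this

lemma rn_pos (g : UN M A η) (x : m.X) : 0 < m.rn hN g x := by
  refine lt_of_le_of_ne (m.rn_nonneg hN g x) fun h0 => ?_
  have h1 := m.rn_mul hN g⁻¹ g x
  rw [← h0, mul_zero, inv_mul_cancel, m.rn_fix hN 1 (one_smul _ x)] at h1
  exact one_ne_zero h1

/-- change of variables for bounded Baire functions -/
lemma change_meas (g : UN M A η) (f : m.X → ℝ) (hf : Measurable f) :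
    ∫ x, f (g • x) * m.rn hN g x ∂(m.mu η) = ∫ x, f x ∂(m.mu η) := by
  have hfin := m.isFiniteMeasure_mu hN.masa η
  have hmg : Measurable fun x : m.X => g • x := m.measurable_self (m.continuous_smul g)
  have hmD : Measurable fun x : m.X => m.rn hN g x := m.measurable_real hN.masa (m.rn hN g).continuous
  set D' : m.X → NNReal := fun x => Real.toNNReal (m.rn hN g x) with hD'
  have hD'm : Measurable D' := hmD.real_toNNReal
  set ν : Measure m.X := ((m.mu η).withDensity fun x => (D' x : ENNReal)).map (fun x => g • x)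
    with hν
  have hνμ : m.mu η = ν := by
    apply Ball.ext_baire hfin
    intro s hs
    have hsm : MeasurableSet s := m.measurableSet_clopen hs
    have hs' : IsClopen ((fun x : m.X => g • x) ⁻¹' s) := hs.preimage (m.continuous_smul g)
    have hsm' : MeasurableSet ((fun x : m.X => g • x) ⁻¹' s) := m.measurableSet_clopen hs'
    rw [hν, Measure.map_apply hmg hsm, withDensity_apply _ hsm']
    -- both sides as integrals of continuous functions
    let k : C(m.X, ℝ) := ⟨Set.indicator s 1, by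
      have := (LocallyConstant.charFn ℝ hs).continuous
      rwa [LocallyConstant.coe_charFn] at this⟩
    let k' : C(m.X, ℝ) := (k.comp ⟨_, m.continuous_smul g⟩) * m.rn hN g
    have hk : ∫ x, k x ∂(m.mu η) = (m.mu η).real s := by
      change ∫ x, Set.indicator s (1 : m.X → ℝ) x ∂(m.mu η) = _
      rw [integral_indicator_one hsm]
    have hkk : ∫ x, k x ∂(m.mu η) = ∫ x, k' x ∂(m.mu η) := by
      rw [m.integral_mu hN.masa, m.integral_mu hN.masa, m.change_cont hN g (m.ofR k)]
      congr 3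
      congr 1
      ext x
      simp only [ContinuousMap.mul_apply, cmp_apply, ofR_apply, k', ContinuousMap.comp_apply,
        ContinuousMap.coe_mk]
      push_cast
      ring
    have hk' : ∫⁻ x in (fun x : m.X => g • x) ⁻¹' s, (D' x : ENNReal) ∂(m.mu η)
        = ENNReal.ofReal (∫ x, k' x ∂(m.mu η)) := by
      rw [ofReal_integral_eq_lintegral_ofReal (m.integrable_real hN.masa η k'.continuous)]
      · rw [← lintegral_indicator hsm']
        congr 1
        funext x
        by_cases hx : g • x ∈ s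
        · have hx' : x ∈ (fun x : m.X => g • x) ⁻¹' s := hx
          rw [Set.indicator_of_mem hx']
          simp only [k', k, ContinuousMap.mul_apply, ContinuousMap.comp_apply,
            ContinuousMap.coe_mk, Set.indicator_of_mem hx, Pi.one_apply, one_mul, hD']
          rfl
        · have hx' : x ∉ (fun x : m.X => g • x) ⁻¹' s := hx
          rw [Set.indicator_of_notMem hx']
          simp only [k', k, ContinuousMap.mul_apply, ContinuousMap.comp_apply,
            ContinuousMap.coe_mk, Set.indicator_of_notMem hx, zero_mul, ENNReal.ofReal_zero]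
      · refine Filter.Eventually.of_forall fun x => ?_
        simp only [k', k, ContinuousMap.mul_apply, ContinuousMap.comp_apply, ContinuousMap.coe_mk,
          Pi.zero_apply]
        refine mul_nonneg ?_ (m.rn_nonneg hN g x)
        exact Set.indicator_nonneg (fun _ _ => zero_le_one) _
    rw [hk', ← hkk, hk, measureReal_def, ENNReal.ofReal_toReal (measure_ne_top _ _)]
  have h1 : ∫ x, f x ∂(m.mu η) = ∫ x, f x ∂ν := by rw [← hνμ]
  rw [h1, hν, integral_map hmg.aemeasurable hf.aestronglyMeasurable,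
    integral_withDensity_eq_integral_smul hD'm]
  refine integral_congr_ae (Filter.Eventually.of_forall fun x => ?_)
  change f (g • x) * m.rn hN g x = D' x • f (g • x)
  rw [NNReal.smul_def, hD', Real.coe_toNNReal _ (m.rn_nonneg hN g x), smul_eq_mul, mul_comm]

/-- the quasi-invariant structure -/
noncomputable def qi : Book.QI (UN M A η) m.X (m.mu η) where
  D g x := m.rn hN g x
  meas_smul g := m.measurable_self (m.continuous_smul g)
  meas_eq g k := m.measurableSet_clopen (m.isClopen_eq g k hN.masa)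
  meas_D g := m.measurable_real hN.masa (m.rn hN g).continuous
  D_pos g x := m.rn_pos hN g x
  D_mul g k x := m.rn_mul hN g k x
  D_fix g _ hx := m.rn_fix hN g hx
  D_bdd g := by
    obtain ⟨C, hC⟩ := (isCompact_range (m.rn hN g).continuous).isBounded.exists_norm_le
    exact ⟨C, fun x => (le_abs_self _).trans (hC _ ⟨x, rfl⟩)⟩
  change g f hf _ := m.change_meas hN g f hf

@[simp] lemma qi_D (g : UN M A η) (x : m.X) : (m.qi hN).D g x = m.rn hN g x := rfl

end RN

/-- Frolik data for `BookSep` -/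
lemma frolikAt (hA : Masa M A) (g : UN M A η) : Book.FrolikAt (X := m.X) IsClopen g := by
  have := m.extremallyDisconnected hA
  obtain ⟨U, hU, hdis, hcov⟩ := Ball.frolik (m.homeo g)
  refine ⟨U, hU, hU.preimage (m.continuous_smul g), hU.preimage (m.continuous_smul g⁻¹), ?_, ?_⟩
  · intro x hx hgx
    exact Set.disjoint_left.1 hdis hgx ⟨x, hx, rfl⟩
  · intro x hx
    have h1 : x ∈ {x | m.homeo g x ≠ x} := hx
    rw [hcov] at h1
    rcases h1 with (h1 | h1) | h1
    · exact Or.inl h1
    · obtain ⟨y, hy, rfl⟩ := h1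
      refine Or.inr (Or.inr ?_)
      rw [homeo_apply, inv_smul_smul]
      exact hy
    · exact Or.inr (Or.inl h1)

end Model

end Crest.Agent.R109
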