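import Crest.Agent.R109.BallB

/-!
# Row 109: the orbit model on the spectrum of the masa (D)

Every Baire set of `m.X` is clopen up to a `μ`-null set, in a unique way; the resulting map
`m.rep` from Baire sets to clopen sets is a Boolean homomorphism.
-/

set_option autoImplicit false
set_option linter.unusedSectionVars false

namespace Crest.Agent.R109

open scoped InnerProductSpace ComplexOrder symmDiff
open ContinuousLinearMap Set TopologicalSpace MeasureTheory

universe u

variable {H : Type u} [NormedAddCommGroup H] [InnerProductSpace ℂ H] [CompleteSpace H]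
variable {M : VonNeumannAlgebra H} {A : StarSubalgebra ℂ (H →L[ℂ] H)} {η : H}

namespace Model

variable (m : Model A)

/-- the boundary of an open set is null (normality of `η`) -/
lemma mu_closure_diff (hA : Masa M A) (η : H) {U : Set m.X} (hU : IsOpen U) (W : Clopens m.X)
    (hW : (W : Set m.X) = closure U) : m.mu η ((W : Set m.X) \ U) = 0 := by
  have hfin := m.isFiniteMeasure_mu hA η
  refine le_antisymm (le_of_forall_pos_le_add fun ε hε => ?_) bot_le
  rw [zero_add]
  by_cases hε1 : ε = ⊤
  · rw [hε1]; exact le_top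
  have hκ : 0 < Real.sqrt ε.toReal := Real.sqrt_pos.2 (ENNReal.toReal_pos hε.ne' hε1)
  obtain ⟨V, hVU, hVW, hV⟩ := m.exists_clopen_inside hA U hU W hW.subset η hκ
  have h1 : (W : Set m.X) \ U ⊆ ((W ⊓ Vᶜ : Clopens m.X) : Set m.X) := fun x hx =>
    ⟨hx.1, fun h => hx.2 (hVU h)⟩
  have h2 : (m.mu η).real ((W ⊓ Vᶜ : Clopens m.X) : Set m.X) ≤ ε.toReal := by
    rw [m.mu_real_clopen hA]
    have h3 : m.pr (W ⊓ Vᶜ) = m.pr W - m.pr V := by
      rw [m.pr_inf, m.pr_compl, mul_sub, mul_one, m.mul_pr_of_le hVW]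
    rw [h3]
    have := pow_le_pow_left₀ (norm_nonneg _) hV.le 2
    rwa [Real.sq_sqrt ENNReal.toReal_nonneg] at this
  calc m.mu η ((W : Set m.X) \ U) ≤ m.mu η ((W ⊓ Vᶜ : Clopens m.X) : Set m.X) := measure_mono h1
    _ ≤ ε := by
      rw [measureReal_def] at h2
      exact (ENNReal.toReal_le_toReal (measure_ne_top _ _) hε1).1 h2

/-- every Baire set is clopen up to a null set -/
theorem exists_clopen_ae (hA : Masa M A) (η : H) {s : Set m.X} (hs : MeasurableSet s) :
    ∃ V : Clopens m.X, m.mu η (s ∆ (V : Set m.X)) = 0 := by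
  induction s, hs using MeasurableSpace.generateFrom_induction with
  | hC t ht _ => exact ⟨⟨t, ht⟩, by simp⟩
  | empty => exact ⟨⊥, by simp⟩
  | compl t _ ih =>
    obtain ⟨V, hV⟩ := ih
    refine ⟨Vᶜ, ?_⟩
    have : tᶜ ∆ ((Vᶜ : Clopens m.X) : Set m.X) = t ∆ (V : Set m.X) := by
      change tᶜ ∆ (V : Set m.X)ᶜ = _
      exact compl_symmDiff_compl (a := t) (b := (V : Set m.X))
    rw [this]; exact hV
  | iUnion f _ ih =>
    choose V hV using ih
    obtain ⟨W, hW, -⟩ := m.exists_clopen_closure hA (⋃ n, (V n : Set m.X))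
      (isOpen_iUnion fun n => (V n).isClopen.2)
    refine ⟨W, ?_⟩
    have h1 := m.mu_closure_diff hA η (isOpen_iUnion fun n => (V n).isClopen.2) W hW
    have h2 : (⋃ n, f n) ∆ (W : Set m.X)
        ⊆ (⋃ n, f n ∆ (V n : Set m.X)) ∪ ((W : Set m.X) \ ⋃ n, (V n : Set m.X)) := by
      rintro x (⟨hx1, hx2⟩ | ⟨hx1, hx2⟩)
      · obtain ⟨n, hn⟩ := mem_iUnion.1 hx1
        refine Or.inl (mem_iUnion.2 ⟨n, Or.inl ⟨hn, fun hVn => hx2 ?_⟩⟩)
        rw [hW]
        exact subset_closure (mem_iUnion.2 ⟨n, hVn⟩)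
      · by_cases hx3 : x ∈ ⋃ n, (V n : Set m.X)
        · obtain ⟨n, hn⟩ := mem_iUnion.1 hx3
          exact Or.inl (mem_iUnion.2 ⟨n, Or.inr ⟨hn, fun h => hx2 (mem_iUnion.2 ⟨n, h⟩)⟩⟩)
        · exact Or.inr ⟨hx1, hx3⟩
    refine measure_mono_null h2 (measure_union_null (measure_iUnion_null hV) h1)

section Rep

variable (hN : NCE M A η)
include hN

/-- a null clopen set is empty -/
lemma eq_bot_of_mu {V : Clopens m.X} (hV : m.mu η (V : Set m.X) = 0) : V = ⊥ := by
  have h1 := m.mu_real_clopen hN.masa η V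
  rw [measureReal_def, hV, ENNReal.toReal_zero] at h1
  have h2 : m.pr V η = 0 := by
    have : ‖m.pr V η‖ = 0 := by
      have := h1.symm
      exact pow_eq_zero_iff two_ne_zero |>.1 this
    exact norm_eq_zero.1 this
  have h3 := hN.sep _ (hN.masa.le (m.pr_mem V)) h2
  apply m.pr_injective
  rw [h3, m.pr_bot]

/-- clopen sets which are almost equal are equal -/
lemma eq_of_mu {V W : Clopens m.X} (h : m.mu η ((V : Set m.X) ∆ (W : Set m.X)) = 0) : V = W := by
  have h1 : V ⊓ Wᶜ = ⊥ := by
    apply m.eq_bot_of_mu hN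
    refine measure_mono_null (fun x hx => ?_) h
    exact Or.inl ⟨hx.1, hx.2⟩
  have h2 : W ⊓ Vᶜ = ⊥ := by
    apply m.eq_bot_of_mu hN
    refine measure_mono_null (fun x hx => ?_) h
    exact Or.inr ⟨hx.1, hx.2⟩
  exact le_antisymm (by rwa [← disjoint_iff, disjoint_compl_right_iff] at h1)
    (by rwa [← disjoint_iff, disjoint_compl_right_iff] at h2)

/-- the clopen representative of a Baire set -/
noncomputable def rep (s : Set m.X) : Clopens m.X :=
  open Classical in
  if hs : MeasurableSet s then (m.exists_clopen_ae hN.masa η hs).choose else ⊥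

lemma rep_spec {s : Set m.X} (hs : MeasurableSet s) :
    m.mu η (s ∆ (m.rep hN s : Set m.X)) = 0 := by
  rw [rep, dif_pos hs]
  exact (m.exists_clopen_ae hN.masa η hs).choose_spec

lemma rep_unique {s : Set m.X} (hs : MeasurableSet s) {V : Clopens m.X}
    (hV : m.mu η (s ∆ (V : Set m.X)) = 0) : m.rep hN s = V := by
  apply m.eq_of_mu hN
  refine measure_mono_null (fun x hx => ?_) (measure_union_null (m.rep_spec hN hs) hV)
  by_cases hxs : x ∈ s
  · rcases hx with hx | hx
    · exact Or.inr (Or.inl ⟨hxs, hx.2⟩)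
    · exact Or.inl (Or.inl ⟨hxs, hx.2⟩)
  · rcases hx with hx | hx
    · exact Or.inl (Or.inr ⟨hx.1, hxs⟩)
    · exact Or.inr (Or.inr ⟨hx.1, hxs⟩)

/-- almost equal sets have the same representative -/
lemma rep_congr {s t : Set m.X} (hs : MeasurableSet s) (ht : MeasurableSet t)
    (hst : m.mu η (s ∆ t) = 0) : m.rep hN s = m.rep hN t := by
  apply m.rep_unique hN hs
  refine measure_mono_null ?_ (measure_union_null hst (m.rep_spec hN ht))
  exact symmDiff_triangle s t _

lemma rep_clopen (V : Clopens m.X) : m.rep hN (V : Set m.X) = V := by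
  apply m.rep_unique hN (m.measurableSet_clopen V.isClopen)
  simp

lemma rep_empty : m.rep hN ∅ = ⊥ := m.rep_unique hN MeasurableSet.empty (by simp)

lemma rep_univ : m.rep hN univ = ⊤ := m.rep_unique hN MeasurableSet.univ (by simp)

lemma rep_compl {s : Set m.X} (hs : MeasurableSet s) : m.rep hN sᶜ = (m.rep hN s)ᶜ := by
  apply m.rep_unique hN hs.compl
  have : sᶜ ∆ (((m.rep hN s)ᶜ : Clopens m.X) : Set m.X) = s ∆ (m.rep hN s : Set m.X) := by
    change sᶜ ∆ (m.rep hN s : Set m.X)ᶜ = _
    exact compl_symmDiff_compl (a := s) (b := (m.rep hN s : Set m.X))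
  rw [this]
  exact m.rep_spec hN hs

lemma rep_inter {s t : Set m.X} (hs : MeasurableSet s) (ht : MeasurableSet t) :
    m.rep hN (s ∩ t) = m.rep hN s ⊓ m.rep hN t := by
  apply m.rep_unique hN (hs.inter ht)
  refine measure_mono_null (fun x hx => ?_)
    (measure_union_null (m.rep_spec hN hs) (m.rep_spec hN ht))
  rcases hx with ⟨⟨h1, h2⟩, h3⟩ | ⟨⟨h1, h2⟩, h3⟩
  · by_cases h4 : x ∈ (m.rep hN s : Set m.X)
    · exact Or.inr (Or.inl ⟨h2, fun h5 => h3 ⟨h4, h5⟩⟩)
    · exact Or.inl (Or.inl ⟨h1, h4⟩)
  · by_cases h4 : x ∈ s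
    · exact Or.inr (Or.inr ⟨h2, fun h5 => h3 ⟨h4, h5⟩⟩)
    · exact Or.inl (Or.inr ⟨h1, h4⟩)

lemma rep_union {s t : Set m.X} (hs : MeasurableSet s) (ht : MeasurableSet t) :
    m.rep hN (s ∪ t) = m.rep hN s ⊔ m.rep hN t := by
  have h1 : s ∪ t = (sᶜ ∩ tᶜ)ᶜ := by rw [← compl_union, compl_compl]
  rw [h1, m.rep_compl hN (hs.compl.inter ht.compl), m.rep_inter hN hs.compl ht.compl,
    m.rep_compl hN hs, m.rep_compl hN ht, compl_inf, compl_compl, compl_compl]

/-- equivariance -/
lemma rep_preimage_smul (g : UN M A η) {s : Set m.X} (hs : MeasurableSet s) :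
    (m.rep hN ((fun x : m.X => g • x) ⁻¹' s) : Set m.X) = (fun x : m.X => g • x) ⁻¹' (m.rep hN s) := by
  have hfin := m.isFiniteMeasure_mu hN.masa η
  have hmg : Measurable fun x : m.X => g • x := m.measurable_self (m.continuous_smul g)
  let V : Clopens m.X := ⟨(fun x : m.X => g • x) ⁻¹' (m.rep hN s),
    (m.rep hN s).isClopen.preimage (m.continuous_smul g)⟩
  have h1 : m.rep hN ((fun x : m.X => g • x) ⁻¹' s) = V := by
    apply m.rep_unique hN (hmg hs)
    -- the preimage of a null set is null
    have hnull : ∀ t : Set m.X, MeasurableSet t → m.mu η t = 0 →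
        m.mu η ((fun x : m.X => g • x) ⁻¹' t) = 0 := by
      intro t ht h0
      have h2 := m.change_meas hN g (Set.indicator t 1) (measurable_one.indicator ht)
      rw [integral_indicator_one ht, measureReal_def, h0, ENNReal.toReal_zero] at h2
      have h3 : Integrable (fun x => (Set.indicator t (1 : m.X → ℝ)) (g • x) * m.rn hN g x)
          (m.mu η) := by
        obtain ⟨C, hC⟩ := (isCompact_range (m.rn hN g).continuous).isBounded.exists_norm_le
        refine Integrable.of_bound (((measurable_one.indicator ht).comp hmg).mul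
          (m.measurable_real hN.masa (m.rn hN g).continuous)).aestronglyMeasurable C
          (Filter.Eventually.of_forall fun x => ?_)
        have h4 : ‖m.rn hN g x‖ ≤ C := hC _ ⟨x, rfl⟩
        rw [norm_mul]
        by_cases hx : g • x ∈ t
        · rw [Set.indicator_of_mem hx]; simpa using h4
        · rw [Set.indicator_of_notMem hx]
          simpa using (norm_nonneg _).trans h4
      have h5 : ∀ x, 0 ≤ (Set.indicator t (1 : m.X → ℝ)) (g • x) * m.rn hN g x := fun x =>
        mul_nonneg (Set.indicator_nonneg (fun _ _ => zero_le_one) _) (m.rn_nonneg hN g x)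
      have h6 := (integral_eq_zero_iff_of_nonneg h5 h3).1 h2
      rw [Filter.EventuallyEq, ae_iff] at h6
      refine measure_mono_null (fun x hx => ?_) h6
      change ¬ (Set.indicator t (1 : m.X → ℝ)) (g • x) * m.rn hN g x = 0
      have hx' : g • x ∈ t := hx
      rw [Set.indicator_of_mem hx', Pi.one_apply, one_mul]
      exact (m.rn_pos hN g x).ne'
    have h7 := hnull (s ∆ (m.rep hN s : Set m.X))
      (hs.symmDiff (m.measurableSet_clopen (m.rep hN s).isClopen)) (m.rep_spec hN hs)
    exact h7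
  rw [h1]
  rfl

/-- a measurable finite-valued map is almost everywhere equal to a locally constant one -/
theorem exists_clopen_map {ι : Type*} [Finite ι] [Nonempty ι] (c : m.X → ι)
    (hc : ∀ i, MeasurableSet {x | c x = i}) :
    ∃ c' : m.X → ι, (∀ i, IsClopen {x | c' x = i}) ∧ m.mu η {x | c x ≠ c' x} = 0 ∧
      ∀ i, {x | c' x = i} = (m.rep hN {x | c x = i} : Set m.X) := by
  classical
  have := Fintype.ofFinite ι
  have hdis : ∀ i j, i ≠ j → m.rep hN {x | c x = i} ⊓ m.rep hN {x | c x = j} = ⊥ := by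
    intro i j hij
    rw [← m.rep_inter hN (hc i) (hc j), ← m.rep_empty hN]
    congr 1
    ext x
    simp only [mem_inter_iff, mem_ofPred_eq, mem_empty_iff_false, iff_false, not_and]
    rintro rfl h
    exact hij h
  have hcov : ∀ x : m.X, ∃ i, x ∈ m.rep hN {x | c x = i} := by
    intro x
    by_contra hx
    push Not at hx
    have h1 : ∀ s : Finset ι, m.rep hN (⋃ i ∈ s, {x | c x = i}) = s.sup fun i => m.rep hN {x | c x = i} := by
      intro s
      induction s using Finset.induction_on with
      | empty => simp [m.rep_empty hN]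
      | insert a s _ ih =>
        rw [Finset.sup_insert, Finset.set_biUnion_insert, m.rep_union hN (hc a)
          (Finset.measurableSet_biUnion _ fun i _ => hc i), ih]
    have h2 := h1 Finset.univ
    have h3 : (⋃ i ∈ (Finset.univ : Finset ι), {x | c x = i}) = univ := by
      ext y; simp
    rw [h3, m.rep_univ hN] at h2
    have h4 : x ∈ (Finset.univ.sup fun i => m.rep hN {x | c x = i}) := by
      rw [← h2]; trivial
    have h5 : ∀ s : Finset ι, x ∉ (s.sup fun i => m.rep hN {x | c x = i}) := by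
      intro s
      induction s using Finset.induction_on with
      | empty => exact fun h => h
      | insert a s _ ih =>
        rw [Finset.sup_insert]
        rintro (h | h)
        · exact hx a h
        · exact ih h
    exact h5 _ h4
  choose c' hc' using hcov
  have hfib : ∀ i, {x | c' x = i} = (m.rep hN {x | c x = i} : Set m.X) := by
    intro i
    ext x
    constructor
    · rintro rfl; exact hc' x
    · intro hx
      by_contra hne
      have : x ∈ (m.rep hN {y | c y = c' x} ⊓ m.rep hN {y | c y = i} : Clopens m.X) := ⟨hc' x, hx⟩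
      rw [hdis _ _ hne] at this
      exact this
  refine ⟨c', fun i => ?_, ?_, hfib⟩
  · rw [hfib i]; exact (m.rep hN {x | c x = i}).isClopen
  · have h1 : {x | c x ≠ c' x} ⊆ ⋃ i, {x | c x = i} ∆ (m.rep hN {x | c x = i} : Set m.X) := by
      intro x hx
      refine mem_iUnion.2 ⟨c x, Or.inl ⟨rfl, fun h => ?_⟩⟩
      rw [← hfib] at h
      exact hx (h : c' x = c x).symm
    exact measure_mono_null h1 (measure_iUnion_null fun i => m.rep_spec hN (hc i))

end Rep

end Model

end Crest.Agent.R109
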