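import Crest.Agent.R109.Book1

/-!
# Row 109, module BOOK (2): cluster mass transport

For a rooted function `F x U` of finite sets (`x ∈ U ⊆ S • x`), the integral of
`∑_{U ∋ x} F x U` only depends on the weighted fibre sums `∑_{x ∈ U} rel y x * F x U`.
-/

set_option autoImplicit false
set_option linter.unusedSectionVars false

open MeasureTheory
open scoped ENNReal

namespace Crest.Agent.R109.Book

section Cluster

variable {Gam X : Type*} [Group Gam] [MulAction Gam X] [MeasurableSpace X] {μ : Measure X}

/-- measurability of a rooted function of finite sets along moving finite sets -/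
def MeasK (Gam : Type*) {X : Type*} [Group Gam] [MulAction Gam X] [MeasurableSpace X]
    (G : X → Finset X → ℝ) : Prop :=
  ∀ F : Finset Gam, Measurable fun x => G x (ball F x)

theorem measurableSet_mem_ball (Q : QI Gam X μ) (F : Finset Gam) (g : Gam) :
    MeasurableSet {x : X | g • x ∈ ball F x} := by
  have : {x : X | g • x ∈ ball F x} = ⋃ h ∈ F, {x : X | h • x = g • x} := by
    ext x
    simp [mem_ball]
  rw [this]
  exact MeasurableSet.biUnion (Finset.countable_toSet F) fun h _ => Q.meas_eq h g

theorem measurableSet_self_mem_ball (Q : QI Gam X μ) (F : Finset Gam) :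
    MeasurableSet {x : X | x ∈ ball F x} := by
  have := measurableSet_mem_ball Q F 1
  simpa using this

theorem measurableSet_ball_subset (Q : QI Gam X μ) (F F' : Finset Gam) :
    MeasurableSet {x : X | ball F x ⊆ ball F' x} := by
  have : {x : X | ball F x ⊆ ball F' x} = ⋂ h ∈ F, {x : X | h • x ∈ ball F' x} := by
    ext x
    simp only [Set.mem_ofPred_eq, Finset.subset_iff, Set.mem_iInter]
    constructor
    · intro h g hg
      exact h (mem_ball.2 ⟨g, hg, rfl⟩)
    · intro h y hy
      obtain ⟨g, hg, rfl⟩ := mem_ball.1 hy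
      exact h g hg
  rw [this]
  exact MeasurableSet.biInter (Finset.countable_toSet F) fun h _ => measurableSet_mem_ball Q F' h

theorem measurableSet_ball_eq (Q : QI Gam X μ) (F F' : Finset Gam) :
    MeasurableSet {x : X | ball F x = ball F' x} := by
  have : {x : X | ball F x = ball F' x}
      = {x : X | ball F x ⊆ ball F' x} ∩ {x : X | ball F' x ⊆ ball F x} := by
    ext x
    exact Finset.Subset.antisymm_iff
  rw [this]
  exact (measurableSet_ball_subset Q F F').inter (measurableSet_ball_subset Q F' F)

open Classical in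
theorem powerset_ball (S : Finset Gam) (x : X) :
    (ball S x).powerset = S.powerset.image (fun F => ball F x) := by
  ext U
  rw [Finset.mem_powerset, Finset.mem_image, ball, Finset.subset_image_iff]
  constructor
  · rintro ⟨F, hF, rfl⟩
    exact ⟨F, Finset.mem_powerset.2 hF, rfl⟩
  · rintro ⟨F, hF, rfl⟩
    exact ⟨F, Finset.mem_powerset.1 hF, rfl⟩

theorem measurable_sum_powerset (Q : QI Gam X μ) (S : Finset Gam) {G : X → Finset X → ℝ}
    (hG : ∀ F ∈ S.powerset, Measurable fun x => G x (ball F x)) :
    Measurable fun x => ∑ U ∈ (ball S x).powerset, G x U := by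
  classical
  have h := measurable_sum_image S.powerset (fun (F : Finset Gam) (x : X) => ball F x)
    (fun F _ F' _ => measurableSet_ball_eq Q F F') G hG
  simp only [powerset_ball]
  convert h using 1

theorem measurable_sum_ball (Q : QI Gam X μ) (S : Finset Gam) {G : X → X → ℝ}
    (hG : ∀ g ∈ S, Measurable fun x => G x (g • x)) :
    Measurable fun x => ∑ y ∈ ball S x, G x y := by
  classical
  exact measurable_sum_image S (fun (g : Gam) (x : X) => g • x)
    (fun g _ h _ => Q.meas_eq g h) G hG

theorem measurable_card_ball (Q : QI Gam X μ) (S : Finset Gam) :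
    Measurable fun x : X => ((ball S x).card : ℝ) := by
  have h : (fun x : X => ((ball S x).card : ℝ)) = fun x => ∑ y ∈ ball S x, (1 : ℝ) := by
    funext x; simp
  rw [h]
  exact measurable_sum_ball Q S fun g _ => measurable_const

theorem card_ball_le (S : Finset Gam) (x : X) : (ball S x).card ≤ S.card := by
  classical
  exact Finset.card_image_le

theorem card_powerset_ball_le (S : Finset Gam) (x : X) :
    (((ball S x).powerset.card : ℕ) : ℝ) ≤ (2 : ℝ) ^ S.card := by
  rw [Finset.card_powerset]
  push_cast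
  exact pow_le_pow_right₀ (by norm_num) (card_ball_le S x)

theorem ball_translate (F : Finset Gam) (g : Gam) (x : X) [DecidableEq Gam] :
    ball F x = ball (F.image (fun f => f * g⁻¹)) (g • x) := by
  ext y
  simp only [mem_ball, Finset.mem_image]
  constructor
  · rintro ⟨f, hf, rfl⟩
    exact ⟨f * g⁻¹, ⟨f, hf, rfl⟩, by rw [mul_smul, inv_smul_smul]⟩
  · rintro ⟨_, ⟨f, hf, rfl⟩, rfl⟩
    exact ⟨f, hf, by rw [mul_smul, inv_smul_smul]⟩

/-- moving the root -/
theorem MeasK.root (Q : QI Gam X μ) {G : X → Finset X → ℝ} (hG : MeasK Gam G) (g : Gam)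
    (F : Finset Gam) : Measurable fun x => G (g • x) (ball F x) := by
  classical
  have : (fun x => G (g • x) (ball F x))
      = (fun x => G x (ball (F.image (fun f => f * g⁻¹)) x)) ∘ fun x => g • x := by
    funext x
    simp only [Function.comp]
    rw [← ball_translate]
  rw [this]
  exact (hG _).comp (Q.meas_smul g)

/-- the family of clusters containing the root -/
noncomputable def cl (S : Finset Gam) (x : X) : Finset (Finset X) := by
  classical exact (ball S x).powerset.filter (fun U => x ∈ U)

theorem mem_cl {S : Finset Gam} {x : X} {U : Finset X} :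
    U ∈ cl S x ↔ U ⊆ ball S x ∧ x ∈ U := by
  simp [cl]

theorem sum_cl {S : Finset Gam} {x : X} (f : Finset X → ℝ) [DecidablePred fun U : Finset X => x ∈ U] :
    ∑ U ∈ cl S x, f U = ∑ U ∈ (ball S x).powerset, if x ∈ U then f U else 0 := by
  classical
  rw [cl, Finset.sum_filter]
  exact Finset.sum_congr rfl fun U _ => by congr

theorem measurable_sum_cl (Q : QI Gam X μ) (S : Finset Gam) {G : X → Finset X → ℝ}
    (hG : MeasK Gam G) : Measurable fun x => ∑ U ∈ cl S x, G x U := by
  classical
  simp only [sum_cl]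
  refine measurable_sum_powerset Q S (G := fun x U => if x ∈ U then G x U else 0) fun F _ => ?_
  exact Measurable.ite (measurableSet_self_mem_ball Q F) (hG F) measurable_const

theorem abs_sum_cl_le {S : Finset Gam} {x : X} {f : Finset X → ℝ} {C : ℝ}
    (hC : ∀ U, |f U| ≤ C) : |∑ U ∈ cl S x, f U| ≤ 2 ^ S.card * C := by
  classical
  have hC0 : 0 ≤ C := (abs_nonneg _).trans (hC ∅)
  refine (Finset.abs_sum_le_sum_abs _ _).trans ?_
  refine (Finset.sum_le_card_nsmul _ _ C fun U _ => hC U).trans ?_
  rw [nsmul_eq_mul]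
  refine mul_le_mul_of_nonneg_right ?_ hC0
  refine le_trans ?_ (card_powerset_ball_le S x)
  exact_mod_cast Finset.card_le_card (Finset.filter_subset _ _)

theorem integrable_sum_cl (Q : QI Gam X μ) [IsFiniteMeasure μ] (S : Finset Gam)
    {G : X → Finset X → ℝ} (hG : MeasK Gam G) {C : ℝ} (hC : ∀ x U, |G x U| ≤ C) :
    Integrable (fun x => ∑ U ∈ cl S x, G x U) μ :=
  Integrable.of_bound (measurable_sum_cl Q S hG).aestronglyMeasurable (2 ^ S.card * C)
    (Filter.Eventually.of_forall fun x => by
      rw [Real.norm_eq_abs]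
      exact abs_sum_cl_le (hC x))

/-- finite range of a rooted function -/
def Loc (S : Finset Gam) (F : X → Finset X → ℝ) : Prop :=
  ∀ x U, x ∈ U → F x U ≠ 0 → ∀ y ∈ U, U ⊆ ball S y

/-- **averaging lemma**: the integral of a rooted cluster sum -/
theorem averaging (Q : QI Gam X μ) [IsFiniteMeasure μ] {S : Finset Gam}
    (hS : ∀ g ∈ S, g⁻¹ ∈ S) (F : X → Finset X → ℝ) (hm : MeasK Gam F) {C : ℝ}
    (hC : ∀ x U, |F x U| ≤ C) (hloc : Loc S F) :
    ∫ x, ∑ U ∈ cl S x, F x U ∂μ
      = ∫ y, ∑ U ∈ cl S y, (∑ x ∈ U, Q.rel y x * F x U) / (U.card : ℝ) ∂μ := by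
  classical
  set F2 : X → X → ℝ := fun x y =>
    ∑ U ∈ (ball S x).powerset, if x ∈ U ∧ y ∈ U then F x U / (U.card : ℝ) else 0 with hF2
  have hF2m : ∀ g ∈ S, Measurable fun x => F2 x (g • x) := by
    intro g _
    refine measurable_sum_powerset Q S
      (G := fun x U => if x ∈ U ∧ g • x ∈ U then F x U / (U.card : ℝ) else 0) fun F' _ => ?_
    refine Measurable.ite ?_ ((hm F').div (measurable_card_ball Q F')) measurable_const
    exact (measurableSet_self_mem_ball Q F').inter (measurableSet_mem_ball Q F' g)
  have hF2b : ∃ C, ∀ x y, |F2 x y| ≤ C := by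
    refine ⟨2 ^ S.card * C, fun x y => ?_⟩
    have hC0 : 0 ≤ C := (abs_nonneg _).trans (hC x ∅)
    refine (Finset.abs_sum_le_sum_abs _ _).trans ?_
    refine (Finset.sum_le_card_nsmul _ _ C fun U _ => ?_).trans ?_
    · split_ifs with h
      · rw [abs_div]
        have h1 : (1 : ℝ) ≤ |((U.card : ℕ) : ℝ)| := by
          rw [Nat.abs_cast]
          exact_mod_cast Finset.card_pos.2 ⟨x, h.1⟩
        exact (div_le_self (abs_nonneg _) h1).trans (hC _ _)
      · simpa using hC0
    · rw [nsmul_eq_mul]
      exact mul_le_mul_of_nonneg_right (card_powerset_ball_le S x) hC0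
  have hL : ∀ x, ∑ U ∈ cl S x, F x U = ∑ y ∈ ball S x, F2 x y := by
    intro x
    simp only [hF2]
    rw [Finset.sum_comm, sum_cl]
    refine Finset.sum_congr rfl fun U hU => ?_
    have hU' := Finset.mem_powerset.1 hU
    by_cases hx : x ∈ U
    · simp only [hx, true_and, if_true]
      rw [← Finset.sum_filter]
      have : (ball S x).filter (fun y => y ∈ U) = U := by
        ext y
        simp only [Finset.mem_filter]
        exact ⟨fun h => h.2, fun h => ⟨hU' h, h⟩⟩
      rw [this, Finset.sum_const, nsmul_eq_mul]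
      have hc : (U.card : ℝ) ≠ 0 := by
        exact_mod_cast (Finset.card_pos.2 ⟨x, hx⟩).ne'
      field_simp
    · simp [hx]
  simp_rw [hL]
  rw [massTransport Q hS F2 hF2m hF2b]
  refine integral_congr_ae (Filter.Eventually.of_forall fun y => ?_)
  simp only [hF2]
  -- pointwise identity
  have h1 : ∑ x ∈ ball S y, Q.rel y x *
      ∑ U ∈ (ball S x).powerset, (if x ∈ U ∧ y ∈ U then F x U / (U.card : ℝ) else 0)
      = ∑ x ∈ ball S y, ∑ U ∈ (ball S y).powerset,
        (if x ∈ U ∧ y ∈ U then Q.rel y x * F x U / (U.card : ℝ) else 0) := by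
    refine Finset.sum_congr rfl fun x hx => ?_
    rw [Finset.mul_sum]
    -- both equal the sum over the union
    have hA : ∑ U ∈ (ball S x).powerset,
          Q.rel y x * (if x ∈ U ∧ y ∈ U then F x U / (U.card : ℝ) else 0)
        = ∑ U ∈ (ball S x ∪ ball S y).powerset,
          Q.rel y x * (if x ∈ U ∧ y ∈ U then F x U / (U.card : ℝ) else 0) := by
      refine Finset.sum_subset (Finset.powerset_mono.2 Finset.subset_union_left) ?_
      intro U _ hU
      rw [Finset.mem_powerset] at hU
      split_ifs with h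
      · have : F x U = 0 := by
          by_contra hne
          exact hU (hloc x U h.1 hne x h.1)
        simp [this]
      · simp
    have hB : ∑ U ∈ (ball S y).powerset,
          (if x ∈ U ∧ y ∈ U then Q.rel y x * F x U / (U.card : ℝ) else 0)
        = ∑ U ∈ (ball S x ∪ ball S y).powerset,
          (if x ∈ U ∧ y ∈ U then Q.rel y x * F x U / (U.card : ℝ) else 0) := by
      refine Finset.sum_subset (Finset.powerset_mono.2 Finset.subset_union_right) ?_
      intro U _ hU
      rw [Finset.mem_powerset] at hU
      split_ifs with h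
      · have : F x U = 0 := by
          by_contra hne
          exact hU (hloc x U h.1 hne y h.2)
        simp [this]
      · rfl
    rw [hA, hB]
    refine Finset.sum_congr rfl fun U _ => ?_
    split_ifs
    · ring
    · simp
  rw [h1, Finset.sum_comm, sum_cl]
  refine Finset.sum_congr rfl fun U hU => ?_
  have hU' := Finset.mem_powerset.1 hU
  by_cases hy : y ∈ U
  · simp only [hy, and_true, if_true]
    rw [← Finset.sum_filter, Finset.sum_div]
    refine Finset.sum_congr ?_ fun _ _ => rfl
    ext x
    simp only [Finset.mem_filter]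
    exact ⟨fun h => h.2, fun h => ⟨hU' h, h⟩⟩
  · simp [hy]

/-- **cluster mass transport** -/
theorem clusterTransport (Q : QI Gam X μ) [IsFiniteMeasure μ] {S : Finset Gam}
    (hS : ∀ g ∈ S, g⁻¹ ∈ S) (F F' : X → Finset X → ℝ) (hm : MeasK Gam F) (hm' : MeasK Gam F')
    {C : ℝ} (hC : ∀ x U, |F x U| ≤ C) (hC' : ∀ x U, |F' x U| ≤ C)
    (hloc : Loc S F) (hloc' : Loc S F')
    (heq : ∀ y U, y ∈ U → U ⊆ ball S y →
      ∑ x ∈ U, Q.rel y x * F x U = ∑ x ∈ U, Q.rel y x * F' x U) :
    ∫ x, ∑ U ∈ cl S x, F x U ∂μ = ∫ x, ∑ U ∈ cl S x, F' x U ∂μ := by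
  rw [averaging Q hS F hm hC hloc, averaging Q hS F' hm' hC' hloc']
  refine integral_congr_ae (Filter.Eventually.of_forall fun y => ?_)
  refine Finset.sum_congr rfl fun U hU => ?_
  rw [mem_cl] at hU
  rw [heq y U hU.2 hU.1]

end Cluster

end Crest.Agent.R109.Book
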