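import Crest.Agent.R109.Book2

/-!
# Row 109, module BOOK (3): finite volume potentials, FLIP and START

`P x W` is a finite volume potential in units normalised at the root `x`.  Its Moebius inverse
`mob (P x) U` is supported on local clusters.  `Phi` is the infinite volume potential.
-/

set_option autoImplicit false
set_option linter.unusedSectionVars false

open MeasureTheory
open scoped ENNReal

namespace Crest.Agent.R109.Book

section Mobius

variable {X : Type*}

/-- Moebius inverse -/
noncomputable def mob (f : Finset X → ℝ) (U : Finset X) : ℝ :=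
  ∑ V ∈ U.powerset, (-1) ^ (U.card + V.card) * f V

theorem mob_congr {f g : Finset X → ℝ} {U : Finset X} (h : ∀ V ⊆ U, f V = g V) :
    mob f U = mob g U :=
  Finset.sum_congr rfl fun V hV => by rw [h V (Finset.mem_powerset.1 hV)]

theorem mob_sub (f g : Finset X → ℝ) (U : Finset X) :
    mob (fun V => f V - g V) U = mob f U - mob g U := by
  simp only [mob, mul_sub, Finset.sum_sub_distrib]

theorem mob_mul (c : ℝ) (f : Finset X → ℝ) (U : Finset X) :
    mob (fun V => c * f V) U = c * mob f U := by
  simp only [mob, Finset.mul_sum]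
  exact Finset.sum_congr rfl fun _ _ => by ring

theorem mob_insert [DecidableEq X] (f : Finset X → ℝ) {a : X} {U : Finset X} (ha : a ∉ U) :
    mob f (insert a U) = mob (fun V => f (insert a V)) U - mob f U := by
  simp only [mob]
  rw [Finset.sum_powerset_insert ha, ← Finset.sum_sub_distrib, ← Finset.sum_add_distrib]
  refine Finset.sum_congr rfl fun V hV => ?_
  have haV : a ∉ V := fun h => ha (Finset.mem_powerset.1 hV h)
  rw [Finset.card_insert_of_notMem ha, Finset.card_insert_of_notMem haV]
  ring

/-- Moebius inversion -/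
theorem sum_mob (W : Finset X) : ∀ f : Finset X → ℝ, ∑ U ∈ W.powerset, mob f U = f W := by
  classical
  induction W using Finset.induction_on with
  | empty => intro f; simp [mob]
  | insert a W ha ih =>
    intro f
    rw [Finset.sum_powerset_insert ha, ih f]
    have h : ∑ t ∈ W.powerset, mob f (insert a t)
        = ∑ t ∈ W.powerset, (mob (fun V => f (insert a V)) t - mob f t) := by
      refine Finset.sum_congr rfl fun t ht => ?_
      exact mob_insert f fun h => ha (Finset.mem_powerset.1 ht h)
    rw [h, Finset.sum_sub_distrib, ih, ih]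
    ring

theorem sum_mob_mem [DecidableEq X] (f : Finset X → ℝ) (W : Finset X) (x : X) :
    ∑ U ∈ W.powerset, (if x ∈ U then mob f U else 0) = f W - f (W.erase x) := by
  classical
  rw [← sum_mob W f, ← sum_mob (W.erase x) f]
  have h : ∑ U ∈ (W.erase x).powerset, mob f U
      = ∑ U ∈ W.powerset, (if x ∈ U then 0 else mob f U) := by
    rw [← Finset.sum_filter_add_sum_filter_not W.powerset (fun U => x ∈ U)]
    have h1 : ∑ U ∈ W.powerset.filter (fun U => x ∈ U), (if x ∈ U then 0 else mob f U) = 0 :=
      Finset.sum_eq_zero fun U hU => by simp [(Finset.mem_filter.1 hU).2]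
    rw [h1, zero_add]
    refine Finset.sum_congr ?_ ?_
    · ext U
      simp only [Finset.mem_powerset, Finset.mem_filter]
      constructor
      · intro hU
        exact ⟨hU.trans (Finset.erase_subset _ _), fun hx => by simpa using hU hx⟩
      · rintro ⟨hU, hx⟩ y hy
        exact Finset.mem_erase.2 ⟨fun h => hx (h ▸ hy), hU hy⟩
    · intro U hU
      simp [(Finset.mem_filter.1 hU).2]
  rw [h, ← Finset.sum_sub_distrib]
  refine Finset.sum_congr rfl fun U _ => ?_
  split_ifs <;> simp

theorem abs_mob_le {f : Finset X → ℝ} {U : Finset X} {C : ℝ} (h : ∀ V ⊆ U, |f V| ≤ C) :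
    |mob f U| ≤ 2 ^ U.card * C := by
  unfold mob
  refine (Finset.abs_sum_le_sum_abs _ _).trans ?_
  refine (Finset.sum_le_card_nsmul _ _ C fun V hV => ?_).trans ?_
  · rw [abs_mul, abs_pow, abs_neg, abs_one, one_pow, one_mul]
    exact h V (Finset.mem_powerset.1 hV)
  · rw [nsmul_eq_mul, Finset.card_powerset]
    push_cast
    exact le_rfl

end Mobius

section Potential

variable {Gam X : Type*} [Group Gam] [MulAction Gam X] [MeasurableSpace X] {μ : Measure X}

/-- hypotheses on a finite volume potential (in units normalised at the root) -/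
structure FV (Q : QI Gam X μ) (S : Finset Gam) (P : X → Finset X → ℝ) : Prop where
  cov : ∀ x y W, Rel Gam x y → (∀ w ∈ W, Rel Gam x w) → P y W = Q.rel y x * P x W
  loc : ∀ x U, x ∈ U → (∀ w ∈ U, Rel Gam x w) → mob (P x) U ≠ 0 → ∀ y ∈ U, U ⊆ ball S y
  meas : MeasK Gam P
  bdd : ∃ C, ∀ x V, V ⊆ ball S x → |P x V| ≤ C

/-- the infinite volume potential -/
noncomputable def Phi (μ : Measure X) (S : Finset Gam) (P : X → Finset X → ℝ) : ℝ :=
  ∫ x, ∑ U ∈ cl S x, mob (P x) U / (U.card : ℝ) ∂μ

open Classical in
/-- the cluster function, cut to local clusters -/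
noncomputable def cut (S : Finset Gam) (P : X → Finset X → ℝ) (x : X) (U : Finset X) : ℝ :=
  if x ∈ U ∧ U ⊆ ball S x then mob (P x) U else 0

theorem cut_of_mem {S : Finset Gam} {P : X → Finset X → ℝ} {x : X} {U : Finset X}
    (h : U ∈ cl S x) : cut S P x U = mob (P x) U := by
  rw [mem_cl] at h
  rw [cut, if_pos ⟨h.2, h.1⟩]

theorem measurable_card_ball_nat (Q : QI Gam X μ) (S : Finset Gam) :
    Measurable fun x : X => (ball S x).card := by
  refine measurable_to_countable' fun n => ?_
  have h := measurable_card_ball Q S (measurableSet_singleton (n : ℝ))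
  convert h using 1
  ext x
  simp

theorem measK_mob (Q : QI Gam X μ) {P : X → Finset X → ℝ} (hP : MeasK Gam P) :
    MeasK Gam fun x U => mob (P x) U := by
  intro F
  simp only [mob]
  refine measurable_sum_powerset Q F
    (G := fun x V => (-1) ^ ((ball F x).card + V.card) * P x V) fun F' _ => ?_
  refine Measurable.mul ?_ (hP F')
  have h1 : Measurable fun n : ℕ => ((-1 : ℝ)) ^ n := measurable_from_top
  exact h1.comp ((measurable_card_ball_nat Q F).add (measurable_card_ball_nat Q F'))

theorem measK_cut (Q : QI Gam X μ) (S : Finset Gam) {P : X → Finset X → ℝ} (hP : MeasK Gam P) :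
    MeasK Gam (cut S P) := by
  intro F
  unfold cut
  refine Measurable.ite ?_ (measK_mob Q hP F) measurable_const
  exact (measurableSet_self_mem_ball Q F).inter (measurableSet_ball_subset Q F S)

theorem abs_cut_le {S : Finset Gam} {P : X → Finset X → ℝ} {C : ℝ} (hC0 : 0 ≤ C)
    (hC : ∀ x V, V ⊆ ball S x → |P x V| ≤ C) (x : X) (U : Finset X) :
    |cut S P x U| ≤ 2 ^ S.card * C := by
  unfold cut
  split_ifs with h
  · refine (abs_mob_le fun V hV => hC x V (hV.trans h.2)).trans ?_
    refine mul_le_mul_of_nonneg_right ?_ hC0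
    exact pow_le_pow_right₀ (by norm_num)
      ((Finset.card_le_card h.2).trans (card_ball_le S x))
  · simp only [abs_zero]
    positivity

theorem cl_rel {S : Finset Gam} {x : X} {U : Finset X} (h : U ⊆ ball S x) :
    ∀ w ∈ U, Rel Gam x w := fun _ hw => ball_rel (h hw)

/-- differences of finite volume potentials -/
theorem FV.sub {Q : QI Gam X μ} {S : Finset Gam} {P P' : X → Finset X → ℝ} (h : FV Q S P)
    (h' : FV Q S P') : FV Q S fun x W => P x W - P' x W := by
  refine ⟨?_, ?_, ?_, ?_⟩
  · intro x y W hxy hW
    rw [h.cov x y W hxy hW, h'.cov x y W hxy hW]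
    ring
  · intro x U hx hU hne y hy
    have : mob (fun W => P x W - P' x W) U = mob (P x) U - mob (P' x) U := mob_sub _ _ _
    by_cases h0 : mob (P x) U = 0
    · have h0' : mob (P' x) U ≠ 0 := by
        intro h1
        exact hne (by rw [this, h0, h1, sub_zero])
      exact h'.loc x U hx hU h0' y hy
    · exact h.loc x U hx hU h0 y hy
  · intro F
    exact (h.meas F).sub (h'.meas F)
  · obtain ⟨C, hC⟩ := h.bdd
    obtain ⟨C', hC'⟩ := h'.bdd
    exact ⟨C + C', fun x V hV => (abs_sub _ _).trans (add_le_add (hC x V hV) (hC' x V hV))⟩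

section Cut

variable {Q : QI Gam X μ} {S : Finset Gam} {P : X → Finset X → ℝ}

theorem FV.cut_cov (h : FV Q S P) {x y : X} {U : Finset X} (hx : x ∈ U) (hy : y ∈ U)
    (hU : ∀ w ∈ U, Rel Gam x w) : cut S P y U = Q.rel y x * cut S P x U := by
  classical
  have hxy : Rel Gam x y := hU y hy
  have hUy : ∀ w ∈ U, Rel Gam y w := fun w hw => hxy.symm.trans (hU w hw)
  have hm : mob (P y) U = Q.rel y x * mob (P x) U := by
    rw [← mob_mul]
    exact mob_congr fun V hV => h.cov x y V hxy fun w hw => hU w (hV hw)
  by_cases h0 : mob (P x) U = 0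
  · have h1 : mob (P y) U = 0 := by rw [hm, h0, mul_zero]
    simp only [cut, h0, h1, ite_self, mul_zero]
  · have h1 : mob (P y) U ≠ 0 := by
      rw [hm]
      exact mul_ne_zero (Q.rel_pos _ _).ne' h0
    have e1 : cut S P y U = mob (P y) U := if_pos ⟨hy, h.loc y U hy hUy h1 y hy⟩
    have e2 : cut S P x U = mob (P x) U := if_pos ⟨hx, h.loc x U hx hU h0 x hx⟩
    rw [e1, e2, hm]

theorem FV.cut_loc (h : FV Q S P) : Loc S (cut S P) := by
  intro x U hx hne y hy
  unfold cut at hne
  split_ifs at hne with h1
  · exact h.loc x U hx (cl_rel h1.2) hne y hy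
  · exact absurd rfl hne

end Cut

theorem phi_eq_cut (S : Finset Gam) (P : X → Finset X → ℝ) :
    Phi μ S P = ∫ x, ∑ U ∈ cl S x, cut S P x U / (U.card : ℝ) ∂μ := by
  unfold Phi
  refine integral_congr_ae (Filter.Eventually.of_forall fun x => ?_)
  exact Finset.sum_congr rfl fun U hU => by rw [cut_of_mem hU]

/-- rooting independence: any measurable share `al` with `∑_{x ∈ U} al x U = 1` on charged
clusters gives the same integral -/
theorem phi_eq_share {Q : QI Gam X μ} [IsFiniteMeasure μ] {S : Finset Gam}
    (hS : ∀ g ∈ S, g⁻¹ ∈ S) {P : X → Finset X → ℝ} (h : FV Q S P) (al : X → Finset X → ℝ)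
    (hal : MeasK Gam al) (hal1 : ∀ x U, |al x U| ≤ 1)
    (hsum : ∀ y U, y ∈ U → U ⊆ ball S y → mob (P y) U ≠ 0 → ∑ x ∈ U, al x U = 1) :
    Phi μ S P = ∫ x, ∑ U ∈ cl S x, al x U * cut S P x U ∂μ := by
  classical
  rw [phi_eq_cut]
  obtain ⟨C0, hC0⟩ := h.bdd
  set C := max C0 0 with hCdef
  have hC : ∀ x V, V ⊆ ball S x → |P x V| ≤ C := fun x V hV => (hC0 x V hV).trans (le_max_left _ _)
  have hCn : 0 ≤ C := le_max_right _ _
  have hb := abs_cut_le hCn hC
  have hB0 : 0 ≤ 2 ^ S.card * C := by positivity
  refine clusterTransport Q hS (fun x U => cut S P x U / (U.card : ℝ))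
    (fun x U => al x U * cut S P x U) ?_ ?_ (C := 2 ^ S.card * C) ?_ ?_ ?_ ?_ ?_
  · intro F
    exact (measK_cut Q S h.meas F).div (measurable_card_ball Q F)
  · intro F
    exact (hal F).mul (measK_cut Q S h.meas F)
  · intro x U
    rw [abs_div]
    rcases Nat.eq_zero_or_pos U.card with hU | hU
    · rw [hU]; simpa using hB0
    · refine (div_le_self (abs_nonneg _) ?_).trans (hb x U)
      rw [Nat.abs_cast]
      exact_mod_cast hU
  · intro x U
    rw [abs_mul]
    calc |al x U| * |cut S P x U| ≤ 1 * (2 ^ S.card * C) :=
          mul_le_mul (hal1 x U) (hb x U) (abs_nonneg _) zero_le_one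
      _ = _ := one_mul _
  · intro x U hx hne
    refine h.cut_loc x U hx fun h0 => hne ?_
    simp only [h0, zero_div]
  · intro x U hx hne
    refine h.cut_loc x U hx fun h0 => hne ?_
    simp only [h0, mul_zero]
  · intro y U hy hU
    have hUy := cl_rel hU
    have hcov : ∀ x ∈ U, Q.rel y x * cut S P x U = cut S P y U := fun x hx =>
      (h.cut_cov hx hy fun w hw => (hUy x hx).symm.trans (hUy w hw)).symm
    have e1 : ∑ x ∈ U, Q.rel y x * (cut S P x U / (U.card : ℝ)) = cut S P y U := by
      have : ∀ x ∈ U, Q.rel y x * (cut S P x U / (U.card : ℝ)) = cut S P y U / (U.card : ℝ) := by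
        intro x hx
        rw [← hcov x hx]
        ring
      rw [Finset.sum_congr rfl this, Finset.sum_const, nsmul_eq_mul]
      have hc : (U.card : ℝ) ≠ 0 := by exact_mod_cast (Finset.card_pos.2 ⟨y, hy⟩).ne'
      field_simp
    have e2 : ∑ x ∈ U, Q.rel y x * (al x U * cut S P x U)
        = (∑ x ∈ U, al x U) * cut S P y U := by
      rw [Finset.sum_mul]
      refine Finset.sum_congr rfl fun x hx => ?_
      rw [← hcov x hx]
      ring
    rw [e1, e2]
    by_cases h0 : mob (P y) U = 0
    · have : cut S P y U = 0 := by simp only [cut, h0, ite_self]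
      rw [this, mul_zero]
    · rw [hsum y U hy hU h0, one_mul]

theorem integrable_share {Q : QI Gam X μ} [IsFiniteMeasure μ] {S : Finset Gam}
    {P : X → Finset X → ℝ} (h : FV Q S P) (al : X → Finset X → ℝ)
    (hal : MeasK Gam al) (hal1 : ∀ x U, |al x U| ≤ 1) :
    Integrable (fun x => ∑ U ∈ cl S x, al x U * cut S P x U) μ := by
  obtain ⟨C0, hC0⟩ := h.bdd
  have hC : ∀ x V, V ⊆ ball S x → |P x V| ≤ max C0 0 :=
    fun x V hV => (hC0 x V hV).trans (le_max_left _ _)
  refine integrable_sum_cl Q S (G := fun x U => al x U * cut S P x U)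
    (C := 2 ^ S.card * max C0 0) (fun F => (hal F).mul (measK_cut Q S h.meas F)) fun x U => ?_
  rw [abs_mul]
  calc |al x U| * |cut S P x U| ≤ 1 * (2 ^ S.card * max C0 0) :=
        mul_le_mul (hal1 x U) (abs_cut_le (le_max_right _ _) hC x U) (abs_nonneg _) zero_le_one
    _ = _ := one_mul _

theorem measK_card (Q : QI Gam X μ) : MeasK Gam fun (_ : X) U => 1 / (U.card : ℝ) :=
  fun F => measurable_const.div (measurable_card_ball Q F)

theorem integrable_phi {Q : QI Gam X μ} [IsFiniteMeasure μ] {S : Finset Gam}
    {P : X → Finset X → ℝ} (h : FV Q S P) :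
    Integrable (fun x => ∑ U ∈ cl S x, mob (P x) U / (U.card : ℝ)) μ := by
  have h1 := integrable_share h (fun _ U => 1 / (U.card : ℝ)) (measK_card Q) ?_
  · refine h1.congr (Filter.Eventually.of_forall fun x => ?_)
    refine Finset.sum_congr rfl fun U hU => ?_
    rw [cut_of_mem hU]
    ring
  · intro x U
    rw [abs_div, abs_one, Nat.abs_cast]
    rcases Nat.eq_zero_or_pos U.card with hU | hU
    · rw [hU]; simp
    · exact div_le_one_of_le₀ (by exact_mod_cast hU) (by positivity)

theorem phi_sub {Q : QI Gam X μ} [IsFiniteMeasure μ] {S : Finset Gam}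
    {P P' : X → Finset X → ℝ} (h : FV Q S P) (h' : FV Q S P') :
    Phi μ S (fun x W => P x W - P' x W) = Phi μ S P - Phi μ S P' := by
  unfold Phi
  rw [← integral_sub (integrable_phi h) (integrable_phi h')]
  refine integral_congr_ae (Filter.Eventually.of_forall fun x => ?_)
  simp only
  rw [← Finset.sum_sub_distrib]
  refine Finset.sum_congr rfl fun U _ => ?_
  rw [mob_sub]
  ring

/-- **FLIP**: two finite volume potentials which differ only through a separated set `D` -/
theorem flip {Q : QI Gam X μ} [IsFiniteMeasure μ] {S : Finset Gam}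
    (hS : ∀ g ∈ S, g⁻¹ ∈ S) {P P' : X → Finset X → ℝ} (h : FV Q S P) (h' : FV Q S P')
    {D : Set X} (hD : MeasurableSet D) (hsep : ∀ x ∈ D, ∀ y ∈ ball S x, y ∈ D → y = x)
    (hagree : ∀ x W, (∀ w ∈ W, Rel Gam x w) → (∀ w ∈ W, w ∉ D) → P x W = P' x W) :
    Phi μ S P' - Phi μ S P = ∫ x in D, (P' x (ball S x) - P x (ball S x)) ∂μ := by
  classical
  have hd := h'.sub h
  rw [← phi_sub h' h]
  have hzero : ∀ x U, (∀ w ∈ U, Rel Gam x w) → (∀ w ∈ U, w ∉ D) →
      mob (fun W => P' x W - P x W) U = 0 := by
    intro x U hU hUD
    have : mob (fun W => P' x W - P x W) U = mob (fun _ => (0 : ℝ)) U :=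
      mob_congr fun V hV => by
        rw [hagree x V (fun w hw => hU w (hV hw)) (fun w hw => hUD w (hV hw)), sub_self]
    rw [this]
    simp [mob]
  rw [phi_eq_share hS hd (fun x _ => D.indicator (fun _ => (1 : ℝ)) x) ?_ ?_ ?_]
  · rw [← integral_indicator hD]
    refine integral_congr_ae (Filter.Eventually.of_forall fun x => ?_)
    simp only
    by_cases hx : x ∈ D
    · rw [Set.indicator_of_mem hx]
      simp only [Set.indicator_of_mem hx, one_mul]
      have e1 : ∑ U ∈ cl S x, cut S (fun x W => P' x W - P x W) x U
          = ∑ U ∈ cl S x, mob (fun W => P' x W - P x W) U :=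
        Finset.sum_congr rfl fun U hU => cut_of_mem hU
      rw [e1, ← sum_mob (ball S x) (fun W => P' x W - P x W)]
      refine Finset.sum_subset ?_ ?_
      · intro U hU
        exact Finset.mem_powerset.2 (mem_cl.1 hU).1
      · intro U hU hU'
        have hUb := Finset.mem_powerset.1 hU
        have hxU : x ∉ U := fun hx' => hU' (mem_cl.2 ⟨hUb, hx'⟩)
        refine hzero x U (cl_rel hUb) fun w hw hwD => hxU ?_
        have := hsep x hx w (hUb hw) hwD
        rwa [← this]
    · rw [Set.indicator_of_notMem hx]
      simp only [Set.indicator_of_notMem hx, zero_mul, Finset.sum_const_zero]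
  · intro F
    exact (measurable_const.indicator hD)
  · intro x U
    by_cases hx : x ∈ D
    · simp [Set.indicator_of_mem hx]
    · simp [Set.indicator_of_notMem hx]
  · intro y U hy hU hne
    have hUy := cl_rel hU
    have hex : ∃ d ∈ U, d ∈ D := by
      by_contra hcon
      push Not at hcon
      exact hne (hzero y U hUy hcon)
    obtain ⟨d, hdU, hdD⟩ := hex
    have hloc := hd.loc y U hy hUy hne d hdU
    rw [Finset.sum_eq_single d]
    · exact Set.indicator_of_mem hdD _
    · intro b hb hbd
      refine Set.indicator_of_notMem (fun hbD => hbd ?_) _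
      exact hsep d hdD b (hloc hb) hbD
    · intro h0
      exact absurd hdU h0

/-- `y` is lighter than `x` (ties broken by the class) -/
def lighter (Q : QI Gam X μ) (cls : X → ℕ) (y x : X) : Prop :=
  Q.rel x y < 1 ∨ (Q.rel x y = 1 ∧ cls y < cls x)

open Classical in
/-- **START**: if adding the heaviest vertex costs at most `e` then the potential is at most
`e μ(X)` -/
theorem start {Q : QI Gam X μ} [IsFiniteMeasure μ] {S : Finset Gam}
    (hS : ∀ g ∈ S, g⁻¹ ∈ S) {P : X → Finset X → ℝ} (h : FV Q S P) (cls : X → ℕ)
    (hcm : Measurable cls) (hsep : ∀ x, ∀ y ∈ ball S x, cls y = cls x → y = x)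
    {e : ℝ} (he : 0 ≤ e)
    (hstart : ∀ x W, x ∈ W → W ⊆ ball S x → (∀ w ∈ W, Q.rel x w ≤ 1) →
      P x W - P x (W.erase x) ≤ e) :
    Phi μ S P ≤ e * μ.real Set.univ := by
  classical
  set al : X → Finset X → ℝ := fun x U => if ∀ y ∈ U, y ≠ x → lighter Q cls y x then 1 else 0
    with hal
  have halm : MeasK Gam al := by
    intro F
    refine Measurable.ite ?_ measurable_const measurable_const
    have : {x : X | ∀ y ∈ ball F x, y ≠ x → lighter Q cls y x}
        = ⋂ g ∈ F, ({x : X | g • x = (1 : Gam) • x} ∪
          ({x : X | Q.D g x < 1} ∪ ({x : X | Q.D g x = 1} ∩ {x : X | cls (g • x) < cls x}))) := by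
      ext x
      simp only [Set.mem_iInter, Set.mem_union, Set.mem_inter_iff, Set.mem_ofPred_eq, one_smul]
      constructor
      · intro hx g hg
        by_cases hgx : g • x = x
        · exact Or.inl hgx
        · have := hx (g • x) (mem_ball.2 ⟨g, hg, rfl⟩) hgx
          rw [lighter, Q.rel_smul] at this
          exact Or.inr this
      · intro hx y hy hyx
        obtain ⟨g, hg, rfl⟩ := mem_ball.1 hy
        rw [lighter, Q.rel_smul]
        exact (hx g hg).resolve_left hyx
    rw [this]
    refine MeasurableSet.biInter (Finset.countable_toSet F) fun g _ => ?_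
    refine (Q.meas_eq g 1).union ((measurableSet_lt (Q.meas_D g) measurable_const).union ?_)
    exact (measurableSet_eq_fun (Q.meas_D g) measurable_const).inter
      (measurableSet_lt (hcm.comp (Q.meas_smul g)) hcm)
  have hal1 : ∀ x U, |al x U| ≤ 1 := by
    intro x U
    simp only [hal]
    split_ifs <;> simp
  have hsum : ∀ y U, y ∈ U → U ⊆ ball S y → mob (P y) U ≠ 0 → ∑ x ∈ U, al x U = 1 := by
    intro y U hy hU hne
    have hUy := cl_rel hU
    have hloc := h.loc y U hy hUy hne
    -- the heaviest vertex
    obtain ⟨m, hmU, hm⟩ := Finset.exists_max_image U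
      (fun x => toLex (Q.rel y x, cls x)) ⟨y, hy⟩
    have hrel : ∀ x ∈ U, ∀ z ∈ U, Q.rel y z = Q.rel y x * Q.rel x z := fun x hx z hz =>
      Q.rel_trans (hUy x hx) ((hUy x hx).symm.trans (hUy z hz))
    have hlt : ∀ x ∈ U, ∀ z ∈ U, (lighter Q cls z x ↔
        toLex (Q.rel y z, cls z) < toLex (Q.rel y x, cls x)) := by
      intro x hx z hz
      rw [lighter, Prod.Lex.toLex_lt_toLex, hrel x hx z hz]
      have hp := Q.rel_pos y x
      constructor
      · rintro (h0 | ⟨h0, h2⟩)
        · left
          simpa using mul_lt_mul_of_pos_left h0 hp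
        · right
          refine ⟨by simp only [h0, mul_one], h2⟩
      · rintro (h0 | ⟨h0, h2⟩)
        · left
          by_contra hcon
          push Not at hcon
          have : Q.rel y x * 1 ≤ Q.rel y x * Q.rel x z := mul_le_mul_of_nonneg_left hcon hp.le
          simp only [mul_one] at this
          exact absurd h0 (not_lt.2 this)
        · right
          refine ⟨?_, h2⟩
          have h3 : Q.rel y x * Q.rel x z = Q.rel y x * 1 := by simpa using h0
          exact mul_left_cancel₀ hp.ne' h3
    have hinj : ∀ x ∈ U, ∀ z ∈ U,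
        toLex (Q.rel y z, cls z) = toLex (Q.rel y x, cls x) → z = x := by
      intro x hx z hz heq
      have h2 : cls z = cls x := by
        have := congrArg (fun t => (ofLex t).2) heq
        simpa using this
      exact hsep x z (hloc x hx hz) h2
    rw [Finset.sum_eq_single m]
    · simp only [hal]
      rw [if_pos]
      intro z hz hzm
      rw [hlt m hmU z hz]
      exact lt_of_le_of_ne (hm z hz) fun heq => hzm (hinj m hmU z hz heq)
    · intro b hb hbm
      simp only [hal]
      rw [if_neg]
      intro hcon
      have h3 := hcon m hmU (Ne.symm hbm)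
      rw [hlt b hb m hmU] at h3
      exact absurd (hm b hb) (not_le.2 h3)
    · intro h0
      exact absurd hmU h0
  rw [phi_eq_share hS h al halm hal1 hsum]
  have hint := integrable_share h al halm hal1
  calc ∫ x, ∑ U ∈ cl S x, al x U * cut S P x U ∂μ ≤ ∫ _, e ∂μ := by
        refine integral_mono hint (integrable_const e) fun x => ?_
        simp only
        by_cases hx : x ∈ ball S x
        · set W := (ball S x).filter (fun y => y = x ∨ lighter Q cls y x) with hW
          have hWsub : W ⊆ ball S x := Finset.filter_subset _ _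
          have hxW : x ∈ W := by simp [hW, hx]
          have e1 : ∑ U ∈ cl S x, al x U * cut S P x U
              = ∑ U ∈ W.powerset, (if x ∈ U then mob (P x) U else 0) := by
            have e2 : ∑ U ∈ cl S x, al x U * cut S P x U
                = ∑ U ∈ (ball S x).powerset,
                    (if x ∈ U ∧ U ⊆ W then mob (P x) U else 0) := by
              rw [sum_cl]
              refine Finset.sum_congr rfl fun U hU => ?_
              have hUb := Finset.mem_powerset.1 hU
              by_cases hxU : x ∈ U
              · simp only [hxU, if_true, true_and]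
                rw [cut_of_mem (mem_cl.2 ⟨hUb, hxU⟩)]
                have : (∀ y ∈ U, y ≠ x → lighter Q cls y x) ↔ U ⊆ W := by
                  constructor
                  · intro hy y hyU
                    simp only [hW, Finset.mem_filter]
                    refine ⟨hUb hyU, ?_⟩
                    by_cases hyx : y = x
                    · exact Or.inl hyx
                    · exact Or.inr (hy y hyU hyx)
                  · intro hy y hyU hyx
                    have := hy hyU
                    simp only [hW, Finset.mem_filter] at this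
                    exact this.2.resolve_left hyx
                simp only [hal, this]
                split_ifs <;> simp
              · simp [hxU]
            rw [e2]
            symm
            have e3 : ∑ U ∈ W.powerset, (if x ∈ U then mob (P x) U else 0)
                = ∑ U ∈ W.powerset, (if x ∈ U ∧ U ⊆ W then mob (P x) U else 0) := by
              refine Finset.sum_congr rfl fun U hU => ?_
              have := Finset.mem_powerset.1 hU
              simp [this]
            rw [e3]
            refine Finset.sum_subset (Finset.powerset_mono.2 hWsub) ?_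
            intro U _ hU
            rw [if_neg]
            rintro ⟨_, h4⟩
            exact hU (Finset.mem_powerset.2 h4)
          rw [e1, sum_mob_mem]
          refine hstart x W hxW hWsub fun w hw => ?_
          simp only [hW, Finset.mem_filter] at hw
          rcases hw.2 with rfl | h5 | ⟨h5, _⟩
          · rw [Q.rel_self]
          · exact h5.le
          · exact h5.le
        · have : cl S x = ∅ := by
            rw [Finset.eq_empty_iff_forall_notMem]
            intro U hU
            rw [mem_cl] at hU
            exact hx (hU.1 hU.2)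
          rw [this, Finset.sum_empty]
          exact he
    _ = e * μ.real Set.univ := by
        rw [integral_const, smul_eq_mul, mul_comm]

end Potential

end Crest.Agent.R109.Book
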