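import Crest.Agent.R109.Book3

/-!
# Row 109, module BOOK (4): sequential colouring with admissible lists

States are `X → Option (Fin r)` (`none` = undecided).  The classes `cls x < N` are processed one
after the other; `Adm c x` is the list of admissible colours at `x` (it depends only on `c` on the
earlier classes in `S • x`).  Every measurable colouring with `c x ∈ Adm c x` has small potential.
-/

set_option autoImplicit false
set_option linter.unusedSectionVars false

open MeasureTheory
open scoped ENNReal

namespace Crest.Agent.R109.Book

section Select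

variable {Gam X : Type*} [Group Gam] [MulAction Gam X] [MeasurableSpace X] {μ : Measure X}

/-- measurability of functions with values in a finite set -/
def MeasF {Z : Type*} (s : X → Z) : Prop := ∀ a : Z, MeasurableSet {x | s x = a}

/-- a family of finite volume potentials indexed by states -/
structure FVS (Q : QI Gam X μ) (S : Finset Gam) {r : ℕ}
    (p : (X → Option (Fin r)) → X → Finset X → ℝ) : Prop where
  fv : ∀ s, MeasF s → FV Q S (p s)
  dep : ∀ s s' x W, (∀ w ∈ W, Rel Gam x w) → (∀ w ∈ W, s w = s' w) → p s x W = p s' x W

variable {r : ℕ} (p : (X → Option (Fin r)) → X → Finset X → ℝ) (S : Finset Gam) (cls : X → ℕ)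

/-- the state when the classes `< j` have been coloured -/
def st (c : X → Fin r) (j : ℕ) (x : X) : Option (Fin r) := if cls x < j then some (c x) else none

open Classical in
/-- admissible colours at `x` -/
noncomputable def Adm (c : X → Fin r) (x : X) : Finset (Fin r) :=
  Finset.univ.filter fun a =>
    p (Function.update (st cls c (cls x)) x (some a)) x (ball S x)
      ≤ p (st cls c (cls x)) x (ball S x)

variable {p S cls}

open Classical in
theorem mem_Adm {c : X → Fin r} {x : X} {a : Fin r} : a ∈ Adm p S cls c x ↔
    p (Function.update (st cls c (cls x)) x (some a)) x (ball S x)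
      ≤ p (st cls c (cls x)) x (ball S x) := by
  simp only [Adm, Finset.mem_filter, Finset.mem_univ, true_and]

theorem st_self (c : X → Fin r) (x : X) : st cls c (cls x) x = none := by
  simp [st]

open Classical in
theorem card_Adm {m : ℕ}
    (hgood : ∀ (s : X → Option (Fin r)) (x : X), s x = none →
      m ≤ (Finset.univ.filter fun a : Fin r =>
        p (Function.update s x (some a)) x (ball S x) ≤ p s x (ball S x)).card)
    (c : X → Fin r) (x : X) : m ≤ (Adm p S cls c x).card := by
  exact hgood (st cls c (cls x)) x (st_self c x)

theorem Adm_congr {Q : QI Gam X μ} (hp : FVS Q S p) {c c' : X → Fin r} {x : X}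
    (h : ∀ y ∈ ball S x, cls y < cls x → c y = c' y) : Adm p S cls c x = Adm p S cls c' x := by
  classical
  have hst : ∀ y ∈ ball S x, st cls c (cls x) y = st cls c' (cls x) y := by
    intro y hy
    unfold st
    split_ifs with h1
    · rw [h y hy h1]
    · rfl
  ext a
  rw [mem_Adm, mem_Adm]
  have hr : ∀ w ∈ ball S x, Rel Gam x w := fun w hw => ball_rel hw
  rw [hp.dep (st cls c (cls x)) (st cls c' (cls x)) x (ball S x) hr hst]
  rw [hp.dep (Function.update (st cls c (cls x)) x (some a))
    (Function.update (st cls c' (cls x)) x (some a)) x (ball S x) hr]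
  intro w hw
  by_cases hwx : w = x
  · subst hwx; simp
  · rw [Function.update_of_ne hwx, Function.update_of_ne hwx, hst w hw]

theorem measF_st (hcm : Measurable cls) {c : X → Fin r} (hc : MeasF c) (j : ℕ) :
    MeasF (st cls c j) := by
  intro a
  cases a with
  | none =>
    have : {x | st cls c j x = none} = {x | cls x < j}ᶜ := by
      ext x
      simp [st]
    rw [this]
    exact (measurableSet_lt hcm measurable_const).compl
  | some a =>
    have : {x | st cls c j x = some a} = {x | cls x < j} ∩ {x | c x = a} := by
      ext x
      simp [st]
    rw [this]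
    exact (measurableSet_lt hcm measurable_const).inter (hc a)

/-- the state after class `j` got the constant colour `a` -/
def stc (cls : X → ℕ) (c : X → Fin r) (j : ℕ) (a : Fin r) (x : X) : Option (Fin r) :=
  if cls x < j then some (c x) else if cls x = j then some a else none

theorem measF_stc (hcm : Measurable cls) {c : X → Fin r} (hc : MeasF c) (j : ℕ) (a : Fin r) :
    MeasF (stc cls c j a) := by
  intro b
  have hl : MeasurableSet {x | cls x < j} := measurableSet_lt hcm measurable_const
  have he : MeasurableSet {x | cls x = j} := measurableSet_eq_fun hcm measurable_const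
  cases b with
  | none =>
    have : {x | stc cls c j a x = none} = {x | cls x < j}ᶜ ∩ {x | cls x = j}ᶜ := by
      ext x
      simp only [stc, Set.mem_ofPred_eq, Set.mem_inter_iff, Set.mem_compl_iff]
      split_ifs <;> simp_all
    rw [this]
    exact hl.compl.inter he.compl
  | some b =>
    by_cases hab : a = b
    · have : {x | stc cls c j a x = some b}
          = ({x | cls x < j} ∩ {x | c x = b}) ∪ {x | cls x = j} := by
        ext x
        simp only [stc, Set.mem_ofPred_eq, Set.mem_inter_iff, Set.mem_union]
        split_ifs with h1 h2
        · simp [h1, h1.ne]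
        · simp [h2, hab]
        · simp [h1, h2]
      rw [this]
      exact (hl.inter (hc b)).union he
    · have : {x | stc cls c j a x = some b} = {x | cls x < j} ∩ {x | c x = b} := by
        ext x
        simp only [stc, Set.mem_ofPred_eq, Set.mem_inter_iff]
        split_ifs with h1 h2
        · simp [h1]
        · simp [hab, h1]
        · simp [h1]
      rw [this]
      exact hl.inter (hc b)

theorem measurable_fv {Q : QI Gam X μ} (hp : FVS Q S p) {s : X → Option (Fin r)} (hs : MeasF s) :
    Measurable fun x => p s x (ball S x) := (hp.fv s hs).meas S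

theorem measurableSet_Adm {Q : QI Gam X μ} (hp : FVS Q S p) (hcm : Measurable cls)
    (hsep : ∀ x, ∀ y ∈ ball S x, cls y = cls x → y = x) {c : X → Fin r} (hc : MeasF c)
    (a : Fin r) : MeasurableSet {x | a ∈ Adm p S cls c x} := by
  classical
  have : {x | a ∈ Adm p S cls c x} = ⋃ j : ℕ, ({x | cls x = j} ∩
      {x | p (stc cls c j a) x (ball S x) ≤ p (st cls c j) x (ball S x)}) := by
    ext x
    simp only [Set.mem_ofPred_eq, Set.mem_iUnion, Set.mem_inter_iff]
    have key : p (Function.update (st cls c (cls x)) x (some a)) x (ball S x)
        = p (stc cls c (cls x) a) x (ball S x) := by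
      refine hp.dep _ _ x _ (fun w hw => ball_rel hw) fun w hw => ?_
      by_cases hwx : w = x
      · subst hwx
        simp [stc]
      · rw [Function.update_of_ne hwx]
        unfold st stc
        split_ifs with h1 h2
        · rfl
        · exact absurd (hsep x w hw h2) hwx
        · rfl
    rw [mem_Adm, key]
    constructor
    · intro h
      exact ⟨cls x, rfl, h⟩
    · rintro ⟨j, rfl, h⟩
      exact h
  rw [this]
  refine MeasurableSet.iUnion fun j => ?_
  refine (measurableSet_eq_fun hcm measurable_const).inter ?_
  exact measurableSet_le (measurable_fv hp (measF_stc hcm hc j a))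
    (measurable_fv hp (measF_st hcm hc j))

open Classical in
/-- **SELECTION**: every measurable colouring which respects the admissible lists has potential at
most `e μ(X)` -/
theorem selection {Q : QI Gam X μ} [IsFiniteMeasure μ] (hS : ∀ g ∈ S, g⁻¹ ∈ S) (hp : FVS Q S p)
    (hcm : Measurable cls) {N : ℕ} (hN : ∀ x, cls x < N)
    (hsep : ∀ x, ∀ y ∈ ball S x, cls y = cls x → y = x) {e : ℝ} (he : 0 ≤ e)
    (hstart : ∀ x W, x ∈ W → W ⊆ ball S x → (∀ w ∈ W, Q.rel x w ≤ 1) →
      p (fun _ => none) x W - p (fun _ => none) x (W.erase x) ≤ e)
    {c : X → Fin r} (hc : MeasF c) (hadm : ∀ x, c x ∈ Adm p S cls c x) :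
    Phi μ S (p fun x => some (c x)) ≤ e * μ.real Set.univ := by
  have hnone : MeasF (fun _ : X => (none : Option (Fin r))) := by
    intro a
    cases a with
    | none => simp
    | some a => simp
  have h0 : Phi μ S (p (st cls c 0)) ≤ e * μ.real Set.univ := by
    have : (st cls c 0 : X → Option (Fin r)) = fun _ => none := by
      funext x
      simp [st]
    rw [this]
    exact start hS (hp.fv _ hnone) cls hcm hsep he hstart
  have hstep : ∀ j : ℕ, Phi μ S (p (st cls c (j + 1))) ≤ Phi μ S (p (st cls c j)) := by
    intro j
    have hD : MeasurableSet {x | cls x = j} := measurableSet_eq_fun hcm measurable_const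
    have hfl := flip hS (hp.fv _ (measF_st hcm hc j)) (hp.fv _ (measF_st hcm hc (j + 1))) hD
      (fun x hx y hy hy' => hsep x y hy (by rw [hy', hx])) ?_
    · have : ∫ x in {x | cls x = j}, (p (st cls c (j + 1)) x (ball S x)
          - p (st cls c j) x (ball S x)) ∂μ ≤ 0 := by
        refine setIntegral_nonpos hD fun x hx => ?_
        have hx' : cls x = j := hx
        have h1 := mem_Adm.1 (hadm x)
        have key : p (st cls c (j + 1)) x (ball S x)
            = p (Function.update (st cls c (cls x)) x (some (c x))) x (ball S x) := by
          refine hp.dep _ _ x _ (fun w hw => ball_rel hw) fun w hw => ?_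
          by_cases hwx : w = x
          · subst hwx
            simp [st, hx']
          · rw [Function.update_of_ne hwx]
            have hne : cls w ≠ j := fun h => hwx (hsep x w hw (by rw [h, hx']))
            unfold st
            rw [hx']
            have : cls w < j + 1 ↔ cls w < j := by omega
            simp only [this]
        rw [key]
        rw [hx'] at h1 ⊢
        linarith
      linarith
    · intro x W hW hWD
      refine hp.dep _ _ x W hW fun w hw => ?_
      have hne : cls w ≠ j := fun h => hWD w hw h
      unfold st
      have : cls w < j + 1 ↔ cls w < j := by omega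
      simp only [this]
  have hall : ∀ j : ℕ, Phi μ S (p (st cls c j)) ≤ e * μ.real Set.univ := by
    intro j
    induction j with
    | zero => exact h0
    | succ j ih => exact (hstep j).trans ih
  have hfin : (st cls c N : X → Option (Fin r)) = fun x => some (c x) := by
    funext x
    simp [st, hN x]
  rw [← hfin]
  exact hall N

end Select

section Construct

variable {Gam X : Type*} [Group Gam] [MulAction Gam X] [MeasurableSpace X] {μ : Measure X}
variable {r : ℕ} (p : (X → Option (Fin r)) → X → Finset X → ℝ) (S : Finset Gam) (cls : X → ℕ)

/-- the colouring after `j` steps, produced by the choice functions `ch x : Finset → colour` -/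
noncomputable def colAux (ch : X → Finset (Fin r) → Fin r) : ℕ → X → Fin r
  | 0 => fun x => ch x Finset.univ
  | j + 1 => fun x => if cls x = j then ch x (Adm p S cls (colAux ch j) x) else colAux ch j x

variable {p S cls}

theorem colAux_stable (ch : X → Finset (Fin r) → Fin r) {x : X} :
    ∀ {j k : ℕ}, cls x < j → j ≤ k → colAux p S cls ch k x = colAux p S cls ch j x := by
  intro j k hj hjk
  induction k with
  | zero => omega
  | succ k ih =>
    rcases Nat.eq_or_lt_of_le hjk with h | h
    · rw [h]
    · have h1 : cls x ≠ k := by omega
      simp only [colAux, if_neg h1]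
      exact ih (by omega)

/-- the colouring produced by the choice functions obeys `c x = ch x (Adm c x)` -/
theorem colAux_eq {Q : QI Gam X μ} (hp : FVS Q S p) {N : ℕ} (hN : ∀ x, cls x < N)
    (ch : X → Finset (Fin r) → Fin r) (x : X) :
    colAux p S cls ch N x = ch x (Adm p S cls (colAux p S cls ch N) x) := by
  have h1 : colAux p S cls ch N x = colAux p S cls ch (cls x + 1) x :=
    colAux_stable ch (Nat.lt_succ_self _) (hN x)
  rw [h1]
  simp only [colAux, if_true]
  congr 1
  refine Adm_congr hp fun y _ hy => ?_
  exact (colAux_stable ch hy (hN x).le).symm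

theorem measF_colAux {Q : QI Gam X μ} (hp : FVS Q S p) (hcm : Measurable cls)
    (hsep : ∀ x, ∀ y ∈ ball S x, cls y = cls x → y = x)
    (ch : X → Finset (Fin r) → Fin r) (hch : ∀ A, MeasF fun x => ch x A) (j : ℕ) :
    MeasF (colAux p S cls ch j) := by
  classical
  induction j with
  | zero => exact hch _
  | succ j ih =>
    intro a
    have hA : ∀ A : Finset (Fin r), MeasurableSet {x | Adm p S cls (colAux p S cls ch j) x = A} := by
      intro A
      have : {x | Adm p S cls (colAux p S cls ch j) x = A}
          = ⋂ b : Fin r, {x | (b ∈ Adm p S cls (colAux p S cls ch j) x) ↔ b ∈ A} := by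
        ext x
        simp only [Set.mem_ofPred_eq, Set.mem_iInter]
        exact Finset.ext_iff
      rw [this]
      refine MeasurableSet.iInter fun b => ?_
      have hb := measurableSet_Adm hp hcm hsep ih b
      by_cases h : b ∈ A
      · have h2 : {x | (b ∈ Adm p S cls (colAux p S cls ch j) x) ↔ b ∈ A}
            = {x | b ∈ Adm p S cls (colAux p S cls ch j) x} := by
          ext x
          simp [h]
        rw [h2]
        exact hb
      · have h2 : {x | (b ∈ Adm p S cls (colAux p S cls ch j) x) ↔ b ∈ A}
            = {x | b ∈ Adm p S cls (colAux p S cls ch j) x}ᶜ := by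
          ext x
          simp [h]
        rw [h2]
        exact hb.compl
    have : {x | colAux p S cls ch (j + 1) x = a}
        = ({x | cls x = j} ∩ ⋃ A : Finset (Fin r),
            ({x | Adm p S cls (colAux p S cls ch j) x = A} ∩ {x | ch x A = a}))
          ∪ ({x | cls x = j}ᶜ ∩ {x | colAux p S cls ch j x = a}) := by
      ext x
      simp only [colAux, Set.mem_ofPred_eq, Set.mem_union, Set.mem_inter_iff, Set.mem_iUnion,
        Set.mem_compl_iff]
      by_cases h : cls x = j
      · simp [h]
      · simp [h]
    rw [this]
    have hj : MeasurableSet {x | cls x = j} := measurableSet_eq_fun hcm measurable_const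
    exact (hj.inter (MeasurableSet.iUnion fun A => (hA A).inter (hch A a))).union
      (hj.compl.inter (ih a))

end Construct

end Crest.Agent.R109.Book
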