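import Crest.Agent.R109.Book4

/-!
# Row 109, module BOOK (5): the potential as the integral of a local density
-/

set_option autoImplicit false
set_option linter.unusedSectionVars false

open MeasureTheory
open scoped ENNReal

namespace Crest.Agent.R109.Book

section Density

variable {Gam X : Type*} [Group Gam] [MulAction Gam X] [MeasurableSpace X] {μ : Measure X}

/-- the Moebius inverse of a function which only depends on `W ∩ B` is carried by subsets of
`B` -/
theorem mob_eq_zero_of_local [DecidableEq X] {f : Finset X → ℝ} {B U : Finset X}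
    (h : ∀ V ⊆ U, f V = f (V ∩ B)) (hU : ¬ U ⊆ B) : mob f U = 0 := by
  obtain ⟨a, haU, haB⟩ := Finset.not_subset.1 hU
  have h1 : mob f (insert a (U.erase a)) = 0 := by
    rw [mob_insert f (Finset.notMem_erase a U), sub_eq_zero]
    refine mob_congr fun V hV => ?_
    have hVU : V ⊆ U := hV.trans (Finset.erase_subset _ _)
    rw [h (insert a V) (Finset.insert_subset haU hVU), h V hVU,
      Finset.insert_inter_of_notMem haB]
  rwa [Finset.insert_erase haU] at h1

theorem mob_sum {ι : Type*} (s : Finset ι) (f : ι → Finset X → ℝ) (U : Finset X) :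
    mob (fun V => ∑ i ∈ s, f i V) U = ∑ i ∈ s, mob (f i) U := by
  simp only [mob, Finset.mul_sum]
  rw [Finset.sum_comm]

open Classical in
/-- **DENSITY**: if the finite volume potential is the sum over `v ∈ W` of densities `L x v W`
which only depend on the `S0`-ball of `v`, then the infinite volume potential is the integral of
the density at the root. -/
theorem phi_eq_density {Q : QI Gam X μ} [IsFiniteMeasure μ] {S S0 : Finset Gam}
    (h1 : (1 : Gam) ∈ S) (hS : ∀ g ∈ S, g⁻¹ ∈ S) (hS0 : ∀ g ∈ S0, ∀ h ∈ S0, g * h⁻¹ ∈ S)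
    {P : X → Finset X → ℝ} (hP : FV Q S P) (L : X → X → Finset X → ℝ)
    (hsum : ∀ x W, (∀ w ∈ W, Rel Gam x w) → P x W = ∑ v ∈ W, L x v W)
    (hcov : ∀ x y v W, Rel Gam x y → (∀ w ∈ W, Rel Gam x w) → v ∈ W →
      L y v W = Q.rel y x * L x v W)
    (hloc : ∀ x v W, (∀ w ∈ W, Rel Gam x w) → v ∈ W → L x v W = L x v (W ∩ ball S0 v))
    (hmeas : MeasK Gam fun x W => L x x W)
    (hbdd : ∃ C, ∀ x W, W ⊆ ball S x → |L x x W| ≤ C)
    (hS01 : (1 : Gam) ∈ S0) :
    Phi μ S P = ∫ x, L x x (ball S x) ∂μ := by
  obtain ⟨C0, hC0⟩ := hbdd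
  set C := max C0 0 with hCdef
  have hC : ∀ x W, W ⊆ ball S x → |L x x W| ≤ C :=
    fun x W hW => (hC0 x W hW).trans (le_max_left _ _)
  have hCn : 0 ≤ C := le_max_right _ _
  obtain ⟨C1, hC1⟩ := hP.bdd
  set C' := max C1 0 with hCdef'
  have hC' : ∀ x V, V ⊆ ball S x → |P x V| ≤ C' :=
    fun x V hV => (hC1 x V hV).trans (le_max_left _ _)
  have hCn' : 0 ≤ C' := le_max_right _ _
  set f : X → X → Finset X → ℝ := fun x v W => if v ∈ W then L x v W else 0 with hf
  set F' : X → Finset X → ℝ := fun x U =>
    if x ∈ U ∧ U ⊆ ball S x then mob (f x x) U else 0 with hF'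
  -- locality of the pieces
  have hfloc : ∀ x v U, (∀ w ∈ U, Rel Gam x w) → v ∈ U → mob (f x v) U ≠ 0 → U ⊆ ball S0 v := by
    intro x v U hU hv hne
    by_contra hcon
    refine hne (mob_eq_zero_of_local (B := ball S0 v) (fun V hV => ?_) hcon)
    have hvB : v ∈ ball S0 v := self_mem_ball hS01 v
    simp only [hf]
    by_cases hvV : v ∈ V
    · rw [if_pos hvV, if_pos (Finset.mem_inter.2 ⟨hvV, hvB⟩)]
      exact hloc x v V (fun w hw => hU w (hV hw)) hvV
    · rw [if_neg hvV, if_neg fun h => hvV (Finset.mem_inter.1 h).1]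
  have hball : ∀ (v : X) (U : Finset X), U ⊆ ball S0 v → ∀ y ∈ U, U ⊆ ball S y := by
    intro v U hU y hy u hu
    obtain ⟨g, hg, rfl⟩ := mem_ball.1 (hU hy)
    obtain ⟨k, hk, rfl⟩ := mem_ball.1 (hU hu)
    exact mem_ball.2 ⟨k * g⁻¹, hS0 k hk g hg, by rw [mul_smul, inv_smul_smul]⟩
  have hfcov : ∀ x y v U, Rel Gam x y → (∀ w ∈ U, Rel Gam x w) →
      mob (f y v) U = Q.rel y x * mob (f x v) U := by
    intro x y v U hxy hU
    rw [← mob_mul]
    refine mob_congr fun V hV => ?_
    simp only [hf]
    by_cases hvV : v ∈ V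
    · rw [if_pos hvV, if_pos hvV]
      exact hcov x y v V hxy (fun w hw => hU w (hV hw)) hvV
    · rw [if_neg hvV, if_neg hvV, mul_zero]
  have hfm : MeasK Gam fun x W => f x x W := by
    intro F
    exact Measurable.ite (measurableSet_self_mem_ball Q F) (hmeas F) measurable_const
  have hF'm : MeasK Gam F' := by
    intro F
    refine Measurable.ite ?_ (measK_mob Q hfm F) measurable_const
    exact (measurableSet_self_mem_ball Q F).inter (measurableSet_ball_subset Q F S)
  have hF'b : ∀ x U, |F' x U| ≤ 2 ^ S.card * C := by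
    intro x U
    simp only [hF']
    split_ifs with h
    · refine (abs_mob_le (C := C) fun V hV => ?_).trans ?_
      · simp only [hf]
        split_ifs
        · exact hC x V (hV.trans h.2)
        · simpa using hCn
      · refine mul_le_mul_of_nonneg_right ?_ hCn
        exact pow_le_pow_right₀ (by norm_num)
          ((Finset.card_le_card h.2).trans (card_ball_le S x))
    · simp only [abs_zero]
      positivity
  have hF'loc : Loc S F' := by
    intro x U hx hne y hy
    simp only [hF'] at hne
    split_ifs at hne with h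
    · exact hball x U (hfloc x x U (cl_rel h.2) hx hne) y hy
    · exact absurd rfl hne
  rw [phi_eq_cut]
  have key := clusterTransport Q hS (fun x U => cut S P x U / (U.card : ℝ)) F'
    (fun F => (measK_cut Q S hP.meas F).div (measurable_card_ball Q F)) hF'm
    (C := max (2 ^ S.card * C') (2 ^ S.card * C)) ?_
    (fun x U => (hF'b x U).trans (le_max_right _ _)) ?_ hF'loc ?_
  · rw [key]
    refine integral_congr_ae (Filter.Eventually.of_forall fun x => ?_)
    simp only
    have e1 : ∑ U ∈ cl S x, F' x U
        = ∑ U ∈ (ball S x).powerset, if x ∈ U then mob (f x x) U else 0 := by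
      rw [sum_cl]
      refine Finset.sum_congr rfl fun U hU => ?_
      have hUb := Finset.mem_powerset.1 hU
      by_cases hx : x ∈ U
      · simp only [hx, if_true, hF', hUb, and_self]
      · simp only [hx, if_false]
    rw [e1, sum_mob_mem]
    simp only [hf]
    rw [if_pos (self_mem_ball h1 x), if_neg (Finset.notMem_erase x _), sub_zero]
  · intro x U
    refine le_trans ?_ (le_max_left _ _)
    rw [abs_div]
    rcases Nat.eq_zero_or_pos U.card with hU | hU
    · rw [hU]
      simp only [Nat.cast_zero, abs_zero, div_zero]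
      positivity
    · refine (div_le_self (abs_nonneg _) ?_).trans (abs_cut_le hCn' hC' x U)
      rw [Nat.abs_cast]
      exact_mod_cast hU
  · intro x U hx hne
    refine hP.cut_loc x U hx fun h0 => hne ?_
    simp only [h0, zero_div]
  · intro y U hy hU
    have hUy := cl_rel hU
    have e1 : ∑ x ∈ U, Q.rel y x * (cut S P x U / (U.card : ℝ)) = mob (P y) U := by
      have h2 : ∀ x ∈ U, Q.rel y x * (cut S P x U / (U.card : ℝ)) = mob (P y) U / (U.card : ℝ) := by
        intro x hx
        have h3 := hP.cut_cov hx hy fun w hw => (hUy x hx).symm.trans (hUy w hw)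
        rw [cut_of_mem (mem_cl.2 ⟨hU, hy⟩)] at h3
        rw [h3]
        ring
      rw [Finset.sum_congr rfl h2, Finset.sum_const, nsmul_eq_mul]
      have hc : (U.card : ℝ) ≠ 0 := by exact_mod_cast (Finset.card_pos.2 ⟨y, hy⟩).ne'
      field_simp
    have e2 : mob (P y) U = ∑ x ∈ U, mob (f y x) U := by
      rw [← mob_sum]
      refine mob_congr fun V hV => ?_
      rw [hsum y V fun w hw => hUy w (hV hw)]
      simp only [hf]
      rw [← Finset.sum_filter]
      refine Finset.sum_congr ?_ fun _ _ => rfl
      ext v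
      simp only [Finset.mem_filter]
      exact ⟨fun h => ⟨hV h, h⟩, fun h => h.2⟩
    rw [e1, e2]
    refine Finset.sum_congr rfl fun x hx => ?_
    have hyx := hUy x hx
    have hUx : ∀ w ∈ U, Rel Gam x w := fun w hw => hyx.symm.trans (hUy w hw)
    have h4 := hfcov x y x U hyx.symm hUx
    rw [h4]
    simp only [hF']
    by_cases h0 : mob (f x x) U = 0
    · rw [h0]
      simp
    · rw [if_pos ⟨hx, hball x U (hfloc x x U hUx hx h0) x hx⟩]

end Density

end Crest.Agent.R109.Book
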