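import Crest.Agent.R109.Book5

/-!
# Row 109, module BOOK (6): from a homogeneous cluster function to a family of potentials

`H g W` is a function of the weights `g : X → Fin r → ℝ` and of the finite set `W`, homogeneous of
degree `2k` in `g`, whose Moebius inverse is carried by connected sets with at most `2k` points.
With the tilted weights `gam` this gives a family `FVS`.
-/

set_option autoImplicit false
set_option linter.unusedSectionVars false

open MeasureTheory
open scoped Pointwise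

namespace Crest.Agent.R109.Book

section Conn

variable {Gam X : Type*} [Group Gam] [MulAction Gam X] [MeasurableSpace X] [DecidableEq Gam]

theorem ball_mul_subset {S T : Finset Gam} {x y : X} (hy : y ∈ ball S x) :
    ball T y ⊆ ball (T * S) x := by
  intro z hz
  obtain ⟨g, hg, rfl⟩ := mem_ball.1 hy
  obtain ⟨h, hh, rfl⟩ := mem_ball.1 hz
  exact mem_ball.2 ⟨h * g, Finset.mul_mem_mul hh hg, by rw [mul_smul]⟩

theorem ball_pow_mono {S : Finset Gam} (h1 : (1 : Gam) ∈ S) {m n : ℕ} (h : m ≤ n) (x : X) :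
    ball (S ^ m) x ⊆ ball (S ^ n) x := by
  intro z hz
  obtain ⟨g, hg, rfl⟩ := mem_ball.1 hz
  exact mem_ball.2 ⟨g, Finset.pow_subset_pow_right h1 h hg, rfl⟩

theorem inv_mem_pow {S : Finset Gam} (hS : ∀ g ∈ S, g⁻¹ ∈ S) (n : ℕ) :
    ∀ g ∈ S ^ n, g⁻¹ ∈ S ^ n := by
  intro g hg
  have h : S⁻¹ = S := by
    ext a
    rw [Finset.mem_inv']
    exact ⟨fun h => by simpa using hS _ h, fun h => hS _ h⟩
  have h2 : (S ^ n)⁻¹ = S ^ n := by rw [← inv_pow, h]
  rw [← Finset.mem_inv', h2]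
  exact hg

theorem mul_inv_mem_pow {S : Finset Gam} (hS : ∀ g ∈ S, g⁻¹ ∈ S) (k : ℕ) :
    ∀ g ∈ S ^ k, ∀ h ∈ S ^ k, g * h⁻¹ ∈ S ^ (2 * k) := by
  intro g hg h hh
  rw [two_mul, pow_add]
  exact Finset.mul_mem_mul hg (inv_mem_pow hS k h hh)

open Classical in
/-- a connected set with at most `n + 1` points lies in the `n`-ball of each of its points -/
theorem conn_ball {S : Finset Gam} (h1 : (1 : Gam) ∈ S) {E : X → X → Prop}
    (hE : ∀ a b, E a b → b ∈ ball S a) {U : Finset X}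
    (hconn : ∀ A ⊆ U, A.Nonempty → (U \ A).Nonempty → ∃ a ∈ A, ∃ b ∈ U \ A, E a b)
    {n : ℕ} (hn : U.card ≤ n + 1) {y : X} (hy : y ∈ U) : U ⊆ ball (S ^ n) y := by
  have key : ∀ j : ℕ, U ⊆ ball (S ^ j) y ∨ j + 1 ≤ (U ∩ ball (S ^ j) y).card := by
    intro j
    induction j with
    | zero =>
      right
      refine Finset.card_pos.2 ⟨y, Finset.mem_inter.2 ⟨hy, ?_⟩⟩
      exact mem_ball.2 ⟨1, by simp, one_smul _ _⟩
    | succ j ih =>
      rcases ih with h | h
      · exact Or.inl (h.trans (ball_pow_mono h1 (Nat.le_succ j) y))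
      · by_cases hsub : U ⊆ ball (S ^ j) y
        · exact Or.inl (hsub.trans (ball_pow_mono h1 (Nat.le_succ j) y))
        · right
          set A := U ∩ ball (S ^ j) y with hA
          have hAU : A ⊆ U := Finset.inter_subset_left
          have hne : (U \ A).Nonempty := by
            obtain ⟨u, hu, hu'⟩ := Finset.not_subset.1 hsub
            exact ⟨u, Finset.mem_sdiff.2 ⟨hu, fun h => hu' (Finset.mem_inter.1 h).2⟩⟩
          have hAne : A.Nonempty := Finset.card_pos.1 (by omega)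
          obtain ⟨a, ha, b, hb, hab⟩ := hconn A hAU hAne hne
          have hbb : b ∈ ball (S ^ (j + 1)) y := by
            have h2 := ball_mul_subset (T := S) (Finset.mem_inter.1 ha).2 (hE a b hab)
            rwa [← pow_succ'] at h2
          have hlt : A ⊂ U ∩ ball (S ^ (j + 1)) y := by
            refine ⟨fun z hz => ?_, fun hcon => ?_⟩
            · rw [Finset.mem_inter] at hz ⊢
              exact ⟨hz.1, ball_pow_mono h1 (Nat.le_succ j) y hz.2⟩
            · have h3 := hcon (Finset.mem_inter.2 ⟨(Finset.mem_sdiff.1 hb).1, hbb⟩)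
              exact (Finset.mem_sdiff.1 hb).2 h3
          have := Finset.card_lt_card hlt
          omega
  rcases key n with h | h
  · exact h
  · have h2 : U ∩ ball (S ^ n) y = U :=
      Finset.eq_of_subset_of_card_le Finset.inter_subset_left (by omega)
    exact Finset.inter_eq_left.1 h2

end Conn

section Family

variable {Gam X : Type*} [Group Gam] [MulAction Gam X] [MeasurableSpace X] {μ : Measure X}

/-- levels: undecided `β` (uniform colour), decided `K0 β` -/
noncomputable def lev (β K0 : ℝ) {r : ℕ} : Option (Fin r) → Fin r → ℝ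
  | none, _ => 1 / (r * β)
  | some c, i => if i = c then 1 / (K0 * β) else 0

/-- tilted weights, normalised at the root -/
noncomputable def gam (Q : QI Gam X μ) (k : ℕ) (β K0 : ℝ) {r : ℕ} (x : X)
    (s : X → Option (Fin r)) (w : X) (i : Fin r) : ℝ :=
  (Q.rel x w) ^ (1 / (2 * (k : ℝ))) * lev β K0 (s w) i

theorem lev_nonneg {β K0 : ℝ} (hβ : 0 < β) (hK : 0 < K0) {r : ℕ} (o : Option (Fin r))
    (i : Fin r) : 0 ≤ lev β K0 o i := by
  cases o with
  | none => simp only [lev]; positivity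
  | some c => simp only [lev]; split_ifs <;> positivity

theorem gam_nonneg (Q : QI Gam X μ) (k : ℕ) {β K0 : ℝ} (hβ : 0 < β) (hK : 0 < K0) {r : ℕ}
    (x : X) (s : X → Option (Fin r)) (w : X) (i : Fin r) : 0 ≤ gam Q k β K0 x s w i :=
  mul_nonneg (Real.rpow_nonneg (Q.rel_pos _ _).le _) (lev_nonneg hβ hK _ _)

theorem gam_root (Q : QI Gam X μ) (k : ℕ) (β K0 : ℝ) {r : ℕ} {x y w : X}
    (s : X → Option (Fin r)) (i : Fin r) (hxy : Rel Gam x y) (hxw : Rel Gam x w) :
    gam Q k β K0 y s w i = (Q.rel y x) ^ (1 / (2 * (k : ℝ))) * gam Q k β K0 x s w i := by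
  unfold gam
  rw [Q.rel_trans hxy.symm hxw, Real.mul_rpow (Q.rel_pos _ _).le (Q.rel_pos _ _).le]
  ring

/-- what the finite volume theory has to supply about `H` -/
structure HIn (Q : QI Gam X μ) (S1 : Finset Gam) (k : ℕ) {r : ℕ}
    (H : (X → Fin r → ℝ) → Finset X → ℝ) : Prop where
  dep : ∀ g g' W, (∀ w ∈ W, g w = g' w) → H g W = H g' W
  hom : ∀ (g : X → Fin r → ℝ) (c : ℝ) W, (∀ w i, 0 ≤ g w i) → 0 ≤ c →
    H (fun w i => c * g w i) W = c ^ (2 * k) * H g W
  card : ∀ (g : X → Fin r → ℝ) U, mob (H g) U ≠ 0 → U.card ≤ 2 * k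
  conn : ∀ (g : X → Fin r → ℝ) (U A : Finset X), mob (H g) U ≠ 0 → A ⊆ U → A.Nonempty → A ≠ U →
    ∃ a ∈ A, ∃ b ∈ U, b ∉ A ∧ b ∈ ball S1 a

theorem rpow_pow_two_mul {c : ℝ} (hc : 0 < c) {k : ℕ} (hk : 1 ≤ k) :
    (c ^ (1 / (2 * (k : ℝ)))) ^ (2 * k) = c := by
  rw [← Real.rpow_natCast, ← Real.rpow_mul hc.le]
  have : (1 / (2 * (k : ℝ))) * ((2 * k : ℕ) : ℝ) = 1 := by
    have hk' : (0 : ℝ) < k := by exact_mod_cast hk
    push_cast
    field_simp
  rw [this, Real.rpow_one]

/-- the family of potentials -/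
theorem fvs_of [DecidableEq Gam] {Q : QI Gam X μ} {S1 : Finset Gam} (h1 : (1 : Gam) ∈ S1) {k : ℕ}
    (hk : 1 ≤ k) {r : ℕ} {H : (X → Fin r → ℝ) → Finset X → ℝ} (hH : HIn Q S1 k H) {β K0 : ℝ}
    (hβ : 0 < β) (hK : 0 < K0)
    (hmeas : ∀ s : X → Option (Fin r), MeasF s → MeasK Gam fun x W => H (gam Q k β K0 x s) W)
    (hbdd : ∀ s : X → Option (Fin r), MeasF s →
      ∃ C, ∀ x V, V ⊆ ball (S1 ^ (2 * k)) x → |H (gam Q k β K0 x s) V| ≤ C) :
    FVS Q (S1 ^ (2 * k)) fun (s : X → Option (Fin r)) x W => H (gam Q k β K0 x s) W := by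
  classical
  refine ⟨fun s hs => ⟨?_, ?_, hmeas s hs, hbdd s hs⟩, ?_⟩
  · intro x y W hxy hW
    have e1 : H (gam Q k β K0 y s) W
        = H (fun w i => (Q.rel y x) ^ (1 / (2 * (k : ℝ))) * gam Q k β K0 x s w i) W := by
      refine hH.dep _ _ W fun w hw => ?_
      funext i
      exact gam_root Q k β K0 s i hxy (hW w hw)
    rw [e1, hH.hom _ _ W (gam_nonneg Q k hβ hK x s) (Real.rpow_nonneg (Q.rel_pos _ _).le _),
      rpow_pow_two_mul (Q.rel_pos _ _) hk]
  · intro x U _ _ hne y hy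
    have hc := hH.card _ _ hne
    have h2 : U ⊆ ball (S1 ^ (2 * k - 1)) y := by
      refine conn_ball h1 (E := fun a b => b ∈ ball S1 a) (fun a b h => h) ?_ (by omega) hy
      intro A hA hAne hne'
      obtain ⟨a, ha, b, hb, hbA, hab⟩ := hH.conn _ U A hne hA hAne (by
        rintro rfl
        simp at hne')
      exact ⟨a, ha, b, Finset.mem_sdiff.2 ⟨hb, hbA⟩, hab⟩
    exact h2.trans (ball_pow_mono h1 (by omega) y)
  · intro s s' x W _ hs
    refine hH.dep _ _ W fun w hw => ?_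
    funext i
    simp only [gam, hs w hw]

end Family

end Crest.Agent.R109.Book
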