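import Crest.Agent.R109.BookEnd
import Crest.Agent.R109.Book6

/-!
# Row 109, module BOOK: the local density of a decided state

`dens Q K c k B x v W = B^(-2k) re ((A_W)^(2k))_vv`, `A = tilt (pin c K) x`.  Covariance, locality,
measurability and boundedness of this density.
-/

set_option autoImplicit false
set_option linter.unusedSectionVars false

open MeasureTheory
open scoped Pointwise ComplexConjugate

namespace Crest.Agent.R109.Book

section Restr

variable {Gam X : Type*} [Group Gam] [MulAction Gam X] [MeasurableSpace X]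

open Classical in
/-- restriction of a kernel to a finite volume -/
noncomputable def restr (W : Finset X) (K : X → X → ℂ) : X → X → ℂ :=
  fun y w => if y ∈ W ∧ w ∈ W then K y w else 0

theorem restr_of_mem {W : Finset X} (K : X → X → ℂ) {y w : X} (hy : y ∈ W) (hw : w ∈ W) :
    restr W K y w = K y w := if_pos ⟨hy, hw⟩

theorem restr_right {W : Finset X} (K : X → X → ℂ) {y w : X} (hw : w ∉ W) :
    restr W K y w = 0 := if_neg fun h => hw h.2

/-- the entries of matrix powers are kernel powers of the restricted kernel -/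
theorem mat_pow_eq_kp_restr [DecidableEq X] (S : Finset Gam) (K : X → X → ℂ)
    (band : ∀ y w, K y w ≠ 0 → w ∈ ball S y) (W : Finset X) (j : ℕ) (y z : W) :
    (mat K W ^ j) y z = kp S (restr W K) j y z := by
  induction j generalizing y with
  | zero =>
    rw [pow_zero, Matrix.one_apply]
    simp only [kp, Subtype.ext_iff]
    split_ifs <;> rfl
  | succ j ih =>
    rw [pow_succ', Matrix.mul_apply]
    simp only [kp]
    have h1 : ∑ w : W, mat K W y w * (mat K W ^ j) w z
        = ∑ w : W, restr W K y w * kp S (restr W K) j w z := by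
      refine Finset.sum_congr rfl fun w _ => ?_
      rw [ih w, mat_apply, restr_of_mem K y.2 w.2]
    rw [h1, Finset.univ_eq_attach,
      Finset.sum_attach W (fun w => restr W K y w * kp S (restr W K) j w z)]
    have h2 : ∑ w ∈ W, restr W K y w * kp S (restr W K) j w z
        = ∑ w ∈ W ∩ ball S y, restr W K y w * kp S (restr W K) j w z := by
      symm
      refine Finset.sum_subset Finset.inter_subset_left fun w hw hn => ?_
      have : K y w = 0 := by
        by_contra hne
        exact hn (Finset.mem_inter.2 ⟨hw, band _ _ hne⟩)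
      rw [restr_of_mem K y.2 hw, this, zero_mul]
    have h3 : ∑ w ∈ ball S y.1, restr W K y w * kp S (restr W K) j w z
        = ∑ w ∈ W ∩ ball S y, restr W K y w * kp S (restr W K) j w z := by
      symm
      refine Finset.sum_subset Finset.inter_subset_right fun w hw hn => ?_
      have : w ∉ W := fun h => hn (Finset.mem_inter.2 ⟨h, hw⟩)
      rw [restr_right K this, zero_mul]
    rw [h2, h3]

/-- kernel powers only see the kernel near the starting point -/
theorem kp_congr (S : Finset Gam) (K K' : X → X → ℂ) (near : ℕ → X → Prop) (m : ℕ)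
    (hnear : ∀ i y, near i y → ∀ w ∈ ball S y, near (i + 1) w)
    (hag : ∀ i y, i < m → near i y → ∀ w ∈ ball S y, K y w = K' y w) (j : ℕ) :
    ∀ i y z, i + j ≤ m → near i y → kp S K j y z = kp S K' j y z := by
  classical
  induction j with
  | zero => intro i y z _ _; rfl
  | succ j ih =>
    intro i y z hi hy
    simp only [kp]
    refine Finset.sum_congr rfl fun w hw => ?_
    rw [hag i y (by omega) hy w hw, ih (i + 1) w z (by omega) (hnear i y hy w hw)]

/-- kernel powers vanish outside the ball -/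
theorem kp_eq_zero [DecidableEq Gam] (S : Finset Gam) (K : X → X → ℂ) (j : ℕ) (y z : X)
    (h : z ∉ ball (S ^ j) y) : kp S K j y z = 0 := by
  classical
  induction j generalizing y with
  | zero =>
    simp only [kp]
    rw [if_neg]
    rintro rfl
    apply h
    rw [pow_zero]
    exact mem_ball.2 ⟨1, Finset.mem_one.2 rfl, one_smul _ _⟩
  | succ j ih =>
    simp only [kp]
    refine Finset.sum_eq_zero fun w hw => ?_
    rw [ih w, mul_zero]
    intro hz
    apply h
    have := ball_mul_subset (S := S) (T := S ^ j) hw hz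
    rwa [← pow_succ] at this

end Restr

section Dens

variable {Gam X : Type*} [Group Gam] [MulAction Gam X] [MeasurableSpace X] {μ : Measure X}

open Classical in
/-- the local density of a decided state -/
noncomputable def dens (Q : QI Gam X μ) (K : X → X → ℂ) {r : ℕ} (c : X → Fin r) (k : ℕ) (B : ℝ)
    (x v : X) (W : Finset X) : ℝ :=
  if hv : v ∈ W then
    (1 / B) ^ (2 * k) * ((mat (tilt Q k (pin c fun _ => K) x) W ^ (2 * k)) ⟨v, hv⟩ ⟨v, hv⟩).re
  else 0

open Classical in
theorem dens_cov (Q : QI Gam X μ) (K : X → X → ℂ) {r : ℕ} (c : X → Fin r) {k : ℕ} (hk : 1 ≤ k)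
    (B : ℝ) (x y v : X) (W : Finset X) (hxy : Rel Gam x y) (hW : ∀ w ∈ W, Rel Gam x w)
    (hv : v ∈ W) : dens Q K c k B y v W = Q.rel y x * dens Q K c k B x v W := by
  have hpos := Q.rel_pos y x
  set t : ℝ := (Q.rel y x) ^ (1 / (2 * (k : ℝ))) with ht
  have hmat : mat (tilt Q k (pin c fun _ => K) y) W
      = (t : ℂ) • mat (tilt Q k (pin c fun _ => K) x) W := by
    ext a b
    rw [Matrix.smul_apply, mat_apply, mat_apply, smul_eq_mul]
    unfold tilt
    have hta : tf Q k y a b = t * tf Q k x a b := by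
      unfold tf
      rw [Q.rel_trans hxy.symm (hW a a.2), Q.rel_trans hxy.symm (hW b b.2),
        Real.mul_rpow hpos.le (Q.rel_pos _ _).le, Real.mul_rpow hpos.le (Q.rel_pos _ _).le]
      have h2 : (Q.rel y x) ^ (1 / (4 * (k : ℝ))) * (Q.rel y x) ^ (1 / (4 * (k : ℝ))) = t := by
        rw [ht, ← Real.rpow_add hpos]
        congr 1
        have hk' : (0 : ℝ) < k := by exact_mod_cast hk
        field_simp
        norm_num
      calc _ = ((Q.rel y x) ^ (1 / (4 * (k : ℝ))) * (Q.rel y x) ^ (1 / (4 * (k : ℝ))))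
              * ((Q.rel x a) ^ (1 / (4 * (k : ℝ))) * (Q.rel x b) ^ (1 / (4 * (k : ℝ)))) := by ring
        _ = _ := by rw [h2]
    rw [hta]
    have hpin : pin c (fun _ => K) y a b = pin c (fun _ => K) x a b := rfl
    rw [hpin]
    push_cast
    ring
  have htk : t ^ (2 * k) = Q.rel y x := rpow_pow_two_mul hpos hk
  unfold dens
  rw [dif_pos hv, dif_pos hv, hmat, smul_pow, Matrix.smul_apply, smul_eq_mul, ← Complex.ofReal_pow,
    Complex.re_ofReal_mul, htk]
  ring

theorem herm_pow_re {V : Type*} [Fintype V] [DecidableEq V] (M : Matrix V V ℂ)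
    (hM : M.IsHermitian) (b : ℕ) (v : V) :
    ((M ^ (2 * b)) v v).re = ∑ w, ‖(M ^ b) v w‖ ^ 2 := by
  have hb : (M ^ b).IsHermitian := hM.pow b
  rw [two_mul, pow_add, Matrix.mul_apply, Complex.re_sum]
  refine Finset.sum_congr rfl fun w _ => ?_
  have h1 : (M ^ b) w v = conj ((M ^ b) v w) := by
    have := congrFun (congrFun hb w) v
    rw [Matrix.conjTranspose_apply] at this
    rw [← this]; rfl
  rw [h1, Complex.mul_conj, Complex.normSq_eq_norm_sq]
  norm_cast

open Classical in
theorem dens_loc [DecidableEq Gam] (Q : QI Gam X μ) (K : X → X → ℂ)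
    (herm : ∀ v w, K w v = conj (K v w)) {S : Finset Gam} (h1 : (1 : Gam) ∈ S)
    (band : ∀ v w, K v w ≠ 0 → w ∈ ball S v)
    {r : ℕ} (c : X → Fin r) (k : ℕ) (B : ℝ) (x v : X) (W : Finset X) (hv : v ∈ W) :
    dens Q K c k B x v W = dens Q K c k B x v (W ∩ ball (S ^ k) v) := by
  set A : X → X → ℂ := tilt Q k (pin c fun _ => K) x with hA
  have hAb : ∀ y w, A y w ≠ 0 → w ∈ ball S y := fun y w =>
    tilt_band Q k _ S (pin_band c _ S fun _ => band) x y w
  have hAh : ∀ y w, A w y = conj (A y w) :=
    tilt_herm Q k _ (pin_herm c _ fun _ => herm) x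
  have hvB : v ∈ ball (S ^ k) v := self_mem_ball (Finset.one_mem_pow h1) v
  set W' := W ∩ ball (S ^ k) v with hW'
  have hv' : v ∈ W' := Finset.mem_inter.2 ⟨hv, hvB⟩
  have hkey : ∀ z, kp S (restr W A) k v z = kp S (restr W' A) k v z := by
    intro z
    refine kp_congr S (restr W A) (restr W' A) (fun i y => y ∈ ball (S ^ i) v) k ?_ ?_ k 0 v z
      (by omega) (self_mem_ball (by rw [pow_zero]; exact Finset.mem_one.2 rfl) v)
    · intro i y hy w hw
      have := ball_mul_subset (S := S ^ i) (T := S) hy hw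
      rwa [← pow_succ'] at this
    · intro i y hi hy w hw
      have hy2 : y ∈ ball (S ^ k) v := ball_pow_mono h1 hi.le v hy
      have hw2 : w ∈ ball (S ^ k) v := by
        have := ball_mul_subset (S := S ^ i) (T := S) hy hw
        rw [← pow_succ'] at this
        exact ball_pow_mono h1 hi v this
      unfold restr
      simp only [hW', Finset.mem_inter, hy2, hw2, and_true]
  unfold dens
  rw [dif_pos hv, dif_pos hv', ← hA, herm_pow_re _ (mat_isHermitian A hAh W) k,
    herm_pow_re _ (mat_isHermitian A hAh W') k]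
  congr 1
  have e1 : ∀ (U : Finset X) (hvU : v ∈ U), ∑ w : U, ‖(mat A U ^ k) ⟨v, hvU⟩ w‖ ^ 2
      = ∑ w ∈ U, ‖kp S (restr U A) k v w‖ ^ 2 := by
    intro U hvU
    rw [← Finset.sum_attach U, Finset.univ_eq_attach]
    refine Finset.sum_congr rfl fun w _ => ?_
    rw [mat_pow_eq_kp_restr S A hAb U k ⟨v, hvU⟩ w]
  rw [e1 W hv, e1 W' hv']
  symm
  refine (Finset.sum_subset Finset.inter_subset_left fun w _ hn => ?_).trans
    (Finset.sum_congr rfl fun w _ => by rw [hkey])
  have : w ∉ ball (S ^ k) v := fun h => hn (Finset.mem_inter.2 ⟨by assumption, h⟩)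
  rw [kp_eq_zero S _ k v w this]
  simp

theorem CW_restr (Q : QI Gam X μ) (F : Finset Gam) (x : X → X → X → ℂ) (cw : CW Gam x) :
    CW Gam (fun v => restr (ball F v) (x v)) := by
  classical
  have h1 : (fun v => restr (ball F v) (x v))
      = fun v y w => (if y ∈ ball F v ∧ w ∈ ball F v then (1 : ℂ) else 0) * x v y w := by
    funext v y w
    unfold restr
    split_ifs <;> simp
  rw [h1]
  refine CW.mul cw (fun v y w => if y ∈ ball F v ∧ w ∈ ball F v then (1 : ℂ) else 0)
    fun g h => ?_
  exact Measurable.ite ((measurableSet_mem_ball Q F g).inter (measurableSet_mem_ball Q F h))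
    measurable_const measurable_const

open Classical in
theorem dens_meas (Q : QI Gam X μ) (K : X → X → ℂ) {S : Finset Gam}
    (band : ∀ v w, K v w ≠ 0 → w ∈ ball S v) (cw : CW Gam fun _ : X => K)
    {r : ℕ} (c : X → Fin r) (hc : Measurable c) (k : ℕ) (B : ℝ) :
    MeasK Gam fun x W => dens Q K c k B x x W := by
  intro F
  have h1 : (fun x => dens Q K c k B x x (ball F x))
      = fun x => if x ∈ ball F x then (1 / B) ^ (2 * k) *
          (kp S (restr (ball F x) (tilt Q k (pin c fun _ => K) x)) (2 * k) x x).re else 0 := by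
    funext x
    unfold dens
    split_ifs with h
    · rw [mat_pow_eq_kp_restr S _ (fun y w =>
        tilt_band Q k _ S (pin_band c _ S fun _ => band) x y w) (ball F x) (2 * k) ⟨x, h⟩ ⟨x, h⟩]
    · rfl
  rw [h1]
  refine Measurable.ite (measurableSet_self_mem_ball Q F) ?_ measurable_const
  refine Measurable.const_mul ?_ _
  refine Complex.measurable_re.comp ?_
  exact measurable_kp Q.meas_eq S
    (fun v => restr (ball F v) (tilt Q k (pin c fun _ => K) v))
    (CW_restr Q F _ (CW_tilt Q k _ (CW_pin Q c hc _ cw))) (2 * k)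

open Classical in
theorem dens_bdd (Q : QI Gam X μ) (K : X → X → ℂ) {S : Finset Gam}
    (band : ∀ v w, K v w ≠ 0 → w ∈ ball S v) (bd : ∀ v w, ‖K v w‖ ≤ 1)
    {r : ℕ} (c : X → Fin r) (k : ℕ) {B : ℝ} (hB : 0 < B) :
    ∃ C, ∀ x W, |dens Q K c k B x x W| ≤ C := by
  obtain ⟨C, hC, hD⟩ := exists_D_bound Q S
  refine ⟨(1 / B) ^ (2 * k) *
    (C ^ ((2 * (2 * k : ℕ) : ℝ) / (4 * k)) * ((S.card : ℝ) + 1)) ^ (2 * k), fun x W => ?_⟩
  unfold dens
  split_ifs with h
  · have hr : restr W (tilt Q k (pin c fun _ => K) x)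
        = tilt Q k (fun v => restr W (pin c (fun _ => K) v)) x := by
      funext y w
      by_cases hyw : y ∈ W ∧ w ∈ W
      · simp only [restr, tilt, if_pos hyw]
      · simp only [restr, tilt, if_neg hyw, mul_zero]
    rw [mat_pow_eq_kp_restr S _ (fun y w =>
        tilt_band Q k _ S (pin_band c _ S fun _ => band) x y w) W (2 * k) ⟨x, h⟩ ⟨x, h⟩, hr,
      abs_mul, abs_of_nonneg (by positivity : (0 : ℝ) ≤ (1 / B) ^ (2 * k))]
    refine mul_le_mul_of_nonneg_left ?_ (by positivity)
    refine (Complex.abs_re_le_norm _).trans ?_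
    refine (tilt_compare Q S hC hD (fun v => restr W (pin c (fun _ => K) v)) ?_ k (2 * k) x).2.1
    intro v y w
    unfold restr
    split_ifs
    · exact pin_norm c _ (fun _ => bd) v y w
    · simp
  · rw [abs_zero]
    positivity

end Dens

end Crest.Agent.R109.Book
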