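import Crest.Agent.R109.Book1

/-!
# Row 109, module BOOK: the END step in power-mean form

`x v : X → X → ℂ` is a banded Hermitian kernel (at the root `v`), `c` a measurable colouring,
`T = pinching of x by c`, `A v y w = rel(v,y)^(1/4k) T y w rel(v,w)^(1/4k)`.  If
`∫ (A^{2k})_{vv} dμ ≤ μ(X) B^{2k}` with `k = 2^J n` and `J` large, then
`∫ (T^{2n})_{vv} dμ ≤ μ(X) B^{2n} + κ`.
-/

set_option autoImplicit false
set_option linter.unusedSectionVars false

open MeasureTheory
open scoped ENNReal ComplexConjugate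

namespace Crest.Agent.R109.Book

section Measurable

variable {Gam X : Type*} [Group Gam] [MulAction Gam X] [MeasurableSpace X]

/-- complex version of `sum_image_mult` -/
theorem sum_image_mult_c {J Z : Type*} [DecidableEq Z] (s : Finset J) (u : J → Z) (f : Z → ℂ) :
    ∑ z ∈ s.image u, f z = ∑ j ∈ s, f (u j) / ((s.filter (fun i => u i = u j)).card : ℂ) := by
  classical
  rw [← Finset.sum_fiberwise_of_maps_to (s := s) (t := s.image u) (g := u)
    (fun i hi => Finset.mem_image_of_mem u hi)]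
  refine Finset.sum_congr rfl fun z hz => ?_
  obtain ⟨i, hi, rfl⟩ := Finset.mem_image.1 hz
  have hcard : ((s.filter (fun j => u j = u i)).card : ℂ) ≠ 0 := by
    have : i ∈ s.filter (fun j => u j = u i) := by simp [hi]
    exact_mod_cast (Finset.card_pos.2 ⟨i, this⟩).ne'
  have : ∀ j ∈ s.filter (fun j => u j = u i),
      f (u j) / ((s.filter (fun k => u k = u j)).card : ℂ)
        = f (u i) / ((s.filter (fun k => u k = u i)).card : ℂ) := by
    intro j hj
    rw [(Finset.mem_filter.1 hj).2]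
  rw [Finset.sum_congr rfl this, Finset.sum_const, nsmul_eq_mul]
  field_simp

/-- complex version of `measurable_sum_image` -/
theorem measurable_sum_image_c {J Z : Type*} [DecidableEq Z] (s : Finset J)
    (u : J → X → Z) (hu : ∀ i ∈ s, ∀ j ∈ s, MeasurableSet {x | u i x = u j x}) (G : X → Z → ℂ)
    (hG : ∀ j ∈ s, Measurable fun x => G x (u j x)) :
    Measurable fun x => ∑ z ∈ s.image (fun j => u j x), G x z := by
  classical
  have h1 : (fun x => ∑ z ∈ s.image (fun j => u j x), G x z)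
      = fun x => ∑ j ∈ s, G x (u j x) / ((s.filter (fun i => u i x = u j x)).card : ℂ) := by
    funext x
    exact sum_image_mult_c s (fun j => u j x) (G x)
  rw [h1]
  refine Finset.measurable_sum _ fun j hj => (hG j hj).div ?_
  have h2 : (fun x => ((s.filter (fun i => u i x = u j x)).card : ℂ))
      = fun x => ∑ i ∈ s, Set.indicator {x | u i x = u j x} (fun _ => (1 : ℂ)) x := by
    funext x
    rw [Finset.card_filter]
    push_cast
    refine Finset.sum_congr rfl fun i _ => ?_
    by_cases h : u i x = u j x <;> simp [Set.indicator, h]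
  rw [h2]
  exact Finset.measurable_sum _ fun i hi => measurable_const.indicator (hu i hi j hj)

/-- product along the walk `g, l_0, l_1, ..` of the points `g • v, l_0 • v, ..` -/
def wprod (K : X → X → X → ℂ) (v : X) : Gam → List Gam → ℂ
  | _, [] => 1
  | g, h :: l => K v (g • v) (h • v) * wprod K v h l

/-- the end point of a walk -/
def wend : Gam → List Gam → Gam
  | g, [] => g
  | _, h :: l => wend h l

theorem wprod_append (K : X → X → X → ℂ) (v : X) (g : Gam) (l : List Gam) (h : Gam) :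
    wprod K v g (l ++ [h]) = wprod K v g l * K v (wend g l • v) (h • v) := by
  induction l generalizing g with
  | nil => simp [wprod, wend]
  | cons a l ih => simp only [List.cons_append, wprod, wend, ih, mul_assoc]

theorem wend_append (g : Gam) (l : List Gam) (h : Gam) : wend g (l ++ [h]) = h := by
  induction l generalizing g with
  | nil => rfl
  | cons a l ih => simp only [List.cons_append, wend, ih]

open Classical in
/-- closed walk products are measurable -/
def CW (Gam : Type*) [Group Gam] [MulAction Gam X] (K : X → X → X → ℂ) : Prop :=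
  ∀ (g : Gam) (l : List Gam),
    Measurable fun v => if wend g l • v = g • v then wprod K v g l else 0

/-- multiplication by a real kernel preserves `CW` -/
theorem CW.mul {K : X → X → X → ℂ} (hK : CW Gam K) (R : X → X → X → ℂ)
    (hR : ∀ g h : Gam, Measurable fun v => R v (g • v) (h • v)) :
    CW Gam (fun v y w => R v y w * K v y w) := by
  classical
  intro g l
  have h1 : ∀ v, wprod (fun v y w => R v y w * K v y w) v g l
      = wprod R v g l * wprod K v g l := by
    intro v
    induction l generalizing g with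
    | nil => simp [wprod]
    | cons a l ih => simp only [wprod, ih a]; ring
  have h2 : Measurable fun v => wprod R v g l := by
    clear h1
    induction l generalizing g with
    | nil => simp only [wprod]; exact measurable_const
    | cons a l ih => simp only [wprod]; exact (hR g a).mul (ih a)
  have h3 : (fun v => if wend g l • v = g • v then
        wprod (fun v y w => R v y w * K v y w) v g l else 0)
      = fun v => wprod R v g l * (if wend g l • v = g • v then wprod K v g l else 0) := by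
    funext v
    rw [h1]
    split_ifs <;> simp
  rw [h3]
  exact h2.mul (hK g l)

open Classical in
/-- powers of a kernel with range `S` -/
noncomputable def kp (S : Finset Gam) (K : X → X → ℂ) : ℕ → X → X → ℂ
  | 0, y, z => if y = z then 1 else 0
  | m + 1, y, z => ∑ w ∈ ball S y, K y w * kp S K m w z

theorem measurable_kp_aux (meq : ∀ g h : Gam, MeasurableSet {x : X | g • x = h • x})
    (S : Finset Gam) (K : X → X → X → ℂ) (hK : CW Gam K) (m : ℕ) :
    ∀ (g : Gam) (l : List Gam),
      Measurable fun v => wprod K v g l * kp S (K v) m (wend g l • v) (g • v) := by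
  classical
  induction m with
  | zero =>
    intro g l
    have : (fun v => wprod K v g l * kp S (K v) 0 (wend g l • v) (g • v))
        = fun v => if wend g l • v = g • v then wprod K v g l else 0 := by
      funext v
      simp only [kp]
      split_ifs <;> simp
    rw [this]
    exact hK g l
  | succ m ih =>
    intro g l
    have h1 : (fun v => wprod K v g l * kp S (K v) (m + 1) (wend g l • v) (g • v))
        = fun v => ∑ w ∈ S.image (fun s => (s * wend g l) • v),
            wprod K v g l * (K v (wend g l • v) w * kp S (K v) m w (g • v)) := by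
      funext v
      simp only [kp, ball, Finset.mul_sum]
      have : S.image (fun s => s • wend g l • v) = S.image (fun s => (s * wend g l) • v) := by
        congr 1
        funext s
        rw [mul_smul]
      rw [this]
    rw [h1]
    refine measurable_sum_image_c S (fun s v => (s * wend g l) • v)
      (fun i _ j _ => meq _ _)
      (fun v w => wprod K v g l * (K v (wend g l • v) w * kp S (K v) m w (g • v))) ?_
    intro s _
    have h2 := ih g (l ++ [s * wend g l])
    simp only [wprod_append, wend_append] at h2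
    simpa only [mul_assoc] using h2

/-- diagonal entries of kernel powers are measurable -/
theorem measurable_kp (meq : ∀ g h : Gam, MeasurableSet {x : X | g • x = h • x})
    (S : Finset Gam) (K : X → X → X → ℂ) (hK : CW Gam K) (m : ℕ) :
    Measurable fun v => kp S (K v) m v v := by
  have := measurable_kp_aux meq S K hK m 1 []
  simpa [wprod, wend] using this

end Measurable

section Matrices

variable {Gam X : Type*} [Group Gam] [MulAction Gam X] [MeasurableSpace X]

/-- a kernel restricted to a finite volume -/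
def mat (K : X → X → ℂ) (W : Finset X) : Matrix W W ℂ := Matrix.of fun y w => K y w

theorem mat_apply (K : X → X → ℂ) (W : Finset X) (y w : W) : mat K W y w = K y w := rfl

/-- the `j`-neighbourhood of `y` is inside `W` -/
def Near (S : Finset Gam) (W : Finset X) : ℕ → X → Prop
  | 0, y => y ∈ W
  | j + 1, y => y ∈ W ∧ ∀ w ∈ ball S y, Near S W j w

theorem Near.mem {S : Finset Gam} {W : Finset X} {j : ℕ} {y : X} (h : Near S W j y) : y ∈ W := by
  cases j with
  | zero => exact h
  | succ j => exact h.1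

theorem Near.mono {S : Finset Gam} {W : Finset X} {j : ℕ} {y : X} (h : Near S W (j + 1) y) :
    Near S W j y := by
  induction j generalizing y with
  | zero => exact h.1
  | succ j ih => exact ⟨h.1, fun w hw => ih (h.2 w hw)⟩

theorem Near.le {S : Finset Gam} {W : Finset X} {i j : ℕ} {y : X} (hij : i ≤ j)
    (h : Near S W j y) : Near S W i y := by
  induction j with
  | zero => rw [Nat.le_zero.1 hij]; exact h
  | succ j ih =>
    rcases Nat.lt_or_ge i (j + 1) with h1 | h1
    · exact ih (Nat.lt_succ_iff.1 h1) h.mono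
    · rw [Nat.le_antisymm hij h1]; exact h

/-- balls of products of at most `j` elements of `S` -/
theorem near_ball (S S' : Finset Gam) (m : ℕ)
    (hS' : ∀ l : List Gam, l.length ≤ m → (∀ g ∈ l, g ∈ S) → l.prod ∈ S') (v : X) :
    Near S (ball S' v) m v := by
  classical
  have key : ∀ (j : ℕ) (l : List Gam), l.length + j ≤ m → (∀ g ∈ l, g ∈ S) →
      Near S (ball S' v) j (l.prod • v) := by
    intro j
    induction j with
    | zero =>
      intro l hl hg
      exact mem_ball.2 ⟨l.prod, hS' l hl hg, rfl⟩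
    | succ j ih =>
      intro l hl hg
      refine ⟨mem_ball.2 ⟨l.prod, hS' l (by omega) hg, rfl⟩, fun w hw => ?_⟩
      obtain ⟨s, hs, rfl⟩ := mem_ball.1 hw
      have := ih (s :: l) (by simp only [List.length_cons]; omega) (by
        intro g hg'
        rcases List.mem_cons.1 hg' with h | h
        · rw [h]; exact hs
        · exact hg g h)
      rwa [List.prod_cons, mul_smul] at this
  simpa using key m [] (by simp) (by simp)

theorem mat_pow_eq_kp [DecidableEq X] (S : Finset Gam) (K : X → X → ℂ)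
    (band : ∀ y w, K y w ≠ 0 → w ∈ ball S y) (W : Finset X) (j : ℕ) :
    ∀ (y : X) (hy : Near S W j y) (z : W), (mat K W ^ j) ⟨y, hy.mem⟩ z = kp S K j y z := by
  induction j with
  | zero =>
    intro y hy z
    rw [pow_zero, Matrix.one_apply]
    simp only [kp, Subtype.ext_iff]
    split_ifs <;> rfl
  | succ j ih =>
    intro y hy z
    rw [pow_succ', Matrix.mul_apply]
    simp only [kp]
    have hsub : ball S y ⊆ W := fun w hw => (hy.2 w hw).mem
    have h1 : ∑ w : W, mat K W ⟨y, hy.mem⟩ w * (mat K W ^ j) w z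
        = ∑ w ∈ W.attach, (if h : w.1 ∈ ball S y then K y w * kp S K j w z else 0) := by
      rw [Finset.univ_eq_attach]
      refine Finset.sum_congr rfl fun w _ => ?_
      split_ifs with h
      · rw [mat_apply, ih w.1 (hy.2 w.1 h) z]
      · rw [mat_apply]
        have : K y w = 0 := by
          by_contra hne
          exact h (band y w hne)
        rw [this, zero_mul]
    rw [h1]
    have h2 : ∑ w ∈ W.attach, (if h : w.1 ∈ ball S y then K y w * kp S K j w z else 0)
        = ∑ w ∈ W, (if w ∈ ball S y then K y w * kp S K j w z else 0) := by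
      rw [← Finset.sum_attach W]
      refine Finset.sum_congr rfl fun w _ => ?_
      by_cases h : w.1 ∈ ball S y <;> simp [h]
    rw [h2, ← Finset.sum_filter]
    refine Finset.sum_congr ?_ fun w _ => rfl
    ext w
    simp only [Finset.mem_filter]
    exact ⟨fun h => h.2, fun h => ⟨hsub h, h⟩⟩

/-- power means, one step -/
theorem herm_pow_sq_le {V : Type*} [Fintype V] [DecidableEq V] (M : Matrix V V ℂ)
    (hM : M.IsHermitian) (a : ℕ) (v : V) :
    0 ≤ ((M ^ (2 * a)) v v).re ∧
      ((M ^ (2 * a)) v v).re ^ 2 ≤ ((M ^ (4 * a)) v v).re := by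
  have key : ∀ b : ℕ, ((M ^ (2 * b)) v v).re = ∑ w, ‖(M ^ b) v w‖ ^ 2 := by
    intro b
    have hb : (M ^ b).IsHermitian := hM.pow b
    rw [two_mul, pow_add, Matrix.mul_apply, Complex.re_sum]
    refine Finset.sum_congr rfl fun w _ => ?_
    have h1 : (M ^ b) w v = conj ((M ^ b) v w) := by
      have := congrFun (congrFun hb w) v
      rw [Matrix.conjTranspose_apply] at this
      rw [← this]; rfl
    rw [h1, Complex.mul_conj, Complex.normSq_eq_norm_sq]
    norm_cast
  refine ⟨?_, ?_⟩
  · rw [key]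
    positivity
  · have h2 : 4 * a = 2 * (2 * a) := by ring
    rw [h2, key (2 * a)]
    have h3 : ((M ^ (2 * a)) v v).re ^ 2 ≤ ‖(M ^ (2 * a)) v v‖ ^ 2 := by
      rw [← sq_abs]
      exact pow_le_pow_left₀ (abs_nonneg _) (Complex.abs_re_le_norm _) 2
    refine h3.trans ?_
    exact Finset.single_le_sum (f := fun w => ‖(M ^ (2 * a)) v w‖ ^ 2)
      (fun w _ => by positivity) (Finset.mem_univ v)

/-- power means -/
theorem herm_pow_le {V : Type*} [Fintype V] [DecidableEq V] (M : Matrix V V ℂ)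
    (hM : M.IsHermitian) (a J : ℕ) (v : V) :
    ((M ^ (2 * a)) v v).re ^ (2 ^ J) ≤ ((M ^ (2 * (2 ^ J * a))) v v).re := by
  induction J with
  | zero => simp
  | succ J ih =>
    have h1 := herm_pow_sq_le M hM (2 ^ J * a) v
    have h0 := (herm_pow_sq_le M hM a v).1
    calc ((M ^ (2 * a)) v v).re ^ (2 ^ (J + 1))
        = (((M ^ (2 * a)) v v).re ^ (2 ^ J)) ^ 2 := by rw [← pow_mul, pow_succ]
      _ ≤ (((M ^ (2 * (2 ^ J * a))) v v).re) ^ 2 :=
          pow_le_pow_left₀ (pow_nonneg h0 _) ih 2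
      _ ≤ ((M ^ (4 * (2 ^ J * a))) v v).re := h1.2
      _ = ((M ^ (2 * (2 ^ (J + 1) * a))) v v).re := by
          have : 4 * (2 ^ J * a) = 2 * (2 ^ (J + 1) * a) := by ring
          rw [this]

/-- comparison of powers of two kernels near a point -/
theorem kp_compare (S : Finset Gam) (K K' : X → X → ℂ) (near : ℕ → X → Prop) (m : ℕ) (ε N : ℝ)
    (hε : 0 ≤ ε) (hN : 1 ≤ N) (hnear : ∀ i y, near i y → ∀ w ∈ ball S y, near (i + 1) w)
    (hrow : ∀ i y, i < m → near i y → ∑ w ∈ ball S y, ‖K y w‖ ≤ N)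
    (hcl : ∀ i y, i < m → near i y → ∀ w ∈ ball S y, ‖K' y w - K y w‖ ≤ ε * ‖K y w‖) (j : ℕ) :
    ∀ i y z, i + j ≤ m → near i y →
      ‖kp S K j y z‖ ≤ N ^ j ∧ ‖kp S K' j y z‖ ≤ ((1 + ε) * N) ^ j ∧
      ‖kp S K' j y z - kp S K j y z‖ ≤ ((1 + ε) ^ j - 1) * N ^ j := by
  classical
  have hN0 : 0 ≤ N := zero_le_one.trans hN
  induction j with
  | zero =>
    intro i y z _ _
    simp only [kp]
    refine ⟨?_, ?_, ?_⟩
    · split_ifs <;> simp
    · split_ifs <;> simp
    · simp
  | succ j ih =>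
    intro i y z hi hy
    have hi' : i < m := by omega
    have hih := fun w (hw : w ∈ ball S y) => ih (i + 1) w z (by omega) (hnear i y hy w hw)
    have hr := hrow i y hi' hy
    have hc := hcl i y hi' hy
    have hK' : ∀ w ∈ ball S y, ‖K' y w‖ ≤ (1 + ε) * ‖K y w‖ := by
      intro w hw
      calc ‖K' y w‖ = ‖(K' y w - K y w) + K y w‖ := by rw [sub_add_cancel]
        _ ≤ ‖K' y w - K y w‖ + ‖K y w‖ := norm_add_le _ _
        _ ≤ ε * ‖K y w‖ + ‖K y w‖ := by gcongr; exact hc w hw
        _ = (1 + ε) * ‖K y w‖ := by ring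
    refine ⟨?_, ?_, ?_⟩
    · simp only [kp]
      calc ‖∑ w ∈ ball S y, K y w * kp S K j w z‖
          ≤ ∑ w ∈ ball S y, ‖K y w * kp S K j w z‖ := norm_sum_le _ _
        _ ≤ ∑ w ∈ ball S y, ‖K y w‖ * N ^ j := by
            refine Finset.sum_le_sum fun w hw => ?_
            rw [norm_mul]
            exact mul_le_mul_of_nonneg_left (hih w hw).1 (norm_nonneg _)
        _ = (∑ w ∈ ball S y, ‖K y w‖) * N ^ j := by rw [Finset.sum_mul]
        _ ≤ N * N ^ j := by gcongr
        _ = N ^ (j + 1) := by ring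
    · simp only [kp]
      calc ‖∑ w ∈ ball S y, K' y w * kp S K' j w z‖
          ≤ ∑ w ∈ ball S y, ‖K' y w * kp S K' j w z‖ := norm_sum_le _ _
        _ ≤ ∑ w ∈ ball S y, ((1 + ε) * ‖K y w‖) * ((1 + ε) * N) ^ j := by
            refine Finset.sum_le_sum fun w hw => ?_
            rw [norm_mul]
            exact mul_le_mul (hK' w hw) (hih w hw).2.1 (norm_nonneg _) (by positivity)
        _ = (1 + ε) * (∑ w ∈ ball S y, ‖K y w‖) * ((1 + ε) * N) ^ j := by
            rw [Finset.mul_sum, Finset.sum_mul]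
        _ ≤ (1 + ε) * N * ((1 + ε) * N) ^ j := by gcongr
        _ = ((1 + ε) * N) ^ (j + 1) := by ring
    · simp only [kp]
      rw [← Finset.sum_sub_distrib]
      have hsplit : ∀ w, K' y w * kp S K' j w z - K y w * kp S K j w z
          = (K' y w - K y w) * kp S K' j w z + K y w * (kp S K' j w z - kp S K j w z) := by
        intro w; ring
      simp_rw [hsplit]
      calc ‖∑ w ∈ ball S y, ((K' y w - K y w) * kp S K' j w z
              + K y w * (kp S K' j w z - kp S K j w z))‖
          ≤ ∑ w ∈ ball S y, ‖(K' y w - K y w) * kp S K' j w z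
              + K y w * (kp S K' j w z - kp S K j w z)‖ := norm_sum_le _ _
        _ ≤ ∑ w ∈ ball S y, ((ε * ‖K y w‖) * ((1 + ε) * N) ^ j
              + ‖K y w‖ * (((1 + ε) ^ j - 1) * N ^ j)) := by
            refine Finset.sum_le_sum fun w hw => (norm_add_le _ _).trans ?_
            rw [norm_mul, norm_mul]
            refine add_le_add ?_ ?_
            · exact mul_le_mul (hc w hw) (hih w hw).2.1 (norm_nonneg _) (by positivity)
            · exact mul_le_mul_of_nonneg_left (hih w hw).2.2 (norm_nonneg _)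
        _ = (∑ w ∈ ball S y, ‖K y w‖) * (ε * ((1 + ε) * N) ^ j
              + (((1 + ε) ^ j - 1) * N ^ j)) := by
            rw [Finset.sum_mul]
            refine Finset.sum_congr rfl fun w _ => ?_
            ring
        _ ≤ N * (ε * ((1 + ε) * N) ^ j + (((1 + ε) ^ j - 1) * N ^ j)) := by
            refine mul_le_mul_of_nonneg_right hr ?_
            have : 1 ≤ (1 + ε) ^ j := one_le_pow₀ (by linarith)
            have h4 : 0 ≤ ((1 + ε) ^ j - 1) * N ^ j :=
              mul_nonneg (by linarith) (pow_nonneg hN0 _)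
            positivity
        _ = ((1 + ε) ^ (j + 1) - 1) * N ^ (j + 1) := by
            rw [mul_pow]; ring

end Matrices

/-- the Bernoulli form of Jensen's inequality -/
theorem integral_le_of_pow {X : Type*} [MeasurableSpace X] (μ : Measure X) [IsFiniteMeasure μ]
    (f g : X → ℝ) (hf : Integrable f μ) (hg : Integrable g μ) (hf0 : ∀ v, 0 ≤ f v)
    (N : ℕ) (hN : 1 ≤ N) (hfg : ∀ v, f v ^ N ≤ g v) (b : ℝ) (hb : 0 < b)
    (h : ∫ v, g v ∂μ ≤ μ.real Set.univ * b ^ N) :
    ∫ v, f v ∂μ ≤ μ.real Set.univ * b := by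
  have hber : ∀ v, b ^ N + N * b ^ (N - 1) * (f v - b) ≤ g v := by
    intro v
    refine le_trans ?_ (hfg v)
    have h1 := one_add_mul_le_pow (a := f v / b - 1) (by
      have : 0 ≤ f v / b := div_nonneg (hf0 v) hb.le
      linarith) N
    have h2 : (1 + (f v / b - 1)) ^ N = f v ^ N / b ^ N := by
      rw [add_sub_cancel, div_pow]
    rw [h2, le_div_iff₀ (pow_pos hb N)] at h1
    refine le_trans (le_of_eq ?_) h1
    have h3 : b ^ N = b ^ (N - 1) * b := by
      rw [← pow_succ]; congr 1; omega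
    have h4 : (f v / b - 1) * b = f v - b := by
      field_simp
    calc b ^ N + N * b ^ (N - 1) * (f v - b)
        = b ^ N + N * b ^ (N - 1) * ((f v / b - 1) * b) := by rw [h4]
      _ = (1 + N * (f v / b - 1)) * b ^ N := by rw [h3]; ring
  have hint : ∫ v, (b ^ N + N * b ^ (N - 1) * (f v - b)) ∂μ ≤ ∫ v, g v ∂μ := by
    refine integral_mono ?_ hg hber
    exact (integrable_const _).add ((hf.sub (integrable_const _)).const_mul _)
  have hcomp : ∫ v, (b ^ N + N * b ^ (N - 1) * (f v - b)) ∂μ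
      = μ.real Set.univ * b ^ N + N * b ^ (N - 1) * (∫ v, f v ∂μ - μ.real Set.univ * b) := by
    have e1 : ∫ v, (b ^ N + N * b ^ (N - 1) * (f v - b)) ∂μ
        = ∫ _v, b ^ N ∂μ + ∫ v, N * b ^ (N - 1) * (f v - b) ∂μ :=
      integral_add (integrable_const _) ((hf.sub (integrable_const _)).const_mul _)
    have e2 : ∫ v, (f v - b) ∂μ = ∫ v, f v ∂μ - ∫ _v, b ∂μ :=
      integral_sub hf (integrable_const _)
    rw [e1, integral_const_mul, e2, integral_const, integral_const]
    simp only [smul_eq_mul]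
  rw [hcomp] at hint
  have h5 : N * b ^ (N - 1) * (∫ v, f v ∂μ - μ.real Set.univ * b) ≤ 0 := by linarith
  have h6 : 0 < (N : ℝ) * b ^ (N - 1) := by
    have : (0 : ℝ) < N := by exact_mod_cast hN
    positivity
  have h7 : ∫ v, f v ∂μ - μ.real Set.univ * b ≤ 0 := by
    by_contra hne
    push Not at hne
    have := mul_pos h6 hne
    linarith
  linarith


section End

variable {Gam X : Type*} [Group Gam] [MulAction Gam X] [MeasurableSpace X] {μ : Measure X}

/-- the pinching of a kernel by a colouring -/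
def pin {X : Type*} {r : ℕ} (c : X → Fin r) (x : X → X → X → ℂ) : X → X → X → ℂ :=
  fun v y w => if c y = c w then x v y w else 0

/-- the real tilt factor -/
noncomputable def tf (Q : QI Gam X μ) (k : ℕ) (v y w : X) : ℝ :=
  (Q.rel v y) ^ (1 / (4 * k) : ℝ) * (Q.rel v w) ^ (1 / (4 * k) : ℝ)

/-- the tilted kernel -/
noncomputable def tilt (Q : QI Gam X μ) (k : ℕ) (x : X → X → X → ℂ) : X → X → X → ℂ :=
  fun v y w => (tf Q k v y w : ℂ) * x v y w

theorem tf_symm (Q : QI Gam X μ) (k : ℕ) (v y w : X) : tf Q k v y w = tf Q k v w y :=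
  mul_comm _ _

theorem tf_nonneg (Q : QI Gam X μ) (k : ℕ) (v y w : X) : 0 ≤ tf Q k v y w :=
  mul_nonneg (Real.rpow_nonneg (Q.rel_pos _ _).le _) (Real.rpow_nonneg (Q.rel_pos _ _).le _)

theorem pin_band {r : ℕ} (c : X → Fin r) (x : X → X → X → ℂ) (S : Finset Gam)
    (band : ∀ v y w, x v y w ≠ 0 → w ∈ ball S y) (v y w : X) (h : pin c x v y w ≠ 0) :
    w ∈ ball S y := by
  unfold pin at h
  split_ifs at h
  · exact band v y w h
  · exact absurd rfl h

theorem tilt_band (Q : QI Gam X μ) (k : ℕ) (x : X → X → X → ℂ) (S : Finset Gam)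
    (band : ∀ v y w, x v y w ≠ 0 → w ∈ ball S y) (v y w : X) (h : tilt Q k x v y w ≠ 0) :
    w ∈ ball S y :=
  band v y w (right_ne_zero_of_mul h)

theorem pin_herm {r : ℕ} (c : X → Fin r) (x : X → X → X → ℂ)
    (herm : ∀ v y w, x v w y = conj (x v y w)) (v y w : X) :
    pin c x v w y = conj (pin c x v y w) := by
  unfold pin
  by_cases h : c y = c w
  · rw [if_pos h, if_pos h.symm, herm]
  · rw [if_neg h, if_neg (fun h' => h h'.symm), map_zero]

theorem tilt_herm (Q : QI Gam X μ) (k : ℕ) (x : X → X → X → ℂ)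
    (herm : ∀ v y w, x v w y = conj (x v y w)) (v y w : X) :
    tilt Q k x v w y = conj (tilt Q k x v y w) := by
  unfold tilt
  rw [map_mul, Complex.conj_ofReal, herm v y w, tf_symm]

theorem pin_norm {r : ℕ} (c : X → Fin r) (x : X → X → X → ℂ)
    (bd : ∀ v y w, ‖x v y w‖ ≤ 1) (v y w : X) : ‖pin c x v y w‖ ≤ 1 := by
  unfold pin
  split_ifs
  · exact bd v y w
  · simp

theorem mat_isHermitian (K : X → X → ℂ) (herm : ∀ y w, K w y = conj (K y w)) (W : Finset X) :
    (mat K W).IsHermitian := by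
  ext y w
  rw [Matrix.conjTranspose_apply, mat_apply, mat_apply, herm y w]
  exact Complex.conj_conj _

theorem CW_pin (Q : QI Gam X μ) {r : ℕ} (c : X → Fin r) (hc : Measurable c)
    (x : X → X → X → ℂ) (cw : CW Gam x) : CW Gam (pin c x) := by
  classical
  have h1 : pin c x = fun v y w => (if c y = c w then (1 : ℂ) else 0) * x v y w := by
    funext v y w
    unfold pin
    split_ifs <;> simp
  rw [h1]
  refine CW.mul cw (fun v y w => if c y = c w then (1 : ℂ) else 0) fun g h => ?_
  refine Measurable.ite ?_ measurable_const measurable_const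
  exact measurableSet_eq_fun (hc.comp (Q.meas_smul g)) (hc.comp (Q.meas_smul h))

theorem CW_tilt (Q : QI Gam X μ) (k : ℕ) (x : X → X → X → ℂ) (cw : CW Gam x) :
    CW Gam (tilt Q k x) := by
  refine CW.mul cw (fun v y w => (tf Q k v y w : ℂ)) fun g h => ?_
  refine Complex.measurable_ofReal.comp ?_
  simp only [tf, Q.rel_smul]
  exact ((Q.meas_D g).pow_const _).mul ((Q.meas_D h).pow_const _)

theorem exists_D_bound (Q : QI Gam X μ) (S : Finset Gam) :
    ∃ C : ℝ, 1 ≤ C ∧ ∀ s ∈ S, ∀ y, Q.D s y ≤ C ∧ C⁻¹ ≤ Q.D s y := by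
  classical
  choose C hC using Q.D_bdd
  refine ⟨1 + ∑ s ∈ S, (|C s| + |C s⁻¹|), ?_, ?_⟩
  · have : 0 ≤ ∑ s ∈ S, (|C s| + |C s⁻¹|) := Finset.sum_nonneg fun s _ => by positivity
    linarith
  · intro s hs y
    have h1 : |C s| + |C s⁻¹| ≤ ∑ s ∈ S, (|C s| + |C s⁻¹|) :=
      Finset.single_le_sum (f := fun s => |C s| + |C s⁻¹|) (fun i _ => by positivity) hs
    have h2 := hC s y
    have h3 := hC s⁻¹ (s • y)
    have h4 : Q.D s⁻¹ (s • y) * Q.D s y = 1 := by
      rw [← Q.D_mul, inv_mul_cancel, Q.D_one]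
    have h5 := le_abs_self (C s)
    have h6 := le_abs_self (C s⁻¹)
    have h7 := abs_nonneg (C s)
    have h8 := abs_nonneg (C s⁻¹)
    refine ⟨by linarith, ?_⟩
    have hpos := Q.D_pos s⁻¹ (s • y)
    have hpos' := Q.D_pos s y
    have h9 : Q.D s y = (Q.D s⁻¹ (s • y))⁻¹ := eq_inv_of_mul_eq_one_right h4
    rw [h9]
    exact inv_anti₀ hpos (by linarith)

/-- `y` is reached from `v` in `i` steps, recorded by the density only -/
def NearD (Q : QI Gam X μ) (C : ℝ) (v : X) (i : ℕ) (y : X) : Prop :=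
  Rel Gam v y ∧ Q.rel v y ≤ C ^ i ∧ (C ^ i)⁻¹ ≤ Q.rel v y

theorem NearD.zero (Q : QI Gam X μ) (C : ℝ) (v : X) : NearD Q C v 0 v := by
  refine ⟨Rel.refl v, ?_, ?_⟩ <;> simp [Q.rel_self]

theorem NearD.step {Q : QI Gam X μ} {C : ℝ} (hC : 1 ≤ C) {S : Finset Gam}
    (hD : ∀ s ∈ S, ∀ y, Q.D s y ≤ C ∧ C⁻¹ ≤ Q.D s y) {v : X} {i : ℕ} {y : X}
    (h : NearD Q C v i y) {w : X} (hw : w ∈ ball S y) : NearD Q C v (i + 1) w := by
  obtain ⟨s, hs, rfl⟩ := mem_ball.1 hw
  have h1 : Rel Gam y (s • y) := ⟨s, rfl⟩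
  have hC0 : 0 < C := by linarith
  refine ⟨h.1.trans h1, ?_, ?_⟩
  · rw [Q.rel_trans h.1 h1, Q.rel_smul, pow_succ]
    exact mul_le_mul h.2.1 (hD s hs y).1 (Q.D_pos _ _).le (by positivity)
  · rw [Q.rel_trans h.1 h1, Q.rel_smul, pow_succ, mul_inv]
    exact mul_le_mul h.2.2 (hD s hs y).2 (by positivity) (Q.rel_pos _ _).le

theorem tf_near (Q : QI Gam X μ) {C : ℝ} (hC : 1 ≤ C) (k m : ℕ) {v y w : X} {i j : ℕ}
    (hi : i ≤ m) (hj : j ≤ m) (hy : NearD Q C v i y) (hw : NearD Q C v j w) :
    |tf Q k v y w - 1| ≤ C ^ ((2 * m : ℝ) / (4 * k)) - 1 := by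
  have hC0 : 0 < C := by linarith
  have ha : (0 : ℝ) ≤ 1 / (4 * k) := by positivity
  have hup : ∀ {z : X} {l : ℕ}, l ≤ m → NearD Q C v l z →
      (Q.rel v z) ^ (1 / (4 * k) : ℝ) ≤ C ^ ((m : ℝ) / (4 * k)) := by
    intro z l hl hz
    have h1 : Q.rel v z ≤ C ^ m := hz.2.1.trans (pow_le_pow_right₀ hC hl)
    calc (Q.rel v z) ^ (1 / (4 * k) : ℝ) ≤ (C ^ m) ^ (1 / (4 * k) : ℝ) :=
          Real.rpow_le_rpow (Q.rel_pos _ _).le h1 ha
      _ = C ^ ((m : ℝ) / (4 * k)) := by
          rw [← Real.rpow_natCast, ← Real.rpow_mul hC0.le]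
          congr 1
          ring
  have hlo : ∀ {z : X} {l : ℕ}, l ≤ m → NearD Q C v l z →
      (C ^ ((m : ℝ) / (4 * k)))⁻¹ ≤ (Q.rel v z) ^ (1 / (4 * k) : ℝ) := by
    intro z l hl hz
    have h1 : (C ^ m)⁻¹ ≤ Q.rel v z :=
      (inv_anti₀ (by positivity) (pow_le_pow_right₀ hC hl)).trans hz.2.2
    calc (C ^ ((m : ℝ) / (4 * k)))⁻¹ = ((C ^ m)⁻¹) ^ (1 / (4 * k) : ℝ) := by
          rw [Real.inv_rpow (by positivity), ← Real.rpow_natCast, ← Real.rpow_mul hC0.le]
          congr 2
          ring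
      _ ≤ (Q.rel v z) ^ (1 / (4 * k) : ℝ) := Real.rpow_le_rpow (by positivity) h1 ha
  set u : ℝ := C ^ ((m : ℝ) / (4 * k)) with hu
  have hu1 : 1 ≤ u := Real.one_le_rpow hC (by positivity)
  have hu0 : 0 < u := by linarith
  have huu : C ^ ((2 * m : ℝ) / (4 * k)) = u * u := by
    rw [hu, ← Real.rpow_add hC0]
    congr 1
    ring
  rw [huu]
  have h1 := hup hi hy
  have h2 := hup hj hw
  have h3 := hlo hi hy
  have h4 := hlo hj hw
  have p1 : 0 ≤ (Q.rel v y) ^ (1 / (4 * k) : ℝ) := Real.rpow_nonneg (Q.rel_pos _ _).le _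
  have p2 : 0 ≤ (Q.rel v w) ^ (1 / (4 * k) : ℝ) := Real.rpow_nonneg (Q.rel_pos _ _).le _
  have hU : tf Q k v y w ≤ u * u := mul_le_mul h1 h2 p2 hu0.le
  have hL : u⁻¹ * u⁻¹ ≤ tf Q k v y w := mul_le_mul h3 h4 (by positivity) p1
  rw [abs_le]
  constructor
  · have h5 : 1 - u * u ≤ u⁻¹ * u⁻¹ - 1 := by
      have h6 : 1 ≤ u * u := one_le_mul_of_one_le_of_one_le hu1 hu1
      have h7 : u⁻¹ * u⁻¹ = (u * u)⁻¹ := by rw [mul_inv]
      rw [h7]
      have h8 : 2 ≤ u * u + (u * u)⁻¹ := by
        have h9 : 0 < u * u := by positivity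
        have : u * u + (u * u)⁻¹ - 2 = (u * u - 1) ^ 2 / (u * u) := by
          field_simp
          ring
        have h10 : 0 ≤ (u * u - 1) ^ 2 / (u * u) := by positivity
        linarith
      linarith
    linarith
  · linarith

/-- comparison of the tilted and untilted powers -/
theorem tilt_compare (Q : QI Gam X μ) (S : Finset Gam) {C : ℝ} (hC : 1 ≤ C)
    (hD : ∀ s ∈ S, ∀ y, Q.D s y ≤ C ∧ C⁻¹ ≤ Q.D s y) (x : X → X → X → ℂ)
    (bd : ∀ v y w, ‖x v y w‖ ≤ 1) (k m : ℕ) (v : X) :
    ‖kp S (x v) m v v‖ ≤ ((S.card : ℝ) + 1) ^ m ∧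
      ‖kp S (tilt Q k x v) m v v‖ ≤ (C ^ ((2 * m : ℝ) / (4 * k)) * ((S.card : ℝ) + 1)) ^ m ∧
      ‖kp S (tilt Q k x v) m v v - kp S (x v) m v v‖
        ≤ ((C ^ ((2 * m : ℝ) / (4 * k))) ^ m - 1) * ((S.card : ℝ) + 1) ^ m := by
  classical
  have hε : 0 ≤ C ^ ((2 * m : ℝ) / (4 * k)) - 1 :=
    sub_nonneg.2 (Real.one_le_rpow hC (by positivity))
  have := kp_compare S (x v) (tilt Q k x v) (NearD Q C v) m
    (C ^ ((2 * m : ℝ) / (4 * k)) - 1) ((S.card : ℝ) + 1) hε (by linarith [S.card.cast_nonneg (α := ℝ)])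
    (fun i y hy w hw => hy.step hC hD hw)
    (by
      intro i y _ _
      calc ∑ w ∈ ball S y, ‖x v y w‖ ≤ ∑ w ∈ ball S y, (1 : ℝ) :=
            Finset.sum_le_sum fun w _ => bd v y w
        _ = ((ball S y).card : ℝ) := by simp
        _ ≤ (S.card : ℝ) := by exact_mod_cast Finset.card_image_le
        _ ≤ (S.card : ℝ) + 1 := by linarith)
    (by
      intro i y hi hy w hw
      have h1 := tf_near Q hC k m hi.le (Nat.succ_le_of_lt hi) hy (hy.step hC hD hw)
      have h2 : tilt Q k x v y w - x v y w = ((tf Q k v y w - 1 : ℝ) : ℂ) * x v y w := by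
        unfold tilt
        push_cast
        ring
      rw [h2, norm_mul, Complex.norm_real, Real.norm_eq_abs]
      exact mul_le_mul_of_nonneg_right h1 (norm_nonneg _))
    m 0 v v (by omega) (NearD.zero Q C v)
  simpa only [add_sub_cancel] using this

/-- **the END step** -/
theorem book_end (Q : QI Gam X μ) [IsFiniteMeasure μ] [DecidableEq X] (S : Finset Gam)
    (x : X → X → X → ℂ) (herm : ∀ v y w, x v w y = conj (x v y w))
    (band : ∀ v y w, x v y w ≠ 0 → w ∈ ball S y) (bd : ∀ v y w, ‖x v y w‖ ≤ 1)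
    (cw : CW Gam x) (n : ℕ) (κ : ℝ) (hκ : 0 < κ) :
    ∃ J₀ : ℕ, ∀ J, J₀ ≤ J → ∀ (r : ℕ) (c : X → Fin r), Measurable c → ∀ B : ℝ, 0 < B →
      ∀ (S' : Finset Gam) (hS' : ∀ l : List Gam, l.length ≤ 2 * (2 ^ J * n) →
        (∀ g ∈ l, g ∈ S) → l.prod ∈ S'),
      ∫ v, ((mat (tilt Q (2 ^ J * n) (pin c x) v) (ball S' v) ^ (2 * (2 ^ J * n)))
          ⟨v, (near_ball S S' _ hS' v).mem⟩ ⟨v, (near_ball S S' _ hS' v).mem⟩).re ∂μ
        ≤ μ.real Set.univ * B ^ (2 * (2 ^ J * n)) →
      Integrable (fun v => (kp S (pin c x v) (2 * n) v v).re) μ ∧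
      ∫ v, (kp S (pin c x v) (2 * n) v v).re ∂μ ≤ μ.real Set.univ * B ^ (2 * n) + κ := by
  obtain ⟨C, hC, hD⟩ := exists_D_bound Q S
  have hC0 : 0 < C := by linarith
  -- the error tends to zero
  have hlim : Filter.Tendsto (fun J : ℕ => μ.real Set.univ *
      (((C ^ (((2 * (2 * n : ℕ) : ℝ)) / (4 * (2 ^ J * n : ℕ)))) ^ (2 * n) - 1)
        * ((S.card : ℝ) + 1) ^ (2 * n))) Filter.atTop (nhds 0) := by
    have h1 : Filter.Tendsto (fun J : ℕ => ((2 * (2 * n : ℕ) : ℝ)) / (4 * (2 ^ J * n : ℕ)))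
        Filter.atTop (nhds 0) := by
      rcases Nat.eq_zero_or_pos n with hn | hn
      · subst hn; simp
      · have h2 : (fun J : ℕ => ((2 * (2 * n : ℕ) : ℝ)) / (4 * (2 ^ J * n : ℕ)))
            = fun J : ℕ => ((1 : ℝ) / 2) ^ J := by
          funext J
          have : (n : ℝ) ≠ 0 := by positivity
          push_cast
          rw [div_pow, one_pow]
          field_simp
          norm_num
        rw [h2]
        exact tendsto_pow_atTop_nhds_zero_of_lt_one (by norm_num) (by norm_num)
    have h3 : Filter.Tendsto (fun J : ℕ => C ^ (((2 * (2 * n : ℕ) : ℝ)) / (4 * (2 ^ J * n : ℕ))))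
        Filter.atTop (nhds 1) := by
      have := (Real.continuousAt_const_rpow hC0.ne' (b := (0 : ℝ))).tendsto.comp h1
      rw [Real.rpow_zero] at this
      exact this
    have h4 := (((h3.pow (2 * n)).sub_const 1).mul_const (((S.card : ℝ) + 1) ^ (2 * n))).const_mul
      (μ.real Set.univ)
    simpa using h4
  obtain ⟨J₀, hJ₀⟩ := Filter.eventually_atTop.1 (hlim.eventually (gt_mem_nhds hκ))
  refine ⟨J₀, fun J hJ r c hc B hB S' hS' hint => ?_⟩
  set k : ℕ := 2 ^ J * n with hk
  have hsmall := hJ₀ J hJ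
  have pb := pin_band c x S band
  have tb := tilt_band Q k (pin c x) S pb
  have pn := pin_norm c x bd
  have cwp : CW Gam (pin c x) := CW_pin Q c hc x cw
  have cwt : CW Gam (tilt Q k (pin c x)) := CW_tilt Q k _ cwp
  have hnear : ∀ v : X, Near S (ball S' v) (2 * k) v := near_ball S S' (2 * k) hS'
  -- matrices and kernel powers
  have hmk : ∀ (j : ℕ) (_ : j ≤ 2 * k) (v : X),
      (mat (tilt Q k (pin c x) v) (ball S' v) ^ j) ⟨v, (hnear v).mem⟩ ⟨v, (hnear v).mem⟩
        = kp S (tilt Q k (pin c x) v) j v v := by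
    intro j hj v
    exact mat_pow_eq_kp S (tilt Q k (pin c x) v) (tb v) (ball S' v) j v ((hnear v).le hj)
      ⟨v, (hnear v).mem⟩
  have hn2 : 2 * n ≤ 2 * k := by
    have : 1 ≤ 2 ^ J := Nat.one_le_two_pow
    nlinarith
  have hmH : ∀ v, (mat (tilt Q k (pin c x) v) (ball S' v)).IsHermitian := fun v =>
    mat_isHermitian _ (tilt_herm Q k _ (pin_herm c x herm) v) _
  -- integrability
  have hI1 : Integrable (fun v => (kp S (pin c x v) (2 * n) v v).re) μ := by
    refine Integrable.of_bound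
      (Complex.measurable_re.comp (measurable_kp Q.meas_eq S _ cwp (2 * n))).aestronglyMeasurable
      (((S.card : ℝ) + 1) ^ (2 * n)) (Filter.Eventually.of_forall fun v => ?_)
    rw [Real.norm_eq_abs]
    exact (Complex.abs_re_le_norm _).trans (tilt_compare Q S hC hD (pin c x) pn k (2 * n) v).1
  have hI2 : ∀ j : ℕ, Integrable (fun v => (kp S (tilt Q k (pin c x) v) j v v).re) μ := by
    intro j
    refine Integrable.of_bound
      (Complex.measurable_re.comp (measurable_kp Q.meas_eq S _ cwt j)).aestronglyMeasurable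
      ((C ^ ((2 * j : ℝ) / (4 * k)) * ((S.card : ℝ) + 1)) ^ j)
      (Filter.Eventually.of_forall fun v => ?_)
    rw [Real.norm_eq_abs]
    exact (Complex.abs_re_le_norm _).trans (tilt_compare Q S hC hD (pin c x) pn k j v).2.1
  -- power means
  have hpm : ∀ v, (kp S (tilt Q k (pin c x) v) (2 * n) v v).re ^ (2 ^ J)
      ≤ (kp S (tilt Q k (pin c x) v) (2 * k) v v).re := by
    intro v
    have := herm_pow_le _ (hmH v) n J ⟨v, (hnear v).mem⟩
    rw [← hk, hmk _ hn2 v, hmk _ le_rfl v] at this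
    exact this
  have hpos : ∀ v, 0 ≤ (kp S (tilt Q k (pin c x) v) (2 * n) v v).re := by
    intro v
    have := (herm_pow_sq_le _ (hmH v) n ⟨v, (hnear v).mem⟩).1
    rwa [hmk _ hn2 v] at this
  have hint' : ∫ v, (kp S (tilt Q k (pin c x) v) (2 * k) v v).re ∂μ
      ≤ μ.real Set.univ * (B ^ (2 * n)) ^ (2 ^ J) := by
    have e1 : (B ^ (2 * n)) ^ (2 ^ J) = B ^ (2 * k) := by
      rw [← pow_mul, hk]
      congr 1
      ring
    rw [e1]
    refine le_trans (le_of_eq ?_) hint
    refine integral_congr_ae (Filter.Eventually.of_forall fun v => ?_)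
    simp only
    rw [hmk _ le_rfl v]
  have hmain := integral_le_of_pow μ _ _ (hI2 (2 * n)) (hI2 (2 * k)) hpos (2 ^ J)
    Nat.one_le_two_pow hpm (B ^ (2 * n)) (pow_pos hB _) hint'
  refine ⟨hI1, ?_⟩
  -- closeness
  have hclose : ∀ v, (kp S (pin c x v) (2 * n) v v).re
      ≤ (kp S (tilt Q k (pin c x) v) (2 * n) v v).re
        + ((C ^ (((2 * (2 * n : ℕ) : ℝ)) / (4 * k))) ^ (2 * n) - 1)
          * ((S.card : ℝ) + 1) ^ (2 * n) := by
    intro v
    have h1 := (tilt_compare Q S hC hD (pin c x) pn k (2 * n) v).2.2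
    have h2 := (Complex.abs_re_le_norm _).trans h1
    rw [Complex.sub_re, abs_le] at h2
    linarith [h2.1]
  calc ∫ v, (kp S (pin c x v) (2 * n) v v).re ∂μ
      ≤ ∫ v, ((kp S (tilt Q k (pin c x) v) (2 * n) v v).re
        + ((C ^ (((2 * (2 * n : ℕ) : ℝ)) / (4 * k))) ^ (2 * n) - 1)
          * ((S.card : ℝ) + 1) ^ (2 * n)) ∂μ :=
        integral_mono hI1 ((hI2 (2 * n)).add (integrable_const _)) hclose
    _ = ∫ v, (kp S (tilt Q k (pin c x) v) (2 * n) v v).re ∂μ
        + μ.real Set.univ * (((C ^ (((2 * (2 * n : ℕ) : ℝ)) / (4 * k))) ^ (2 * n) - 1)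
          * ((S.card : ℝ) + 1) ^ (2 * n)) := by
        rw [integral_add (hI2 (2 * n)) (integrable_const _), integral_const]
        simp only [smul_eq_mul]
    _ ≤ μ.real Set.univ * B ^ (2 * n) + κ := add_le_add hmain hsmall.le

end End

end Crest.Agent.R109.Book
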