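import Crest.Agent.R109.AsmIface
import Crest.Agent.R109.BookEnd
import Crest.Agent.R109.BookSep

/-!
# Row 109: the interface of the CARTAN block

* `KSys Q S K` : kernel systems = everything the measured/finite volume theory knows about the
  kernel `K` (delivered by 93 + 828 for `K = m.K M η y`);
* `MeasListProp` : the measured list theorem (952 + 918 from the finite volume modules), no operator
  algebra; the cells are measurable, 397's `list_clopen` makes them clopen.
-/

set_option autoImplicit false
set_option linter.unusedSectionVars false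

open MeasureTheory
open scoped ComplexConjugate ComplexOrder

namespace Crest.Agent.R109

open Crest.Agent.R109.Book

universe u

open Classical in
/-- A kernel system: a Hermitian kernel `K` on `X` with zero diagonal and range `S`, all of whose
finite compressions lie between `-1` and `1`; `gauge` and `cw` are the measurability hypotheses. -/
structure KSys {Gam X : Type*} [Group Gam] [MulAction Gam X] [MeasurableSpace X] {μ : Measure X}
    (Q : QI Gam X μ) (S : Finset Gam) (K : X → X → ℂ) : Prop where
  one_mem : (1 : Gam) ∈ S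
  symm : ∀ g ∈ S, g⁻¹ ∈ S
  herm : ∀ v w, K w v = conj (K v w)
  diag : ∀ v, K v v = 0
  band : ∀ v w, K v w ≠ 0 → w ∈ ball S v
  bd : ∀ v w, ‖K v w‖ ≤ 1
  sub : ∀ W : Finset X, (1 - mat K W).PosSemidef
  add : ∀ W : Finset X, (1 + mat K W).PosSemidef
  gauge : ∃ ph : Gam → X → ℂ, (∀ g x, ‖ph g x‖ = 1) ∧
    ∀ g h, Measurable fun x => ph g x * K (g • x) (h • x) * conj (ph h x)
  cw : CW Gam (fun _ : X => K)

/-- **the measured list theorem** (no operator algebra) -/
def MeasListProp : Prop :=
  ∀ (Gam X : Type u) [Group Gam] [MulAction Gam X] [MeasurableSpace X] (μ : Measure X)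
    [IsProbabilityMeasure μ] (Q : QI Gam X μ) (S : Finset Gam) (K : X → X → ℂ), KSys Q S K →
    (∀ g : Gam, FrolikAt (fun s : Set X => MeasurableSet s) g) →
    ∀ r : ℕ, 100 ≤ r → ∀ n : ℕ, 1 ≤ n → ∀ κ : ℝ, 0 < κ →
    ∀ (N₁ : ℕ) (cell₁ : X → Fin N₁), Measurable cell₁ →
    ∃ (N : ℕ) (cell : X → Fin N) (f : Fin N → Fin N₁), Measurable cell ∧
      (∀ x, f (cell x) = cell₁ x) ∧
      ∃ L : Lists N r, ∀ c : Fin N → Fin r, (∀ j, c j ∈ L.Adm j c) →
        ∫ x, (kp S (pin (fun x => c (cell x)) (fun _ => K) x) (2 * n) x x).re ∂μ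
          ≤ (500 / Real.sqrt r) ^ (2 * n) + κ

end Crest.Agent.R109
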