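import Crest.Agent.R109.BookDens
import Crest.Agent.R109.CartanIface

/-!
# Row 109: from the potential of a decided state to the moments of the pinched kernel
-/

set_option autoImplicit false
set_option linter.unusedSectionVars false

open MeasureTheory
open scoped Pointwise

namespace Crest.Agent.R109.Book

universe u

variable {Gam X : Type*} [Group Gam] [MulAction Gam X] [MeasurableSpace X] {μ : Measure X}

theorem list_prod_mem_pow [DecidableEq Gam] {S : Finset Gam} (h1 : (1 : Gam) ∈ S) (m : ℕ)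
    (l : List Gam) (hl : l.length ≤ m) (hg : ∀ g ∈ l, g ∈ S) : l.prod ∈ S ^ m := by
  have key : ∀ l : List Gam, (∀ g ∈ l, g ∈ S) → l.prod ∈ S ^ l.length := by
    intro l
    induction l with
    | nil => intro _; simp
    | cons a l ih =>
      intro h
      rw [List.prod_cons, List.length_cons, pow_succ']
      exact Finset.mul_mem_mul (h a (List.mem_cons_self)) (ih fun g hg => h g (List.mem_cons_of_mem _ hg))
  exact Finset.pow_subset_pow_right h1 hl (key l hg)

open Classical in
/-- **the final step of the core theorem**: if the potential of the decided state `some ∘ c` is at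
most `1` and is the sum of the densities `dens`, then the moments of the pinched kernel are small -/
theorem core_int [DecidableEq Gam] (Q : QI Gam X μ) [IsProbabilityMeasure μ] (S : Finset Gam)
    (K : X → X → ℂ) (hK : KSys Q S K) (n : ℕ) (hn : 1 ≤ n) (κ : ℝ) (hκ : 0 < κ) :
    ∃ J₀ : ℕ, ∀ J, J₀ ≤ J → ∀ (r : ℕ) (c : X → Fin r), Measurable c → ∀ B : ℝ, 0 < B →
      ∀ P : X → Finset X → ℝ, FV Q (S ^ (2 * (2 ^ J * n))) P →
      (∀ x W, (∀ w ∈ W, Rel Gam x w) → P x W = ∑ v ∈ W, dens Q K c (2 ^ J * n) B x v W) →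
      Phi μ (S ^ (2 * (2 ^ J * n))) P ≤ 1 →
      ∫ v, (kp S (pin c (fun _ => K) v) (2 * n) v v).re ∂μ ≤ B ^ (2 * n) + κ := by
  obtain ⟨J₀, hJ₀⟩ := book_end Q S (fun _ => K) (fun _ v w => hK.herm v w)
    (fun _ v w => hK.band v w) (fun _ v w => hK.bd v w) hK.cw n κ hκ
  refine ⟨J₀, fun J hJ r c hc B hB P hP hsum hPhi => ?_⟩
  set k : ℕ := 2 ^ J * n with hk
  have hk1 : 1 ≤ k := Nat.one_le_iff_ne_zero.2 (by
    rw [hk]; exact Nat.mul_ne_zero (pow_ne_zero _ two_ne_zero) (by omega))
  have h1S : (1 : Gam) ∈ S := hK.one_mem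
  have hS' : ∀ l : List Gam, l.length ≤ 2 * k → (∀ g ∈ l, g ∈ S) → l.prod ∈ S ^ (2 * k) :=
    fun l hl hg => list_prod_mem_pow h1S _ l hl hg
  obtain ⟨C, hC⟩ := dens_bdd Q K (fun v w => hK.band v w) (fun v w => hK.bd v w) c k hB
  have hphi := phi_eq_density (μ := μ) (Q := Q) (S := S ^ (2 * k)) (S0 := S ^ k)
    (Finset.one_mem_pow h1S) (inv_mem_pow hK.symm (2 * k)) (mul_inv_mem_pow hK.symm k) hP
    (fun x v W => dens Q K c k B x v W) hsum
    (fun x y v W hxy hW hv => dens_cov Q K c hk1 B x y v W hxy hW hv)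
    (fun x v W _ hv => dens_loc Q K (fun v w => hK.herm v w) h1S (fun v w => hK.band v w)
      c k B x v W hv)
    (dens_meas Q K (fun v w => hK.band v w) hK.cw c hc k B)
    ⟨C, fun x W _ => hC x W⟩ (Finset.one_mem_pow h1S)
  have hfin := (hJ₀ J hJ r c hc B hB (S ^ (2 * k)) hS' ?_).2
  · rw [probReal_univ, one_mul] at hfin
    exact hfin
  · rw [probReal_univ, one_mul]
    have hnear : ∀ v : X, v ∈ ball (S ^ (2 * k)) v := fun v =>
      self_mem_ball (Finset.one_mem_pow h1S) v
    have e1 : ∀ v, dens Q K c k B v v (ball (S ^ (2 * k)) v)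
        = (1 / B) ^ (2 * k) * ((mat (tilt Q k (pin c fun _ => K) v) (ball (S ^ (2 * k)) v)
          ^ (2 * k)) ⟨v, hnear v⟩ ⟨v, hnear v⟩).re := by
      intro v
      unfold dens
      rw [dif_pos (hnear v)]
    rw [hphi] at hPhi
    simp_rw [e1] at hPhi
    rw [integral_const_mul] at hPhi
    have hB2 : 0 < B ^ (2 * k) := pow_pos hB _
    rw [one_div, inv_pow, inv_mul_le_iff₀ hB2, mul_one] at hPhi
    exact hPhi

end Crest.Agent.R109.Book
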