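import Crest.Agent.R109.Book4
import Crest.Agent.R109.AsmIface

/-!
# Row 109, module BOOK: the list form

A sequential selection rule `Adm c x` (depending on the colours of earlier classes only) becomes,
on a fine finite measurable partition refining any given one, a family of lists indexed by the
cells, which are ordered class by class.
-/

set_option autoImplicit false
set_option linter.unusedSectionVars false

open MeasureTheory

namespace Crest.Agent.R109.Book

section

variable {X : Type*} [MeasurableSpace X]

theorem MeasF.comp_fin {Z Z' : Type*} [Countable Z] {own : X → Z} (h : MeasF own) (c : Z → Z') :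
    MeasF (fun x => c (own x)) := by
  intro b
  have : {x | c (own x) = b} = ⋃ a : {a // c a = b}, {x | own x = a.1} := by
    ext x
    simp only [Set.mem_ofPred_eq, Set.mem_iUnion, Subtype.exists, exists_prop, exists_eq_right']
  rw [this]
  exact MeasurableSet.iUnion fun a => h _

/-- one stage of the construction of the cells -/
theorem exists_stage {r n1 : ℕ} (cls : X → ℕ) (hcm : Measurable cls) {N₀ : ℕ}
    (hN₀ : ∀ x, cls x < N₀) (own1 : X → Fin n1) (h1 : MeasF own1)
    (A : (X → Fin r) → X → Finset (Fin r))
    (hloc : ∀ x c c', (∀ y, cls y < cls x → c y = c' y) → A c x = A c' x)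
    (hmeas : ∀ c, MeasF c → ∀ a, MeasurableSet {x | a ∈ A c x}) (i : ℕ) :
    ∃ (ι : Type) (_ : Fintype ι) (own : X → ι) (u : ι → ℕ) (w : ι → Fin n1)
      (F : ι → (ι → Fin r) → Finset (Fin r)), MeasF own ∧ (∀ x, u (own x) = cls x) ∧
      (∀ x, w (own x) = own1 x) ∧
      ∀ x, cls x < i → ∀ c : ι → Fin r, A (fun y => c (own y)) x = F (own x) c := by
  classical
  induction i with
  | zero =>
    refine ⟨Fin N₀ × Fin n1, inferInstance, fun x => (⟨cls x, hN₀ x⟩, own1 x), fun a => a.1,
      fun a => a.2, fun _ _ => ∅, ?_, fun x => rfl, fun x => rfl, fun x hx => by omega⟩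
    intro a
    have : {x | ((⟨cls x, hN₀ x⟩ : Fin N₀), own1 x) = a}
        = {x | cls x = a.1} ∩ {x | own1 x = a.2} := by
      ext x
      simp only [Set.mem_ofPred_eq, Set.mem_inter_iff, Prod.ext_iff, Fin.ext_iff]
    rw [this]
    exact (measurableSet_eq_fun hcm measurable_const).inter (h1 _)
  | succ i ih =>
    obtain ⟨ι, hι, own, u, w, F, hown, hu, hw, hF⟩ := ih
    let own' : X → ι ⊕ (ι × ((ι → Fin r) → Finset (Fin r))) := fun x => if cls x = i then
      Sum.inr (own x, fun c => A (fun y => c (own y)) x) else Sum.inl (own x)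
    refine ⟨ι ⊕ (ι × ((ι → Fin r) → Finset (Fin r))), inferInstance, own', Sum.elim u (fun a => u a.1), Sum.elim w (fun a => w a.1),
      fun a c => Sum.elim (fun b => F b (fun z => c (Sum.inl z)))
        (fun b => b.2 (fun z => c (Sum.inl z))) a, ?_, ?_, ?_, ?_⟩
    · intro a
      rcases a with a | ⟨a, f⟩
      · have : {x | own' x = Sum.inl a} = {x | cls x = i}ᶜ ∩ {x | own x = a} := by
          ext x
          simp only [own', Set.mem_ofPred_eq, Set.mem_inter_iff, Set.mem_compl_iff]
          split_ifs with h <;> simp [h]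
        rw [this]
        exact (measurableSet_eq_fun hcm measurable_const).compl.inter (hown a)
      · have : {x | own' x = Sum.inr (a, f)} = ({x | cls x = i} ∩ {x | own x = a}) ∩
            ⋂ c : ι → Fin r, ⋂ b : Fin r, {x | b ∈ A (fun y => c (own y)) x ↔ b ∈ f c} := by
          ext x
          simp only [own', Set.mem_ofPred_eq, Set.mem_inter_iff, Set.mem_iInter]
          split_ifs with h
          · simp only [h, Sum.inr.injEq, Prod.mk.injEq, true_and, funext_iff, Finset.ext_iff]
          · simp [h]
        rw [this]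
        refine ((measurableSet_eq_fun hcm measurable_const).inter (hown a)).inter ?_
        refine MeasurableSet.iInter fun c => MeasurableSet.iInter fun b => ?_
        have hm := hmeas _ (hown.comp_fin c) b
        by_cases hb : b ∈ f c
        · simpa [hb] using hm
        · simp only [hb, iff_false]
          exact hm.compl
    · intro x
      simp only [own']
      split_ifs <;> simp [hu]
    · intro x
      simp only [own']
      split_ifs <;> simp [hw]
    · intro x hx c
      have hkey : A (fun y => c (own' y)) x = A (fun y => c (Sum.inl (own y))) x := by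
        refine hloc x _ _ fun y hy => ?_
        have : cls y ≠ i := by omega
        simp only [own', if_neg this]
      rw [hkey]
      rcases Nat.lt_or_ge (cls x) i with h | h
      · have h' : cls x ≠ i := by omega
        simp only [own', if_neg h', Sum.elim_inl]
        exact hF x h (fun z => c (Sum.inl z))
      · have h' : cls x = i := by omega
        simp only [own', if_pos h', Sum.elim_inr]

/-- **the list form** of a sequential selection rule -/
theorem exists_lists {r n1 : ℕ} (cls : X → ℕ) (hcm : Measurable cls) {N₀ : ℕ}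
    (hN₀ : ∀ x, cls x < N₀) (own1 : X → Fin n1) (h1 : MeasF own1)
    (A : (X → Fin r) → X → Finset (Fin r))
    (hloc : ∀ x c c', (∀ y, cls y < cls x → c y = c' y) → A c x = A c' x)
    (hmeas : ∀ c, MeasF c → ∀ a, MeasurableSet {x | a ∈ A c x})
    (hcard : ∀ c x, r ≤ 2 * (A c x).card) :
    ∃ (N : ℕ) (own : X → Fin N) (w : Fin N → Fin n1) (L : Lists N r),
      MeasF own ∧ (∀ x, w (own x) = own1 x) ∧
      ∀ (c : Fin N → Fin r) (x : X), A (fun y => c (own y)) x = L.Adm (own x) c := by
  classical
  obtain ⟨ι, hι, own, u, w, F, hown, hu, hw, hF⟩ :=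
    exists_stage cls hcm hN₀ own1 h1 A hloc hmeas N₀
  let e : ι ≃ Fin (Fintype.card ι) := Fintype.equivFin ι
  let σ : Equiv.Perm (Fin (Fintype.card ι)) := Tuple.sort (u ∘ e.symm)
  have hσ : Monotone ((u ∘ e.symm) ∘ σ) := Tuple.monotone_sort _
  let own' : X → Fin (Fintype.card ι) := fun x => σ.symm (e (own x))
  have hback : ∀ x, e.symm (σ (own' x)) = own x := by
    intro x; simp [own']
  have hu' : ∀ x, ((u ∘ e.symm) ∘ σ) (own' x) = cls x := by
    intro x
    simp only [Function.comp_apply, hback, hu]
  have hown' : MeasF own' := hown.comp_fin (fun a => σ.symm (e a))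
  -- link through `F`
  have hlink : ∀ (c : Fin (Fintype.card ι) → Fin r) (x y : X), own' x = own' y →
      A (fun z => c (own' z)) x = A (fun z => c (own' z)) y := by
    intro c x y hxy
    have hxy' : own x = own y := by
      rw [← hback x, ← hback y, hxy]
    have h2 := hF x (hN₀ x) (fun a => c (σ.symm (e a)))
    have h3 := hF y (hN₀ y) (fun a => c (σ.symm (e a)))
    rw [hxy'] at h2
    exact h2.trans h3.symm
  have hpt : ∀ j : Fin (Fintype.card ι), (∃ x, own' x = j) ∨ ¬ ∃ x, own' x = j := fun j => em _
  let Ad : Fin (Fintype.card ι) → (Fin (Fintype.card ι) → Fin r) → Finset (Fin r) := fun j c =>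
    if h : ∃ x, own' x = j then A (fun z => c (own' z)) h.choose else Finset.univ
  refine ⟨Fintype.card ι, own', fun j => w (e.symm (σ j)), ⟨Ad, ?_, ?_⟩, hown', ?_, ?_⟩
  · intro j c c' hcc
    simp only [Ad]
    split_ifs with h
    · refine hloc _ _ _ fun y hy => ?_
      apply hcc
      have hj := h.choose_spec
      by_contra hle
      have hle' : j ≤ own' y := not_lt.1 hle
      have := hσ hle'
      rw [hu' y, ← hj, hu'] at this
      exact absurd hy (not_lt.2 this)
    · rfl
  · intro j c
    simp only [Ad]
    split_ifs with h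
    · exact hcard _ _
    · rw [Finset.card_univ, Fintype.card_fin]; omega
  · intro x
    change w (e.symm (σ (own' x))) = own1 x
    rw [hback]
    exact hw x
  · intro c x
    have h : ∃ z, own' z = own' x := ⟨x, rfl⟩
    simp only [Ad, dif_pos h]
    exact hlink c x h.choose h.choose_spec.symm

end

section

variable {Gam X : Type*} [Group Gam] [MulAction Gam X] [MeasurableSpace X] {μ : Measure X}
variable {r : ℕ} {p : (X → Option (Fin r)) → X → Finset X → ℝ} {S : Finset Gam} {cls : X → ℕ}

open Classical in
/-- the list form of the rule `Adm` of `Book4`, together with the conclusion of the selection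
theorem for all admissible colourings of the cells -/
theorem exists_lists_selection {Q : QI Gam X μ} [IsFiniteMeasure μ] (hS : ∀ g ∈ S, g⁻¹ ∈ S)
    (hp : FVS Q S p) (hcm : Measurable cls) {N₀ : ℕ} (hN₀ : ∀ x, cls x < N₀)
    (hsep : ∀ x, ∀ y ∈ ball S x, cls y = cls x → y = x) {e : ℝ} (he : 0 ≤ e)
    (hstart : ∀ x W, x ∈ W → W ⊆ ball S x → (∀ w ∈ W, Q.rel x w ≤ 1) →
      p (fun _ => none) x W - p (fun _ => none) x (W.erase x) ≤ e)
    (hgood : ∀ (s : X → Option (Fin r)) (x : X), s x = none →
      r ≤ 2 * (Finset.univ.filter fun a : Fin r =>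
        p (Function.update s x (some a)) x (ball S x) ≤ p s x (ball S x)).card)
    {n1 : ℕ} (own1 : X → Fin n1) (h1 : MeasF own1) :
    ∃ (N : ℕ) (own : X → Fin N) (w : Fin N → Fin n1) (L : Lists N r),
      MeasF own ∧ (∀ x, w (own x) = own1 x) ∧
      ∀ c : Fin N → Fin r, (∀ j, c j ∈ L.Adm j c) →
        Phi μ S (p fun x => some (c (own x))) ≤ e * μ.real Set.univ := by
  obtain ⟨N, own, w, L, hown, hw, hL⟩ := exists_lists cls hcm hN₀ own1 h1
    (fun c x => Adm p S cls c x)
    (fun x c c' h => Adm_congr hp fun y _ hy => h y hy)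
    (fun c hc a => measurableSet_Adm hp hcm hsep hc a)
    (fun c x => hgood (st cls c (cls x)) x (st_self c x))
  refine ⟨N, own, w, L, hown, hw, fun c hc => ?_⟩
  refine selection hS hp hcm hN₀ hsep he hstart (hown.comp_fin c) fun x => ?_
  rw [hL c x]
  exact hc (own x)

end

end Crest.Agent.R109.Book
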