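import Crest.Agent.R109.Defs

/-!
# Row 109, module CE, part 0: strong limits in a von Neumann algebra with separating vector
-/

set_option autoImplicit false
set_option linter.unusedSectionVars false

namespace Crest.Agent.R109

open Crest.Agent.R124 Crest.Agent.R121 Filter Topology
open scoped InnerProductSpace

universe u

variable {H : Type u} [NormedAddCommGroup H] [InnerProductSpace ℂ H] [CompleteSpace H]

/-- `M' ξ` is dense when `ξ` is separating for `M`. -/
lemma mem_closure_vspan (M : VonNeumannAlgebra H) {ξ : H} (sep : ∀ x ∈ M, x ξ = 0 → x = 0)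
    (t : H) : t ∈ closure ((vspan M ξ : Submodule ℂ H) : Set H) := by
  have h1 : (1 - vs M ξ) = 0 := by
    apply sep _ (sub_mem (one_mem _) (vs_mem M ξ))
    change ξ - vs M ξ ξ = 0
    rw [vs_self, sub_self]
  have h2 : vs M ξ = 1 := (sub_eq_zero.1 h1).symm
  have h3 := vs_apply_mem M ξ t
  rwa [h2] at h3

/-- two elements of `M` which agree at a separating vector are equal -/
lemma eq_of_apply_eq (M : VonNeumannAlgebra H) {ξ : H} (sep : ∀ x ∈ M, x ξ = 0 → x = 0)
    {x y : H →L[ℂ] H} (hx : x ∈ M) (hy : y ∈ M) (h : x ξ = y ξ) : x = y := by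
  rw [← sub_eq_zero]
  apply sep _ (sub_mem hx hy)
  change x ξ - y ξ = 0
  rw [h, sub_self]

/-- Bounded families which are Cauchy at a separating vector converge strongly, to an element of
`M`. -/
theorem strong_lim (M : VonNeumannAlgebra H) {ξ : H} (sep : ∀ x ∈ M, x ξ = 0 → x = 0)
    {ι : Type*} {l : Filter ι} [l.NeBot] {F : ι → H →L[ℂ] H} (hF : ∀ i, F i ∈ M) {C : ℝ}
    (hC : ∀ i, ‖F i‖ ≤ C) (hc : Cauchy (map (fun i => F i ξ) l)) :
    ∃ L ∈ M, ‖L‖ ≤ C ∧ ∀ η, Tendsto (fun i => F i η) l (𝓝 (L η)) := by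
  have hC0 : 0 ≤ C := by
    obtain ⟨i, -⟩ := (inferInstance : l.NeBot).nonempty_of_mem univ_mem
    exact (norm_nonneg _).trans (hC i)
  -- the set of vectors where the family converges
  have hconv : ∀ η : H, ∃ z, Tendsto (fun i => F i η) l (𝓝 z) := by
    intro η
    apply cauchy_map_iff_exists_tendsto.1
    rw [Metric.cauchy_iff]
    refine ⟨inferInstance, ?_⟩
    intro ε hε
    -- approximate `η` by an element of the span
    obtain ⟨w, hw, hwη⟩ := Metric.mem_closure_iff.1 (mem_closure_vspan M sep η)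
      (ε / (3 * (C + 1))) (by positivity)
    have hw' : Cauchy (map (fun i => F i w) l) := by
      apply cauchy_map_iff_exists_tendsto.2
      refine Submodule.span_induction (p := fun y _ => ∃ z, Tendsto (fun i => F i y) l (𝓝 z))
        ?_ ?_ ?_ ?_ hw
      · rintro _ ⟨T, hT, rfl⟩
        obtain ⟨z, hz⟩ := cauchy_map_iff_exists_tendsto.1 hc
        refine ⟨T z, ?_⟩
        have h1 : Tendsto (fun i => T (F i ξ)) l (𝓝 (T z)) := (T.continuous.tendsto z).comp hz
        refine h1.congr fun i => ?_
        exact congrArg (fun R : H →L[ℂ] H => R ξ) (commutant_comm M (hF i) hT)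
      · exact ⟨0, by simp⟩
      · rintro x y - - ⟨z, hz⟩ ⟨z', hz'⟩
        exact ⟨z + z', by simpa using hz.add hz'⟩
      · rintro c x - ⟨z, hz⟩
        exact ⟨c • z, by simpa using hz.const_smul c⟩
    obtain ⟨t, ht, htd⟩ := (Metric.cauchy_iff.1 hw').2 (ε / 3) (by positivity)
    refine ⟨(fun i => F i η) '' ((fun i => F i w) ⁻¹' t), image_mem_map ht, ?_⟩
    rintro _ ⟨i, hi, rfl⟩ _ ⟨j, hj, rfl⟩
    have h1 : ∀ k, dist (F k η) (F k w) ≤ C * dist η w := by
      intro k
      rw [dist_eq_norm, dist_eq_norm, ← map_sub]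
      exact (F k).le_of_opNorm_le (hC k) _
    have h2 : C * dist η w < ε / 3 := by
      have h3 : C * dist η w ≤ (C + 1) * dist η w := by nlinarith [dist_nonneg (x := η) (y := w)]
      have h4 : (C + 1) * dist η w < (C + 1) * (ε / (3 * (C + 1))) :=
        mul_lt_mul_of_pos_left hwη (by positivity)
      have h5 : (C + 1) * (ε / (3 * (C + 1))) = ε / 3 := by field_simp
      linarith
    calc dist (F i η) (F j η) ≤ dist (F i η) (F i w) + dist (F i w) (F j w)
          + dist (F j w) (F j η) := dist_triangle4 _ _ _ _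
      _ < ε / 3 + ε / 3 + ε / 3 := by
          have h6 := h1 i
          have h7 := h1 j
          rw [dist_comm] at h7
          have h8 : dist (F i w) (F j w) < ε / 3 := htd _ hi _ hj
          linarith
      _ = ε := by ring
  choose L hL using hconv
  have hadd : ∀ x y, L (x + y) = L x + L y := fun x y =>
    tendsto_nhds_unique (hL (x + y)) (by simpa using (hL x).add (hL y))
  have hsmul : ∀ (c : ℂ) x, L (c • x) = c • L x := fun c x =>
    tendsto_nhds_unique (hL (c • x)) (by simpa using (hL x).const_smul c)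
  have hnorm : ∀ x, ‖L x‖ ≤ C * ‖x‖ := fun x =>
    le_of_tendsto (hL x).norm (Eventually.of_forall fun i => (F i).le_of_opNorm_le (hC i) x)
  let L₀ : H →ₗ[ℂ] H :=
    { toFun := L, map_add' := hadd, map_smul' := hsmul }
  let L' : H →L[ℂ] H := L₀.mkContinuous C hnorm
  have hL'C : ‖L'‖ ≤ C := L₀.mkContinuous_norm_le hC0 _
  refine ⟨L', ?_, hL'C, hL⟩
  apply mem_of_commutant
  intro T hT
  ext η
  change T (L η) = L (T η)
  refine tendsto_nhds_unique ((T.continuous.tendsto _).comp (hL η)) ?_
  refine (hL (T η)).congr fun i => ?_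
  exact (congrArg (fun R : H →L[ℂ] H => R η) (commutant_comm M (hF i) hT)).symm

end Crest.Agent.R109
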