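import Crest.Agent.R109.Hunter

/-!
# Positivity of power series built from Stieltjes moment series (row 109, helper135)

`mom s μ` is the series `∑_i (∑_j μ_j s_j^i) y^(i+2)`.
`qS F = y F' / (1 - F)` is (minus) the logarithmic derivative of `1 - F`.
-/

set_option autoImplicit false

namespace Crest.Agent.R109

open PowerSeries Finset

/-- the geometric series `1/(1 - s y)` -/
noncomputable def geo (s : ℝ) : ℝ⟦X⟧ := PowerSeries.mk fun n => s ^ n

@[simp] theorem coeff_geo (s : ℝ) (n : ℕ) : coeff n (geo s) = s ^ n := by simp [geo]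

theorem geo_mul (s : ℝ) : (1 - C s * X) * geo s = 1 := by
  ext n
  rcases n with _ | n
  · have : constantCoeff (geo s) = 1 := by
      rw [← coeff_zero_eq_constantCoeff_apply, coeff_geo, pow_zero]
    simp [sub_mul, mul_assoc, this]
  · rw [sub_mul, mul_assoc, map_sub, one_mul, coeff_C_mul, coeff_succ_X_mul, coeff_geo, coeff_geo,
      pow_succ]
    simp [mul_comm]

noncomputable def geoProd (l : List ℝ) : ℝ⟦X⟧ := (l.map geo).prod

@[simp] theorem geoProd_nil : geoProd [] = 1 := rfl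

@[simp] theorem geoProd_cons (x : ℝ) (l : List ℝ) : geoProd (x :: l) = geo x * geoProd l := rfl

theorem coeff_geoProd (l : List ℝ) (n : ℕ) : coeff n (geoProd l) = hcoef l n := by
  induction l generalizing n with
  | nil => simp [hcoef_nil, coeff_one]
  | cons x l ih =>
    rw [geoProd_cons, coeff_mul, Finset.Nat.sum_antidiagonal_eq_sum_range_succ_mk]
    simp only [coeff_geo, ih, hcoef]

/-- `F` times any product of geometric series has nonnegative even coefficients. -/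
def HPos (F : ℝ⟦X⟧) : Prop := ∀ (l : List ℝ) (p : ℕ), 0 ≤ coeff (2 * p) (F * geoProd l)

theorem HPos.coeff_nonneg {F : ℝ⟦X⟧} (h : HPos F) (p : ℕ) : 0 ≤ coeff (2 * p) F := by
  simpa using h [] p

theorem HPos.one : HPos 1 := by
  intro l p
  rw [one_mul, coeff_geoProd]
  exact hcoef_even_nonneg l p

theorem HPos.zero : HPos 0 := by
  intro l p; simp

theorem HPos.add {F G : ℝ⟦X⟧} (hF : HPos F) (hG : HPos G) : HPos (F + G) := by
  intro l p
  rw [add_mul, map_add]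
  exact add_nonneg (hF l p) (hG l p)

theorem HPos.sum {ι : Type*} (t : Finset ι) (F : ι → ℝ⟦X⟧) (hF : ∀ i ∈ t, HPos (F i)) :
    HPos (∑ i ∈ t, F i) := by
  classical
  induction t using Finset.induction_on with
  | empty => simpa using HPos.zero
  | insert a t ha ih =>
    rw [Finset.sum_insert ha]
    exact (hF a (Finset.mem_insert_self _ _)).add
      (ih fun i hi => hF i (Finset.mem_insert_of_mem hi))

theorem HPos.C_mul {F : ℝ⟦X⟧} (hF : HPos F) {c : ℝ} (hc : 0 ≤ c) : HPos (C c * F) := by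
  intro l p
  rw [mul_assoc, coeff_C_mul]
  exact mul_nonneg hc (hF l p)

theorem HPos.mul_geo {F : ℝ⟦X⟧} (hF : HPos F) (s : ℝ) : HPos (F * geo s) := by
  intro l p
  have := hF (s :: l) p
  rwa [geoProd_cons, ← mul_assoc] at this

theorem HPos.mul_X2 {F : ℝ⟦X⟧} (hF : HPos F) : HPos (F * X ^ 2) := by
  intro l p
  rw [mul_right_comm]
  rcases p with _ | p
  · rw [Nat.mul_zero, coeff_mul_X_pow']; simp
  · have : 2 * (p + 1) = 2 * p + 2 := by ring
    rw [this, coeff_mul_X_pow]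
    exact hF l p

variable {ι : Type*} [Fintype ι]

/-- the moment series `∑_i (∑_j μ_j s_j^i) y^(i+2)` -/
noncomputable def mom (s μ : ι → ℝ) : ℝ⟦X⟧ := ∑ j, C (μ j) * (geo (s j) * X ^ 2)

theorem coeff_mom_add_two (s μ : ι → ℝ) (i : ℕ) :
    coeff (i + 2) (mom s μ) = ∑ j, μ j * s j ^ i := by
  simp only [mom, map_sum, coeff_C_mul, coeff_mul_X_pow, coeff_geo]

theorem coeff_mom_zero (s μ : ι → ℝ) : coeff 0 (mom s μ) = 0 := by
  simp only [mom, map_sum, coeff_C_mul]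
  apply Finset.sum_eq_zero
  intro j _
  rw [coeff_mul_X_pow']; simp

theorem coeff_mom_one (s μ : ι → ℝ) : coeff 1 (mom s μ) = 0 := by
  simp only [mom, map_sum, coeff_C_mul]
  apply Finset.sum_eq_zero
  intro j _
  rw [coeff_mul_X_pow']; simp

theorem constantCoeff_mom (s μ : ι → ℝ) : constantCoeff (mom s μ) = 0 := by
  rw [← coeff_zero_eq_constantCoeff_apply]; exact coeff_mom_zero s μ

theorem mom_add (s μ ν : ι → ℝ) : mom s (fun j => μ j + ν j) = mom s μ + mom s ν := by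
  simp only [mom, map_add, add_mul, Finset.sum_add_distrib]

theorem HPos.mul_mom {F : ℝ⟦X⟧} (hF : HPos F) (s μ : ι → ℝ) (hμ : ∀ j, 0 ≤ μ j) :
    HPos (F * mom s μ) := by
  rw [mom, Finset.mul_sum]
  apply HPos.sum
  intro j _
  have := ((hF.mul_geo (s j)).mul_X2).C_mul (hμ j)
  have e : F * (C (μ j) * (geo (s j) * X ^ 2)) = C (μ j) * (F * geo (s j) * X ^ 2) := by ring
  rwa [e]

theorem HPos.mul_mom_pow {F : ℝ⟦X⟧} (hF : HPos F) (s μ : ι → ℝ) (hμ : ∀ j, 0 ≤ μ j) (n : ℕ) :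
    HPos (F * mom s μ ^ n) := by
  induction n with
  | zero => simpa using hF
  | succ n ih =>
    rw [pow_succ, ← mul_assoc]
    exact ih.mul_mom s μ hμ

/-- coefficients of `G * F^n` vanish below `n` when `F` has no constant term -/
theorem coeff_mul_pow_eq_zero (F G : ℝ⟦X⟧) (hF : constantCoeff F = 0) (n m : ℕ) (h : m < n) :
    coeff m (G * F ^ n) = 0 := by
  have hd : X ∣ F := X_dvd_iff.mpr hF
  have h2 : (X : ℝ⟦X⟧) ^ n ∣ G * F ^ n := Dvd.dvd.mul_left (pow_dvd_pow_of_dvd hd n) G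
  exact X_pow_dvd_iff.mp h2 m h

theorem inv_expand (F : ℝ⟦X⟧) (hF : constantCoeff F = 0) (n : ℕ) :
    (1 - F)⁻¹ = (∑ m ∈ range n, F ^ m) + (1 - F)⁻¹ * F ^ n := by
  have h1 : (1 - F) * (1 - F)⁻¹ = 1 := by
    apply PowerSeries.mul_inv_cancel
    simp [hF]
  have h2 : (∑ m ∈ range n, F ^ m) * (1 - F) = 1 - F ^ n := by
    have := geom_sum_mul_neg F n
    simpa using this
  have h3 : (∑ m ∈ range n, F ^ m) = (1 - F ^ n) * (1 - F)⁻¹ := by
    rw [← h2, mul_assoc, h1, mul_one]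
  rw [h3]; ring

theorem coeff_mul_inv (F G : ℝ⟦X⟧) (hF : constantCoeff F = 0) (N : ℕ) :
    coeff N (G * (1 - F)⁻¹) = ∑ m ∈ range (N + 1), coeff N (G * F ^ m) := by
  conv_lhs => rw [inv_expand F hF (N + 1)]
  rw [mul_add, map_add, ← mul_assoc, coeff_mul_pow_eq_zero F (G * (1 - F)⁻¹) hF (N + 1) N (by omega),
    add_zero, Finset.mul_sum, map_sum]

theorem HPos.mul_inv {F : ℝ⟦X⟧} (hF : HPos F) (s μ : ι → ℝ) (hμ : ∀ j, 0 ≤ μ j) :
    HPos (F * (1 - mom s μ)⁻¹) := by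
  intro l p
  rw [mul_right_comm, coeff_mul_inv _ _ (constantCoeff_mom s μ)]
  apply Finset.sum_nonneg
  intro m _
  rw [mul_right_comm]
  exact (hF.mul_mom_pow s μ hμ m) l p

/-- minus the logarithmic derivative of `1 - F` -/
noncomputable def qS (F : ℝ⟦X⟧) : ℝ⟦X⟧ := X * d⁄dX ℝ F * (1 - F)⁻¹

theorem coeff_X_mul_derivative (F : ℝ⟦X⟧) (N : ℕ) :
    coeff N (X * d⁄dX ℝ F) = N * coeff N F := by
  rcases N with _ | N
  · simp
  · rw [coeff_succ_X_mul, coeff_derivative]; push_cast; ring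

theorem coeff_X_mul_derivative_mul_pow (F : ℝ⟦X⟧) (N n : ℕ) :
    coeff N (X * d⁄dX ℝ F * F ^ n) = (N : ℝ) / (n + 1) * coeff N (F ^ (n + 1)) := by
  have h1 : d⁄dX ℝ (F ^ (n + 1)) = C ((n : ℝ) + 1) * (F ^ n * d⁄dX ℝ F) := by
    rw [derivative_pow]
    simp
    ring
  have h2 : coeff N (X * d⁄dX ℝ (F ^ (n + 1))) = ((n : ℝ) + 1) * coeff N (X * d⁄dX ℝ F * F ^ n) := by
    rw [h1, ← coeff_C_mul]
    congr 1
    ring
  rw [coeff_X_mul_derivative] at h2
  have : ((n : ℝ) + 1) ≠ 0 := by positivity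
  field_simp
  linarith

theorem coeff_qS (F : ℝ⟦X⟧) (hF : constantCoeff F = 0) (N : ℕ) :
    coeff N (qS F) = ∑ n ∈ range (N + 1), (N : ℝ) / (n + 1) * coeff N (F ^ (n + 1)) := by
  rw [qS, coeff_mul_inv _ _ hF]
  apply Finset.sum_congr rfl
  intro n _
  exact coeff_X_mul_derivative_mul_pow F N n

theorem qS_add (F N : ℝ⟦X⟧) (hF : constantCoeff F = 0) (hN : constantCoeff N = 0) :
    qS (F + N) = qS F + qS (N * (1 - F)⁻¹) := by
  have hu : (1 - F) * (1 - F)⁻¹ = 1 := PowerSeries.mul_inv_cancel _ (by simp [hF])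
  set G := N * (1 - F)⁻¹ with hG
  have hGc : constantCoeff G = 0 := by simp [hG, hN]
  have hv : (1 - G) * (1 - G)⁻¹ = 1 := PowerSeries.mul_inv_cancel _ (by simp [hGc])
  have e1 : 1 - (F + N) = (1 - F) * (1 - G) := by
    have : (1 - F) * G = N := by
      rw [hG]
      calc (1 - F) * (N * (1 - F)⁻¹) = N * ((1 - F) * (1 - F)⁻¹) := by ring
        _ = N := by rw [hu, mul_one]
    rw [mul_sub, this]; ring
  have hw : (1 - (F + N)) * (1 - (F + N))⁻¹ = 1 :=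
    PowerSeries.mul_inv_cancel _ (by simp [hF, hN])
  have e2 : (1 - (F + N))⁻¹ = (1 - F)⁻¹ * (1 - G)⁻¹ := by
    have h1 : (1 - (F + N)) * ((1 - F)⁻¹ * (1 - G)⁻¹) = 1 := by
      rw [e1]
      calc (1 - F) * (1 - G) * ((1 - F)⁻¹ * (1 - G)⁻¹)
          = ((1 - F) * (1 - F)⁻¹) * ((1 - G) * (1 - G)⁻¹) := by ring
        _ = 1 := by rw [hu, hv, mul_one]
    calc (1 - (F + N))⁻¹ = (1 - (F + N))⁻¹ * ((1 - (F + N)) * ((1 - F)⁻¹ * (1 - G)⁻¹)) := by
          rw [h1, mul_one]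
      _ = ((1 - (F + N)) * (1 - (F + N))⁻¹) * ((1 - F)⁻¹ * (1 - G)⁻¹) := by ring
      _ = _ := by rw [hw, one_mul]
  have e3 : F + N = 1 - (1 - F) * (1 - G) := by rw [← e1]; ring
  have e4 : d⁄dX ℝ (F + N) = d⁄dX ℝ F * (1 - G) + (1 - F) * d⁄dX ℝ G := by
    have h1 : d⁄dX ℝ (1 : ℝ⟦X⟧) = 0 := derivative_one
    have : F + N = F + G - F * G := by rw [e3]; ring
    rw [this, map_sub, map_add, Derivation.leibniz (derivative ℝ) F G]
    simp only [smul_eq_mul]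
    ring
  rw [qS, qS, qS, e4, e2]
  calc X * (d⁄dX ℝ F * (1 - G) + (1 - F) * d⁄dX ℝ G) * ((1 - F)⁻¹ * (1 - G)⁻¹)
      = X * d⁄dX ℝ F * (1 - F)⁻¹ * ((1 - G) * (1 - G)⁻¹)
        + X * d⁄dX ℝ G * (1 - G)⁻¹ * ((1 - F) * (1 - F)⁻¹) := by ring
    _ = _ := by rw [hu, hv, mul_one, mul_one]

theorem HPos.pow_mul_inv (s μ ν : ι → ℝ) (hμ : ∀ j, 0 ≤ μ j) (hν : ∀ j, 0 ≤ ν j) (n : ℕ) :
    HPos ((mom s ν * (1 - mom s μ)⁻¹) ^ n) := by
  induction n with
  | zero => simpa using HPos.one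
  | succ n ih =>
    rw [pow_succ, ← mul_assoc]
    exact (ih.mul_mom s ν hν).mul_inv s μ hμ

/-- `q k s μ`: the `2k`-th power sum of the zeros minus that of the poles of
`t - ∑ μ_j/(t - s_j)`. -/
noncomputable def q (k : ℕ) (s μ : ι → ℝ) : ℝ := coeff (2 * k) (qS (mom s μ))

theorem q_eq_sum (k : ℕ) (s μ : ι → ℝ) :
    q k s μ = ∑ n ∈ range (2 * k + 1), ((2 * k : ℕ) : ℝ) / (n + 1) *
      coeff (2 * k) (mom s μ ^ (n + 1)) :=
  coeff_qS _ (constantCoeff_mom s μ) _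

theorem coeff_mom_pow_nonneg (k : ℕ) (s μ : ι → ℝ) (hμ : ∀ j, 0 ≤ μ j) (n : ℕ) :
    0 ≤ coeff (2 * k) (mom s μ ^ n) := by
  have := (HPos.one.mul_mom_pow s μ hμ n).coeff_nonneg k
  simpa using this

theorem q_nonneg (k : ℕ) (s μ : ι → ℝ) (hμ : ∀ j, 0 ≤ μ j) : 0 ≤ q k s μ := by
  rw [q_eq_sum]
  apply Finset.sum_nonneg
  intro n _
  have := coeff_mom_pow_nonneg k s μ hμ (n + 1)
  positivity

theorem q_mono (k : ℕ) (s μ ν : ι → ℝ) (hμ : ∀ j, 0 ≤ μ j) (hν : ∀ j, μ j ≤ ν j) :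
    q k s μ ≤ q k s ν := by
  have e : ν = fun j => μ j + (ν j - μ j) := by ext j; ring
  rw [e, q, q, mom_add, qS_add _ _ (constantCoeff_mom _ _) (constantCoeff_mom _ _), map_add]
  have hGc : constantCoeff (mom s (fun j => ν j - μ j) * (1 - mom s μ)⁻¹) = 0 := by
    rw [map_mul, constantCoeff_mom, zero_mul]
  rw [coeff_qS _ hGc]
  have : 0 ≤ ∑ n ∈ range (2 * k + 1), ((2 * k : ℕ) : ℝ) / (n + 1) *
      coeff (2 * k) ((mom s (fun j => ν j - μ j) * (1 - mom s μ)⁻¹) ^ (n + 1)) := by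
    apply Finset.sum_nonneg
    intro n _
    have := (HPos.pow_mul_inv s μ (fun j => ν j - μ j) hμ
      (fun j => sub_nonneg.mpr (hν j)) (n + 1)).coeff_nonneg k
    positivity
  linarith

/-- the first term: `2k μ^(2k-2) ≤ q` -/
theorem q_ge_first (k : ℕ) (hk : 1 ≤ k) (s μ : ι → ℝ) (hμ : ∀ j, 0 ≤ μ j) :
    (2 * k : ℝ) * ∑ j, μ j * s j ^ (2 * k - 2) ≤ q k s μ := by
  rw [q_eq_sum]
  have h0 : (2 * k : ℝ) * ∑ j, μ j * s j ^ (2 * k - 2)
      = ((2 * k : ℕ) : ℝ) / ((0 : ℕ) + 1) * coeff (2 * k) (mom s μ ^ (0 + 1)) := by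
    have : 2 * k = (2 * k - 2) + 2 := by omega
    rw [zero_add, pow_one]
    conv_rhs => rw [this, coeff_mom_add_two]
    have h2 : (((2 * k - 2 + 2 : ℕ)) : ℝ) = 2 * k := by
      rw [← this]; push_cast; ring
    rw [h2]; simp
  rw [h0]
  refine Finset.single_le_sum (f := fun n : ℕ => ((2 * k : ℕ) : ℝ) / ((n : ℝ) + 1) *
      coeff (2 * k) (mom s μ ^ (n + 1))) ?_ (Finset.mem_range.mpr (by omega : 0 < 2 * k + 1))
  intro n _
  have := coeff_mom_pow_nonneg k s μ hμ (n + 1)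
  positivity

end Crest.Agent.R109
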