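import Mathlib
import Crest.Agent.R109.AnnealedReal
import Crest.Agent.R109.OneSiteA

/-!
# Row 109, module PURE STATE

If every vertex `v` has its whole weight `a v` on one colour `c v`, then
`coeff n (qS (1 - pol x γ)) = trace ((√a T √a)^n)`, `T u w = 1[c u = c w] x u w`.
-/

set_option autoImplicit false
set_option linter.unusedSectionVars false

namespace Crest.Agent.R109.Ann

open Matrix Finset PowerSeries

section Series

variable {V : Type*} [Fintype V]

theorem qS_one_sub_mul (P Q : ℝ⟦X⟧) (hP : constantCoeff P = 1) (hQ : constantCoeff Q = 1) :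
    qS (1 - P * Q) = qS (1 - P) + qS (1 - Q) := by
  have hP1 : P * P⁻¹ = 1 := PowerSeries.mul_inv_cancel _ (by simp [hP])
  have hQ1 : Q * Q⁻¹ = 1 := PowerSeries.mul_inv_cancel _ (by simp [hQ])
  have hPQ : (P * Q)⁻¹ = P⁻¹ * Q⁻¹ := by
    rw [PowerSeries.mul_inv_rev, mul_comm]
  simp only [qS, sub_sub_cancel, map_sub, hPQ]
  rw [Derivation.leibniz, smul_eq_mul, smul_eq_mul]
  have h1 : d⁄dX ℝ (1 : ℝ⟦X⟧) = 0 := by simp
  rw [h1]
  linear_combination (-(X * d⁄dX ℝ Q * Q⁻¹)) * hP1 + (-(X * d⁄dX ℝ P * P⁻¹)) * hQ1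

theorem qS_one_sub_lin (s : ℝ) (n : ℕ) (hn : 1 ≤ n) :
    coeff n (qS (1 - (1 - C s * X))) = s ^ n := by
  obtain ⟨m, rfl⟩ : ∃ m, n = m + 1 := ⟨n - 1, by omega⟩
  have h1 : (1 - C s * X : ℝ⟦X⟧)⁻¹ = geo s := by
    have h2 := geo_mul s
    have h3 : (1 - C s * X : ℝ⟦X⟧) * (1 - C s * X)⁻¹ = 1 := PowerSeries.mul_inv_cancel _ (by simp)
    calc (1 - C s * X : ℝ⟦X⟧)⁻¹ = (1 - C s * X)⁻¹ * ((1 - C s * X) * geo s) := by rw [h2, mul_one]
      _ = ((1 - C s * X) * (1 - C s * X)⁻¹) * geo s := by ring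
      _ = geo s := by rw [h3, one_mul]
  have h4 : qS (1 - (1 - C s * X)) = C s * (X * geo s) := by
    have : d⁄dX ℝ (C s * X : ℝ⟦X⟧) = C s := by
      rw [Derivation.leibniz]
      simp
    rw [qS, sub_sub_cancel, h1, this]; ring
  rw [h4, coeff_C_mul, coeff_succ_X_mul, coeff_geo, pow_succ]; ring

theorem coeff_qS_prod (s : V → ℝ) (n : ℕ) (hn : 1 ≤ n) :
    coeff n (qS (1 - ∏ v, (1 - C (s v) * X))) = ∑ v, s v ^ n := by
  classical
  have key : ∀ t : Finset V, constantCoeff (∏ v ∈ t, (1 - C (s v) * X : ℝ⟦X⟧)) = 1 ∧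
      coeff n (qS (1 - ∏ v ∈ t, (1 - C (s v) * X))) = ∑ v ∈ t, s v ^ n := by
    intro t
    induction t using Finset.induction_on with
    | empty => simp [qS]
    | insert a t ha ih =>
      refine ⟨?_, ?_⟩
      · rw [Finset.prod_insert ha, map_mul, ih.1]; simp
      · rw [Finset.prod_insert ha, Finset.sum_insert ha, qS_one_sub_mul _ _ (by simp) ih.1, map_add,
          ih.2, qS_one_sub_lin _ _ hn]
  exact (key Finset.univ).2

end Series

section Herm

variable {V : Type*} [Fintype V] [DecidableEq V]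

theorem det_one_sub_smul_of_herm {A : Matrix V V ℂ} (hA : A.IsHermitian) (y : ℂ) :
    Matrix.det (1 - y • A) = ∏ v, (1 - y * (hA.eigenvalues v : ℂ)) := by
  have h1 : (1 - y • A) = Unitary.conjStarAlgAut ℂ _ hA.eigenvectorUnitary
      (1 - y • diagonal (RCLike.ofReal ∘ hA.eigenvalues)) := by
    conv_lhs => rw [hA.spectral_theorem]
    rw [map_sub, map_one, map_smul]
  rw [h1, Unitary.conjStarAlgAut_apply]
  have h2 : ((hA.eigenvectorUnitary : Matrix V V ℂ)) * star (hA.eigenvectorUnitary : Matrix V V ℂ) = 1 :=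
    Unitary.coe_mul_star_self _
  rw [Matrix.det_mul, Matrix.det_mul, mul_right_comm, ← Matrix.det_mul, h2, Matrix.det_one, one_mul]
  have h3 : (1 - y • diagonal (RCLike.ofReal ∘ hA.eigenvalues) : Matrix V V ℂ)
      = diagonal (fun v => 1 - y * (hA.eigenvalues v : ℂ)) := by
    ext u w
    by_cases h : u = w
    · subst h; simp
    · simp [h, Matrix.one_apply_ne h]
  rw [h3, Matrix.det_diagonal]

theorem trace_pow_of_herm {A : Matrix V V ℂ} (hA : A.IsHermitian) (n : ℕ) :
    Matrix.trace (A ^ n) = ∑ v, (hA.eigenvalues v : ℂ) ^ n := by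
  have h1 : A ^ n = Unitary.conjStarAlgAut ℂ _ hA.eigenvectorUnitary
      (diagonal (RCLike.ofReal ∘ hA.eigenvalues) ^ n) := by
    conv_lhs => rw [hA.spectral_theorem]
    rw [map_pow]
  have h2 : star (hA.eigenvectorUnitary : Matrix V V ℂ) * ((hA.eigenvectorUnitary : Matrix V V ℂ)) = 1 :=
    Unitary.coe_star_mul_self _
  rw [h1, Unitary.conjStarAlgAut_apply, Matrix.trace_mul_comm, ← Matrix.mul_assoc, h2, Matrix.one_mul,
    Matrix.diagonal_pow, Matrix.trace_diagonal]
  simp

end Herm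

section Pure

variable {V K : Type*} [Fintype V] [DecidableEq V] [Fintype K] [DecidableEq K]

/-- all the weight of `v` on the colour `c v` -/
def pureγ (c : V → K) (a : V → ℝ) : V → K → ℝ := fun v i => if i = c v then a v else 0

/-- the tilted colour-diagonal matrix -/
noncomputable def pmat (x : V → V → ℂ) (c : V → K) (a : V → ℝ) : Matrix V V ℂ :=
  Matrix.of fun u w => (√(a u) : ℂ) * (if c u = c w then x u w else 0) * (√(a w) : ℂ)

theorem pmat_isHermitian {x : V → V → ℂ} (hx : Herm x) (c : V → K) (a : V → ℝ) :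
    (pmat x c a).IsHermitian := by
  ext u w
  simp only [pmat, Matrix.conjTranspose_apply, Matrix.of_apply, star_mul', RCLike.star_def,
    Complex.conj_ofReal]
  by_cases h : c u = c w
  · rw [if_pos h, if_pos h.symm, hx w u]; ring
  · rw [if_neg h, if_neg (fun h' => h h'.symm)]; simp

theorem det_pure_eq (x : V → V → ℂ) (c : V → K) (a : V → ℝ) (ha : ∀ v, 0 ≤ a v) (y : ℂ) :
    Matrix.det (1 - Matrix.diagonal (fun v => (a v : ℂ) * y) * tot x c)
      = Matrix.det (1 - y • pmat x c a) := by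
  set R : Matrix V V ℂ := Matrix.diagonal (fun v => (√(a v) : ℂ)) with hR
  have h1 : Matrix.diagonal (fun v => (a v : ℂ) * y) * tot x c = R * (y • (R * tot x c)) := by
    ext u w
    rw [hR, Matrix.diagonal_mul, Matrix.diagonal_mul, Matrix.smul_apply, Matrix.diagonal_mul]
    have : ((a u : ℝ) : ℂ) = (√(a u) : ℂ) * (√(a u) : ℂ) := by
      rw [← Complex.ofReal_mul, Real.mul_self_sqrt (ha u)]
    rw [this, smul_eq_mul]; ring
  have h2 : y • pmat x c a = (y • (R * tot x c)) * R := by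
    ext u w
    rw [hR, Matrix.mul_diagonal, Matrix.smul_apply, Matrix.smul_apply, Matrix.diagonal_mul, pmat, tot,
      Matrix.of_apply, Matrix.of_apply, smul_eq_mul, smul_eq_mul]; ring
  rw [h1, h2, Matrix.det_one_sub_mul_comm]

theorem pol_pure {x : V → V → ℂ} (hx : Herm x) (c : V → K) (a : V → ℝ) (ha : ∀ v, 0 ≤ a v) :
    pol x (pureγ c a)
      = ∏ v, (1 - Polynomial.C ((pmat_isHermitian hx c a).eigenvalues v) * Polynomial.X) := by
  apply Polynomial.map_injective (algebraMap ℝ ℂ) (algebraMap ℝ ℂ).injective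
  apply Polynomial.funext
  intro y
  rw [eval_pol hx]
  have h1 : (fun v i => ((pureγ c a v i : ℝ) : ℂ) * y) = fun v i => if i = c v then (a v : ℂ) * y else 0 := by
    funext v i
    by_cases h : i = c v
    · simp [pureγ, h]
    · simp [pureγ, h]
  rw [h1, ann_pure, det_pure_eq x c a ha y, det_one_sub_smul_of_herm (pmat_isHermitian hx c a),
    Polynomial.map_prod, Polynomial.eval_prod]
  refine Finset.prod_congr rfl fun v _ => ?_
  rw [Polynomial.map_sub, Polynomial.map_one, Polynomial.map_mul, Polynomial.map_C, Polynomial.map_X,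
    Polynomial.eval_sub, Polynomial.eval_one, Polynomial.eval_mul, Polynomial.eval_C, Polynomial.eval_X]
  rw [mul_comm]; rfl

/-- **PURE STATE**: the `n`-th power sum of the state is the trace of the `n`-th power -/
theorem pure_coeff {x : V → V → ℂ} (hx : Herm x) (c : V → K) (a : V → ℝ) (ha : ∀ v, 0 ≤ a v)
    (n : ℕ) (hn : 1 ≤ n) :
    ((coeff n (qS (1 - (pol x (pureγ c a) : ℝ⟦X⟧))) : ℝ) : ℂ) = Matrix.trace (pmat x c a ^ n) := by
  have h1 : ((pol x (pureγ c a) : Polynomial ℝ) : ℝ⟦X⟧)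
      = ∏ v, (1 - C ((pmat_isHermitian hx c a).eigenvalues v) * X) := by
    rw [pol_pure hx c a ha]
    have := map_prod (Polynomial.coeToPowerSeries.ringHom (R := ℝ))
      (fun v => (1 - Polynomial.C ((pmat_isHermitian hx c a).eigenvalues v) * Polynomial.X)) Finset.univ
    simp only [Polynomial.coeToPowerSeries.ringHom_apply] at this
    rw [this]
    refine Finset.prod_congr rfl fun v _ => ?_
    simp
  rw [h1, coeff_qS_prod _ n hn, trace_pow_of_herm (pmat_isHermitian hx c a)]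
  push_cast
  rfl

theorem pure_coeff_re {x : V → V → ℂ} (hx : Herm x) (c : V → K) (a : V → ℝ) (ha : ∀ v, 0 ≤ a v)
    (n : ℕ) (hn : 1 ≤ n) :
    coeff n (qS (1 - (pol x (pureγ c a) : ℝ⟦X⟧))) = ∑ v, ((pmat x c a ^ n) v v).re := by
  have := congrArg Complex.re (pure_coeff hx c a ha n hn)
  rw [Complex.ofReal_re] at this
  rw [this, Matrix.trace, Complex.re_sum]
  rfl

theorem pmat_pow_even_nonneg {x : V → V → ℂ} (hx : Herm x) (c : V → K) (a : V → ℝ) (k : ℕ) (v : V) :
    0 ≤ ((pmat x c a ^ (2 * k)) v v).re := by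
  have hB := (pmat_isHermitian hx c a).pow k
  have h1 : (pmat x c a ^ (2 * k)) v v = ∑ w, ((Complex.normSq ((pmat x c a ^ k) v w) : ℝ) : ℂ) := by
    rw [two_mul, pow_add, Matrix.mul_apply]
    refine Finset.sum_congr rfl fun w _ => ?_
    have h2 : (pmat x c a ^ k) w v = (starRingEnd ℂ) ((pmat x c a ^ k) v w) := by
      have := congrFun (congrFun hB w) v
      rw [Matrix.conjTranspose_apply] at this
      rw [← this]; rfl
    rw [h2, Complex.mul_conj]
  rw [h1, ← Complex.ofReal_sum, Complex.ofReal_re]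
  exact Finset.sum_nonneg fun w _ => Complex.normSq_nonneg _

end Pure

end Crest.Agent.R109.Ann
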