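import Mathlib
import Crest.Agent.R109.Pure

/-!
# Row 109, module PURE STATE (2): the local density of a pure state

For a kernel on an infinite set `X` and a finite `W ⊆ X` the density at `v ∈ W` is the diagonal entry
of the `2k`-th power of the tilted colour-diagonal matrix.  It is homogeneous and local.
-/

set_option autoImplicit false
set_option linter.unusedSectionVars false

namespace Crest.Agent.R109.Ann

open Matrix Finset PowerSeries

section Walk

variable {X K : Type*} [DecidableEq X] [DecidableEq K]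

/-- the tilted colour-diagonal kernel -/
noncomputable def tilt (x : X → X → ℂ) (c : X → K) (a : X → ℝ) : X → X → ℂ :=
  fun u w => (√(a u) : ℂ) * (if c u = c w then x u w else 0) * (√(a w) : ℂ)

/-- sums over walks inside `W` -/
noncomputable def wk (B : X → X → ℂ) (W : Finset X) : ℕ → X → X → ℂ
  | 0, v, w => if v = w then 1 else 0
  | n + 1, v, w => ∑ z ∈ W, wk B W n v z * B z w

@[simp] theorem wk_zero (B : X → X → ℂ) (W : Finset X) (v w : X) :
    wk B W 0 v w = if v = w then 1 else 0 := rfl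

theorem wk_succ (B : X → X → ℂ) (W : Finset X) (n : ℕ) (v w : X) :
    wk B W (n + 1) v w = ∑ z ∈ W, wk B W n v z * B z w := rfl

/-- the local density of the pure state `(c, a)` in `W` at `v` -/
noncomputable def dens (k : ℕ) (x : X → X → ℂ) (c : X → K) (a : X → ℝ) (W : Finset X) (v : X) : ℝ :=
  ∑ w ∈ W, Complex.normSq (wk (tilt x c a) W k v w)

theorem dens_nonneg (k : ℕ) (x : X → X → ℂ) (c : X → K) (a : X → ℝ) (W : Finset X) (v : X) :
    0 ≤ dens k x c a W v :=
  Finset.sum_nonneg fun _ _ => Complex.normSq_nonneg _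

/-- walks are entries of matrix powers -/
theorem wk_eq_pow (B : X → X → ℂ) (W : Finset X) (n : ℕ) (v w : W) :
    wk B W n v w = ((Matrix.of fun u z : W => B u z) ^ n) v w := by
  induction n generalizing w with
  | zero =>
    rw [wk_zero, pow_zero, Matrix.one_apply]
    by_cases h : v = w
    · simp [h]
    · rw [if_neg h, if_neg (fun h' => h (Subtype.ext h'))]
  | succ n ih =>
    rw [wk_succ, pow_succ, Matrix.mul_apply, ← Finset.sum_coe_sort]
    exact Finset.sum_congr rfl fun z _ => by rw [ih z]; rfl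

theorem wk_congr {B B' : X → X → ℂ} {W : Finset X} (hB : ∀ u ∈ W, ∀ w ∈ W, B u w = B' u w) (n : ℕ)
    (v : X) : ∀ w ∈ W, wk B W n v w = wk B' W n v w := by
  induction n with
  | zero => intro w _; rfl
  | succ n ih =>
    intro w hw
    rw [wk_succ, wk_succ]
    exact Finset.sum_congr rfl fun z hz => by rw [ih z hz, hB z hz w hw]

theorem wk_smul (l : ℂ) (B : X → X → ℂ) (W : Finset X) (n : ℕ) (v w : X) :
    wk (fun u w => l * B u w) W n v w = l ^ n * wk B W n v w := by
  induction n generalizing w with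
  | zero => simp
  | succ n ih =>
    rw [wk_succ, wk_succ, Finset.mul_sum]
    refine Finset.sum_congr rfl fun z _ => ?_
    rw [ih, pow_succ]; ring

theorem tilt_smul (x : X → X → ℂ) (c : X → K) (a : X → ℝ) {l : ℝ} (hl : 0 ≤ l) :
    tilt x c (fun v => l * a v) = fun u w => (l : ℂ) * tilt x c a u w := by
  funext u w
  simp only [tilt]
  rw [Real.sqrt_mul hl, Real.sqrt_mul hl]
  have : ((l : ℝ) : ℂ) = (√l : ℂ) * (√l : ℂ) := by
    rw [← Complex.ofReal_mul, Real.mul_self_sqrt hl]
  rw [this]; push_cast; ring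

/-- homogeneity -/
theorem dens_smul (k : ℕ) (x : X → X → ℂ) (c : X → K) (a : X → ℝ) {l : ℝ} (hl : 0 ≤ l)
    (W : Finset X) (v : X) :
    dens k x c (fun v => l * a v) W v = l ^ (2 * k) * dens k x c a W v := by
  rw [dens, dens, Finset.mul_sum]
  refine Finset.sum_congr rfl fun w _ => ?_
  rw [tilt_smul x c a hl, wk_smul, Complex.normSq_mul, map_pow, Complex.normSq_ofReal]
  ring

/-- walks of length `j` from `v` end in `N j` -/
theorem wk_eq_zero {B : X → X → ℂ} (N : ℕ → Set X) (v : X) (h0 : v ∈ N 0)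
    (hN : ∀ j z w, z ∈ N j → B z w ≠ 0 → w ∈ N (j + 1)) (U : Finset X) (j : ℕ) :
    ∀ w, w ∉ N j → wk B U j v w = 0 := by
  induction j with
  | zero =>
    intro w hw
    rw [wk_zero, if_neg]
    rintro rfl; exact hw h0
  | succ j ih =>
    intro w hw
    rw [wk_succ]
    refine Finset.sum_eq_zero fun z _ => ?_
    by_cases hzN : z ∈ N j
    · by_cases hB : B z w = 0
      · rw [hB, mul_zero]
      · exact absurd (hN j z w hzN hB) hw
    · rw [ih z hzN, zero_mul]

theorem sum_congr_support {W W' : Finset X} {N : Set X} (hW : ∀ z ∈ N, (z ∈ W ↔ z ∈ W'))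
    {M : Type*} [AddCommMonoid M] {f f' : X → M} (hf : ∀ z, z ∉ N → f z = 0)
    (hf' : ∀ z, z ∉ N → f' z = 0) (hff : ∀ z ∈ N, z ∈ W → f z = f' z) :
    ∑ z ∈ W, f z = ∑ z ∈ W', f' z := by
  classical
  have key : ∀ (U : Finset X) (g : X → M) (_ : ∀ z, z ∉ N → g z = 0), ∑ z ∈ U, g z
      = ∑ z ∈ U.filter (fun z => z ∈ N), g z := by
    intro U g hg
    rw [Finset.sum_filter]
    refine Finset.sum_congr rfl fun z _ => ?_
    by_cases h : z ∈ N
    · rw [if_pos h]
    · rw [if_neg h, hg z h]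
  rw [key W f hf, key W' f' hf']
  have hs : W.filter (fun z => z ∈ N) = W'.filter (fun z => z ∈ N) := by
    ext z
    simp only [Finset.mem_filter]
    constructor
    · rintro ⟨h1, h2⟩; exact ⟨(hW z h2).1 h1, h2⟩
    · rintro ⟨h1, h2⟩; exact ⟨(hW z h2).2 h1, h2⟩
  rw [← hs]
  refine Finset.sum_congr rfl fun z hz => ?_
  rw [Finset.mem_filter] at hz
  exact hff z hz.2 hz.1

/-- locality of walks: `N j` is the set of points reachable in `j` steps -/
theorem wk_local {B B' : X → X → ℂ} {W W' : Finset X} (N : ℕ → Set X) (v : X) (h0 : v ∈ N 0)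
    (hN : ∀ j z w, z ∈ N j → B z w ≠ 0 → w ∈ N (j + 1))
    (hN' : ∀ j z w, z ∈ N j → B' z w ≠ 0 → w ∈ N (j + 1)) (hmono : ∀ j, N j ⊆ N (j + 1)) (k : ℕ)
    (hW : ∀ z ∈ N k, (z ∈ W ↔ z ∈ W'))
    (hB : ∀ z w, z ∈ N k → z ∈ W → w ∈ N k → w ∈ W → B z w = B' z w) :
    ∀ j, j ≤ k → ∀ w, w ∈ W → wk B W j v w = wk B' W' j v w := by
  have hle : ∀ i j, i ≤ j → N i ⊆ N j := fun i j hij =>
    Nat.le_induction (le_refl (N i)) (fun j _ h => h.trans (hmono j)) j hij
  intro j
  induction j with
  | zero => intro _ w _; rfl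
  | succ j ih =>
    intro hj w hw
    by_cases hwN : w ∈ N (j + 1)
    · rw [wk_succ, wk_succ]
      refine sum_congr_support (N := N j) (fun z hz => hW z (hle j k (by omega) hz)) ?_ ?_ ?_
      · intro z hz; rw [wk_eq_zero N v h0 hN W j z hz, zero_mul]
      · intro z hz; rw [wk_eq_zero N v h0 hN' W' j z hz, zero_mul]
      · intro z hz hzW
        rw [ih (by omega) z hzW, hB z w (hle j k (by omega) hz) hzW (hle (j + 1) k hj hwN) hw]
    · rw [wk_eq_zero N v h0 hN W _ w hwN, wk_eq_zero N v h0 hN' W' _ w hwN]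

/-- **locality** of the density: only `x`, `c`, `a` and `W` on the points reachable in `k` steps -/
theorem dens_local_gen {x x' : X → X → ℂ} {c c' : X → K} {a a' : X → ℝ} {W W' : Finset X}
    (N : ℕ → Set X) (v : X) (h0 : v ∈ N 0)
    (hN : ∀ j z w, z ∈ N j → x z w ≠ 0 → w ∈ N (j + 1))
    (hN' : ∀ j z w, z ∈ N j → x' z w ≠ 0 → w ∈ N (j + 1)) (hmono : ∀ j, N j ⊆ N (j + 1)) (k : ℕ)
    (hW : ∀ z ∈ N k, (z ∈ W ↔ z ∈ W'))
    (hx : ∀ z w, z ∈ N k → z ∈ W → w ∈ N k → w ∈ W → x z w = x' z w)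
    (hc : ∀ z, z ∈ N k → z ∈ W → c z = c' z) (ha : ∀ z, z ∈ N k → z ∈ W → a z = a' z) :
    dens k x c a W v = dens k x' c' a' W' v := by
  have hB0 : ∀ (x : X → X → ℂ) (c : X → K) (a : X → ℝ) (_ : ∀ j z w, z ∈ N j → x z w ≠ 0 → w ∈ N (j + 1))
      j z w, z ∈ N j → tilt x c a z w ≠ 0 → w ∈ N (j + 1) := by
    intro x c a hN j z w hz hB
    refine hN j z w hz ?_
    intro h0
    apply hB
    simp [tilt, h0]
  rw [dens, dens]
  refine sum_congr_support (N := N k) hW ?_ ?_ ?_
  · intro z hz; rw [wk_eq_zero N v h0 (hB0 x c a hN) W k z hz, map_zero]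
  · intro z hz; rw [wk_eq_zero N v h0 (hB0 x' c' a' hN') W' k z hz, map_zero]
  · intro z _ hzW
    rw [wk_local N v h0 (hB0 x c a hN) (hB0 x' c' a' hN') hmono k hW ?_ k le_rfl z hzW]
    intro z w hz hzW hw hwW
    simp only [tilt]
    rw [hc z hz hzW, hc w hw hwW, ha z hz hzW, ha w hw hwW, hx z w hz hzW hw hwW]

theorem tilt_herm {x : X → X → ℂ} (hx : Herm x) (c : X → K) (a : X → ℝ) : Herm (tilt x c a) := by
  intro u w
  simp only [tilt, map_mul, Complex.conj_ofReal]
  by_cases h : c u = c w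
  · rw [if_pos h, if_pos h.symm, hx u w]; ring
  · rw [if_neg h, if_neg (fun h' => h h'.symm)]; simp

end Walk

section Restrict

variable {X K : Type*} [DecidableEq X] [DecidableEq K] [Fintype K]

/-- the density is the diagonal entry of the `2k`-th power of the matrix -/
theorem dens_eq {x : X → X → ℂ} (hx : Herm x) (k : ℕ) (c : X → K) (a : X → ℝ) (W : Finset X) (v : W) :
    dens k x c a W v
      = ((pmat (fun u w : W => x u w) (fun v : W => c v) (fun v : W => a v) ^ (2 * k)) v v).re := by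
  set B : Matrix W W ℂ := pmat (fun u w : W => x u w) (fun v : W => c v) (fun v : W => a v) with hB
  have hB1 : B = Matrix.of fun u z : W => tilt x c a u z := rfl
  have hH : B.IsHermitian :=
    pmat_isHermitian (x := fun u w : W => x u w) (fun u w => hx u w) _ _
  rw [dens, ← Finset.sum_coe_sort, two_mul, pow_add, Matrix.mul_apply, Complex.re_sum]
  refine Finset.sum_congr rfl fun w _ => ?_
  rw [wk_eq_pow, ← hB1]
  have h2 : (B ^ k) w v = (starRingEnd ℂ) ((B ^ k) v w) := by
    have := congrFun (congrFun (hH.pow k) w) v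
    rw [Matrix.conjTranspose_apply] at this
    rw [← this]; rfl
  rw [h2, Complex.mul_conj, Complex.ofReal_re]

/-- **PURE STATE** on a finite subset of an infinite set -/
theorem coeff_pure_sum {x : X → X → ℂ} (hx : Herm x) (k : ℕ) (hk : 1 ≤ k) (c : X → K)
    (a : X → ℝ) (W : Finset X) (ha : ∀ v ∈ W, 0 ≤ a v) (g : X → K → ℝ)
    (hg : ∀ v ∈ W, g v = fun i => if i = c v then a v else 0) :
    coeff (2 * k) (qS (1 - (pol (fun u w : W => x u w) (fun (v : W) => g v) : ℝ⟦X⟧)))
      = ∑ v ∈ W, dens k x c a W v := by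
  have h1 : (fun (v : W) => g v) = pureγ (fun v : W => c v) (fun v : W => a v) := by
    funext v i
    rw [hg v v.2]; rfl
  rw [h1, pure_coeff_re (x := fun u w : W => x u w) (fun u w => hx u w) (fun v : W => c v)
    (fun v : W => a v) (fun v => ha v v.2) (2 * k) (by omega),
    ← Finset.sum_coe_sort W (fun v => dens k x c a W v)]
  exact Finset.sum_congr rfl fun v _ => (dens_eq hx k c a W v).symm

end Restrict

end Crest.Agent.R109.Ann
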