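import Mathlib
import Crest.Agent.R109.Pure2
import Crest.Agent.R109.Book1

/-!
# Row 109, module PURE STATE (3): reachability, balls and root change for the density
-/

set_option autoImplicit false
set_option linter.unusedSectionVars false

namespace Crest.Agent.R109.Ann

open Finset

section Reach

variable {X K : Type*} [DecidableEq X] [DecidableEq K]

/-- points reachable from `v` in at most `j` steps of the support of `x` -/
def reach (x : X → X → ℂ) : ℕ → X → Set X
  | 0, v => {v}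
  | j + 1, v => reach x j v ∪ {w | ∃ z ∈ reach x j v, x z w ≠ 0}

theorem reach_self (x : X → X → ℂ) (v : X) : v ∈ reach x 0 v := rfl

theorem reach_step {x : X → X → ℂ} {j : ℕ} {v z w : X} (hz : z ∈ reach x j v) (h : x z w ≠ 0) :
    w ∈ reach x (j + 1) v := Or.inr ⟨z, hz, h⟩

theorem reach_succ (x : X → X → ℂ) (j : ℕ) (v : X) : reach x j v ⊆ reach x (j + 1) v :=
  fun _ h => Or.inl h

/-- the density in `W` only sees `W ∩ B` if `B` contains the points reachable in `k` steps -/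
theorem dens_inter {x : X → X → ℂ} (k : ℕ) (c : X → K) (a : X → ℝ) (W B : Finset X) (v : X)
    (hB : reach x k v ⊆ (B : Set X)) :
    dens k x c a W v = dens k x c a (W ∩ B) v := by
  refine dens_local_gen (fun j => reach x j v) v (reach_self x v)
    (fun j z w hz h => reach_step hz h) (fun j z w hz h => reach_step hz h)
    (fun j => reach_succ x j v) k ?_ (fun _ _ _ _ _ _ => rfl) (fun _ _ _ => rfl) (fun _ _ _ => rfl)
  intro z hz
  rw [Finset.mem_inter]
  exact ⟨fun h => ⟨h, hB hz⟩, fun h => h.1⟩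

/-- the density only depends on the data in `W ∩ B` -/
theorem dens_congr {x x' : X → X → ℂ} {c c' : X → K} {a a' : X → ℝ} {W : Finset X} (v : X)
    (k : ℕ) (hx : ∀ z ∈ W, ∀ w ∈ W, x z w = x' z w) (hc : ∀ z ∈ W, c z = c' z)
    (ha : ∀ z ∈ W, a z = a' z) :
    dens k x c a W v = dens k x' c' a' W v := by
  refine dens_local_gen (fun _ => Set.univ) v (Set.mem_univ v)
    (fun _ _ _ _ _ => Set.mem_univ _) (fun _ _ _ _ _ => Set.mem_univ _)
    (fun _ => subset_rfl) k (fun _ _ => Iff.rfl) ?_ ?_ ?_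
  · intro z w _ hz _ hw; exact hx z hz w hw
  · intro z _ hz; exact hc z hz
  · intro z _ hz; exact ha z hz

end Reach

section Ball

variable {Gam X K : Type*} [Group Gam] [MulAction Gam X] [MeasurableSpace X] [DecidableEq X]
  [DecidableEq K]

theorem reach_ball {x : X → X → ℂ} {S1 : Finset Gam}
    (hx : ∀ u w, x u w ≠ 0 → w ∈ Book.ball S1 u) (S : ℕ → Finset Gam) (h0 : (1 : Gam) ∈ S 0)
    (hmono : ∀ j, S j ⊆ S (j + 1)) (hmul : ∀ j, ∀ g ∈ S1, ∀ h ∈ S j, g * h ∈ S (j + 1)) (v : X) :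
    ∀ j, reach x j v ⊆ (Book.ball (S j) v : Set X) := by
  intro j
  induction j with
  | zero =>
    intro z hz
    have : z = v := hz
    subst this
    exact Book.self_mem_ball h0 _
  | succ j ih =>
    rintro z (hz | ⟨u, hu, huz⟩)
    · obtain ⟨g, hg, rfl⟩ := Book.mem_ball.1 (ih hz)
      exact Book.mem_ball.2 ⟨g, hmono j hg, rfl⟩
    · obtain ⟨h, hh, rfl⟩ := Book.mem_ball.1 (ih hu)
      obtain ⟨g, hg, rfl⟩ := Book.mem_ball.1 (hx _ _ huz)
      exact Book.mem_ball.2 ⟨g * h, hmul j g hg h hh, mul_smul g h v⟩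

open scoped Pointwise in
open Classical in
theorem reach_ball_pow {x : X → X → ℂ} {S1 : Finset Gam}
    (hx : ∀ u w, x u w ≠ 0 → w ∈ Book.ball S1 u) (h1 : (1 : Gam) ∈ S1) (v : X) (k : ℕ) :
    reach x k v ⊆ (Book.ball (S1 ^ k) v : Set X) := by
  refine reach_ball hx (fun j => S1 ^ j) (by simp) ?_ ?_ v k
  · intro j g hg
    show g ∈ S1 ^ (j + 1)
    rw [pow_succ]
    exact Finset.mem_mul.2 ⟨g, hg, 1, h1, mul_one g⟩
  · intro j g hg h hh
    show g * h ∈ S1 ^ (j + 1)
    rw [pow_succ']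
    exact Finset.mem_mul.2 ⟨g, hg, h, hh, rfl⟩

end Ball

section Root

open MeasureTheory

variable {Gam X K : Type*} [Group Gam] [MulAction Gam X] [MeasurableSpace X] {μ : Measure X}
  [DecidableEq X] [DecidableEq K]

/-- root change for the density: `a x w = (rel x w)^(1/2k) * l` -/
theorem dens_root (Q : Book.QI Gam X μ) (k : ℕ) (hk : 1 ≤ k) (T : X → X → ℂ) (c : X → K) (l : ℝ)
    {x y : X} (hxy : Book.Rel Gam x y) (W : Finset X) (hW : ∀ w ∈ W, Book.Rel Gam x w) (v : X) :
    dens k T c (fun w => (Q.rel y w) ^ ((1 : ℝ) / (2 * k)) * l) W v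
      = Q.rel y x * dens k T c (fun w => (Q.rel x w) ^ ((1 : ℝ) / (2 * k)) * l) W v := by
  have hp : 0 < Q.rel y x := Q.rel_pos _ _
  set t : ℝ := (Q.rel y x) ^ ((1 : ℝ) / (2 * k)) with ht
  have ht0 : 0 ≤ t := Real.rpow_nonneg hp.le _
  have ht2 : t ^ (2 * k) = Q.rel y x := by
    rw [ht, ← Real.rpow_natCast, ← Real.rpow_mul hp.le]
    have hk' : (k : ℝ) ≠ 0 := by exact_mod_cast (by omega : k ≠ 0)
    have : (1 : ℝ) / (2 * k) * ((2 * k : ℕ) : ℝ) = 1 := by push_cast; field_simp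
    rw [this, Real.rpow_one]
  rw [← ht2, ← dens_smul k T c _ ht0]
  refine dens_congr v k (fun _ _ _ _ => rfl) (fun _ _ => rfl) ?_
  intro w hw
  rw [Q.rel_trans hxy.symm (hW w hw), Real.mul_rpow hp.le (Q.rel_pos _ _).le]
  ring

end Root

end Crest.Agent.R109.Ann
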