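import Crest.Agent.R109.Book6
import Crest.Agent.R109.BookEnd
import Crest.Agent.R109.Pure3

/-!
# Row 109: the density of a pure state (measurability, comparison with the tilted kernel)
-/

set_option autoImplicit false
set_option linter.unusedSectionVars false

open MeasureTheory
open scoped ENNReal ComplexConjugate Pointwise ComplexOrder

namespace Crest.Agent.R109.Book

section Walk

variable {Gam X : Type*} [Group Gam] [MulAction Gam X] [MeasurableSpace X] {μ : Measure X}

open Classical in
/-- walk sums inside `W`, recursion at the start -/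
noncomputable def wkc (B : X → X → ℂ) (W : Finset X) : ℕ → X → X → ℂ
  | 0, y, z => if y = z then 1 else 0
  | m + 1, y, z => ∑ w ∈ W, B y w * wkc B W m w z

theorem wkc_eq_pow [DecidableEq X] (B : X → X → ℂ) (W : Finset X) (m : ℕ) :
    ∀ y z : W, ((Matrix.of fun u w : W => B u w) ^ m : Matrix W W ℂ) y z = wkc B W m y z := by
  induction m with
  | zero =>
    intro y z
    rw [pow_zero, Matrix.one_apply]
    by_cases h : y = z
    · rw [if_pos h, wkc, if_pos (congrArg Subtype.val h)]
    · rw [if_neg h, wkc, if_neg fun h' => h (Subtype.ext h')]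
  | succ m ih =>
    intro y z
    rw [pow_succ', Matrix.mul_apply]
    simp only [wkc]
    rw [← Finset.sum_coe_sort W (fun w => B y w * wkc B W m w z)]
    exact Finset.sum_congr rfl fun w _ => by rw [ih w z]; rfl

theorem measurable_wkc_aux (Q : QI Gam X μ) (F : Finset Gam) (B : X → X → X → ℂ)
    (hB : CW Gam B) (m : ℕ) :
    ∀ (g : Gam) (l : List Gam),
      Measurable fun v => wprod B v g l * wkc (B v) (ball F v) m (wend g l • v) (g • v) := by
  classical
  induction m with
  | zero =>
    intro g l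
    have : (fun v => wprod B v g l * wkc (B v) (ball F v) 0 (wend g l • v) (g • v))
        = fun v => if wend g l • v = g • v then wprod B v g l else 0 := by
      funext v
      simp only [wkc]
      split_ifs <;> simp
    rw [this]
    exact hB g l
  | succ m ih =>
    intro g l
    have h1 : (fun v => wprod B v g l * wkc (B v) (ball F v) (m + 1) (wend g l • v) (g • v))
        = fun v => ∑ w ∈ F.image (fun s => s • v),
            wprod B v g l * (B v (wend g l • v) w * wkc (B v) (ball F v) m w (g • v)) := by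
      funext v
      simp only [wkc, ball, Finset.mul_sum]
    rw [h1]
    refine measurable_sum_image_c F (fun s v => s • v) (fun i _ j _ => Q.meas_eq _ _)
      (fun v w => wprod B v g l * (B v (wend g l • v) w * wkc (B v) (ball F v) m w (g • v))) ?_
    intro s _
    have h2 := ih g (l ++ [s])
    simp only [wprod_append, wend_append] at h2
    simpa only [mul_assoc] using h2

theorem measurable_wkc (Q : QI Gam X μ) (F : Finset Gam) (B : X → X → X → ℂ)
    (hB : CW Gam B) (m : ℕ) : Measurable fun v => wkc (B v) (ball F v) m v v := by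
  have := measurable_wkc_aux Q F B hB m 1 []
  simpa [wprod, wend] using this

end Walk

section Den

variable {Gam X : Type*} [Group Gam] [MulAction Gam X] [MeasurableSpace X] {μ : Measure X}

/-- the tilted weights of a pure state -/
noncomputable def wgt (Q : QI Gam X μ) (k : ℕ) (l : ℝ) (x w : X) : ℝ :=
  (Q.rel x w) ^ ((1 : ℝ) / (2 * k)) * l

theorem wgt_nonneg (Q : QI Gam X μ) (k : ℕ) {l : ℝ} (hl : 0 ≤ l) (x w : X) :
    0 ≤ wgt Q k l x w :=
  mul_nonneg (Real.rpow_nonneg (Q.rel_pos _ _).le _) hl

open Classical in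
/-- the density of the pure state `c`, cut to `W` -/
noncomputable def den (Q : QI Gam X μ) (K : X → X → ℂ) (k : ℕ) (l : ℝ) {r : ℕ} (c : X → Fin r)
    (x v : X) (W : Finset X) : ℝ :=
  if v ∈ W then Ann.dens k K c (wgt Q k l x) W v else 0

open Classical in
theorem den_nonneg (Q : QI Gam X μ) (K : X → X → ℂ) (k : ℕ) (l : ℝ) {r : ℕ} (c : X → Fin r)
    (x v : X) (W : Finset X) : 0 ≤ den Q K k l c x v W := by
  unfold den
  split_ifs
  · exact Ann.dens_nonneg _ _ _ _ _ _
  · exact le_rfl

theorem den_cov (Q : QI Gam X μ) (K : X → X → ℂ) {k : ℕ} (hk : 1 ≤ k) (l : ℝ) {r : ℕ}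
    (c : X → Fin r) {x y v : X} {W : Finset X} (hxy : Rel Gam x y)
    (hW : ∀ w ∈ W, Rel Gam x w) : den Q K k l c y v W = Q.rel y x * den Q K k l c x v W := by
  classical
  unfold den
  split_ifs with h
  · exact Ann.dens_root Q k hk K c l hxy W hW v
  · rw [mul_zero]

open Classical in
theorem den_loc [DecidableEq Gam] (Q : QI Gam X μ) {K : X → X → ℂ} {S : Finset Gam}
    (h1 : (1 : Gam) ∈ S) (band : ∀ v w, K v w ≠ 0 → w ∈ ball S v) (k : ℕ) (l : ℝ) {r : ℕ}
    (c : X → Fin r) (x v : X) (W : Finset X) (hv : v ∈ W) :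
    den Q K k l c x v W = den Q K k l c x v (W ∩ ball (S ^ k) v) := by
  have hvb : v ∈ ball (S ^ k) v := self_mem_ball (Finset.one_mem_pow h1) v
  unfold den
  rw [if_pos hv, if_pos (Finset.mem_inter.2 ⟨hv, hvb⟩)]
  exact Ann.dens_inter k c _ W _ v (by convert Ann.reach_ball_pow band h1 v k)

/-- the tilted kernel of the pure state, written with square roots -/
noncomputable def bker (Q : QI Gam X μ) (K : X → X → ℂ) (k : ℕ) (l : ℝ) {r : ℕ} (c : X → Fin r)
    (x u w : X) : ℂ :=
  ((√(wgt Q k l x u) * (if c u = c w then 1 else 0) * √(wgt Q k l x w) : ℝ) : ℂ) * K u w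

open Classical in
theorem den_eq_wkc (Q : QI Gam X μ) {K : X → X → ℂ} (herm : ∀ v w, K w v = conj (K v w))
    (k : ℕ) (l : ℝ) {r : ℕ} (c : X → Fin r) (x v : X) (W : Finset X) (hv : v ∈ W) :
    den Q K k l c x v W = (wkc (bker Q K k l c x) W (2 * k) v v).re := by
  unfold den
  rw [if_pos hv, Ann.dens_eq (fun u w => herm u w) k c (wgt Q k l x) W ⟨v, hv⟩]
  rw [← wkc_eq_pow (bker Q K k l c x) W (2 * k) ⟨v, hv⟩ ⟨v, hv⟩]
  have hM : Ann.pmat (fun u w : W => K u w) (fun v : W => c v) (fun v : W => wgt Q k l x v)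
      = Matrix.of fun u w : W => bker Q K k l c x u w := by
    ext u w
    simp only [Ann.pmat, Matrix.of_apply, bker]
    by_cases h : c u = c w
    · simp only [h, if_true]; push_cast; ring
    · simp only [h, if_false]; push_cast; ring
  rw [hM]

theorem CW_bker (Q : QI Gam X μ) {K : X → X → ℂ} (cw : CW Gam (fun _ : X => K)) (k : ℕ) (l : ℝ)
    {r : ℕ} {c : X → Fin r} (hc : Measurable c) : CW Gam (bker Q K k l c) := by
  classical
  refine CW.mul cw (fun x u w =>
    ((√(wgt Q k l x u) * (if c u = c w then 1 else 0) * √(wgt Q k l x w) : ℝ) : ℂ)) fun g h => ?_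
  refine Complex.measurable_ofReal.comp ?_
  have hw : ∀ g : Gam, Measurable fun x => √(wgt Q k l x (g • x)) := by
    intro g
    simp only [wgt, Q.rel_smul]
    exact (((Q.meas_D g).pow_const _).mul_const _).sqrt
  refine ((hw g).mul ?_).mul (hw h)
  exact Measurable.ite
    (measurableSet_eq_fun (hc.comp (Q.meas_smul g)) (hc.comp (Q.meas_smul h)))
    measurable_const measurable_const

theorem measK_den (Q : QI Gam X μ) {K : X → X → ℂ} (herm : ∀ v w, K w v = conj (K v w))
    (cw : CW Gam (fun _ : X => K)) (k : ℕ) (l : ℝ) {r : ℕ} {c : X → Fin r} (hc : Measurable c) :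
    MeasK Gam fun x W => den Q K k l c x x W := by
  classical
  intro F
  have h1 : (fun x => den Q K k l c x x (ball F x)) = fun x => if x ∈ ball F x then
      (wkc (bker Q K k l c x) (ball F x) (2 * k) x x).re else 0 := by
    funext x
    by_cases h : x ∈ ball F x
    · rw [if_pos h, den_eq_wkc Q herm k l c x x _ h]
    · rw [if_neg h, den, if_neg h]
  rw [h1]
  refine Measurable.ite (measurableSet_self_mem_ball Q F) ?_ measurable_const
  exact Complex.measurable_re.comp (measurable_wkc Q F _ (CW_bker Q cw k l hc) (2 * k))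

/-- comparison with the tilted kernel of the END step -/
theorem den_eq_tilt (Q : QI Gam X μ) {K : X → X → ℂ} (herm : ∀ v w, K w v = conj (K v w))
    (k : ℕ) {l : ℝ} (hl : 0 ≤ l) {r : ℕ} (c : X → Fin r) (v : X) (W : Finset X)
    (hv : v ∈ W) [DecidableEq X] :
    den Q K k l c v v W
      = l ^ (2 * k) * ((mat (tilt Q k (pin c (fun _ => K)) v) W ^ (2 * k)) ⟨v, hv⟩ ⟨v, hv⟩).re := by
  rw [den_eq_wkc Q herm k l c v v W hv, ← wkc_eq_pow _ W (2 * k) ⟨v, hv⟩ ⟨v, hv⟩]
  have hM : (Matrix.of fun u w : W => bker Q K k l c v u w)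
      = (l : ℂ) • mat (tilt Q k (pin c (fun _ => K)) v) W := by
    ext u w
    simp only [Matrix.of_apply, Matrix.smul_apply, mat_apply, tilt, tf, pin, bker, wgt,
      smul_eq_mul]
    have hs : ∀ y : X, √((Q.rel v y) ^ ((1 : ℝ) / (2 * k)) * l)
        = (Q.rel v y) ^ (1 / (4 * k) : ℝ) * √l := by
      intro y
      rw [Real.sqrt_mul (Real.rpow_nonneg (Q.rel_pos _ _).le _), Real.sqrt_eq_rpow,
        ← Real.rpow_mul (Q.rel_pos _ _).le]
      congr 2
      ring
    rw [hs, hs]
    have hll : (√l : ℂ) * (√l : ℂ) = (l : ℂ) := by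
      rw [← Complex.ofReal_mul, Real.mul_self_sqrt hl]
    by_cases h : c u = c w
    · simp only [h, if_true]
      rw [← hll]; push_cast; ring
    · simp only [h, if_false]; push_cast; ring
  rw [hM, smul_pow, Matrix.smul_apply, smul_eq_mul, ← Complex.ofReal_pow, Complex.re_ofReal_mul]

end Den

end Crest.Agent.R109.Book
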