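import Crest.Agent.R109.Cluster
import Crest.Agent.R109.Book6

/-!
# Row 109, (H2) CLUSTER, second part: connectivity, and the structure `Book.HIn`
-/

set_option autoImplicit false
set_option linter.unusedSectionVars false
set_option linter.unusedSimpArgs false

namespace Crest.Agent.R109.Cluster

open Finset Crest.Agent.R109.Ann Crest.Agent.R109.Book

section Sum

variable {V₁ V₂ K : Type*} [Fintype V₁] [DecidableEq V₁] [Fintype V₂] [DecidableEq V₂]
  [Fintype K] [DecidableEq K]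

theorem det_N_sum {R : Type*} [CommRing R] (x : V₁ ⊕ V₂ → V₁ ⊕ V₂ → R)
    (h12 : ∀ u w, x (Sum.inl u) (Sum.inr w) = 0) (h21 : ∀ u w, x (Sum.inr u) (Sum.inl w) = 0)
    (c : V₁ ⊕ V₂ → Option K) :
    (N x c).det = (N (fun u w => x (Sum.inl u) (Sum.inl w)) (fun v => c (Sum.inl v))).det
      * (N (fun u w => x (Sum.inr u) (Sum.inr w)) (fun v => c (Sum.inr v))).det := by
  have h : N x c = Matrix.fromBlocks (N (fun u w => x (Sum.inl u) (Sum.inl w)) (fun v => c (Sum.inl v)))
      0 0 (N (fun u w => x (Sum.inr u) (Sum.inr w)) (fun v => c (Sum.inr v))) := by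
    ext u w
    rcases u with u | u <;> rcases w with w | w
    · simp [N]
    · simp [N, h12]
    · simp [N, h21]
    · simp [N]
  rw [h, Matrix.det_fromBlocks_zero₂₁]

theorem ann_sum {R : Type*} [CommRing R] (x : V₁ ⊕ V₂ → V₁ ⊕ V₂ → R)
    (g : V₁ ⊕ V₂ → K → R)
    (h12 : ∀ u w, x (Sum.inl u) (Sum.inr w) = 0) (h21 : ∀ u w, x (Sum.inr u) (Sum.inl w) = 0) :
    ann x g = ann (fun u w => x (Sum.inl u) (Sum.inl w)) (fun v => g (Sum.inl v))
      * ann (fun u w => x (Sum.inr u) (Sum.inr w)) (fun v => g (Sum.inr v)) := by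
  rw [ann_apply, ann_apply, ann_apply, Finset.sum_mul_sum, ← Fintype.sum_prod_type']
  refine Fintype.sum_equiv (Equiv.sumArrowEquivProdArrow V₁ V₂ (Option K)) _ _ fun c => ?_
  rw [det_N_sum x h12 h21 c, Fintype.prod_sum_type]
  simp only [Equiv.sumArrowEquivProdArrow]
  simp only [Equiv.coe_fn_mk, Function.comp_def]
  ring

theorem pol_sum {x : V₁ ⊕ V₂ → V₁ ⊕ V₂ → ℂ} (hx : Herm x) (γ : V₁ ⊕ V₂ → K → ℝ)
    (h12 : ∀ u w, x (Sum.inl u) (Sum.inr w) = 0) :
    pol x γ = pol (fun u w => x (Sum.inl u) (Sum.inl w)) (fun v => γ (Sum.inl v))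
      * pol (fun u w => x (Sum.inr u) (Sum.inr w)) (fun v => γ (Sum.inr v)) := by
  have h21 : ∀ u w, x (Sum.inr u) (Sum.inl w) = 0 := fun u w => by
    rw [hx (Sum.inl w) (Sum.inr u), h12, map_zero]
  apply Polynomial.map_injective (algebraMap ℝ ℂ) (algebraMap ℝ ℂ).injective
  apply Polynomial.funext
  intro y
  rw [Polynomial.map_mul, Polynomial.eval_mul, eval_pol hx,
    eval_pol (fun u w => hx (Sum.inl u) (Sum.inl w)),
    eval_pol (fun u w => hx (Sum.inr u) (Sum.inr w)), ann_sum x _ h12 h21]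

end Sum

section Win

variable {X : Type*} {r : ℕ}

open Classical in
/-- disconnected windows: the polynomial is multiplicative -/
theorem PW_union {x : X → X → ℂ} (hx : Herm x) (g : X → Fin r → ℝ) {A B : Finset X}
    (hAB : Disjoint A B) (h : ∀ a ∈ A, ∀ b ∈ B, x a b = 0) :
    PW x g (A ∪ B) = PW x g A * PW x g B := by
  rw [PW, FinVol.pol_extend (V' := A ⊕ B)
    (Sum.elim (fun a => ⟨a.1, Finset.mem_union_left _ a.2⟩)
      (fun b => ⟨b.1, Finset.mem_union_right _ b.2⟩)) ?_ _ _ ?_]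
  · rw [pol_sum (fun u w => hx _ _) _ (fun u w => h u.1 u.2 w.1 w.2)]
    rfl
  · rintro (a | a) (b | b) hab
    · have h1 : a.1 = b.1 := by simpa only [Sum.elim_inl, Subtype.mk.injEq] using hab
      rw [Subtype.ext h1]
    · have h1 : a.1 = b.1 := by
        simpa only [Sum.elim_inl, Sum.elim_inr, Subtype.mk.injEq] using hab
      exact absurd b.2 (Finset.disjoint_left.1 hAB (h1 ▸ a.2))
    · have h1 : a.1 = b.1 := by
        simpa only [Sum.elim_inl, Sum.elim_inr, Subtype.mk.injEq] using hab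
      exact absurd a.2 (Finset.disjoint_left.1 hAB (h1 ▸ b.2))
    · have h1 : a.1 = b.1 := by simpa only [Sum.elim_inr, Subtype.mk.injEq] using hab
      rw [Subtype.ext h1]
  · rintro ⟨v, hv⟩ hn
    exfalso
    apply hn
    rcases Finset.mem_union.1 hv with h1 | h1
    · exact ⟨Sum.inl ⟨v, h1⟩, rfl⟩
    · exact ⟨Sum.inr ⟨v, h1⟩, rfl⟩

open Classical in
/-- additivity over disconnected windows -/
theorem H_union (k : ℕ) {x : X → X → ℂ} (hx : Herm x) (g : X → Fin r → ℝ) {A B : Finset X}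
    (hAB : Disjoint A B) (h : ∀ a ∈ A, ∀ b ∈ B, x a b = 0) :
    FinVol.H k x g (A ∪ B) = FinVol.H k x g A + FinVol.H k x g B := by
  rw [H_eq_PW, H_eq_PW, H_eq_PW, ← map_add]
  congr 1
  apply qS_of_mul _ _ _ (cc_one_sub_PW x g A) (cc_one_sub_PW x g B)
  rw [PW_union hx g hAB h, Polynomial.coe_mul]
  ring

/-- **(H2b)** clusters are connected -/
theorem conn_of_mob (k : ℕ) {x : X → X → ℂ} (hx : Herm x) (g : X → Fin r → ℝ) (U A : Finset X)
    (h : mob (FinVol.H k x g) U ≠ 0) (hA : A ⊆ U) (hne : A.Nonempty) (hAU : A ≠ U) :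
    ∃ a ∈ A, ∃ b ∈ U, b ∉ A ∧ x a b ≠ 0 := by
  classical
  by_contra hcon
  push Not at hcon
  apply h
  have h1 : ∀ W ⊆ U, FinVol.H k x g W
      = FinVol.H k x g (W ∩ A) + FinVol.H k x g (W \ A) := by
    intro W hW
    have e : W = (W ∩ A) ∪ (W \ A) := by
      ext v
      simp only [Finset.mem_union, Finset.mem_inter, Finset.mem_sdiff]
      tauto
    conv_lhs => rw [e]
    refine H_union k hx g ?_ ?_
    · rw [Finset.disjoint_left]
      intro v hv hv'
      exact (Finset.mem_sdiff.1 hv').2 (Finset.mem_inter.1 hv).2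
    · intro a ha b hb
      exact hcon a (Finset.mem_inter.1 ha).2 b (hW (Finset.mem_sdiff.1 hb).1)
        (Finset.mem_sdiff.1 hb).2
  rw [mob_congr h1, mob_add]
  obtain ⟨a, ha⟩ := hne
  obtain ⟨b, hb, hbA⟩ : ∃ b ∈ U, b ∉ A := by
    by_contra hcon2
    push Not at hcon2
    exact hAU (subset_antisymm hA hcon2)
  have z1 : mob (fun W => FinVol.H k x g (W ∩ A)) U = 0 := by
    refine mob_eq_zero_of_ignore _ hb fun V _ => ?_
    rw [Finset.insert_inter_of_notMem hbA]
  have z2 : mob (fun W => FinVol.H k x g (W \ A)) U = 0 := by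
    refine mob_eq_zero_of_ignore _ (hA ha) fun V _ => ?_
    rw [Finset.insert_sdiff_of_mem _ ha]
  rw [z1, z2, add_zero]

end Win

open MeasureTheory in
/-- **(H2)** the finite volume potential satisfies the hypotheses of the mass transport book -/
theorem hIn {Gam X : Type*} [Group Gam] [MulAction Gam X] [MeasurableSpace X] {μ : Measure X}
    (Q : QI Gam X μ) (S1 : Finset Gam) (k : ℕ) {r : ℕ} {x : X → X → ℂ} (hx : Herm x)
    (hloc : ∀ a b, x a b ≠ 0 → b ∈ ball S1 a) :
    HIn Q S1 k (fun (g : X → Fin r → ℝ) => FinVol.H k x g) where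
  dep := fun g g' W h => FinVol.H_congr k (fun _ _ _ _ => rfl) h
  hom := fun g c W _ _ => FinVol.H_smul k hx g W c
  card := fun g U h => card_le_of_mob k x g U h
  conn := fun g U A h hA hne hAU => by
    obtain ⟨a, ha, b, hb, hbA, hab⟩ := conn_of_mob k hx g U A h hA hne hAU
    exact ⟨a, ha, b, hb, hbA, hloc a b hab⟩

end Crest.Agent.R109.Cluster
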