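import Crest.Agent.R109.FinVolA

/-!
# Row 109, finite-volume block: counting forms of the flip inequality
-/

set_option autoImplicit false
set_option linter.unusedSectionVars false

namespace Crest.Agent.R109.FinVol

open Finset Crest.Agent.R109.Ann

variable {X : Type*} {r : ℕ}

open Classical in
/-- **(H1)**, counting form for arbitrary weights: at least half of the colours are good -/
theorem H_good_nat [NeZero r] (k : ℕ) (hk : 1 ≤ k) {x : X → X → ℂ} (hx : Herm x) (W : Finset X)
    (hd : ∀ v ∈ W, x v v = 0) (g : X → Fin r → ℝ) (hg : ∀ v ∈ W, ∀ i, 0 ≤ g v i) (v : X)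
    (hv : v ∈ W) (u : ℝ) (hu : 0 ≤ u) (K₀ : ℝ) (hK : 48 ≤ K₀) :
    r ≤ 2 * ((univ : Finset (Fin r)).filter (fun a =>
      H k x (Function.update g v (fun i => if i = a then u / K₀ else 0)) W
        ≤ H k x (Function.update g v (fun _ => u / r)) W)).card := by
  have h1 := H_good k hk hx W hd g hg v hv u hu (1 / 2) (by norm_num) K₀ (by norm_num; exact hK)
  have h2 : (r : ℝ) ≤ 2 * ((univ : Finset (Fin r)).filter (fun a =>
      H k x (Function.update g v (fun i => if i = a then u / K₀ else 0)) W
        ≤ H k x (Function.update g v (fun _ => u / r)) W)).card := by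
    linarith
  exact_mod_cast h2

end Crest.Agent.R109.FinVol
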