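import Crest.Agent.R109.HCont
import Crest.Agent.R109.Book6

/-!
# Row 109: measurability and bounds of the potential (H5)

`KMeas K`: the kernel `K` is measurable up to diagonal unitaries along the action.
`measK_H`: `x ↦ H k K (gam Q k β K₀ x s) (ball F x)` is measurable for every measurable state.
`bdd_H`: it is bounded on subsets of balls.
-/

set_option autoImplicit false
set_option linter.unusedSectionVars false

open MeasureTheory

namespace Crest.Agent.R109.Book

open Crest.Agent.R109.FinVol (Hf H H_image Hf_gauge Hf_bdd continuous_Hf)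
open scoped ComplexConjugate

section

variable {Gam X : Type*} [Group Gam] [MulAction Gam X] [MeasurableSpace X] {μ : Measure X}

/-- measurable up to gauge -/
def KMeas (Gam : Type*) {X : Type*} [Group Gam] [MulAction Gam X] [MeasurableSpace X]
    (K : X → X → ℂ) : Prop :=
  ∀ F : Finset Gam, ∃ K' : Gam → Gam → X → ℂ,
    (∀ g ∈ F, ∀ h ∈ F, Measurable (K' g h)) ∧
    ∀ x, ∃ a : Gam → ℂ, (∀ g ∈ F, ‖a g‖ = 1) ∧
      ∀ g ∈ F, ∀ h ∈ F, K (g • x) (h • x) = a g * (starRingEnd ℂ) (a h) * K' g h x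

theorem KMeas.of_gauge {K : X → X → ℂ}
    (gauge : ∃ ph : Gam → X → ℂ, (∀ g x, ‖ph g x‖ = 1) ∧
      ∀ g h, Measurable fun x => ph g x * K (g • x) (h • x) * conj (ph h x)) : KMeas Gam K := by
  obtain ⟨ph, h1, h2⟩ := gauge
  intro F
  refine ⟨fun g h x => ph g x * K (g • x) (h • x) * conj (ph h x), fun g _ h _ => h2 g h,
    fun x => ⟨fun g => conj (ph g x), fun g _ => by rw [RCLike.norm_conj]; exact h1 g x, ?_⟩⟩
  intro g _ h _
  have e1 : ∀ g, ph g x * conj (ph g x) = 1 := by
    intro g
    rw [Complex.mul_conj, Complex.normSq_eq_norm_sq, h1 g x]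
    simp
  have e2 := e1 g
  have e3 := e1 h
  simp only [Complex.conj_conj]
  linear_combination (-K (g • x) (h • x)) * e2
    - K (g • x) (h • x) * (ph g x * conj (ph g x)) * e3

/-- the set where `g ↦ g • x` is injective on `F'` and `F' • x = F • x` -/
def patt (F F' : Finset Gam) : Set X :=
  {x | (∀ g ∈ F', ∀ h ∈ F', g • x = h • x → g = h) ∧ ball F x = ball F' x}

theorem measurableSet_patt (Q : QI Gam X μ) (F F' : Finset Gam) :
    MeasurableSet (patt F F' : Set X) := by
  classical
  have : (patt F F' : Set X) = (⋂ g ∈ F', ⋂ h ∈ F', ({x | g • x = h • x}ᶜ ∪ {_x | g = h})) ∩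
      {x | ball F x = ball F' x} := by
    ext x
    simp only [patt, Set.mem_ofPred_eq, Set.mem_inter_iff, Set.mem_iInter, Set.mem_union,
      Set.mem_compl_iff, imp_iff_not_or]
  rw [this]
  refine MeasurableSet.inter ?_ (measurableSet_ball_eq Q F F')
  refine MeasurableSet.biInter F'.countable_toSet fun g _ =>
    MeasurableSet.biInter F'.countable_toSet fun h _ => ?_
  exact (Q.meas_eq g h).compl.union (MeasurableSet.const _)

theorem exists_patt (F : Finset Gam) (x : X) : ∃ F' ∈ F.powerset, x ∈ (patt F F' : Set X) := by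
  classical
  obtain ⟨F', hF', hinj, himg⟩ : ∃ F' : Finset Gam, F' ⊆ F ∧
      Set.InjOn (fun g => g • x) (F' : Set Gam) ∧
      F'.image (fun g => g • x) = F.image (fun g => g • x) := by
    obtain ⟨t, ht1, ht2, ht3⟩ := Finset.exists_subset_injOn_image_eq_of_surjOn F
      (F.image fun g => g • x) (f := fun g : Gam => g • x) (by
        intro y hy
        simpa using hy)
    exact ⟨t, ht1, ht2, ht3⟩
  refine ⟨F', Finset.mem_powerset.2 hF', fun g hg h hh heq => hinj hg hh heq, ?_⟩
  rw [ball, ball, himg]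

/-- measurability on a finite measurable cover -/
theorem measurable_of_cover {ι Z : Type*} [MeasurableSpace Z] (s : Finset ι) (A : ι → Set X)
    (hA : ∀ i ∈ s, MeasurableSet (A i)) (hcov : ∀ x, ∃ i ∈ s, x ∈ A i) (G : X → Z) (G' : ι → X → Z)
    (hG' : ∀ i ∈ s, Measurable (G' i)) (heq : ∀ i ∈ s, ∀ x ∈ A i, G x = G' i x) :
    Measurable G := by
  intro t ht
  have : G ⁻¹' t = ⋃ i ∈ s, (A i ∩ (G' i) ⁻¹' t) := by
    ext x
    simp only [Set.mem_preimage, Set.mem_iUnion, Set.mem_inter_iff, exists_prop]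
    constructor
    · intro hx
      obtain ⟨i, hi, hxi⟩ := hcov x
      exact ⟨i, hi, hxi, by rw [← heq i hi x hxi]; exact hx⟩
    · rintro ⟨i, hi, hxi, hx⟩
      rw [heq i hi x hxi]
      exact hx
  rw [this]
  exact MeasurableSet.biUnion s.countable_toSet fun i hi => (hA i hi).inter (hG' i hi ht)

variable {r : ℕ}

theorem measurable_lev (Q : QI Gam X μ) {s : X → Option (Fin r)} (hs : MeasF s) (β K₀ : ℝ)
    (g : Gam) (i : Fin r) : Measurable fun x => lev β K₀ (s (g • x)) i := by
  let _ : MeasurableSpace (Option (Fin r)) := ⊤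
  have h1 : Measurable fun x => s (g • x) := by
    refine measurable_to_countable' fun a => ?_
    exact Q.meas_smul g (hs a)
  have h2 : Measurable fun a : Option (Fin r) => lev β K₀ a i := measurable_from_top
  exact h2.comp h1

theorem measurable_gam (Q : QI Gam X μ) {s : X → Option (Fin r)} (hs : MeasF s) (β K₀ : ℝ)
    (k : ℕ) (g : Gam) (i : Fin r) :
    Measurable fun x => gam Q k β K₀ x s (g • x) i := by
  simp only [gam, Q.rel_smul]
  exact ((Q.meas_D g).pow_const _).mul (measurable_lev Q hs β K₀ g i)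

theorem measurable_Hf0 {I : Type*} [Fintype I] [DecidableEq I] (k : ℕ) :
    Measurable fun p : (I → I → ℂ) × (I → Fin r → ℝ) => Hf k p.1 p.2 := by
  have h := continuous_Hf (V := I) (K := Fin r) k
  exact h.measurable

attribute [local irreducible] Hf

theorem measurable_Hf {I : Type*} [Fintype I] [DecidableEq I] (k : ℕ) (A : X → I → I → ℂ)
    (B : X → I → Fin r → ℝ) (hA : ∀ i j, Measurable fun x => A x i j)
    (hB : ∀ i j, Measurable fun x => B x i j) : Measurable fun x => Hf k (A x) (B x) := by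
  have h1 : Measurable fun x : X => (A x, B x) :=
    (measurable_pi_lambda _ fun i => measurable_pi_lambda _ fun j => hA i j).prodMk
      (measurable_pi_lambda _ fun i => measurable_pi_lambda _ fun j => hB i j)
  exact (measurable_Hf0 (I := I) (r := r) k).comp h1

/-- **measurability of the potential** -/
theorem measK_H (Q : QI Gam X μ) {K : X → X → ℂ}
    (gauge : ∃ ph : Gam → X → ℂ, (∀ g x, ‖ph g x‖ = 1) ∧
      ∀ g h, Measurable fun x => ph g x * K (g • x) (h • x) * conj (ph h x))
    (k : ℕ) (β K₀ : ℝ) {s : X → Option (Fin r)} (hs : MeasF s) :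
    MeasK Gam fun x W => H k K (gam Q k β K₀ x s) W := by
  have hK := KMeas.of_gauge gauge
  classical
  intro F
  obtain ⟨K', hK'm, hK'⟩ := hK F
  refine measurable_of_cover F.powerset (fun F' => patt F F')
    (fun F' _ => measurableSet_patt Q F F') (exists_patt F) _
    (fun F' x => Hf k (fun g h : F' => K' g h x) (fun (g : F') i =>
      gam Q k β K₀ x s ((g : Gam) • x) i)) ?_ ?_
  · intro F' hF'
    rw [Finset.mem_powerset] at hF'
    exact measurable_Hf k (fun x (g h : F') => K' g h x)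
      (fun x (g : F') i => gam Q k β K₀ x s ((g : Gam) • x) i)
      (fun g h => hK'm g (hF' g.2) h (hF' h.2)) (fun g i => measurable_gam Q hs β K₀ k g i)
  · intro F' hF' x hx
    rw [Finset.mem_powerset] at hF'
    obtain ⟨a, ha, hKa⟩ := hK' x
    have hinj : Function.Injective fun g : F' => (g : Gam) • x := by
      intro g h hgh
      exact Subtype.ext (hx.1 g g.2 h h.2 hgh)
    simp only
    rw [hx.2, H_image k K (gam Q k β K₀ x s) (fun g : F' => (g : Gam) • x) hinj (ball F' x)
      (fun y => by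
        rw [mem_ball]
        constructor
        · rintro ⟨g, hg, rfl⟩
          exact ⟨⟨g, hg⟩, rfl⟩
        · rintro ⟨g, rfl⟩
          exact ⟨g, g.2, rfl⟩)]
    have h2 : (fun i j : F' => K ((i : Gam) • x) ((j : Gam) • x))
        = fun i j : F' => a i * (starRingEnd ℂ) (a j) * K' i j x := by
      funext i j
      exact hKa i (hF' i.2) j (hF' j.2)
    rw [h2]
    exact Hf_gauge k (fun i j : F' => K' i j x) (fun g : F' => a g) (fun g => ha g (hF' g.2)) _

theorem abs_lev_le (β K₀ : ℝ) (o : Option (Fin r)) (i : Fin r) :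
    |lev β K₀ o i| ≤ |1 / (r * β)| + |1 / (K₀ * β)| := by
  have h1 := abs_nonneg (1 / ((r : ℝ) * β))
  have h2 := abs_nonneg (1 / (K₀ * β))
  cases o with
  | none => simp only [lev]; linarith
  | some c =>
    simp only [lev]
    split_ifs
    · linarith
    · rw [abs_zero]; linarith

/-- **bound of the potential** -/
theorem bdd_H (Q : QI Gam X μ) {K : X → X → ℂ} {M : ℝ} (hK : ∀ u w, ‖K u w‖ ≤ M)
    (k : ℕ) (β K₀ : ℝ) (s : X → Option (Fin r)) (S : Finset Gam) :
    ∃ C, ∀ (x : X) (W : Finset X), W ⊆ ball S x → |H k K (gam Q k β K₀ x s) W| ≤ C := by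
  classical
  choose D hD using Q.D_bdd
  set G : ℝ := ∑ g ∈ S, |D g| with hG
  have hG0 : 0 ≤ G := Finset.sum_nonneg fun _ _ => abs_nonneg _
  set L : ℝ := |1 / (r * β)| + |1 / (K₀ * β)| with hL
  have hL0 : 0 ≤ L := by positivity
  have hC : ∀ F' : Finset Gam, ∃ C : ℝ, ∀ (x : F' → F' → ℂ) (γ : F' → Fin r → ℝ),
      (∀ u w, ‖x u w‖ ≤ M) → (∀ v i, |γ v i| ≤ G ^ ((1 : ℝ) / (2 * k)) * L) → |Hf k x γ| ≤ C :=
    fun F' => Hf_bdd F' (Fin r) k M _
  choose C hC using hC
  refine ⟨∑ F' ∈ S.powerset, |C F'|, fun x W hW => ?_⟩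
  obtain ⟨F1, hF1, hWF⟩ : ∃ F1 : Finset Gam, F1 ⊆ S ∧ ball F1 x = W := by
    rw [ball, Finset.subset_image_iff] at hW
    obtain ⟨F1, hF1, h⟩ := hW
    exact ⟨F1, hF1, by rw [ball]; convert h⟩
  obtain ⟨F', hF', hx⟩ := exists_patt F1 x
  rw [Finset.mem_powerset] at hF'
  have hF'S : F' ⊆ S := hF'.trans hF1
  have hinj : Function.Injective fun g : F' => (g : Gam) • x := by
    intro g h hgh
    exact Subtype.ext (hx.1 g g.2 h h.2 hgh)
  rw [← hWF, hx.2, H_image k K (gam Q k β K₀ x s) (fun g : F' => (g : Gam) • x) hinj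
    (ball F' x) (fun y => by
        rw [mem_ball]
        constructor
        · rintro ⟨g, hg, rfl⟩
          exact ⟨⟨g, hg⟩, rfl⟩
        · rintro ⟨g, rfl⟩
          exact ⟨g, g.2, rfl⟩)]
  refine (hC F' _ _ (fun u w => hK _ _) ?_).trans ?_
  · intro v i
    simp only [gam]
    rw [abs_mul, abs_of_nonneg (Real.rpow_nonneg (Q.rel_pos _ _).le _)]
    refine mul_le_mul ?_ (abs_lev_le β K₀ _ _) (abs_nonneg _) (Real.rpow_nonneg hG0 _)
    refine Real.rpow_le_rpow (Q.rel_pos _ _).le ?_ (by positivity)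
    rw [Q.rel_smul]
    refine (hD v x).trans ((le_abs_self _).trans ?_)
    exact Finset.single_le_sum (f := fun g => |D g|) (fun _ _ => abs_nonneg _) (hF'S v.2)
  · refine (le_abs_self _).trans ?_
    exact Finset.single_le_sum (f := fun F' => |C F'|) (fun _ _ => abs_nonneg _)
      (Finset.mem_powerset.2 hF'S)

end

end Crest.Agent.R109.Book
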