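import Crest.Agent.R109.CartanIface
import Crest.Agent.R109.BookList

/-!
# Row 109: the measured list theorem from the core colouring theorem (`CartCoreProp`)
-/

set_option autoImplicit false
set_option linter.unusedSectionVars false

open MeasureTheory

namespace Crest.Agent.R109

open Crest.Agent.R109.Book

universe u

/-- the core colouring theorem: one sequential rule, good for all measurable classes -/
def CartCoreProp : Prop :=
  ∀ (Gam X : Type u) [Group Gam] [MulAction Gam X] [MeasurableSpace X] (μ : Measure X)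
    [IsProbabilityMeasure μ] (Q : QI Gam X μ) (S : Finset Gam) (K : X → X → ℂ), KSys Q S K →
    ∀ r : ℕ, 100 ≤ r → ∀ n : ℕ, 1 ≤ n → ∀ κ : ℝ, 0 < κ →
    ∃ (S2 : Finset Gam) (p : (X → Option (Fin r)) → X → Finset X → ℝ), (1 : Gam) ∈ S2 ∧
      (∀ g ∈ S2, g⁻¹ ∈ S2) ∧ FVS Q S2 p ∧
      (∀ (cls : X → ℕ) (c : X → Fin r) (x : X), r ≤ 2 * (Adm p S2 cls c x).card) ∧
      ∀ (cls : X → ℕ) (N : ℕ), Measurable cls → (∀ x, cls x < N) →
        (∀ x, ∀ y ∈ ball S2 x, cls y = cls x → y = x) →
        ∀ c : X → Fin r, Measurable c → (∀ x, c x ∈ Adm p S2 cls c x) →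
          ∫ x, (kp S (pin c (fun _ => K) x) (2 * n) x x).re ∂μ
            ≤ (500 / Real.sqrt r) ^ (2 * n) + κ

theorem measList_of (hcore : CartCoreProp.{u}) : MeasListProp.{u} := by
  intro Gam X _ _ _ μ _ Q S K hK hfro r hr n hn κ hκ N₁ cell₁ hcell₁
  obtain ⟨S2, p, h1, hsymm, hp, hcard, hmain⟩ := hcore Gam X μ Q S K hK r hr n hn κ hκ
  obtain ⟨N0, cl, hcl, hsep⟩ := exists_sep_classes S2 (fun g _ => hfro g)
  have hcm : Measurable fun x => (cl x : ℕ) := (measurable_of_countable _).comp hcl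
  have hsep' : ∀ x, ∀ y ∈ ball S2 x, (cl y : ℕ) = cl x → y = x := by
    intro x y hy hxy
    obtain ⟨g, hg, rfl⟩ := mem_ball.1 hy
    exact hsep g hg x (Fin.ext hxy)
  have hF1 : MeasF cell₁ := fun a => hcell₁ (measurableSet_singleton a)
  obtain ⟨N, own, w, L, hown, hw, hL⟩ := exists_lists (fun x => (cl x : ℕ)) hcm
    (fun x => (cl x).2) cell₁ hF1 (fun c x => Adm p S2 (fun x => (cl x : ℕ)) c x)
    (fun x c c' h => Adm_congr hp fun y _ hy => h y hy)
    (fun c hc a => measurableSet_Adm hp hcm hsep' hc a)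
    (fun c x => hcard _ c x)
  refine ⟨N, own, w, measurable_to_countable' hown, hw, L, fun c hc => ?_⟩
  refine hmain (fun x => (cl x : ℕ)) N0 hcm (fun x => (cl x).2) hsep' (fun x => c (own x))
    ((measurable_of_countable c).comp (measurable_to_countable' hown)) fun x => ?_
  have := hL c x
  rw [this]
  exact hc (own x)

end Crest.Agent.R109
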