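import Mathlib
import Crest.Agent.R109.Pure3
import Crest.Agent.R109.FinVol
import Crest.Agent.R109.Book6

/-!
# Row 109, module PURE STATE (4): (H4), the potential `H` of a decided state

`FinVol.H k x g W` is the potential of the finite window `W`.  For a decided state it is the sum over
`v ∈ W` of the local densities `dens`; with the tilted weights `gam` the densities are `pdens`.
-/

set_option autoImplicit false
set_option linter.unusedSectionVars false

namespace Crest.Agent.R109.Ann

open Finset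

section Window

variable {X : Type*} [DecidableEq X]

/-- **PURE STATE (H4)**: the potential of a decided state on the finite window `W` is the sum of the
local densities -/
theorem H_pure {r : ℕ} {x : X → X → ℂ} (hx : Herm x) {k : ℕ} (hk : 1 ≤ k) (c : X → Fin r)
    (a : X → ℝ) (W : Finset X) (ha : ∀ v ∈ W, 0 ≤ a v) (g : X → Fin r → ℝ)
    (hg : ∀ v ∈ W, g v = fun i => if i = c v then a v else 0) :
    FinVol.H k x g W = ∑ v ∈ W, dens k x c a W v := by
  rename_i hX
  obtain rfl : hX = fun a b => Classical.propDecidable (a = b) := Subsingleton.elim _ _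
  exact @coeff_pure_sum X (Fin r) (fun a b => Classical.propDecidable (a = b)) _ _ x hx k hk c a W
    ha g hg

end Window

section Gam

open MeasureTheory

variable {Gam X : Type*} [Group Gam] [MulAction Gam X] [MeasurableSpace X] {μ : Measure X}
  [DecidableEq X]

/-- local density of the potential of the decided state `c`, in the window `W`, at `v`, with the
weights normalised at the root `x` -/
noncomputable def pdens (Q : Book.QI Gam X μ) (T : X → X → ℂ) (k : ℕ) (β K0 : ℝ) {r : ℕ}
    (c : X → Fin r) (x v : X) (W : Finset X) : ℝ :=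
  dens k T c (fun w => (Q.rel x w) ^ ((1 : ℝ) / (2 * k)) * (1 / (K0 * β))) W v

theorem pdens_nonneg (Q : Book.QI Gam X μ) (T : X → X → ℂ) (k : ℕ) (β K0 : ℝ) {r : ℕ}
    (c : X → Fin r) (x v : X) (W : Finset X) : 0 ≤ pdens Q T k β K0 c x v W :=
  dens_nonneg _ _ _ _ _ _

/-- **H4, sum formula** (weights of `FinVol`) -/
theorem H_gam_pure (Q : Book.QI Gam X μ) {T : X → X → ℂ} (hT : Herm T) {k : ℕ} (hk : 1 ≤ k)
    {β K0 : ℝ} (hβ : 0 ≤ β) (hK : 0 ≤ K0) {r : ℕ} (c : X → Fin r) (x : X) (W : Finset X) :
    FinVol.H k T (FinVol.gam r β K0 k (Q.rel x) (fun w => some (c w))) W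
      = ∑ v ∈ W, pdens Q T k β K0 c x v W := by
  refine H_pure hT hk c _ W ?_ _ ?_
  · intro v _
    exact mul_nonneg (Real.rpow_nonneg (Q.rel_pos _ _).le _) (by positivity)
  · intro v _
    funext i
    simp only [FinVol.gam, FinVol.lev]
    split_ifs <;> simp

/-- **H4, sum formula** (weights of `Book6`) -/
theorem H_gam_pure' (Q : Book.QI Gam X μ) {T : X → X → ℂ} (hT : Herm T) {k : ℕ} (hk : 1 ≤ k)
    {β K0 : ℝ} (hβ : 0 ≤ β) (hK : 0 ≤ K0) {r : ℕ} (c : X → Fin r) (x : X) (W : Finset X) :
    FinVol.H k T (Book.gam Q k β K0 x (fun w => some (c w))) W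
      = ∑ v ∈ W, pdens Q T k β K0 c x v W := by
  refine H_pure hT hk c _ W ?_ _ ?_
  · intro v _
    exact mul_nonneg (Real.rpow_nonneg (Q.rel_pos _ _).le _) (by positivity)
  · intro v _
    funext i
    simp only [Book.gam, Book.lev]
    split_ifs <;> simp

/-- **H4, root change** -/
theorem pdens_root (Q : Book.QI Gam X μ) (T : X → X → ℂ) {k : ℕ} (hk : 1 ≤ k) (β K0 : ℝ) {r : ℕ}
    (c : X → Fin r) {x y : X} (hxy : Book.Rel Gam x y) (W : Finset X)
    (hW : ∀ w ∈ W, Book.Rel Gam x w) (v : X) :
    pdens Q T k β K0 c y v W = Q.rel y x * pdens Q T k β K0 c x v W :=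
  dens_root Q k hk T c _ hxy W hW v

open scoped Pointwise in
/-- **H4, locality**: range `k` in the set `S1` of moves -/
theorem pdens_loc [DecidableEq Gam] (Q : Book.QI Gam X μ) {T : X → X → ℂ} {S1 : Finset Gam}
    (h1 : (1 : Gam) ∈ S1) (hT : ∀ u w, T u w ≠ 0 → w ∈ Book.ball S1 u) (k : ℕ) (β K0 : ℝ) {r : ℕ}
    (c : X → Fin r) (x v : X) (W : Finset X) :
    pdens Q T k β K0 c x v W = pdens Q T k β K0 c x v (W ∩ Book.ball (S1 ^ k) v) := by
  refine dens_inter (x := T) k c _ W (Book.ball (S1 ^ k) v) v ?_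
  have := reach_ball_pow hT h1 v k
  convert this

end Gam

end Crest.Agent.R109.Ann
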