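import Crest.Agent.R109.FinVol

/-!
# The finite-volume potential `H`: basic properties (row 109, helper135)

`pol_extend` (deleting vertices of weight zero / relabelling), `H_congr`, `H_eq_Hf`, `H_smul`,
`H_update_zero`, `goodColours` (H1), `H_erase_le`, `H_start` (reduction of (H3)).
-/

set_option autoImplicit false
set_option linter.unusedSectionVars false

namespace Crest.Agent.R109.FinVol

open Finset Crest.Agent.R109.Ann Matrix

section Extend

variable {V V' K : Type*} [Fintype V] [DecidableEq V] [Fintype V'] [DecidableEq V']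
  [Fintype K] [DecidableEq K]

theorem det_N_extend {R : Type*} [CommRing R] (φ : V' → V) (hφ : Function.Injective φ)
    (x : V → V → R) (c : V' → Option K) :
    (N x (Function.extend φ c (fun _ => none))).det = (N (fun u w => x (φ u) (φ w)) c).det := by
  classical
  set M := N x (Function.extend φ c (fun _ => none)) with hM
  have hoff : ∀ v, v ∉ Set.range φ → Function.extend φ c (fun _ => none) v = none := by
    intro v hv
    exact Function.extend_apply' _ _ _ (fun ⟨a, ha⟩ => hv ⟨a, ha⟩)
  rw [Matrix.twoBlockTriangular_det M (fun v => v ∈ Set.range φ)]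
  · have h1 : (M.toSquareBlockProp fun i => ¬ i ∈ Set.range φ) = 1 := by
      ext ⟨i, hi⟩ ⟨j, hj⟩
      have hMi : M i j = if i = j then 1 else 0 := by
        simp [hM, N, hoff i hi]
      simp [Matrix.toSquareBlockProp, hMi, Matrix.one_apply]
    have h2 := Matrix.det_submatrix_equiv_self (Equiv.ofInjective φ hφ)
      (M.toSquareBlockProp (fun v => v ∈ Set.range φ))
    have h3 : (M.toSquareBlockProp (fun v => v ∈ Set.range φ)).submatrix
        (Equiv.ofInjective φ hφ) (Equiv.ofInjective φ hφ) = N (fun u w => x (φ u) (φ w)) c := by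
      ext u w
      have hMi : M (φ u) (φ w) = N (fun u w => x (φ u) (φ w)) c u w := by
        simp only [hM, N, Matrix.of_apply, hφ.extend_apply, hφ.eq_iff]
      exact hMi
    rw [h1, Matrix.det_one, mul_one, ← h3]
    convert h2.symm
  · intro i hi j hj
    have hij : i ≠ j := by rintro rfl; exact hi hj
    simp [hM, N, hoff i hi, hij]

theorem prod_sup (c : V → Option K) (y : Polynomial ℝ) :
    y ^ (Ann.sup c).card = ∏ v, if c v ≠ none then y else 1 := by
  rw [← Finset.prod_const, Ann.sup, Finset.prod_filter]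

theorem pol_extend (φ : V' → V) (hφ : Function.Injective φ) (x : V → V → ℂ) (γ : V → K → ℝ)
    (h0 : ∀ v, v ∉ Set.range φ → γ v = 0) :
    pol x γ = pol (fun u w => x (φ u) (φ w)) (fun v => γ (φ v)) := by
  classical
  rw [pol, pol, annD_apply, annD_apply]
  symm
  refine Fintype.sum_of_injective (fun c : V' → Option K => Function.extend φ c (fun _ => none))
    ?_ _ _ ?_ ?_
  · intro c c' h
    funext v
    have := congrFun h (φ v)
    simpa only [hφ.extend_apply] using this
  · intro c hc
    -- c is coloured somewhere off the range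
    have : ∃ v, v ∉ Set.range φ ∧ c v ≠ none := by
      by_contra hcon
      push Not at hcon
      apply hc
      refine ⟨fun v => c (φ v), ?_⟩
      funext v
      by_cases hv : v ∈ Set.range φ
      · obtain ⟨a, rfl⟩ := hv
        simp only [hφ.extend_apply]
      · change Function.extend φ (fun v => c (φ v)) (fun _ => none) v = c v
        rw [Function.extend_apply' _ _ _ (fun ⟨a, ha⟩ => hv ⟨a, ha⟩), hcon v hv]
    obtain ⟨v, hv, hcv⟩ := this
    rw [Finset.prod_eq_zero (Finset.mem_univ v), mul_zero]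
    cases hc' : c v with
    | none => exact absurd hc' hcv
    | some i => simp [h0 v hv]
  · intro c
    simp only [Dp]
    rw [det_N_extend φ hφ x c, prod_sup, prod_sup]
    congr 1
    · congr 1
      refine Fintype.prod_of_injective φ hφ _ _ ?_ ?_
      · intro v hv
        rw [Function.extend_apply' _ _ _ (fun ⟨a, ha⟩ => hv ⟨a, ha⟩)]
        simp
      · intro v; rw [hφ.extend_apply]
    · refine Fintype.prod_of_injective φ hφ _ _ ?_ ?_
      · intro v hv
        rw [Function.extend_apply' _ _ _ (fun ⟨a, ha⟩ => hv ⟨a, ha⟩)]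
        simp
      · intro v; rw [hφ.extend_apply]

theorem Hf_extend (k : ℕ) (φ : V' → V) (hφ : Function.Injective φ) (x : V → V → ℂ) (γ : V → K → ℝ)
    (h0 : ∀ v, v ∉ Set.range φ → γ v = 0) :
    Hf k x γ = Hf k (fun u w => x (φ u) (φ w)) (fun v => γ (φ v)) := by
  rw [Hf, Hf, pol_extend φ hφ x γ h0]

/-- relabelling -/
theorem Hf_equiv (k : ℕ) (e : V' ≃ V) (x : V → V → ℂ) (γ : V → K → ℝ) :
    Hf k (fun u w => x (e u) (e w)) (fun v => γ (e v)) = Hf k x γ :=
  (Hf_extend k e e.injective x γ (fun v hv => absurd (e.surjective v) hv)).symm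

end Extend

section Basic

variable {V K : Type*} [Fintype V] [DecidableEq V] [Fintype K] [DecidableEq K]

theorem RP_eq_pol {x : V → V → ℂ} (hx : Herm x) (γ : V → K → ℝ) : Lk.RP x γ = pol x γ := by
  apply Lk.map_inj
  apply Polynomial.funext
  intro y
  rw [Lk.eval_RP hx, eval_pol hx]

theorem P2_eq_Hf {x : V → V → ℂ} (hx : Herm x) (γ : V → K → ℝ) (k : ℕ) :
    Lk.P2 k x γ = Hf k x γ := by
  rw [Lk.P2, Hf, RP_eq_pol hx]

theorem coeff_qS_rescale (c : ℝ) (F : PowerSeries ℝ) (hF : PowerSeries.constantCoeff F = 0) (n : ℕ) :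
    PowerSeries.coeff n (qS (PowerSeries.rescale c F)) = c ^ n * PowerSeries.coeff n (qS F) := by
  have h0 : PowerSeries.constantCoeff (PowerSeries.rescale c F) = 0 := by
    rw [← PowerSeries.coeff_zero_eq_constantCoeff_apply, PowerSeries.coeff_rescale,
      PowerSeries.coeff_zero_eq_constantCoeff_apply, hF, mul_zero]
  rw [coeff_qS _ h0, coeff_qS _ hF, Finset.mul_sum]
  refine Finset.sum_congr rfl fun m _ => ?_
  rw [← map_pow, PowerSeries.coeff_rescale]
  ring

theorem pol_smul {x : V → V → ℂ} (hx : Herm x) (γ : V → K → ℝ) (c : ℝ) :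
    pol x (fun v i => c * γ v i) = (pol x γ).comp (Polynomial.C c * Polynomial.X) := by
  apply Lk.map_inj
  apply Polynomial.funext
  intro y
  rw [eval_pol hx, Polynomial.map_comp, Polynomial.eval_comp, Polynomial.map_mul,
    Polynomial.map_C, Polynomial.map_X, Polynomial.eval_mul, Polynomial.eval_C, Polynomial.eval_X,
    eval_pol hx]
  congr 1
  funext v i
  simp only [Complex.coe_algebraMap, Complex.ofReal_mul]
  ring

theorem coe_comp_rescale (p : Polynomial ℝ) (c : ℝ) :
    ((p.comp (Polynomial.C c * Polynomial.X) : Polynomial ℝ) : PowerSeries ℝ)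
      = PowerSeries.rescale c (p : PowerSeries ℝ) := by
  ext n
  rw [PowerSeries.coeff_rescale, Polynomial.coeff_coe, Polynomial.coeff_coe,
    Polynomial.comp_C_mul_X_coeff]
  ring

theorem constantCoeff_one_sub_pol_aux (x : V → V → ℂ) (γ : V → K → ℝ) :
    PowerSeries.constantCoeff (1 - ((pol x γ : Polynomial ℝ) : PowerSeries ℝ)) = 0 := by
  rw [map_sub, map_one, Polynomial.constantCoeff_coe, pol_coeff_zero, sub_self]

/-- homogeneity -/
theorem Hf_smul {x : V → V → ℂ} (hx : Herm x) (γ : V → K → ℝ) (c : ℝ) (k : ℕ) :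
    Hf k x (fun v i => c * γ v i) = c ^ (2 * k) * Hf k x γ := by
  rw [Hf, Hf, pol_smul hx, coe_comp_rescale, ← coeff_qS_rescale c _ (constantCoeff_one_sub_pol_aux x γ)]
  congr 2
  rw [map_sub, map_one]

end Basic

section Infinite

variable {X : Type*} {r : ℕ}

/-- `H` through an arbitrary injective enumeration `φ : V → X` with image `W` -/
theorem H_eq_Hf {V : Type*} [Fintype V] [DecidableEq V] (k : ℕ) (x : X → X → ℂ)
    (g : X → Fin r → ℝ) (W : Finset X) (φ : V → X) (hφ : Function.Injective φ)
    (hW : ∀ v, v ∈ W ↔ ∃ a, φ a = v) :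
    H k x g W = Hf k (fun u w => x (φ u) (φ w)) (fun v => g (φ v)) := by
  classical
  have h1 := Hf_equiv k (Equiv.ofBijective (fun a => (⟨φ a, (hW _).mpr ⟨a, rfl⟩⟩ : W))
    ⟨fun a b h => hφ (by simpa using congrArg Subtype.val h),
     fun ⟨v, hv⟩ => by
      obtain ⟨a, ha⟩ := (hW v).mp hv
      exact ⟨a, Subtype.ext ha⟩⟩) (fun u w : W => x u w) (fun (v : W) i => g v i)
  rw [H]
  convert h1.symm using 1
  rfl

theorem H_congr (k : ℕ) {x x' : X → X → ℂ} {g g' : X → Fin r → ℝ} {W : Finset X}
    (hx : ∀ u ∈ W, ∀ w ∈ W, x u w = x' u w) (hg : ∀ v ∈ W, g v = g' v) :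
    H k x g W = H k x' g' W := by
  classical
  rw [H, H]
  congr 1
  · funext u w; exact hx u u.2 w w.2
  · funext v; exact hg v v.2

theorem herm_restrict {x : X → X → ℂ} (hx : ∀ u w, x w u = (starRingEnd ℂ) (x u w)) (W : Finset X) :
    Herm (fun u w : W => x u w) := fun u w => hx u w

theorem H_smul (k : ℕ) {x : X → X → ℂ} (hx : Herm x) (g : X → Fin r → ℝ) (W : Finset X) (c : ℝ) :
    H k x (fun v i => c * g v i) W = c ^ (2 * k) * H k x g W := by
  classical
  rw [H, H, ← Hf_smul (herm_restrict hx W)]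

/-- vertices of weight zero may be removed -/
theorem H_subset (k : ℕ) (x : X → X → ℂ) (g : X → Fin r → ℝ) {W W' : Finset X} (hW : W' ⊆ W)
    (h0 : ∀ v ∈ W, v ∉ W' → g v = 0) : H k x g W = H k x g W' := by
  classical
  rw [H, H]
  refine Hf_extend k (fun v : W' => (⟨v.1, hW v.2⟩ : W)) ?_ _ _ ?_
  · intro a b h
    exact Subtype.ext (by simpa using congrArg Subtype.val h)
  · rintro ⟨v, hv⟩ hn
    have : v ∉ W' := fun h => hn ⟨⟨v, h⟩, rfl⟩
    have := h0 v hv this
    funext i
    exact congrFun this i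

open Classical in
/-- deleting a vertex -/
theorem H_erase (k : ℕ) (x : X → X → ℂ) (g : X → Fin r → ℝ) (W : Finset X) (v : X) :
    H k x (Function.update g v 0) W = H k x g (W.erase v) := by
  rw [H_subset k x (Function.update g v 0) (Finset.erase_subset v W)]
  · apply H_congr
    · intro u _ w _; rfl
    · intro w hw
      rw [Function.update_of_ne (Finset.ne_of_mem_erase hw)]
  · intro w hw hn
    have : w = v := by
      by_contra h
      exact hn (Finset.mem_erase.mpr ⟨h, hw⟩)
    subst this
    simp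

open Classical in
theorem update_restrict (g : X → Fin r → ℝ) (W : Finset X) (v : X) (hv : v ∈ W) (h : Fin r → ℝ) :
    (fun (w : W) i => Function.update g v h w i)
      = Function.update (fun (w : W) i => g w i) ⟨v, hv⟩ h := by
  funext w i
  by_cases hw : w.1 = v
  · have : w = ⟨v, hv⟩ := Subtype.ext hw
    subst this
    simp
  · have : w ≠ ⟨v, hv⟩ := fun h => hw (by rw [h])
    rw [Function.update_of_ne hw, Function.update_of_ne this]

open Classical in
/-- deleting a vertex does not increase `H` -/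
theorem H_erase_le [NeZero r] (k : ℕ) {x : X → X → ℂ} (hx : Herm x) (W : Finset X)
    (hd : ∀ v ∈ W, x v v = 0) (g : X → Fin r → ℝ) (hg : ∀ v ∈ W, ∀ i, 0 ≤ g v i) (v : X) :
    H k x g (W.erase v) ≤ H k x g W := by
  by_cases hv : v ∈ W
  · rw [← H_erase, H, H, update_restrict g W v hv]
    have h := Lk.P2_update_zero_le (herm_restrict hx W) (fun w => hd w w.2)
      (fun (w : W) i => g w i) (fun w i => hg w w.2 i) ⟨v, hv⟩ k (fun i => g v i)
      (fun i => hg v hv i)
    rw [P2_eq_Hf (herm_restrict hx W), P2_eq_Hf (herm_restrict hx W)] at h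
    have e : Function.update (fun (w : W) i => g w i) ⟨v, hv⟩ (fun i => g v i)
        = fun (w : W) i => g w i := by
      have := Function.update_eq_self (⟨v, hv⟩ : W) (fun (w : W) i => g w i)
      exact this
    rw [e] at h
    exact h
  · rw [Finset.erase_eq_of_notMem hv]

open Classical in
/-- **(H1)** at least half of the colours do not increase `H` (general `ρ` version). -/
theorem H_good [NeZero r] (k : ℕ) (hk : 1 ≤ k) {x : X → X → ℂ} (hx : Herm x) (W : Finset X)
    (hd : ∀ v ∈ W, x v v = 0) (g : X → Fin r → ℝ) (hg : ∀ v ∈ W, ∀ i, 0 ≤ g v i) (v : X)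
    (hv : v ∈ W) (u : ℝ) (hu : 0 ≤ u) (ρ : ℝ) (hρ : 0 < ρ) (K₀ : ℝ) (hK : 24 / ρ ≤ K₀) :
    (1 - ρ) * r ≤ ((univ : Finset (Fin r)).filter (fun a =>
      H k x (Function.update g v (fun i => if i = a then u / K₀ else 0)) W
        ≤ H k x (Function.update g v (fun _ => u / r)) W)).card := by
  have : Nonempty (Fin r) := ⟨⟨0, Nat.pos_of_ne_zero (NeZero.ne r)⟩⟩
  obtain ⟨good, h1, h2⟩ := Lk.one_vertex_uniform (herm_restrict hx W) (fun w => hd w w.2)
      (fun (w : W) i => g w i) (fun w i => hg w w.2 i) ⟨v, hv⟩ k hk u hu ρ hρ K₀ hK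
  rw [Fintype.card_fin] at h2 h1
  refine h2.trans ?_
  have : good ⊆ (univ : Finset (Fin r)).filter (fun a =>
      H k x (Function.update g v (fun i => if i = a then u / K₀ else 0)) W
        ≤ H k x (Function.update g v (fun _ => u / r)) W) := by
    intro a ha
    rw [Finset.mem_filter]
    refine ⟨Finset.mem_univ a, ?_⟩
    have h3 := h1 a ha
    rw [P2_eq_Hf (herm_restrict hx W), P2_eq_Hf (herm_restrict hx W)] at h3
    rw [H, H, update_restrict g W v hv, update_restrict g W v hv]
    exact h3
  exact_mod_cast Finset.card_le_card this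

open Classical in
theorem gam_update {β K₀ : ℝ} (k : ℕ) (h : X → ℝ) (s : X → Option (Fin r)) (v : X)
    (o : Option (Fin r)) :
    gam r β K₀ k h (Function.update s v o)
      = Function.update (gam r β K₀ k h s) v (fun i => h v ^ ((1 : ℝ) / (2 * k)) * lev r β K₀ o i) := by
  funext w i
  by_cases hw : w = v
  · subst hw; simp [gam]
  · simp [gam, Function.update_of_ne hw]

theorem lev_nonneg {β K₀ : ℝ} (hβ : 0 < β) (hK : 0 < K₀) (o : Option (Fin r)) (i : Fin r) :
    0 ≤ lev r β K₀ o i := by
  cases o with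
  | none => simp only [lev]; positivity
  | some c => simp only [lev]; split_ifs <;> positivity

theorem gam_nonneg {β K₀ : ℝ} (hβ : 0 < β) (hK : 0 < K₀) (k : ℕ) (h : X → ℝ) (hh : ∀ v, 0 ≤ h v)
    (s : X → Option (Fin r)) (v : X) (i : Fin r) : 0 ≤ gam r β K₀ k h s v i :=
  mul_nonneg (Real.rpow_nonneg (hh v) _) (lev_nonneg hβ hK _ _)

open Classical in
/-- **(H1)** for states -/
theorem H1 [NeZero r] (k : ℕ) (hk : 1 ≤ k) {x : X → X → ℂ} (hx : Herm x) (W : Finset X)
    (hd : ∀ v ∈ W, x v v = 0) (h : X → ℝ) (hh : ∀ v, 0 ≤ h v) (s : X → Option (Fin r)) (v : X)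
    (hv : v ∈ W) (hs : s v = none) (β : ℝ) (hβ : 0 < β) (K₀ : ℝ) (hK : 48 ≤ K₀) :
    r ≤ 2 * ((univ : Finset (Fin r)).filter (fun a =>
      H k x (gam r β K₀ k h (Function.update s v (some a))) W
        ≤ H k x (gam r β K₀ k h s) W)).card := by
  have hK0 : 0 < K₀ := by linarith
  set u : ℝ := h v ^ ((1 : ℝ) / (2 * k)) / β with hu
  have hu0 : 0 ≤ u := div_nonneg (Real.rpow_nonneg (hh v) _) hβ.le
  have h1 := H_good k hk hx W hd (gam r β K₀ k h s)
    (fun v _ i => gam_nonneg hβ hK0 k h hh s v i) v hv u hu0 (1 / 2) (by norm_num) K₀ (by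
      norm_num; exact hK)
  have e1 : ∀ a : Fin r, gam r β K₀ k h (Function.update s v (some a))
      = Function.update (gam r β K₀ k h s) v (fun i => if i = a then u / K₀ else 0) := by
    intro a
    rw [gam_update]
    congr 1
    funext i
    simp only [lev]
    split_ifs
    · rw [hu]; field_simp
    · ring
  have e2 : gam r β K₀ k h s = Function.update (gam r β K₀ k h s) v (fun _ => u / r) := by
    have : s = Function.update s v none := by
      rw [← hs, Function.update_eq_self]
    conv_lhs => rw [this]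
    rw [gam_update]
    congr 1
    funext i
    simp only [lev]
    have hr : (r : ℝ) ≠ 0 := by exact_mod_cast NeZero.ne r
    rw [hu]; field_simp
  simp only [e1]
  rw [← e2] at h1
  have h2 : (r : ℝ) ≤ 2 * ((univ : Finset (Fin r)).filter (fun a =>
      H k x (Function.update (gam r β K₀ k h s) v (fun i => if i = a then u / K₀ else 0)) W
        ≤ H k x (gam r β K₀ k h s) W)).card := by
    linarith
  exact_mod_cast h2

open Classical in
/-- reduction of **(H3)**: start bound from the absence of small zeros -/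
theorem H_start [NeZero r] (k : ℕ) (hk : 1 ≤ k) {x : X → X → ℂ} (hx : Herm x) (W : Finset X)
    (hd : ∀ v ∈ W, x v v = 0) (g : X → Fin r → ℝ) (hg : ∀ v ∈ W, ∀ i, 0 ≤ g v i) (v : X)
    (R : ℝ) (hR : 0 < R)
    (hroot : ∀ y : ℝ, |y| * R < 1 →
      (pol (fun u w : W => x u w) (fun (v : W) i => g v i)).eval y ≠ 0) :
    H k x g W - H k x g (W.erase v) ≤ 2 * R ^ (2 * k) := by
  have : Nonempty (Fin r) := ⟨⟨0, Nat.pos_of_ne_zero (NeZero.ne r)⟩⟩
  by_cases hv : v ∈ W
  · have e : Function.update (fun (w : W) i => g w i) ⟨v, hv⟩ (fun i => g v i)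
        = fun (w : W) i => g w i := by
      have := Function.update_eq_self (⟨v, hv⟩ : W) (fun (w : W) i => g w i)
      exact this
    have h1 := Lk.P2_start (herm_restrict hx W) (fun w => hd w w.2)
      (fun (w : W) i => g w i) (fun w i => hg w w.2 i) ⟨v, hv⟩ k hk (fun i => g v i)
      (fun i => hg v hv i) R hR (by
        intro y hy
        rw [e, RP_eq_pol (herm_restrict hx W)]
        exact hroot y hy)
    rw [e, P2_eq_Hf (herm_restrict hx W), P2_eq_Hf (herm_restrict hx W)] at h1
    rw [← H_erase, H, H, update_restrict g W v hv]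
    exact h1
  · rw [Finset.erase_eq_of_notMem hv, sub_self]
    positivity

end Infinite

end Crest.Agent.R109.FinVol
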