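import Crest.Agent.R109.StartInc
import Crest.Agent.R109.FinVolA

/-!
# Start increment, Finset form (row 109, module p4 / (H3))

`H k x g W - H k x g (W.erase v) ≤ 2 · 4^(-k)` for the undecided state with weights
`g w i = a w / r`, `0 < a w`, `2 b₀ a w ≤ 1`, `b₀ = 2√2/√r`.
-/

set_option autoImplicit false

namespace Crest.Agent.R109.StartInc

open Matrix Finset Polynomial Crest.Agent.R109 Crest.Agent.R109.Ann Crest.Agent.R109.Lk
  Crest.Agent.R109.FinVol
open scoped ComplexOrder Classical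

variable {X : Type*} {r : ℕ}

/-- no real zero of the undecided state in `(-2,2)` -/
theorem pol_start_ne_zero' (hr : 2 < r) {x : X → X → ℂ} (hx : Herm x) (W : Finset X)
    (h1 : (1 - (Matrix.of fun u w : W => x u w)).PosSemidef)
    (h2 : (1 + (Matrix.of fun u w : W => x u w)).PosSemidef) (h0 : ∀ v ∈ W, x v v = 0)
    (g : X → Fin r → ℝ) (a : X → ℝ) (hg : ∀ w ∈ W, ∀ i, g w i = a w / r)
    (ha : ∀ w ∈ W, 0 < a w) (hb : ∀ w ∈ W, a w * (2 * (2 * Real.sqrt 2 / Real.sqrt r)) ≤ 1)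
    (y : ℝ) (hy : |y| < 2) :
    (pol (fun u w : W => x u w) (fun (v : W) i => g v i)).eval y ≠ 0 := by
  have hxW : Herm (fun u w : W => x u w) := fun u w => hx u w
  have e : (fun (v : W) i => g v i) = fun (v : W) (_ : Fin r) => a v / r := by
    funext v i
    exact hg v v.2 i
  have key := RP_unif_ne_zero hr hxW h1 h2 (fun v => h0 v v.2) (fun v : W => a v)
    (fun v => ha v v.2) (fun v => hb v v.2) y hy
  rw [e, ← FinVol.RP_eq_pol hxW]
  exact key

/-- **(H3)** start increment on finite subsets of `X` -/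
theorem H_start_increment (hr : 2 < r) (k : ℕ) (hk : 1 ≤ k) {x : X → X → ℂ} (hx : Herm x)
    (W : Finset X) (h1 : (1 - (Matrix.of fun u w : W => x u w)).PosSemidef)
    (h2 : (1 + (Matrix.of fun u w : W => x u w)).PosSemidef) (h0 : ∀ v ∈ W, x v v = 0)
    (g : X → Fin r → ℝ) (a : X → ℝ) (hg : ∀ w ∈ W, ∀ i, g w i = a w / r)
    (ha : ∀ w ∈ W, 0 < a w) (hb : ∀ w ∈ W, a w * (2 * (2 * Real.sqrt 2 / Real.sqrt r)) ≤ 1)
    (v : X) : H k x g W - H k x g (W.erase v) ≤ 2 * (1 / 4 : ℝ) ^ k := by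
  have : NeZero r := ⟨by omega⟩
  have h := H_start k hk hx W h0 g
    (fun w hw i => by rw [hg w hw i]; exact div_nonneg (ha w hw).le (Nat.cast_nonneg r))
    v (1 / 2) (by norm_num) (fun y hy =>
      pol_start_ne_zero' hr hx W h1 h2 h0 g a hg ha hb y (by linarith))
  have e2 : (1 / 2 : ℝ) ^ (2 * k) = (1 / 4) ^ k := by
    rw [pow_mul]; norm_num
  rwa [e2] at h

/-- **(H3)** for the undecided state at the level `β = 2 b₀`, masses `h w ≤ 1` -/
theorem H_start_gam (hr : 2 < r) (k : ℕ) (hk : 1 ≤ k) {x : X → X → ℂ} (hx : Herm x)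
    (W : Finset X) (h1 : (1 - (Matrix.of fun u w : W => x u w)).PosSemidef)
    (h2 : (1 + (Matrix.of fun u w : W => x u w)).PosSemidef) (h0 : ∀ v ∈ W, x v v = 0)
    (K₀ : ℝ) (h : X → ℝ) (hpos : ∀ w ∈ W, 0 < h w) (hle : ∀ w ∈ W, h w ≤ 1)
    (s : X → Option (Fin r)) (hs : ∀ w ∈ W, s w = none) (v : X) :
    H k x (gam r (2 * (2 * Real.sqrt 2 / Real.sqrt r)) K₀ k h s) W
      - H k x (gam r (2 * (2 * Real.sqrt 2 / Real.sqrt r)) K₀ k h s) (W.erase v)
      ≤ 2 * (1 / 4 : ℝ) ^ k := by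
  have hr0 : (0 : ℝ) < r := by exact_mod_cast (by omega : 0 < r)
  have hb : 0 < 2 * (2 * Real.sqrt 2 / Real.sqrt r) := by positivity
  refine H_start_increment hr k hk hx W h1 h2 h0 _
    (fun w => h w ^ ((1 : ℝ) / (2 * k)) / (2 * (2 * Real.sqrt 2 / Real.sqrt r))) ?_ ?_ ?_ v
  · intro w hw i
    rw [gam, hs w hw, lev]
    generalize 2 * (2 * Real.sqrt 2 / Real.sqrt r) = β at hb ⊢
    field_simp
  · intro w hw
    exact div_pos (Real.rpow_pos_of_pos (hpos w hw) _) hb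
  · intro w hw
    rw [div_mul_cancel₀ _ hb.ne']
    exact Real.rpow_le_one (hpos w hw).le (hle w hw) (by positivity)

end Crest.Agent.R109.StartInc
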