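import Crest.Agent.R109.Book6
import Crest.Agent.R109.MeasListOf
import Crest.Agent.R109.HMeas
import Crest.Agent.R109.ClusterB
import Crest.Agent.R109.FinVolB
import Crest.Agent.R109.StartIncH
import Crest.Agent.R109.Pure4
import Crest.Agent.R109.CartDens

/-!
# Row 109: the core of the Cartan colouring theorem

From the finite volume modules (`FinVol.H`: homogeneity, clusters, good colours, start increment,
pure state) and BOOK (selection, density, END): every measurable colouring which respects the
admissible lists has small pinched moments.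
-/

set_option autoImplicit false
set_option linter.unusedSectionVars false

open MeasureTheory
open scoped ENNReal ComplexConjugate Pointwise ComplexOrder

namespace Crest.Agent.R109.Book

section Core

variable {Gam X : Type*} [Group Gam] [MulAction Gam X] [MeasurableSpace X] {μ : Measure X}

/-! ### the family of potentials -/

theorem hIn_of {Q : QI Gam X μ} {S : Finset Gam} {K : X → X → ℂ} (hK : KSys Q S K) (k r : ℕ) :
    HIn Q S k (fun g : X → Fin r → ℝ => FinVol.H k K g) :=
  Cluster.hIn Q S k (fun u w => hK.herm u w) hK.band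

/-- the family of potentials -/
noncomputable def pot (Q : QI Gam X μ) (K : X → X → ℂ) (k : ℕ) (β K0 : ℝ) {r : ℕ}
    (s : X → Option (Fin r)) (x : X) (W : Finset X) : ℝ :=
  FinVol.H k K (gam Q k β K0 x s) W

theorem fvs_pot [DecidableEq Gam] {Q : QI Gam X μ} {S : Finset Gam} {K : X → X → ℂ}
    (hK : KSys Q S K) {k : ℕ} (hk : 1 ≤ k) {r : ℕ} {β K0 : ℝ} (hβ : 0 < β) (hK0 : 0 < K0) :
    FVS Q (S ^ (2 * k)) (pot Q K k β K0 (r := r)) :=
  fvs_of hK.one_mem hk (hIn_of hK k r) hβ hK0 (fun _ hs => measK_H Q hK.gauge k β K0 hs)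
    (fun s _ => bdd_H Q hK.bd k β K0 s _)

open Classical in
theorem good_pot {Q : QI Gam X μ} {S S2 : Finset Gam} {K : X → X → ℂ} (hK : KSys Q S K) {k : ℕ}
    (hk : 1 ≤ k) {r : ℕ} [NeZero r] {β K0 : ℝ} (hβ : 0 < β) (hK0 : 48 ≤ K0)
    (h1 : (1 : Gam) ∈ S2)
    (s : X → Option (Fin r)) (x : X) (hs : s x = none) :
    (r + 1) / 2 ≤ (Finset.univ.filter fun a : Fin r =>
        pot Q K k β K0 (Function.update s x (some a)) x (ball S2 x)
          ≤ pot Q K k β K0 s x (ball S2 x)).card := by
  have hK0' : 0 < K0 := by linarith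
  have key := FinVol.H_good_nat k hk (fun u w => hK.herm u w) (ball S2 x)
    (fun v _ => hK.diag v) (gam Q k β K0 x s) (fun w _ i => gam_nonneg Q k hβ hK0' x s w i)
    x (self_mem_ball h1 x) (1 / β) (by positivity) K0 hK0 (r := r)
  have e1 : ∀ a : Fin r, Function.update (gam Q k β K0 x s) x (fun i => if i = a then 1 / β / K0
      else 0) = gam Q k β K0 x (Function.update s x (some a)) := by
    intro a
    funext w i
    by_cases hw : w = x
    · subst hw
      simp only [gam, Function.update_self, Q.rel_self, Real.one_rpow, one_mul, lev]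
      by_cases hi : i = a
      · rw [if_pos hi, if_pos hi]
        field_simp
      · rw [if_neg hi, if_neg hi]
    · simp only [gam, Function.update_of_ne hw]
  have e2 : Function.update (gam Q k β K0 x s) x (fun _ => 1 / β / r) = gam Q k β K0 x s := by
    funext w i
    by_cases hw : w = x
    · subst hw
      simp only [gam, Function.update_self, Q.rel_self, Real.one_rpow, one_mul, hs, lev]
      rw [div_div, mul_comm]
    · simp only [Function.update_of_ne hw]
  have key' : r ≤ 2 * (Finset.univ.filter fun a : Fin r =>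
      pot Q K k β K0 (Function.update s x (some a)) x (ball S2 x)
        ≤ pot Q K k β K0 s x (ball S2 x)).card := by
    have hiff : ∀ a : Fin r, (FinVol.H k K (Function.update (gam Q k β K0 x s) x
        (fun i => if i = a then 1 / β / K0 else 0)) (ball S2 x)
          ≤ FinVol.H k K (Function.update (gam Q k β K0 x s) x (fun _ => 1 / β / r)) (ball S2 x))
        ↔ (pot Q K k β K0 (Function.update s x (some a)) x (ball S2 x)
          ≤ pot Q K k β K0 s x (ball S2 x)) := by
      intro a
      rw [e1 a, e2]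
      exact Iff.rfl
    have hc := congrArg Finset.card (Finset.filter_congr (s := (Finset.univ : Finset (Fin r)))
      fun a _ => hiff a)
    rw [← hc]
    exact key
  omega

/-! ### start -/

theorem start_pot {Q : QI Gam X μ} {S : Finset Gam} {K : X → X → ℂ} (hK : KSys Q S K) {k : ℕ}
    (hk : 1 ≤ k) {r : ℕ} (hr : 2 < r) {K0 : ℝ} {β : ℝ}
    (hβ : β = 2 * (2 * Real.sqrt 2 / Real.sqrt r)) (x : X) (W : Finset X)
    (hW : ∀ w ∈ W, Q.rel x w ≤ 1) [DecidableEq X] :
    pot Q K k β K0 (fun _ => (none : Option (Fin r))) x W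
      - pot Q K k β K0 (fun _ => (none : Option (Fin r))) x (W.erase x) ≤ 2 * (1 / 4) ^ k := by
  classical
  have hr0 : (0 : ℝ) < r := by exact_mod_cast (by omega : 0 < r)
  have hβ0 : 0 < β := by rw [hβ]; positivity
  have key := StartInc.H_start_increment hr k hk (fun u w => hK.herm u w) W (hK.sub W) (hK.add W)
    (fun v _ => hK.diag v) (gam Q k β K0 x (fun _ => (none : Option (Fin r))))
    (fun w => (Q.rel x w) ^ (1 / (2 * (k : ℝ))) * (1 / β)) ?_
    (fun w _ => mul_pos (Real.rpow_pos_of_pos (Q.rel_pos _ _) _) (by positivity)) ?_ x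
  · simp only [pot]
    convert key
  · intro w hw i
    simp only [gam, lev]
    field_simp
  · intro w hw
    rw [← hβ, mul_assoc, one_div_mul_cancel hβ0.ne', mul_one]
    exact Real.rpow_le_one (Q.rel_pos _ _).le (hW w hw) (by positivity)

/-! ### the pure state -/

theorem measF_some {r : ℕ} {c : X → Fin r} (hc : Measurable c) :
    MeasF fun x => (some (c x) : Option (Fin r)) := by
  intro a
  cases a with
  | none => simp
  | some a =>
    have : {x | (some (c x) : Option (Fin r)) = some a} = c ⁻¹' {a} := by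
      ext x; simp
    rw [this]
    exact hc (measurableSet_singleton a)

theorem phi_pot [IsFiniteMeasure μ] [DecidableEq Gam] {Q : QI Gam X μ} {S : Finset Gam}
    {K : X → X → ℂ} (hK : KSys Q S K) {k : ℕ} (hk : 1 ≤ k) {r : ℕ} {β K0 : ℝ} (hβ : 0 < β)
    (hK0 : 0 < K0) {c : X → Fin r} (hc : Measurable c) :
    Phi μ (S ^ (2 * k)) (pot Q K k β K0 fun x => some (c x))
      = ∫ x, den Q K k (1 / (K0 * β)) c x x (ball (S ^ (2 * k)) x) ∂μ := by
  classical
  have hl : 0 ≤ 1 / (K0 * β) := by positivity
  have hfv := (fvs_pot hK hk hβ hK0 (r := r)).fv (fun x => some (c x)) (measF_some hc)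
  have hsum : ∀ x W, pot Q K k β K0 (fun x => some (c x)) x W
      = ∑ v ∈ W, den Q K k (1 / (K0 * β)) c x v W := by
    intro x W
    have h1 := Ann.H_pure (fun u w => hK.herm u w) hk c (wgt Q k (1 / (K0 * β)) x) W
      (fun w _ => wgt_nonneg Q k hl x w) (gam Q k β K0 x fun x => some (c x)) ?_
    · rw [pot, h1]
      refine Finset.sum_congr rfl fun v hv => ?_
      rw [den, if_pos hv]
    · intro w _
      funext i
      simp only [gam, lev, wgt]
      split_ifs <;> simp
  refine phi_eq_density (S0 := S ^ k) (Finset.one_mem_pow hK.one_mem) (inv_mem_pow hK.symm _)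
    (mul_inv_mem_pow hK.symm k) hfv (den Q K k (1 / (K0 * β)) c) (fun x W _ => hsum x W)
    (fun x y v W hxy hW _ => den_cov Q K hk _ c hxy hW) (fun x v W _ hv => ?_)
    (measK_den Q hK.herm hK.cw k _ hc) ?_ (Finset.one_mem_pow hK.one_mem)
  · convert den_loc Q hK.one_mem hK.band k (1 / (K0 * β)) c x v W hv
  · obtain ⟨C, hC⟩ := hfv.bdd
    refine ⟨max C 0, fun x W hW => ?_⟩
    rw [abs_of_nonneg (den_nonneg _ _ _ _ _ _ _ _)]
    by_cases hx : x ∈ W
    · refine le_trans ?_ ((le_abs_self _).trans ((hC x W hW).trans (le_max_left _ _)))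
      rw [hsum x W]
      exact Finset.single_le_sum (f := fun v => den Q K k (1 / (K0 * β)) c x v W)
        (fun v _ => den_nonneg _ _ _ _ _ _ _ _) hx
    · rw [den, if_neg hx]
      exact le_max_right _ _

theorem eq_mul_of_eq_mul_aux {a b M D : ℝ} (e1 : D = b * M) (e2 : a * b = 1) : M = a * D := by
  rw [e1, ← mul_assoc, e2, one_mul]

/-- **CORE**: the family of potentials, its admissible lists, and the moment bound -/
theorem cart_core [IsProbabilityMeasure μ] (Q : QI Gam X μ) (S : Finset Gam) (K : X → X → ℂ)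
    (hK : KSys Q S K) {r : ℕ} (hr : 100 ≤ r) {n : ℕ} (hn : 1 ≤ n) {κ : ℝ} (hκ : 0 < κ) :
    ∃ (S2 : Finset Gam) (p : (X → Option (Fin r)) → X → Finset X → ℝ),
      (1 : Gam) ∈ S2 ∧ (∀ g ∈ S2, g⁻¹ ∈ S2) ∧ FVS Q S2 p ∧
      (∀ (cls : X → ℕ) (c : X → Fin r) (x : X), r ≤ 2 * (Adm p S2 cls c x).card) ∧
      ∀ (cls : X → ℕ) (N : ℕ), Measurable cls → (∀ x, cls x < N) →
        (∀ x, ∀ y ∈ ball S2 x, cls y = cls x → y = x) →
        ∀ c : X → Fin r, Measurable c → (∀ x, c x ∈ Adm p S2 cls c x) →
          ∫ x, (kp S (pin c (fun _ => K) x) (2 * n) x x).re ∂μ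
            ≤ (500 / Real.sqrt r) ^ (2 * n) + κ := by
  classical
  obtain ⟨J, hJ⟩ := book_end Q S (fun _ => K) (fun _ v w => hK.herm v w)
    (fun _ v w => hK.band v w) (fun _ v w => hK.bd v w) hK.cw n κ hκ
  set k : ℕ := 2 ^ J * n with hkdef
  have hk : 1 ≤ k := Nat.mul_pos (Nat.two_pow_pos J) hn
  have : NeZero r := ⟨by omega⟩
  have hr0 : (0 : ℝ) < r := by exact_mod_cast (by omega : 0 < r)
  have hsr : 0 < Real.sqrt r := Real.sqrt_pos.2 hr0
  set β : ℝ := 2 * (2 * Real.sqrt 2 / Real.sqrt r) with hβdef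
  have hβ : 0 < β := by positivity
  have hS1 : (1 : Gam) ∈ S ^ (2 * k) := Finset.one_mem_pow hK.one_mem
  have hSi : ∀ g ∈ S ^ (2 * k), g⁻¹ ∈ S ^ (2 * k) := inv_mem_pow hK.symm _
  have hfvs : FVS Q (S ^ (2 * k)) (pot Q K k β 48 (r := r)) :=
    fvs_pot hK hk hβ (by norm_num)
  refine ⟨S ^ (2 * k), pot Q K k β 48, hS1, hSi, hfvs, ?_, ?_⟩
  · intro cls c x
    have := card_Adm (S := S ^ (2 * k)) (cls := cls) (m := (r + 1) / 2)
      (p := pot Q K k β 48 (r := r)) (fun s x hs => by
        convert good_pot hK hk hβ le_rfl hS1 s x hs) c x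
    omega
  · intro cls N hcm hN hsep c hc hadm
    have hcF : MeasF c := fun a => hc (measurableSet_singleton a)
    have he : (0 : ℝ) ≤ 2 * (1 / 4) ^ k := by positivity
    have hsel := selection hSi hfvs hcm hN hsep he (fun x W _ _ hW => by
      convert start_pot hK hk (by omega) hβdef x W hW) hcF hadm
    rw [phi_pot hK hk hβ (by norm_num) hc, probReal_univ, mul_one] at hsel
    have hB : (0 : ℝ) < 500 / Real.sqrt r := by positivity
    have hS' : ∀ l : List Gam, l.length ≤ 2 * (2 ^ J * n) → (∀ g ∈ l, g ∈ S) →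
        l.prod ∈ S ^ (2 * k) := by
      intro l hl hlS
      have h1 : l.prod ∈ S ^ l.length := by
        clear hl
        induction l with
        | nil => simp
        | cons a l ih =>
          rw [List.prod_cons, List.length_cons, pow_succ']
          exact Finset.mul_mem_mul (hlS a (by simp))
            (ih fun g hg => hlS g (List.mem_cons_of_mem _ hg))
      exact Finset.pow_subset_pow_right hK.one_mem hl h1
    refine (hJ J le_rfl r c hc _ hB (S ^ (2 * k)) hS' ?_).2.trans (le_of_eq ?_)
    · have hl : (0 : ℝ) ≤ 1 / (48 * β) := by positivity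
      have hle : ∀ x, ((mat (tilt Q k (pin c fun _ => K) x) (ball (S ^ (2 * k)) x) ^ (2 * k))
          ⟨x, (near_ball S (S ^ (2 * k)) _ hS' x).mem⟩
          ⟨x, (near_ball S (S ^ (2 * k)) _ hS' x).mem⟩).re
          = (48 * β) ^ (2 * k) * den Q K k (1 / (48 * β)) c x x (ball (S ^ (2 * k)) x) := by
        intro x
        have e1 := den_eq_tilt Q hK.herm k hl c x _ (near_ball S (S ^ (2 * k)) _ hS' x).mem
        have e2 : (48 * β) ^ (2 * k) * (1 / (48 * β)) ^ (2 * k) = 1 := by
          rw [← mul_pow, mul_one_div_cancel (by positivity), one_pow]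
        exact eq_mul_of_eq_mul_aux e1 e2
      simp only [← hkdef]
      rw [integral_congr_ae (Filter.Eventually.of_forall hle), integral_const_mul, probReal_univ,
        one_mul]
      refine (mul_le_mul_of_nonneg_left hsel (by positivity)).trans ?_
      have h2 : (2 : ℝ) ≤ 2 ^ (2 * k) := by
        calc (2 : ℝ) = 2 ^ 1 := by norm_num
          _ ≤ 2 ^ (2 * k) := pow_le_pow_right₀ (by norm_num) (by omega)
      have h3 : (48 * β) ^ (2 * k) * (2 * (1 / 4) ^ k) ≤ (48 * β) ^ (2 * k) := by
        have h4 : (2 : ℝ) * (1 / 4) ^ k ≤ 1 := by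
          have : (1 / 4 : ℝ) ^ k = 1 / 2 ^ (2 * k) := by
            rw [one_div_pow, pow_mul 2 2 k, show (2 : ℝ) ^ 2 = 4 by norm_num]
          rw [this, mul_one_div, div_le_one (by positivity)]
          exact h2
        calc (48 * β) ^ (2 * k) * (2 * (1 / 4) ^ k) ≤ (48 * β) ^ (2 * k) * 1 :=
              mul_le_mul_of_nonneg_left h4 (by positivity)
          _ = _ := mul_one _
      refine h3.trans (pow_le_pow_left₀ (by positivity) ?_ _)
      rw [hβdef]
      have h5 : Real.sqrt 2 ≤ 3 / 2 := by
        rw [Real.sqrt_le_left (by norm_num)]; norm_num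
      have h6 : 48 * (2 * (2 * Real.sqrt 2 / Real.sqrt r)) = (192 * Real.sqrt 2) / Real.sqrt r := by
        ring
      rw [h6]
      gcongr
      linarith
    · rw [probReal_univ, one_mul]

end Core

end Crest.Agent.R109.Book

namespace Crest.Agent.R109

open Crest.Agent.R109.Book

universe u

theorem cartCore : CartCoreProp.{u} := by
  intro Gam X _ _ _ μ _ Q S K hK r hr n hn κ hκ
  exact cart_core Q S K hK hr hn hκ

/-- **the measured list theorem** -/
theorem measList : MeasListProp.{u} := measList_of cartCore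

end Crest.Agent.R109
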