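import Crest.Agent.R109.Frolik

/-!
# Row 109: the algebra `N0 = span (A · UN)` of banded operators

Every normalising partial isometry with bounded Radon-Nikodym derivatives is banded.
-/

set_option autoImplicit false
set_option linter.unusedSectionVars false

namespace Crest.Agent.R109

open scoped InnerProductSpace
open ContinuousLinearMap

universe u

variable {H : Type u} [NormedAddCommGroup H] [InnerProductSpace ℂ H] [CompleteSpace H]
variable {M : VonNeumannAlgebra H} {A : StarSubalgebra ℂ (H →L[ℂ] H)} {η : H}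

/-- finite sums of `a * w`, `a ∈ A`, `w ∈ UN` -/
def N0 (M : VonNeumannAlgebra H) (A : StarSubalgebra ℂ (H →L[ℂ] H)) (η : H) :
    Submodule ℂ (H →L[ℂ] H) :=
  Submodule.span ℂ {y | ∃ a ∈ A, ∃ w : UN M A η, y = a * w.op}

lemma UN.gn (w : UN M A η) : GN M A w.op :=
  GN.of_unitary w.mem w.star_mul_self (fun _ ha => w.conj ha) (fun _ ha => w.conj' ha)

namespace N0

lemma mul_op_mem {a : H →L[ℂ] H} (ha : a ∈ A) (w : UN M A η) : a * w.op ∈ N0 M A η :=
  Submodule.subset_span ⟨a, ha, w, rfl⟩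

lemma of_A {a : H →L[ℂ] H} (ha : a ∈ A) : a ∈ N0 M A η := by
  have := mul_op_mem (M := M) (η := η) ha (1 : UN M A η)
  rwa [UN.op_one, mul_one] at this

lemma op_mem (w : UN M A η) : w.op ∈ N0 M A η := by
  have := mul_op_mem (M := M) (η := η) (one_mem A) w
  rwa [one_mul] at this

lemma op_mul_mem {a : H →L[ℂ] H} (ha : a ∈ A) (w : UN M A η) : w.op * a ∈ N0 M A η := by
  have h1 : w.op * a = (w.op * a * star w.op) * w.op := by
    rw [mul_assoc (w.op * a), w.star_mul_self, mul_one]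
  rw [h1]
  exact mul_op_mem (w.conj ha) w

lemma le (hA : Masa M A) {y : H →L[ℂ] H} (hy : y ∈ N0 M A η) : y ∈ M := by
  refine Submodule.span_induction (p := fun y _ => y ∈ M) ?_ ?_ ?_ ?_ hy
  · rintro _ ⟨a, ha, w, rfl⟩
    exact mul_mem (hA.le ha) w.mem
  · exact zero_mem M
  · intro y1 y2 _ _ h1 h2
    exact add_mem h1 h2
  · intro c y1 _ h1
    have h2 : c • y1 ∈ M.toStarSubalgebra := SMulMemClass.smul_mem c h1
    exact h2

lemma mul_mem' {x y : H →L[ℂ] H} (hx : x ∈ N0 M A η) (hy : y ∈ N0 M A η) : x * y ∈ N0 M A η := by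
  refine Submodule.span_induction (p := fun x _ => x * y ∈ N0 M A η) ?_ ?_ ?_ ?_ hx
  · rintro _ ⟨a, ha, w, rfl⟩
    refine Submodule.span_induction (p := fun y _ => a * w.op * y ∈ N0 M A η) ?_ ?_ ?_ ?_ hy
    · rintro _ ⟨b, hb, v, rfl⟩
      have h1 : a * w.op * (b * v.op) = (a * (w.op * b * star w.op)) * (w * v).op := by
        rw [UN.op_mul]
        calc a * w.op * (b * v.op) = a * w.op * b * (1 * v.op) := by
              rw [one_mul]; simp only [mul_assoc]
          _ = a * w.op * b * ((star w.op * w.op) * v.op) := by rw [w.star_mul_self]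
          _ = _ := by simp only [mul_assoc]
      rw [h1]
      exact mul_op_mem (mul_mem ha (w.conj hb)) _
    · rw [mul_zero]; exact zero_mem _
    · intro y1 y2 _ _ h1 h2
      rw [mul_add]; exact add_mem h1 h2
    · intro c y1 _ h1
      rw [mul_smul_comm]; exact Submodule.smul_mem _ c h1
  · rw [zero_mul]; exact zero_mem _
  · intro y1 y2 _ _ h1 h2
    rw [add_mul]; exact add_mem h1 h2
  · intro c y1 _ h1
    rw [smul_mul_assoc]; exact Submodule.smul_mem _ c h1

lemma star_mem' {x : H →L[ℂ] H} (hx : x ∈ N0 M A η) : star x ∈ N0 M A η := by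
  refine Submodule.span_induction (p := fun x _ => star x ∈ N0 M A η) ?_ ?_ ?_ ?_ hx
  · rintro _ ⟨a, ha, w, rfl⟩
    rw [star_mul]
    have := op_mul_mem (M := M) (η := η) (star_mem ha) w⁻¹
    rwa [UN.op_inv] at this
  · rw [star_zero]; exact zero_mem _
  · intro y1 y2 _ _ h1 h2
    rw [star_add]; exact add_mem h1 h2
  · intro c y1 _ h1
    rw [star_smul]; exact Submodule.smul_mem _ _ h1

/-- `N0` as a star subalgebra -/
def alg (M : VonNeumannAlgebra H) (A : StarSubalgebra ℂ (H →L[ℂ] H)) (η : H) :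
    StarSubalgebra ℂ (H →L[ℂ] H) where
  carrier := N0 M A η
  mul_mem' := mul_mem'
  one_mem' := of_A (one_mem A)
  add_mem' := add_mem
  zero_mem' := zero_mem _
  algebraMap_mem' := fun c => of_A (A.algebraMap_mem c)
  star_mem' := star_mem'

@[simp] lemma mem_alg {x : H →L[ℂ] H} : x ∈ alg M A η ↔ x ∈ N0 M A η := Iff.rfl

/-- finite expansion over distinct group elements -/
lemma exists_finset {y : H →L[ℂ] H} (hy : y ∈ N0 M A η) :
    ∃ (S : Finset (UN M A η)) (a : UN M A η → H →L[ℂ] H), (∀ w, a w ∈ A) ∧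
      (∀ w ∉ S, a w = 0) ∧ y = ∑ w ∈ S, a w * w.op := by
  classical
  refine Submodule.span_induction (p := fun y _ => ∃ (S : Finset (UN M A η))
    (a : UN M A η → H →L[ℂ] H), (∀ w, a w ∈ A) ∧ (∀ w ∉ S, a w = 0) ∧
      y = ∑ w ∈ S, a w * w.op) ?_ ?_ ?_ ?_ hy
  · rintro _ ⟨a, ha, w, rfl⟩
    refine ⟨{w}, fun v => if v = w then a else 0, ?_, ?_, ?_⟩
    · intro v
      beta_reduce
      split_ifs
      exacts [ha, zero_mem A]
    · intro v hv
      exact if_neg (by simpa using hv)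
    · simp
  · exact ⟨∅, fun _ => 0, fun _ => zero_mem A, fun _ _ => rfl, by simp⟩
  · rintro y1 y2 _ _ ⟨S, a, ha, ha0, h1⟩ ⟨T, b, hb, hb0, h2⟩
    refine ⟨S ∪ T, fun w => a w + b w, fun w => add_mem (ha w) (hb w), ?_, ?_⟩
    · intro w hw
      rw [Finset.mem_union, not_or] at hw
      beta_reduce
      rw [ha0 w hw.1, hb0 w hw.2, add_zero]
    · have e1 : ∑ w ∈ S, a w * w.op = ∑ w ∈ S ∪ T, a w * w.op :=
        Finset.sum_subset Finset.subset_union_left
          (fun w _ hw => by rw [ha0 w hw, zero_mul])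
      have e2 : ∑ w ∈ T, b w * w.op = ∑ w ∈ S ∪ T, b w * w.op :=
        Finset.sum_subset Finset.subset_union_right
          (fun w _ hw => by rw [hb0 w hw, zero_mul])
      rw [h1, h2, e1, e2, ← Finset.sum_add_distrib]
      exact Finset.sum_congr rfl (fun w _ => by rw [add_mul])
  · rintro c y1 _ ⟨S, a, ha, ha0, h1⟩
    refine ⟨S, fun w => c • a w, fun w => SMulMemClass.smul_mem _ (ha w), ?_, ?_⟩
    · intro w hw
      beta_reduce
      rw [ha0 w hw, smul_zero]
    · rw [h1, Finset.smul_sum]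
      exact Finset.sum_congr rfl (fun w _ => by rw [smul_mul_assoc])

/-- finite expansion with a symmetric index set containing `1` -/
lemma exists_finset_symm {y : H →L[ℂ] H} (hy : y ∈ N0 M A η) :
    ∃ (S : Finset (UN M A η)) (a : UN M A η → H →L[ℂ] H), 1 ∈ S ∧ (∀ w ∈ S, w⁻¹ ∈ S) ∧
      (∀ w, a w ∈ A) ∧ (∀ w ∉ S, a w = 0) ∧ y = ∑ w ∈ S, a w * w.op := by
  classical
  obtain ⟨S, a, ha, ha0, h1⟩ := exists_finset hy
  have hsub : S ⊆ insert 1 (S ∪ S.image (·⁻¹)) :=
    (Finset.subset_union_left).trans (Finset.subset_insert _ _)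
  refine ⟨insert 1 (S ∪ S.image (·⁻¹)), a, Finset.mem_insert_self _ _, ?_, ha, ?_, ?_⟩
  · intro w hw
    simp only [Finset.mem_insert, Finset.mem_union, Finset.mem_image] at hw ⊢
    rcases hw with rfl | hw | ⟨v, hv, rfl⟩
    · left; simp
    · right; right
      exact ⟨w, hw, rfl⟩
    · right; left
      rw [inv_inv]; exact hv
  · intro w hw
    exact ha0 w (fun h => hw (hsub h))
  · rw [h1]
    exact Finset.sum_subset hsub (fun w _ hw => by rw [ha0 w hw, zero_mul])

/-- a self-adjoint unitary normaliser with bounded domination, as an element of `UN` -/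
def ofInv {w : H →L[ℂ] H} (hw : GN M A w) (hs : star w = w) (h1 : w * w = 1) {C : ℝ}
    (hd : BDom M η w C) : UN M A η :=
  ⟨⟨w, by rw [Unitary.mem_iff, hs]; exact ⟨h1, h1⟩⟩, hw.mem, fun a ha => hw.conj a ha,
    fun a ha => hw.conj' a ha, ⟨C, hd⟩, ⟨C, by change BDom M η (star w) C; rw [hs]; exact hd⟩⟩

@[simp] lemma ofInv_op {w : H →L[ℂ] H} (hw : GN M A w) (hs : star w = w) (h1 : w * w = 1) {C : ℝ}
    (hd : BDom M η w C) : (ofInv hw hs h1 hd).op = w := rfl

/-- **normalising partial isometries with bounded Radon-Nikodym derivatives are banded** -/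
theorem of_GN (h : NCE M A η) {u : H →L[ℂ] H} (hu : GN M A u) {C C' : ℝ}
    (hd : BDom M η u C) (hd' : BDom M η (star u) C') : u ∈ N0 M A η := by
  obtain ⟨w, s, hsA, hsp, hw, hws, hw1, hsum, hdom⟩ := Fro.decomp h hu
  obtain ⟨K, hK0, hKd, hKd'⟩ : ∃ K : ℝ, 0 ≤ K ∧ BDom M η u K ∧ BDom M η (star u) K := by
    refine ⟨max 0 (max C C'), le_max_left _ _, ?_, ?_⟩
    · intro x hx hx0
      refine (hd x hx hx0).trans (mul_le_mul_of_nonneg_right ?_ (inner_nonneg_re hx0 η))
      exact (le_max_left _ _).trans (le_max_right _ _)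
    · intro x hx hx0
      refine (hd' x hx hx0).trans (mul_le_mul_of_nonneg_right ?_ (inner_nonneg_re hx0 η))
      exact (le_max_right _ _).trans (le_max_right _ _)
  have hdw : ∀ j, BDom M η (w j) (2 * K + 1) := by
    intro j
    refine hdom K hK0 hKd ?_ j
    intro x hx hx0
    have := hKd' x hx hx0
    rwa [star_star] at this
  rw [hsum]
  refine add_mem (of_A (h.CE_mem hu.mem)) (sum_mem (fun j _ => ?_))
  have := op_mul_mem (hsA j) (ofInv (hw j) (hws j) (hw1 j) (hdw j))
  rwa [ofInv_op] at this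

end N0

end Crest.Agent.R109
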