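import Crest.Agent.R109.Dom
import Crest.Agent.R109.NZero
import Crest.Agent.R109.AsmIface

/-!
# Row 109, module DECOMP: reduction of the decomposition to the projection onto the banded part
and the diffuse lemma
-/

set_option autoImplicit false
set_option linter.unusedSectionVars false

namespace Crest.Agent.R109

open Crest.Agent.R124 Crest.Agent.R121 Filter Topology
open scoped InnerProductSpace

universe u

section

variable {H : Type u} [NormedAddCommGroup H] [InnerProductSpace ℂ H] [CompleteSpace H]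
variable {M : VonNeumannAlgebra H} {A : StarSubalgebra ℂ (H →L[ℂ] H)} {η : H}

/-- positive elements of `M` are squares in `M` -/
lemma exists_sqrt_mem' (M : VonNeumannAlgebra H) {x : H →L[ℂ] H} (hx : x ∈ M) (h0 : 0 ≤ x) :
    ∃ y ∈ M, star y = y ∧ y * y = x := by
  have hsa : IsSelfAdjoint x := h0.isSelfAdjoint
  refine ⟨cfc Real.sqrt x, R124.cfc_mem M hx _, ?_, ?_⟩
  · have : IsSelfAdjoint (cfc Real.sqrt x) := cfc_predicate _ x
    exact this
  · rw [← cfc_mul Real.sqrt Real.sqrt x Real.continuous_sqrt.continuousOn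
      Real.continuous_sqrt.continuousOn]
    conv_rhs => rw [← cfc_id' ℝ x]
    apply cfc_congr
    intro s hs
    exact Real.mul_self_sqrt (spectrum_nonneg_of_nonneg h0 hs)

lemma Dom.bdom' {u : H →L[ℂ] H} {C : ℝ} (hu : Dom M η u C) : BDom M η u (C ^ 2) := by
  intro x hx h0
  obtain ⟨y, hy, hys, hyx⟩ := exists_sqrt_mem' M hx h0
  have e1 : (⟪η, (star u * x * u) η⟫_ℂ).re = ‖y (u η)‖ ^ 2 := by
    have h1 := inner_star_mul (y * u) η
    have h2 : star (y * u) * (y * u) = star u * x * u := by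
      rw [star_mul, hys, ← hyx]; simp only [mul_assoc]
    rw [h2] at h1
    rw [h1, Complex.ofReal_re]
    rfl
  have e2 : (⟪η, x η⟫_ℂ).re = ‖y η‖ ^ 2 := by
    have h1 := inner_star_mul y η
    rw [hys, hyx] at h1
    rw [h1, Complex.ofReal_re]
  rw [e1, e2, ← mul_pow]
  exact pow_le_pow_left₀ (norm_nonneg _) (hu y hy) 2

lemma BDom.dom' {u : H →L[ℂ] H} {C : ℝ} (hu : BDom M η u C) : Dom M η u (|C| + 1) := by
  intro y hy
  have h1 := hu (star y * y) (mul_mem (star_mem hy) hy) (star_mul_self_nonneg y)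
  have e1 : (⟪η, (star u * (star y * y) * u) η⟫_ℂ).re = ‖y (u η)‖ ^ 2 := by
    have h1 := inner_star_mul (y * u) η
    have h2 : star (y * u) * (y * u) = star u * (star y * y) * u := by
      rw [star_mul]; simp only [mul_assoc]
    rw [h2] at h1
    rw [h1, Complex.ofReal_re]
    rfl
  rw [e1, inner_star_mul, Complex.ofReal_re] at h1
  apply le_of_sq_le_sq _ (by positivity)
  rw [mul_pow]
  refine h1.trans (mul_le_mul_of_nonneg_right ?_ (by positivity))
  have := le_abs_self C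
  nlinarith [abs_nonneg C, sq_nonneg (|C|)]

/-- an element which is orthogonal to the banded operators is orthogonal to all normalisers -/
theorem NCE.CE_star_mul_eq_zero (h : NCE M A η) {z : H →L[ℂ] H} (hz : z ∈ M)
    (ho : ∀ m ∈ N0 M A η, ⟪m η, z η⟫_ℂ = 0) {u : H →L[ℂ] H} (hu : GN M A u) :
    CE A η (star u * z) = 0 := by
  -- bounded normalisers
  have hb : ∀ v : H →L[ℂ] H, GN M A v → ∀ C : ℝ, Dom M η v C → Dom M η (star v) C →
      CE A η (star v * z) = 0 := by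
    intro v hv C h1 h2
    refine h.CE_unique (mul_mem (star_mem hv.mem) hz) (zero_mem A) fun a ha => ?_
    have hvN : v ∈ N0 M A η := N0.of_GN h hv h1.bdom' h2.bdom'
    have hm : v * star a ∈ N0 M A η := N0.mul_mem' hvN (N0.of_A (star_mem ha))
    have h3 := ho _ hm
    have h4 : ⟪(v * star a) η, z η⟫_ℂ = ⟪η, (a * (star v * z)) η⟫_ℂ := by
      have e : a * (star v * z) = star (v * star a) * z := by
        rw [star_mul, star_star, mul_assoc]
      rw [e, ContinuousLinearMap.star_eq_adjoint]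
      exact (ContinuousLinearMap.adjoint_inner_right _ _ _).symm
    rw [mul_zero, ← h4, h3]
    simp
  set c := CE A η (star u * z) with hc
  have hcM : star u * z ∈ M := mul_mem (star_mem hu.mem) hz
  have hcA : c ∈ A := h.CE_mem hcM
  have hcu : (star u * u) * c = c := by
    rw [hc, ← h.CE_mul_left hu.src hcM, ← mul_assoc, hu.part']
  apply h.sep _ (h.masa.memM hcA)
  rw [← norm_le_zero_iff]
  apply le_of_forall_pos_le_add
  intro ε hε
  obtain ⟨p, hp, hpp, hpu, hps, C, hC, hd1, hd2⟩ := h.cut_dom hu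
    (show 0 < ε / (‖c‖ + 1) by positivity)
  have h0 : p * c = 0 := by
    have h1 := hb (u * p) (hu.cut h.masa hp hpp) C hd1 hd2
    rw [star_mul, hpp.isSelfAdjoint.star_eq, mul_assoc, h.CE_mul_left hp hcM] at h1
    exact h1
  have h1 : c η = c ((star u * u - p) η) := by
    have h2 : c = c * (star u * u - p) := by
      rw [mul_sub, ← h.masa.comm _ hu.src _ hcA, hcu, ← h.masa.comm _ hp _ hcA, h0, sub_zero]
    exact congrArg (fun R : H →L[ℂ] H => R η) h2
  rw [h1, zero_add]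
  calc ‖c ((star u * u - p) η)‖ ≤ ‖c‖ * ‖(star u * u - p) η‖ := c.le_opNorm _
    _ ≤ ‖c‖ * (ε / (‖c‖ + 1)) := mul_le_mul_of_nonneg_left hps.le (norm_nonneg _)
    _ ≤ (‖c‖ + 1) * (ε / (‖c‖ + 1)) :=
        mul_le_mul_of_nonneg_right (by linarith) (by positivity)
    _ = ε := by field_simp

end

/-- the predicate "banded" -/
def BdN0 : BandPred.{u} := fun _H _ _ _ M A η y => y ∈ N0 M A η

lemma bdHalf_BdN0 : BdHalf BdN0.{u} := by
  intro H _ _ _ M A η y hy
  exact (N0 M A η).smul_mem _ hy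

/-- projection onto the banded part (helper890) -/
def ENProp : Prop :=
  ∀ (H : Type u) [NormedAddCommGroup H] [InnerProductSpace ℂ H] [CompleteSpace H]
    (M : VonNeumannAlgebra H) (A : StarSubalgebra ℂ (H →L[ℂ] H)) (η : H), NCE M A η →
    ∀ x ∈ M, IsSelfAdjoint x → ‖x‖ ≤ 1 →
    ∃ x1 ∈ M, IsSelfAdjoint x1 ∧ ‖x1‖ ≤ 1 ∧ (∀ m ∈ N0 M A η, ⟪m η, (x - x1) η⟫_ℂ = 0) ∧
      ∀ κ : ℝ, 0 < κ → ∃ x' ∈ N0 M A η, IsSelfAdjoint x' ∧ ‖x'‖ ≤ 1 ∧ ‖(x1 - x') η‖ ≤ κ

/-- the diffuse lemma (helper442) -/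
def DiffuseProp : Prop :=
  ∀ (H : Type u) [NormedAddCommGroup H] [InnerProductSpace ℂ H] [CompleteSpace H]
    (M : VonNeumannAlgebra H) (A : StarSubalgebra ℂ (H →L[ℂ] H)) (η : H), NCE M A η →
    ∀ z ∈ M, IsSelfAdjoint z → (∀ u, GN M A u → CE A η (star u * z) = 0) → Diff A η z

/-- **decomposition**, from the projection onto the banded part and the diffuse lemma -/
theorem decomp_of (hEN : ENProp.{u}) (hD : DiffuseProp.{u}) : DecompProp BdN0.{u} := by
  intro H _ _ _ M A η _ h _ x hx hxs hx1 hx0 κ hκ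
  obtain ⟨x1, hx1M, hx1s, hx1n, ho, happ⟩ := hEN H M A η h x hx hxs hx1
  obtain ⟨x', hx'N, hx's, hx'n, hx'κ⟩ := happ (κ / 2) (half_pos hκ)
  have hx'M : x' ∈ M := N0.le h.masa hx'N
  have hzM : x - x1 ∈ M := sub_mem hx hx1M
  have hCz : ∀ u, GN M A u → CE A η (star u * (x - x1)) = 0 := fun u hu =>
    h.CE_star_mul_eq_zero hzM ho hu
  have hCx1 : CE A η x1 = 0 := by
    have h1 := hCz 1 (GN.one h.masa)
    rw [star_one, one_mul, h.CE_sub hx hx1M, hx0, zero_sub, neg_eq_zero] at h1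
    exact h1
  have hCA : CE A η x' ∈ A := h.CE_mem hx'M
  have hCM : CE A η x' ∈ M := h.CE_memM hx'M
  refine ⟨x' - CE A η x', sub_mem hx'M hCM, ?_, ?_, ?_, ?_, x - x1, hzM, hxs.sub hx1s, ?_, ?_, ?_⟩
  · exact (N0 M A η).sub_mem hx'N (N0.of_A hCA)
  · rw [isSelfAdjoint_iff, star_sub, hx's.star_eq, ← h.CE_star hx'M, hx's.star_eq]
  · calc ‖x' - CE A η x'‖ ≤ ‖x'‖ + ‖CE A η x'‖ := norm_sub_le _ _
      _ ≤ 1 + 1 := add_le_add hx'n ((h.norm_CE_le hx'M).trans hx'n)
      _ = 2 := by norm_num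
  · rw [h.CE_sub hx'M hCM, h.CE_CE hx'M, sub_self]
  · calc ‖x - x1‖ ≤ ‖x‖ + ‖x1‖ := norm_sub_le _ _
      _ ≤ 3 := by linarith
  · exact hD H M A η h _ hzM (hxs.sub hx1s) hCz
  · have e1 : x - (x' - CE A η x') - (x - x1) = (x1 - x') - CE A η (x1 - x') := by
      rw [h.CE_sub hx1M hx'M, hCx1]; abel
    rw [e1]
    have h2 : ‖CE A η (x1 - x') η‖ ≤ ‖(x1 - x') η‖ := h.norm_CE_apply_le (sub_mem hx1M hx'M)
    calc ‖((x1 - x') - CE A η (x1 - x')) η‖ ≤ ‖(x1 - x') η‖ + ‖CE A η (x1 - x') η‖ :=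
          norm_sub_le _ _
      _ ≤ κ := by linarith

end Crest.Agent.R109
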