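import Crest.Agent.R109.CartanOf
import Crest.Agent.R109.CartCore
import Crest.Agent.R109.DecompOf

/-!
# Row 109: the Cartan colouring theorem
-/

set_option autoImplicit false

namespace Crest.Agent.R109

universe u

/-- **the Cartan colouring theorem**, list form -/
theorem cartan : CartanProp.{u} BdN0.{u} := cartan_of.{u} measList.{u}

end Crest.Agent.R109
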