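import Crest.Agent.R109.Kern
import Crest.Agent.R109.AsmIface
import Crest.Agent.R109.BookEnd

/-!
# Row 109: clopen colourings of the spectrum, moment identity

For a colouring `c` of `m.X` with clopen fibres the operator `∑ i, p i * y * p i` has kernel
`pin c (K y)` and its moments at `η` are integrals of kernel powers.
-/

set_option autoImplicit false
set_option linter.unusedSectionVars false

namespace Crest.Agent.R109

open scoped InnerProductSpace ComplexConjugate
open ContinuousLinearMap MeasureTheory TopologicalSpace Set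

universe u

variable {H : Type u} [NormedAddCommGroup H] [InnerProductSpace ℂ H] [CompleteSpace H]
variable {M : VonNeumannAlgebra H} {A : StarSubalgebra ℂ (H →L[ℂ] H)} {η : H}

namespace Model

variable (m : Model A)

section Fib

variable {N : ℕ} (R : m.X → Fin N) (hR : ∀ j, IsClopen {x | R x = j})

/-- the projections of a map with clopen fibres -/
noncomputable def fib (j : Fin N) : H →L[ℂ] H := m.pr ⟨{x | R x = j}, hR j⟩

lemma fib_mem (j : Fin N) : m.fib R hR j ∈ A := m.pr_mem _

lemma fib_ind_apply (j : Fin N) (x : m.X) :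
    m.ind ⟨{x | R x = j}, hR j⟩ x = if R x = j then 1 else 0 := by
  split_ifs with h
  · exact m.ind_of_mem h
  · exact m.ind_of_notMem h

lemma inv_fib (j : Fin N) (x : m.X) : m.inv (m.fib R hR j) x = if R x = j then 1 else 0 := by
  rw [fib, pr, m.inv_Φ, fib_ind_apply]

/-- functions of a partition -/
lemma sum_fib (P : Fin N → Prop) [DecidablePred P] (V : Clopens m.X)
    (hV : ∀ x, x ∈ V ↔ P (R x)) :
    ∑ j, (if P j then m.fib R hR j else 0) = m.pr V := by
  classical
  have h1 : ∀ j, (if P j then m.fib R hR j else 0)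
      = m.Φ (if P j then m.ind ⟨{x | R x = j}, hR j⟩ else 0) := by
    intro j
    split_ifs
    · rfl
    · rw [map_zero]
  rw [Finset.sum_congr rfl fun j _ => h1 j, ← map_sum, pr]
  congr 1
  ext x
  rw [ContinuousMap.sum_apply]
  have h2 : ∀ j, (if P j then m.ind ⟨{x | R x = j}, hR j⟩ else 0 : C(m.X, ℂ)) x
      = if R x = j then (if P j then 1 else 0) else 0 := by
    intro j
    split_ifs with h1 h2 h3
    · rw [m.fib_ind_apply, if_pos h2]
    · rw [m.fib_ind_apply, if_neg h2]
    · rfl
    · rfl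
  rw [Finset.sum_congr rfl fun j _ => h2 j, Finset.sum_ite_eq Finset.univ (R x)]
  simp only [Finset.mem_univ, if_true]
  rw [m.ind_apply]
  simp only [hV]

lemma fib_part : Part A 1 (m.fib R hR) where
  mem := m.fib_mem R hR
  proj := fun j => m.pr_proj _
  orth := by
    intro i j hij
    apply m.pr_mul_of_disjoint
    rw [disjoint_iff]
    ext x
    constructor
    · rintro ⟨h1, h2⟩
      exact hij ((show R x = i from h1).symm.trans h2)
    · intro h
      exact absurd h (fun hh => hh)
  sum := by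
    classical
    have := m.sum_fib R hR (fun _ => True) ⊤ (fun x => ⟨fun _ => trivial, fun _ => trivial⟩)
    simp only [if_true] at this
    rw [this, m.pr_top]

/-- the finite partition given by a map with clopen fibres -/
noncomputable def fibFP : FP A := ⟨N, m.fib R hR, m.fib_part R hR⟩

/-- colour projections of `c ∘ R` -/
lemma pcol_fibFP {r : ℕ} (c : Fin N → Fin r) (hc : ∀ i, IsClopen {x | c (R x) = i}) :
    pcol (m.fibFP R hR) (c : Fin (m.fibFP R hR).n → Fin r) = m.fib (fun x => c (R x)) hc := by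
  classical
  funext i
  exact m.sum_fib R hR (fun j => c j = i) ⟨{x | c (R x) = i}, hc i⟩ (fun x => Iff.rfl)

end Fib

/-- every finite partition of the masa is given by a map with clopen fibres -/
lemma exists_cell (P : FP A) : ∃ (cell : m.X → Fin P.n) (hc : ∀ i, IsClopen {x | cell x = i}),
    ∀ i, m.fib cell hc i = P.e i := by
  classical
  choose V hV using fun i => m.exists_pr (P.part.mem i) (P.part.proj i)
  have hsum : ∑ i, m.ind (V i) = 1 := by
    apply m.inj
    rw [map_sum, map_one, ← P.part.sum]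
    exact Finset.sum_congr rfl fun i _ => hV i
  have hex : ∀ x, ∃ i, x ∈ V i := by
    intro x
    by_contra hno
    push Not at hno
    have h1 := congrArg (fun f : C(m.X, ℂ) => f x) hsum
    simp only [ContinuousMap.sum_apply, ContinuousMap.one_apply] at h1
    rw [Finset.sum_eq_zero fun i _ => m.ind_of_notMem (hno i)] at h1
    exact zero_ne_one h1
  have hdisj : ∀ i j, i ≠ j → ∀ x, x ∈ V i → x ∉ V j := by
    intro i j hij x hi hj
    have h1 : m.pr (V i ⊓ V j) = 0 := by rw [m.pr_inf, hV, hV, P.part.orth i j hij]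
    rw [← m.pr_bot] at h1
    have h2 := m.pr_injective h1
    have h3 : x ∈ V i ⊓ V j := ⟨hi, hj⟩
    rw [h2] at h3
    exact h3
  choose cell hcell using hex
  have hset : ∀ i, {x | cell x = i} = (V i : Set m.X) := by
    intro i
    ext x
    constructor
    · rintro rfl; exact hcell x
    · intro hx
      by_contra hne
      exact hdisj (cell x) i hne x (hcell x) hx
  refine ⟨cell, fun i => by rw [hset]; exact (V i).isClopen, fun i => ?_⟩
  rw [fib, ← hV i]
  congr 1
  ext x
  change x ∈ {x | cell x = i} ↔ x ∈ (V i : Set m.X)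
  rw [hset]

/-- `P ≤ Q` from a map of cells -/
lemma le_fibFP (P : FP A) (cell : m.X → Fin P.n) (hc : ∀ i, IsClopen {x | cell x = i})
    (hP : ∀ i, m.fib cell hc i = P.e i) {N : ℕ} (R : m.X → Fin N)
    (hR : ∀ j, IsClopen {x | R x = j}) (f : Fin N → Fin P.n) (hf : ∀ x, f (R x) = cell x) :
    P ≤ m.fibFP R hR := by
  classical
  refine FP.le_def.2 ⟨f, fun i => ?_⟩
  rw [← hP i]
  symm
  exact m.sum_fib R hR (fun j => f j = i) ⟨{x | cell x = i}, hc i⟩ (fun x => by
    change cell x = i ↔ _
    rw [hf])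

section Mom

variable (h : NCE M A η)
include h

open Book

/-- left multiplication by a banded self-adjoint operator -/
lemma K_mul_left {y : H →L[ℂ] H} (hsa : IsSelfAdjoint y)
    (S : Finset (UN M A η)) (a : UN M A η → H →L[ℂ] H) (ha : ∀ g ∈ S, a g ∈ A)
    (hya : y = ∑ g ∈ S, a g * g.op) {T : H →L[ℂ] H} (hT : T ∈ M) (v w : m.X) :
    m.K M η (y * T) v w = ∑ x ∈ ball S v, m.K M η y v x * m.K M η T x w := by
  classical
  have hy : y ∈ M := by
    rw [hya]
    exact sum_mem fun g hg => mul_mem (h.masa.memM (ha g hg)) g.mem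
  have h1 : y * T = star (star T * y) := by rw [star_mul, star_star, hsa.star_eq]
  have h2 := m.K_mul h S a (fun g => g) ha (star_mem hT) w v (ball S v)
    (fun g hg => by unfold ball; exact Finset.mem_image_of_mem (fun k : UN M A η => k • v) hg)
  rw [← hya] at h2
  rw [h1, m.K_star h (mul_mem (star_mem hT) hy), h2, map_sum]
  refine Finset.sum_congr rfl fun x _ => ?_
  have h3 : m.K M η y x v = conj (m.K M η y v x) := by
    have := m.K_star h hy x v
    rwa [hsa.star_eq] at this
  rw [m.K_star h hT, map_mul, Complex.conj_conj, h3, Complex.conj_conj, mul_comm]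

/-- the kernel of the pinched operator times `T` -/
lemma K_pav_mul {y : H →L[ℂ] H} (hsa : IsSelfAdjoint y)
    (S : Finset (UN M A η)) (a : UN M A η → H →L[ℂ] H) (ha : ∀ g ∈ S, a g ∈ A)
    (hya : y = ∑ g ∈ S, a g * g.op) {r : ℕ} (c : m.X → Fin r)
    (hc : ∀ i, IsClopen {x | c x = i}) {T : H →L[ℂ] H} (hT : T ∈ M) (v w : m.X) :
    m.K M η (pav (m.fib c hc) y * T) v w
      = ∑ x ∈ ball S v, pin c (fun _ => m.K M η y) v v x * m.K M η T x w := by
  classical
  have hy : y ∈ M := by
    rw [hya]
    exact sum_mem fun g hg => mul_mem (h.masa.memM (ha g hg)) g.mem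
  have hpM : ∀ i, m.fib c hc i ∈ M := fun i => h.masa.memM (m.fib_mem c hc i)
  have h0 : pav (m.fib c hc) y * T
      = ∑ i, m.fib c hc i * (y * (m.fib c hc i * T)) := by
    rw [pav, Finset.sum_mul]
    exact Finset.sum_congr rfl fun i _ => by simp only [mul_assoc]
  rw [h0, m.K_sum h _ _ fun i _ => mul_mem (hpM i) (mul_mem hy (mul_mem (hpM i) hT))]
  have h1 : ∀ i, m.K M η (m.fib c hc i * (y * (m.fib c hc i * T))) v w
      = ∑ x ∈ ball S v, (if c v = i then 1 else 0) * (if c x = i then 1 else 0)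
          * (m.K M η y v x * m.K M η T x w) := by
    intro i
    rw [m.K_left h (m.fib_mem c hc i) (mul_mem hy (mul_mem (hpM i) hT)), m.inv_fib,
      m.K_mul_left h hsa S a ha hya (mul_mem (hpM i) hT), Finset.mul_sum]
    refine Finset.sum_congr rfl fun x _ => ?_
    rw [m.K_left h (m.fib_mem c hc i) hT, m.inv_fib]
    ring
  rw [Finset.sum_congr rfl fun i _ => h1 i, Finset.sum_comm]
  refine Finset.sum_congr rfl fun x _ => ?_
  rw [← Finset.sum_mul]
  have h2 : ∑ i, ((if c v = i then 1 else 0) * (if c x = i then 1 else 0) : ℂ)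
      = if c v = c x then 1 else 0 := by
    rw [Finset.sum_eq_single (c v)]
    · simp only [if_true, one_mul, eq_comm]
    · intro i _ hi
      rw [if_neg (Ne.symm hi), zero_mul]
    · intro hi
      exact absurd (Finset.mem_univ _) hi
  rw [h2, pin]
  split_ifs
  · rw [one_mul]
  · rw [zero_mul, zero_mul]

lemma pav_mem {y : H →L[ℂ] H} (hy : y ∈ M) {r : ℕ} (c : m.X → Fin r)
    (hc : ∀ i, IsClopen {x | c x = i}) : pav (m.fib c hc) y ∈ M :=
  sum_mem fun i _ => mul_mem (mul_mem (h.masa.memM (m.fib_mem c hc i)) hy)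
    (h.masa.memM (m.fib_mem c hc i))

/-- powers of the pinched operator -/
lemma K_pav_pow {y : H →L[ℂ] H} (hsa : IsSelfAdjoint y)
    (S : Finset (UN M A η)) (a : UN M A η → H →L[ℂ] H) (ha : ∀ g ∈ S, a g ∈ A)
    (hya : y = ∑ g ∈ S, a g * g.op) {r : ℕ} (c : m.X → Fin r)
    (hc : ∀ i, IsClopen {x | c x = i}) (j : ℕ) (u : m.X) : ∀ v w : m.X,
    m.K M η (pav (m.fib c hc) y ^ j) v w = kp S (pin c (fun _ => m.K M η y) u) j v w := by
  classical
  have hy : y ∈ M := by
    rw [hya]
    exact sum_mem fun g hg => mul_mem (h.masa.memM (ha g hg)) g.mem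
  induction j with
  | zero =>
    intro v w
    rw [pow_zero, m.K_one h]
    simp only [kp]
  | succ j ih =>
    intro v w
    rw [pow_succ', m.K_pav_mul h hsa S a ha hya c hc (pow_mem (m.pav_mem h hy c hc) j)]
    simp only [kp]
    refine Finset.sum_congr rfl fun x _ => ?_
    rw [ih x w]
    rfl

/-- **the moment identity** -/
theorem mom_eq [MeasurableSpace m.X] (μ : Measure m.X)
    (hint : ∀ f : C(m.X, ℂ), ∫ x, (f x).re ∂μ = (⟪η, m.Φ f η⟫_ℂ).re)
    {y : H →L[ℂ] H} (hsa : IsSelfAdjoint y)
    (S : Finset (UN M A η)) (a : UN M A η → H →L[ℂ] H) (ha : ∀ g ∈ S, a g ∈ A)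
    (hya : y = ∑ g ∈ S, a g * g.op) {r : ℕ} (c : m.X → Fin r)
    (hc : ∀ i, IsClopen {x | c x = i}) (j : ℕ) :
    (⟪η, (pav (m.fib c hc) y ^ j) η⟫_ℂ).re
      = ∫ v, (kp S (pin c (fun _ => m.K M η y) v) j v v).re ∂μ := by
  have hy : y ∈ M := by
    rw [hya]
    exact sum_mem fun g hg => mul_mem (h.masa.memM (ha g hg)) g.mem
  have hT : pav (m.fib c hc) y ^ j ∈ M := pow_mem (m.pav_mem h hy c hc) j
  rw [← h.inner_CE' hT, ← m.Φ_cE h hT, ← hint]
  congr 1
  funext v
  rw [← m.K_diag h hT, m.K_pav_pow h hsa S a ha hya c hc j v]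

end Mom

end Model

end Crest.Agent.R109
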