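import Crest.Agent.R109.ClopApprox
import Crest.Agent.R109.ClopMom

/-!
# Row 109: from the measured list theorem to clopen cells and operators

`list_clopen` turns the output of `MeasListProp` (measurable cells, integrals of kernel powers) into
the conclusion of `CartanProp` (finite partitions of the masa, moments of the pinched operator).
-/

set_option autoImplicit false
set_option linter.unusedSectionVars false

namespace Crest.Agent.R109

open scoped InnerProductSpace ComplexConjugate
open ContinuousLinearMap MeasureTheory TopologicalSpace Set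

universe u

variable {H : Type u} [NormedAddCommGroup H] [InnerProductSpace ℂ H] [CompleteSpace H]
variable {M : VonNeumannAlgebra H} {A : StarSubalgebra ℂ (H →L[ℂ] H)} {η : H}

open Book

/-- **clopen cells and the moment identity**.  `m.X` carries the σ-algebra generated by the clopen
sets, `μ` represents the vector state of `η` on the masa, `Q` is the quasi-invariant action of the
unitary normalisers; `y = ∑ g ∈ S, a g * g.op` is a self-adjoint contraction.  If for the cells of
every partition the measured list theorem holds with bound `B`, then there are clopen cells refining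
`P₁` with admissible lists and moments at most `B + κ`. -/
theorem list_clopen (h : NCE M A η) (m : Model A) [MeasurableSpace m.X]
    (hgen : ‹MeasurableSpace m.X› = MeasurableSpace.generateFrom {s : Set m.X | IsClopen s})
    (μ : Measure m.X) [IsFiniteMeasure μ] (Q : QI (UN M A η) m.X μ)
    (hint : ∀ f : C(m.X, ℂ), ∫ x, (f x).re ∂μ = (⟪η, m.Φ f η⟫_ℂ).re)
    {y : H →L[ℂ] H} (hsa : IsSelfAdjoint y) (hn : ‖y‖ ≤ 1)
    (S : Finset (UN M A η)) (a : UN M A η → H →L[ℂ] H) (ha : ∀ g ∈ S, a g ∈ A)
    (hya : y = ∑ g ∈ S, a g * g.op)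
    (cw : CW (UN M A η) (fun _ : m.X => m.K M η y))
    (r k : ℕ) (B κ : ℝ) (hκ : 0 < κ) (P₁ : FP A)
    (hlist : ∀ (N₁ : ℕ) (cell₁ : m.X → Fin N₁), Measurable cell₁ →
      ∃ (N : ℕ) (cell : m.X → Fin N) (f : Fin N → Fin N₁), Measurable cell ∧
        (∀ x, f (cell x) = cell₁ x) ∧
        ∃ L : Lists N r, ∀ c : Fin N → Fin r, (∀ j, c j ∈ L.Adm j c) →
          ∫ x, (kp S (pin (fun x => c (cell x)) (fun _ => m.K M η y) x) k x x).re ∂μ ≤ B) :
    ∃ P : FP A, P₁ ≤ P ∧ ∃ L : Lists P.n r, ∀ c : Fin P.n → Fin r, (∀ j, c j ∈ L.Adm j c) →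
      (⟪η, (pav (pcol P c) y ^ k) η⟫_ℂ).re ≤ B + κ := by
  classical
  have hy : y ∈ M := by
    rw [hya]
    exact sum_mem fun g hg => mul_mem (h.masa.memM (ha g hg)) g.mem
  -- the cells of `P₁`
  obtain ⟨cell₁, hc₁, hP₁⟩ := m.exists_cell P₁
  have hmc₁ : Measurable cell₁ :=
    measurable_to_countable' fun i => Clop.measurableSet_of_isClopen hgen (hc₁ i)
  obtain ⟨N, cell, f, hcell, hf, L, hL⟩ := hlist P₁.n cell₁ hmc₁
  -- continuity
  obtain ⟨δ, hδ, hclose⟩ := Clop.kp_pin_close Q S (fun _ => m.K M η y)
    (fun _ v w => (m.norm_K_le h hy v w).trans hn) cw r k hκ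
  -- clopen cells
  obtain ⟨R, hR, hfR, hRδ⟩ := Clop.approx hgen μ cell
    (fun j => hcell (measurableSet_singleton j)) cell₁ hc₁ f hf hδ
  have hmR : Measurable R :=
    measurable_to_countable' fun i => Clop.measurableSet_of_isClopen hgen (hR i)
  refine ⟨m.fibFP R hR, m.le_fibFP P₁ cell₁ hc₁ hP₁ R hR f hfR, L, ?_⟩
  intro c hc
  change Fin N → Fin r at c
  have hclop : ∀ i, IsClopen {x | c (R x) = i} := by
    intro i
    have : {x | c (R x) = i} = ⋃ j ∈ Finset.univ.filter (fun j => c j = i), {x | R x = j} := by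
      ext x
      simp
    rw [this]
    exact (Finset.univ.filter (fun j => c j = i)).finite_toSet.isClopen_biUnion fun j _ => hR j
  have h1 : (⟪η, (pav (pcol (m.fibFP R hR) c) y ^ k) η⟫_ℂ).re
      = ∫ v, (kp S (pin (fun x => c (R x)) (fun _ => m.K M η y) v) k v v).re ∂μ := by
    rw [m.pcol_fibFP R hR c hclop]
    exact m.mom_eq h μ hint hsa S a ha hya _ hclop k
  have h2 := hclose (fun x => c (R x)) (fun x => c (cell x))
    ((measurable_from_top (f := c)).comp hmR) ((measurable_from_top (f := c)).comp hcell) (by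
      refine (measureReal_mono ?_).trans hRδ
      intro x hx hRx
      apply hx
      rw [hRx])
  have h3 := hL c hc
  have h4 := (abs_le.1 h2).2
  rw [h1]
  linarith

end Crest.Agent.R109
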