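import Crest.Agent.R109.KernM
import Crest.Agent.R109.NZero
import Crest.Agent.R109.CartanIface

/-!
# Row 109, GLUE: the kernel of a banded operator is a kernel system
-/

set_option autoImplicit false
set_option linter.unusedSectionVars false

namespace Crest.Agent.R109

open scoped InnerProductSpace ComplexConjugate ComplexOrder
open ContinuousLinearMap MeasureTheory Crest.Agent.R109.Book

universe u

variable {H : Type u} [NormedAddCommGroup H] [InnerProductSpace ℂ H] [CompleteSpace H]
variable {M : VonNeumannAlgebra H} {A : StarSubalgebra ℂ (H →L[ℂ] H)} {η : H}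

/-- `K = m.K M η y` is a kernel system -/
theorem ksys (m : Model A) (h : NCE M A η) [MeasurableSpace m.X]
    (hmeas : ∀ f : C(m.X, ℂ), Measurable f) {μ : Measure m.X} (Q : QI (UN M A η) m.X μ)
    {y : H →L[ℂ] H} (S : Finset (UN M A η)) (a : UN M A η → H →L[ℂ] H) (h1 : 1 ∈ S)
    (hS : ∀ w ∈ S, w⁻¹ ∈ S) (ha : ∀ w, a w ∈ A) (hy : y = ∑ w ∈ S, a w * w.op)
    (hsa : IsSelfAdjoint y) (hn : ‖y‖ ≤ 1) (hE : CE A η y = 0) :
    KSys Q S (m.K M η y) := by
  classical
  have hyM : y ∈ M := by
    rw [hy]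
    exact sum_mem fun w _ => mul_mem (h.masa.memM (ha w)) w.mem
  refine ⟨h1, hS, ?_, ?_, ?_, ?_, ?_, ?_, ?_, m.K_CW h hmeas hyM⟩
  · intro v w
    have := m.K_star h hyM w v
    rwa [hsa.star_eq] at this
  · intro v
    rw [m.K_diag h hyM]
    have : m.cE η y = 0 := by
      apply m.inj
      rw [m.Φ_cE h hyM, hE, map_zero]
    rw [this]
    rfl
  · intro v w hne
    have hne' : m.K M η (∑ w ∈ S, a w * w.op) v w ≠ 0 := by rwa [← hy]
    obtain ⟨g, hg, hgw⟩ := m.K_band h S a (fun w => w) (fun w _ => ha w) hne'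
    exact mem_ball.2 ⟨g⁻¹, hS g hg, by rw [hgw, inv_smul_smul]⟩
  · intro v w
    exact (m.norm_K_le h hyM v w).trans hn
  · intro W
    have := (m.K_le_one h hyM hsa hn W).1
    have e : mat (m.K M η y) W = Matrix.of fun v w : W => m.K M η y v w := rfl
    rw [e]
    convert this
  · intro W
    have := (m.K_le_one h hyM hsa hn W).2
    have e : mat (m.K M η y) W = Matrix.of fun v w : W => m.K M η y v w := rfl
    rw [e]
    convert this
  · refine ⟨fun g x => conj (m.ph h g x), fun g x => ?_, fun g k => ?_⟩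
    · rw [RCLike.norm_conj, m.norm_ph h]
    · have hph : ∀ (g : UN M A η) (x : m.X), conj (m.ph h g x) * m.ph h g x = 1 := by
        intro g x
        rw [mul_comm, Complex.mul_conj, Complex.normSq_eq_norm_sq, m.norm_ph h]
        simp
      have e : (fun x => conj (m.ph h g x) * m.K M η y (g • x) (k • x) * conj (conj (m.ph h k x)))
          = fun x => m.cE η (star g.op * y * k.op) x := by
        funext x
        rw [m.K_gauge h hyM, Complex.conj_conj]
        calc conj (m.ph h g x) * (m.ph h g x * conj (m.ph h k x) *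
              m.cE η (star g.op * y * k.op) x) * m.ph h k x
            = (conj (m.ph h g x) * m.ph h g x) * (conj (m.ph h k x) * m.ph h k x) *
              m.cE η (star g.op * y * k.op) x := by ring
          _ = _ := by rw [hph, hph, one_mul, one_mul]
      rw [e]
      exact hmeas _

/-- version with the index set chosen by `N0.exists_finset_symm` -/
theorem exists_ksys (m : Model A) (h : NCE M A η) [MeasurableSpace m.X]
    (hmeas : ∀ f : C(m.X, ℂ), Measurable f) {μ : Measure m.X} (Q : QI (UN M A η) m.X μ)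
    {y : H →L[ℂ] H} (hyN : y ∈ N0 M A η) (hsa : IsSelfAdjoint y) (hn : ‖y‖ ≤ 1)
    (hE : CE A η y = 0) :
    ∃ (S : Finset (UN M A η)) (a : UN M A η → H →L[ℂ] H), (∀ w, a w ∈ A) ∧
      y = ∑ w ∈ S, a w * w.op ∧ KSys Q S (m.K M η y) := by
  obtain ⟨S, a, h1, hS, ha, _, hy⟩ := N0.exists_finset_symm hyN
  exact ⟨S, a, ha, hy, ksys m h hmeas Q S a h1 hS ha hy hsa hn hE⟩

end Crest.Agent.R109
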