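import Crest.Agent.R109.CartanIface
import Crest.Agent.R109.KSysInst
import Crest.Agent.R109.BallD
import Crest.Agent.R109.NZero
import Crest.Agent.R109.AsmIface
import Crest.Agent.R109.ClopList

/-!
# Row 109: the Cartan colouring theorem from the measured list theorem
-/

set_option autoImplicit false
set_option linter.unusedSectionVars false

namespace Crest.Agent.R109

open scoped InnerProductSpace ComplexOrder
open ContinuousLinearMap Set TopologicalSpace MeasureTheory Crest.Agent.R109.Book

universe u

/-- the Cartan colouring theorem -/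
theorem cartan_of (hML : MeasListProp.{u}) :
    CartanProp.{u} (fun _H _ _ _ M A η y => y ∈ N0 M A η) := by
  intro H _ _ _ M A η _hamp hN hη y hyM hyN hsa hn hE r hr n hn1 κ hκ P1
  classical
  obtain ⟨m⟩ := hN.masa.exists_model
  have hfin : IsFiniteMeasure (m.mu η) := m.isFiniteMeasure_mu hN.masa η
  have hprob : IsProbabilityMeasure (m.mu η) := by
    refine ⟨?_⟩
    have h1 := m.mu_univ hN.masa η
    rw [hη, one_pow, measureReal_def] at h1
    rw [← ENNReal.ofReal_toReal (measure_ne_top (m.mu η) Set.univ), h1, ENNReal.ofReal_one]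
  obtain ⟨S, a, ha, hy, hK⟩ := exists_ksys m hN
    (fun f => m.measurable_complex hN.masa f.continuous) (m.qi hN) hyN hsa hn hE
  have hfro : ∀ g : UN M A η, FrolikAt (fun s : Set m.X => MeasurableSet s) g := by
    intro g
    obtain ⟨E, h1, h2, h3, h4, h5⟩ := m.frolikAt hN.masa g
    exact ⟨E, m.measurableSet_clopen h1, m.measurableSet_clopen h2, m.measurableSet_clopen h3,
      h4, h5⟩
  have hint : ∀ f : C(m.X, ℂ), ∫ x, (f x).re ∂(m.mu η) = (⟪η, m.Φ f η⟫_ℂ).re := by
    intro f
    have hI : Integrable (fun x => f x) (m.mu η) := by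
      obtain ⟨C, hC⟩ := (isCompact_range f.continuous).isBounded.exists_norm_le
      exact Integrable.of_bound
        (m.measurable_complex hN.masa f.continuous).aestronglyMeasurable C
        (Filter.Eventually.of_forall fun x => hC _ ⟨x, rfl⟩)
    have h1 := integral_re hI
    rw [m.integral_mu_complex hN.masa] at h1
    exact h1
  obtain ⟨Q, hQ, L', hL'⟩ := list_clopen hN m rfl (m.mu η) (m.qi hN) hint hsa hn S a
    (fun g _ => ha g) hy hK.cw r (2 * n) ((500 / Real.sqrt r) ^ (2 * n) + κ / 2) (κ / 2)
    (by positivity) P1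
    (hML (UN M A η) m.X (m.mu η) (m.qi hN) S (m.K M η y) hK hfro r hr n hn1 (κ / 2)
      (by positivity))
  refine ⟨Q, hQ, L', fun c hc => (hL' c hc).trans ?_⟩
  linarith

end Crest.Agent.R109
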