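import Crest.Agent.R109.CartanIface
import Crest.Agent.R109.Spec
import Crest.Agent.R109.CE

/-!
# Row 109: clopen cells of a finite partition
-/

set_option autoImplicit false
set_option linter.unusedSectionVars false

namespace Crest.Agent.R109

open scoped InnerProductSpace ComplexOrder
open ContinuousLinearMap Set TopologicalSpace MeasureTheory Crest.Agent.R109.Book

universe u

section

variable {H : Type u} [NormedAddCommGroup H] [InnerProductSpace ℂ H] [CompleteSpace H]
variable {M : VonNeumannAlgebra H} {A : StarSubalgebra ℂ (H →L[ℂ] H)} {η : H}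

/-- the clopen cells of a finite partition -/
theorem Model.exists_cells (m : Model A) (P : FP A) :
    ∃ (V : Fin P.n → Clopens m.X) (cell : m.X → Fin P.n), (∀ j, m.pr (V j) = P.e j) ∧
      ∀ x j, cell x = j ↔ x ∈ V j := by
  classical
  choose V hV using fun j => m.exists_pr (P.part.mem j) (P.part.proj j)
  have hind : ∑ j, m.ind (V j) = 1 := by
    apply m.inj
    rw [map_sum, map_one, ← P.part.sum]
    exact Finset.sum_congr rfl fun j _ => hV j
  have hdis : ∀ i j, i ≠ j → ∀ x, x ∈ V i → x ∉ V j := by
    intro i j hij x hi hj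
    have h1 : m.pr (V i ⊓ V j) = m.pr ⊥ := by
      rw [m.pr_inf, hV, hV, P.part.orth i j hij, m.pr_bot]
    have h2 : V i ⊓ V j = ⊥ := m.pr_injective h1
    have h3 : x ∈ V i ⊓ V j := ⟨hi, hj⟩
    rw [h2] at h3
    exact h3
  have hex : ∀ x : m.X, ∃ j, x ∈ V j := by
    intro x
    by_contra hx
    push Not at hx
    have h1 := congrArg (fun f : C(m.X, ℂ) => f x) hind
    simp only [ContinuousMap.sum_apply, ContinuousMap.one_apply] at h1
    rw [Finset.sum_eq_zero fun j _ => m.ind_of_notMem (hx j)] at h1
    exact zero_ne_one h1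
  choose cell hcell using hex
  refine ⟨V, cell, hV, fun x j => ⟨fun h => h ▸ hcell x, fun h => ?_⟩⟩
  by_contra hne
  exact hdis _ _ hne x (hcell x) h

end

end Crest.Agent.R109
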