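import Crest.Agent.R109.AsmIface

/-!
# Row 109: the choice lemma (domination trick)
-/

set_option autoImplicit false

namespace Crest.Agent.R109

namespace Choice

open Finset

/-- partial Bernoulli expectation -/
noncomputable def F {N : ℕ} (lam : ℝ) (W : Finset (Fin N) → ℝ) (s T : Finset (Fin N)) : ℝ :=
  ∑ B ∈ s.powerset, lam ^ B.card * (1 - lam) ^ (s.card - B.card) * W (T ∪ B)

theorem F_insert {N : ℕ} (lam : ℝ) (W : Finset (Fin N) → ℝ) (s T : Finset (Fin N)) {a : Fin N}
    (ha : a ∉ s) : F lam W (insert a s) T = (1 - lam) * F lam W s T + lam * F lam W s (insert a T) := by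
  unfold F
  rw [Finset.sum_powerset_insert ha, Finset.mul_sum, Finset.mul_sum]
  congr 1
  · refine Finset.sum_congr rfl fun B hB => ?_
    have hB' : B ⊆ s := Finset.mem_powerset.1 hB
    have h1 : B.card ≤ s.card := Finset.card_le_card hB'
    rw [Finset.card_insert_of_notMem ha, Nat.sub_add_comm h1, pow_succ]
    ring
  · refine Finset.sum_congr rfl fun B hB => ?_
    have hB' : B ⊆ s := Finset.mem_powerset.1 hB
    have haB : a ∉ B := fun h => ha (hB' h)
    rw [Finset.card_insert_of_notMem ha, Finset.card_insert_of_notMem haB, Nat.add_sub_add_right,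
      pow_succ, Finset.union_insert, Finset.insert_union]
    ring

/-- one step: a colour `a` of the list and a set `U` of further colours -/
theorem step {r : ℕ} (hr : 2 ≤ r) (A : Finset (Fin r)) (hA : r ≤ 2 * A.card) (x y : Fin r → ℝ) :
    ∃ a ∈ A, x a + ∑ i ∈ univ.erase a, min (x i) (y i)
      ≤ ∑ i, (2 / (r : ℝ) * x i + (1 - 2 / (r : ℝ)) * y i) := by
  have hr0 : (0 : ℝ) < r := by positivity
  have hAc : 0 < A.card := by omega
  have hA0 : (0 : ℝ) < A.card := by exact_mod_cast hAc
  have hAne : A.Nonempty := Finset.card_pos.1 hAc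
  by_contra hcon
  push Not at hcon
  have h1 : (A.card : ℝ) * ∑ i, (2 / (r : ℝ) * x i + (1 - 2 / (r : ℝ)) * y i)
      < ∑ a ∈ A, (x a + ∑ i ∈ univ.erase a, min (x i) (y i)) := by
    rw [← nsmul_eq_mul, ← Finset.sum_const]
    exact Finset.sum_lt_sum_of_nonempty hAne fun a ha => hcon a ha
  have h2 : ∀ a : Fin r, ∑ i ∈ univ.erase a, min (x i) (y i)
      = (∑ i, min (x i) (y i)) - min (x a) (y a) := fun a => by
    rw [← Finset.sum_erase_add _ _ (Finset.mem_univ a)]; ring
  have h3 : ∑ a ∈ A, (x a + ∑ i ∈ univ.erase a, min (x i) (y i))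
      = ∑ i, ((if i ∈ A then (x i - min (x i) (y i)) else 0) + A.card * min (x i) (y i)) := by
    have e1 : ∑ a ∈ A, (x a + ∑ i ∈ univ.erase a, min (x i) (y i))
        = ∑ a ∈ A, (x a - min (x a) (y a)) + A.card * ∑ i, min (x i) (y i) := by
      rw [← nsmul_eq_mul, ← Finset.sum_const, ← Finset.sum_add_distrib]
      refine Finset.sum_congr rfl fun a _ => ?_
      rw [h2 a]; ring
    have e2 : ∑ i, (if i ∈ A then (x i - min (x i) (y i)) else 0)
        = ∑ a ∈ A, (x a - min (x a) (y a)) := by
      rw [← Finset.sum_filter, Finset.filter_mem_eq_inter, Finset.univ_inter]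
    rw [e1, Finset.sum_add_distrib, e2, Finset.mul_sum]
  rw [h3, Finset.mul_sum] at h1
  refine absurd h1 (not_lt.2 (Finset.sum_le_sum fun i _ => ?_))
  have h4 : (1 : ℝ) ≤ A.card * (2 / r) := by
    rw [mul_div_assoc', le_div_iff₀ hr0, one_mul]
    have : (r : ℝ) ≤ 2 * A.card := by exact_mod_cast hA
    linarith
  have h5 : 2 / (r : ℝ) ≤ 1 := by
    rw [div_le_one hr0]; exact_mod_cast hr
  have hmx : min (x i) (y i) ≤ x i := min_le_left _ _
  have hmy : min (x i) (y i) ≤ y i := min_le_right _ _
  have h6 : A.card * ((1 - 2 / (r : ℝ)) * min (x i) (y i)) ≤ A.card * ((1 - 2 / (r : ℝ)) * y i) :=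
    mul_le_mul_of_nonneg_left (mul_le_mul_of_nonneg_left hmy (by linarith)) hA0.le
  have h7 : (if i ∈ A then (x i - min (x i) (y i)) else 0)
      ≤ A.card * (2 / r) * (x i - min (x i) (y i)) := by
    split_ifs
    · nlinarith [mul_le_mul_of_nonneg_right h4 (sub_nonneg.2 hmx)]
    · exact mul_nonneg (by positivity) (sub_nonneg.2 hmx)
  calc (if i ∈ A then (x i - min (x i) (y i)) else 0) + A.card * min (x i) (y i)
      ≤ A.card * (2 / r) * (x i - min (x i) (y i)) + A.card * min (x i) (y i) := by linarith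
    _ = A.card * (2 / r) * x i + A.card * ((1 - 2 / (r : ℝ)) * min (x i) (y i)) := by ring
    _ ≤ A.card * (2 / r) * x i + A.card * ((1 - 2 / (r : ℝ)) * y i) := by linarith
    _ = A.card * (2 / (r : ℝ) * x i + (1 - 2 / (r : ℝ)) * y i) := by ring

/-- the cells from `k` on -/
def tail (N k : ℕ) : Finset (Fin N) := univ.filter fun j => k ≤ j.val

theorem tail_zero (N : ℕ) : tail N 0 = univ := by ext; simp [tail]
theorem tail_self (N : ℕ) : tail N N = ∅ := by
  ext j; simp [tail, Nat.not_le.2 j.isLt]
theorem tail_step {N k : ℕ} (hk : k < N) : tail N k = insert ⟨k, hk⟩ (tail N (k + 1)) := by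
  ext j
  simp only [tail, mem_filter, mem_univ, true_and, mem_insert, Fin.ext_iff]
  omega
theorem notMem_tail {N k : ℕ} (hk : k < N) : (⟨k, hk⟩ : Fin N) ∉ tail N (k + 1) := by
  simp [tail]

theorem main {N r : ℕ} (hr : 2 ≤ r) (L : Lists N r) (W : Fin r → Finset (Fin N) → ℝ) (k : ℕ)
    (hk : k ≤ N) : ∃ (c : Fin N → Fin r) (S : Fin r → Finset (Fin N)),
      (∀ j : Fin N, j.val < k → c j ∈ L.Adm j c) ∧ (∀ j : Fin N, j.val < k → j ∈ S (c j)) ∧
      ∑ i, F (2 / (r : ℝ)) (W i) (tail N k) (S i) ≤ ∑ i, F (2 / (r : ℝ)) (W i) (tail N 0) ∅ := by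
  classical
  induction k with
  | zero =>
    exact ⟨fun _ => ⟨0, by omega⟩, fun _ => ∅, fun j hj => absurd hj (Nat.not_lt_zero _),
      fun j hj => absurd hj (Nat.not_lt_zero _), le_rfl⟩
  | succ k ih =>
    obtain ⟨c, S, h1, h2, h3⟩ := ih (Nat.le_of_succ_le hk)
    have hk' : k < N := hk
    set v : Fin N := ⟨k, hk'⟩ with hv
    obtain ⟨a, haA, ha⟩ := step hr (L.Adm v c) (L.card v c)
      (fun i => F (2 / (r : ℝ)) (W i) (tail N (k + 1)) (insert v (S i)))
      (fun i => F (2 / (r : ℝ)) (W i) (tail N (k + 1)) (S i))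
    refine ⟨Function.update c v a, fun i => if i = a ∨
      F (2 / (r : ℝ)) (W i) (tail N (k + 1)) (insert v (S i))
        ≤ F (2 / (r : ℝ)) (W i) (tail N (k + 1)) (S i) then insert v (S i) else S i, ?_, ?_, ?_⟩
    · intro j hj
      have hpast : L.Adm j (Function.update c v a) = L.Adm j c := by
        refine L.past j _ _ fun l hl => ?_
        have hlv : l ≠ v := by
          rintro rfl
          have : k < j.val := hl
          omega
        exact Function.update_of_ne hlv _ _
      rw [hpast]
      rcases Nat.lt_succ_iff_lt_or_eq.1 hj with hj' | hj'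
      · have hjv : j ≠ v := by rintro rfl; exact lt_irrefl _ hj'
        rw [Function.update_of_ne hjv]
        exact h1 j hj'
      · have hjv : j = v := Fin.ext hj'
        subst hjv
        rw [Function.update_self]
        exact haA
    · intro j hj
      rcases Nat.lt_succ_iff_lt_or_eq.1 hj with hj' | hj'
      · have hjv : j ≠ v := by rintro rfl; exact lt_irrefl _ hj'
        rw [Function.update_of_ne hjv]
        show j ∈ if _ then _ else _
        split_ifs
        · exact Finset.mem_insert_of_mem (h2 j hj')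
        · exact h2 j hj'
      · have hjv : j = v := Fin.ext hj'
        subst hjv
        rw [Function.update_self]
        simp
    · refine le_trans ?_ (le_trans ha ?_)
      · rw [← Finset.add_sum_erase _ _ (Finset.mem_univ a)]
        refine add_le_add (le_of_eq (by simp)) (Finset.sum_le_sum fun i hi => ?_)
        have hia : i ≠ a := Finset.ne_of_mem_erase hi
        simp only [hia, false_or]
        split_ifs with h
        · exact le_min le_rfl h
        · exact le_min (not_le.1 h).le le_rfl
      · refine le_trans (le_of_eq (Finset.sum_congr rfl fun i _ => ?_)) h3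
        rw [tail_step hk', F_insert _ _ _ _ (notMem_tail hk')]
        ring

end Choice

/-- the choice lemma -/
theorem choice : ChoiceProp := by
  intro N r hr L W hW
  obtain ⟨c, S, h1, h2, h3⟩ := Choice.main hr L W N le_rfl
  refine ⟨c, S, fun j => h1 j j.isLt, fun j => h2 j j.isLt, ?_⟩
  rw [Choice.tail_self, Choice.tail_zero] at h3
  simpa [Choice.F] using h3

end Crest.Agent.R109
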