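import Crest.Agent.R109.BookEnd
import Crest.Agent.R109.Book2
import Mathlib.MeasureTheory.Measure.MeasuredSets

/-!
# Row 109: clopen approximation of measurable colourings, continuity of the kernel moments

* `approx`: a measurable map with finitely many values is approximated in measure by a map with
  clopen fibres which stays inside the given clopen cells.
* `kp_pin_close`: the moment `∫ kp S (pin c K) m v v` depends continuously on the colouring `c`.
-/

set_option autoImplicit false
set_option linter.unusedSectionVars false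

open MeasureTheory Set
open scoped ENNReal

namespace Crest.Agent.R109.Clop

section Approx

variable {X : Type*} [TopologicalSpace X] [MeasurableSpace X]

theorem isSetRing_clopen : IsSetRing {s : Set X | IsClopen s} where
  empty_mem := isClopen_empty
  union_mem := fun s t hs ht => IsClopen.union (s := s) (t := t) hs ht
  sdiff_mem := fun s t hs ht => IsClopen.diff (s := s) (t := t) hs ht

/-- approximation of one measurable set -/
theorem approx_set (hgen : ‹MeasurableSpace X› = MeasurableSpace.generateFrom {s | IsClopen s})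
    (μ : Measure X) [IsFiniteMeasure μ] {s : Set X} (hs : MeasurableSet s) {ε : ℝ≥0∞}
    (hε : 0 < ε) : ∃ t : Set X, IsClopen t ∧ μ (symmDiff t s) < ε := by
  obtain ⟨t, ht, h⟩ := exists_measure_symmDiff_lt_of_generateFrom_isSetRing (μ := μ)
    isSetRing_clopen
    ⟨{univ}, countable_singleton _, by
      rw [singleton_subset_iff]; exact isClopen_univ, by simp⟩ hgen hs hε
  exact ⟨t, ht, h⟩

theorem measurableSet_of_isClopen
    (hgen : ‹MeasurableSpace X› = MeasurableSpace.generateFrom {s | IsClopen s}) {s : Set X}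
    (hs : IsClopen s) : MeasurableSet s := by
  rw [hgen]
  exact MeasurableSpace.measurableSet_generateFrom hs

/-- approximation of a finite valued measurable map, inside the given cells -/
theorem approx (hgen : ‹MeasurableSpace X› = MeasurableSpace.generateFrom {s | IsClopen s})
    (μ : Measure X) [IsFiniteMeasure μ] {N m : ℕ} (R : X → Fin N)
    (hR : ∀ j, MeasurableSet {x | R x = j}) (cell : X → Fin m)
    (hcell : ∀ i, IsClopen {x | cell x = i}) (f : Fin N → Fin m) (hf : ∀ x, f (R x) = cell x)
    {ε : ℝ} (hε : 0 < ε) :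
    ∃ R' : X → Fin N, (∀ j, IsClopen {x | R' x = j}) ∧ (∀ x, f (R' x) = cell x) ∧
      μ.real {x | R' x ≠ R x} ≤ ε := by
  classical
  rcases Nat.eq_zero_or_pos N with rfl | hN
  · refine ⟨R, fun j => j.elim0, hf, ?_⟩
    simp only [ne_eq, not_true_eq_false, ofPred_false, measureReal_empty]
    exact hε.le
  have hN' : (0 : ℝ) < N := by exact_mod_cast hN
  have hpos : 0 < ENNReal.ofReal (ε / N) := ENNReal.ofReal_pos.2 (div_pos hε hN')
  choose V hV hVs using fun j => approx_set hgen μ (hR j) hpos
  -- the rule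
  let G : Fin m → (Fin N → Prop) → Fin N := fun i P =>
    if h : ∃ j, P j ∧ f j = i then h.choose
    else if h : ∃ j, f j = i then h.choose else ⟨0, hN⟩
  let R' : X → Fin N := fun x => G (cell x) (fun j => x ∈ V j)
  have hG : ∀ i P, (∃ j, f j = i) → f (G i P) = i := by
    intro i P hi
    by_cases h : ∃ j, P j ∧ f j = i
    · simp only [G, dif_pos h]
      exact h.choose_spec.2
    · simp only [G, dif_neg h, dif_pos hi]
      exact hi.choose_spec
  have hopen : ∀ x, ∃ U : Set X, IsOpen U ∧ x ∈ U ∧ ∀ y ∈ U, R' y = R' x := by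
    intro x
    refine ⟨{y | cell y = cell x} ∩ ⋂ j, {y | y ∈ V j ↔ x ∈ V j}, ?_, ?_, ?_⟩
    · refine (hcell _).isOpen.inter (isOpen_iInter_of_finite fun j => ?_)
      by_cases hx : x ∈ V j
      · have : {y | y ∈ V j ↔ x ∈ V j} = V j := by ext y; simp [hx]
        rw [this]; exact (hV j).isOpen
      · have : {y | y ∈ V j ↔ x ∈ V j} = (V j)ᶜ := by ext y; simp [hx]
        rw [this]; exact (hV j).compl.isOpen
    · simp
    · rintro y ⟨h1, h2⟩
      simp only [mem_iInter, mem_ofPred_eq] at h1 h2
      have : (fun j => y ∈ V j) = fun j => x ∈ V j := funext fun j => propext (h2 j)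
      change G (cell y) (fun j => y ∈ V j) = G (cell x) (fun j => x ∈ V j)
      rw [this, h1]
  have hfib : ∀ j, IsOpen {x | R' x = j} := by
    intro j
    rw [isOpen_iff_forall_mem_open]
    intro x hx
    obtain ⟨U, hU, hxU, hc⟩ := hopen x
    exact ⟨U, fun y hy => (hc y hy).trans hx, hU, hxU⟩
  refine ⟨R', fun j => ⟨?_, hfib j⟩, fun x => ?_, ?_⟩
  · rw [← isOpen_compl_iff]
    have : {x | R' x = j}ᶜ = ⋃ i ∈ {i | i ≠ j}, {x | R' x = i} := by
      ext x
      simp
    rw [this]
    exact isOpen_biUnion fun i _ => hfib i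
  · exact hG _ _ ⟨R x, hf x⟩
  · have hsub : {x | R' x ≠ R x} ⊆ ⋃ j, symmDiff (V j) {x | R x = j} := by
      intro x hx
      by_contra hno
      apply hx
      simp only [mem_iUnion, not_exists] at hno
      have hiff : ∀ j, x ∈ V j ↔ R x = j := by
        intro j
        have := hno j
        rw [mem_symmDiff] at this
        push Not at this
        exact ⟨fun h => this.1 h, fun h => this.2 h⟩
      have hex : ∃ j, (x ∈ V j) ∧ f j = cell x := ⟨R x, (hiff _).2 rfl, hf x⟩
      have h1 : R' x = hex.choose := by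
        change G (cell x) (fun j => x ∈ V j) = _
        simp only [G]
        rw [dif_pos hex]
      rw [h1]
      exact ((hiff _).1 hex.choose_spec.1).symm
    have h1 : μ {x | R' x ≠ R x} ≤ ENNReal.ofReal ε := by
      calc μ {x | R' x ≠ R x} ≤ μ (⋃ j, symmDiff (V j) {x | R x = j}) := measure_mono hsub
        _ ≤ ∑ j, μ (symmDiff (V j) {x | R x = j}) := measure_iUnion_fintype_le _ _
        _ ≤ ∑ _j : Fin N, ENNReal.ofReal (ε / N) := Finset.sum_le_sum fun j _ => (hVs j).le
        _ = ENNReal.ofReal ε := by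
            rw [Finset.sum_const, Finset.card_univ, Fintype.card_fin, nsmul_eq_mul]
            rw [← ENNReal.ofReal_natCast, ← ENNReal.ofReal_mul hN'.le]
            congr 1
            field_simp
    rw [Measure.real]
    exact ENNReal.toReal_le_of_le_ofReal hε.le h1

end Approx

section Continuity

open Book

variable {Gam X : Type*} [Group Gam] [MulAction Gam X] [MeasurableSpace X] {μ : Measure X}

/-- translates of small sets are small -/
theorem exists_translate_bound (Q : QI Gam X μ) [IsFiniteMeasure μ] (g : Gam) :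
    ∃ C : ℝ, 0 ≤ C ∧ ∀ s : Set X, MeasurableSet s → μ.real {x | g • x ∈ s} ≤ C * μ.real s := by
  classical
  obtain ⟨C, hC⟩ := Q.D_bdd g⁻¹
  have hlow : ∀ x, 1 ≤ |C| * Q.D g x := by
    intro x
    have h1 : Q.D g⁻¹ (g • x) * Q.D g x = 1 := by
      rw [← Q.D_mul, inv_mul_cancel, Q.D_one]
    calc (1 : ℝ) = Q.D g⁻¹ (g • x) * Q.D g x := h1.symm
      _ ≤ |C| * Q.D g x := by
        exact mul_le_mul_of_nonneg_right ((hC _).trans (le_abs_self C)) (Q.D_pos _ _).le
  refine ⟨|C|, abs_nonneg _, fun s hs => ?_⟩
  have hpre : MeasurableSet {x | g • x ∈ s} := Q.meas_smul g hs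
  obtain ⟨C', hC'⟩ := Q.D_bdd g
  have hint : Integrable (fun x => s.indicator (fun _ => (1 : ℝ)) (g • x) * Q.D g x) μ := by
    refine Integrable.of_bound (C := |C'|) ?_ ?_
    · exact (((measurable_const.indicator hs).comp (Q.meas_smul g)).mul
        (Q.meas_D g)).aestronglyMeasurable
    · refine Filter.Eventually.of_forall fun x => ?_
      rw [norm_mul]
      have h1 : ‖s.indicator (fun _ => (1 : ℝ)) (g • x)‖ ≤ 1 := by
        by_cases h : g • x ∈ s <;> simp [h]
      have h2 : ‖Q.D g x‖ ≤ |C'| := by
        rw [Real.norm_eq_abs, abs_of_pos (Q.D_pos _ _)]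
        exact (hC' x).trans (le_abs_self _)
      calc _ ≤ 1 * |C'| := mul_le_mul h1 h2 (norm_nonneg _) zero_le_one
        _ = _ := one_mul _
  have h2 := Q.change g (s.indicator fun _ => (1 : ℝ)) (measurable_const.indicator hs)
    ⟨1, fun x => by by_cases h : x ∈ s <;> simp [h]⟩
  have h3 : ∫ x, s.indicator (fun _ => (1 : ℝ)) x ∂μ = μ.real s := by
    rw [integral_indicator hs]; simp
  have h4 : ∫ x, {x | g • x ∈ s}.indicator (fun _ => (1 : ℝ)) x ∂μ = μ.real {x | g • x ∈ s} := by
    rw [integral_indicator hpre]; simp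
  rw [← h4, ← h3, ← h2, ← integral_const_mul]
  refine integral_mono ?_ (hint.const_mul _) ?_
  · exact (integrable_const (1 : ℝ)).indicator hpre
  · intro x
    by_cases h : g • x ∈ s
    · have h5 : ({x | g • x ∈ s} : Set X).indicator (fun _ => (1 : ℝ)) x = 1 :=
        indicator_of_mem (show x ∈ {x | g • x ∈ s} from h) _
      simp only [h5, indicator_of_mem h, one_mul]
      exact hlow x
    · have h5 : ({x | g • x ∈ s} : Set X).indicator (fun _ => (1 : ℝ)) x = 0 :=
        indicator_of_notMem (show x ∉ {x | g • x ∈ s} from h) _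
      simp only [h5, indicator_of_notMem h, zero_mul, mul_zero]
      exact le_refl _

/-- products of at most `m` elements of `S` -/
def Near' (S : Finset Gam) (P : X → Prop) : ℕ → X → Prop
  | 0, y => P y
  | (j + 1), y => P y ∧ ∀ w ∈ ball S y, Near' S P j w

theorem Near'.self {S : Finset Gam} {P : X → Prop} {j : ℕ} {y : X} (h : Near' S P j y) : P y := by
  cases j with
  | zero => exact h
  | succ j => exact h.1

/-- equal colours nearby give equal kernel powers -/
theorem kp_pin_congr (S : Finset Gam) (K : X → X → X → ℂ) {r : ℕ} (c c' : X → Fin r) (j : ℕ) (v : X) :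
    ∀ y z, Near' S (fun w => c w = c' w) j y →
      kp S (pin c K v) j y z = kp S (pin c' K v) j y z := by
  induction j with
  | zero => intro y z _; rfl
  | succ j ih =>
    intro y z hy
    simp only [kp]
    refine Finset.sum_congr rfl fun w hw => ?_
    rw [ih w z (hy.2 w hw)]
    have h1 : pin c K v y w = pin c' K v y w := by
      unfold pin
      rw [show c y = c' y from hy.1, show c w = c' w from (hy.2 w hw).self]
    rw [h1]

theorem norm_kp_le (S : Finset Gam) (K : X → X → ℂ) (hK : ∀ y w, ‖K y w‖ ≤ 1) (j : ℕ) :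
    ∀ y z, ‖kp S K j y z‖ ≤ (S.card : ℝ) ^ j := by
  classical
  induction j with
  | zero =>
    intro y z
    simp only [kp, pow_zero]
    split_ifs <;> simp
  | succ j ih =>
    intro y z
    simp only [kp]
    calc ‖∑ w ∈ ball S y, K y w * kp S K j w z‖
        ≤ ∑ w ∈ ball S y, ‖K y w * kp S K j w z‖ := norm_sum_le _ _
      _ ≤ ∑ _w ∈ ball S y, (S.card : ℝ) ^ j := by
          refine Finset.sum_le_sum fun w _ => ?_
          rw [norm_mul]
          calc _ ≤ 1 * (S.card : ℝ) ^ j := mul_le_mul (hK _ _) (ih _ _) (norm_nonneg _) zero_le_one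
            _ = _ := one_mul _
      _ = ((ball S y).card : ℝ) * (S.card : ℝ) ^ j := by rw [Finset.sum_const, nsmul_eq_mul]
      _ ≤ (S.card : ℝ) * (S.card : ℝ) ^ j := by
          gcongr
          exact card_ball_le S y
      _ = (S.card : ℝ) ^ (j + 1) := by ring

/-- the set of roots near which a small set is met is small -/
theorem exists_near_bound (Q : QI Gam X μ) [IsFiniteMeasure μ] (S : Finset Gam) (m : ℕ) :
    ∃ C : ℝ, 0 ≤ C ∧ ∀ P : X → Prop, MeasurableSet {x | P x} →
      MeasurableSet {x | Near' S P m x} ∧ μ.real {x | ¬ Near' S P m x} ≤ C * μ.real {x | ¬ P x} := by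
  classical
  induction m with
  | zero =>
    refine ⟨1, zero_le_one, fun P hP => ⟨hP, ?_⟩⟩
    rw [one_mul]
    exact le_refl _
  | succ m ih =>
    obtain ⟨C, hC0, hC⟩ := ih
    choose D hD0 hD using fun g => exists_translate_bound Q (μ := μ) g
    refine ⟨1 + ∑ g ∈ S, D g * C, ?_, fun P hP => ?_⟩
    · have : 0 ≤ ∑ g ∈ S, D g * C := Finset.sum_nonneg fun g _ => mul_nonneg (hD0 g) hC0
      linarith
    obtain ⟨hm, hb⟩ := hC P hP
    have heq : {x | Near' S P (m + 1) x} = {x | P x} ∩ ⋂ g ∈ S, {x | Near' S P m (g • x)} := by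
      ext x
      simp only [mem_ofPred_eq, mem_inter_iff, mem_iInter, Near', mem_ball]
      constructor
      · rintro ⟨h1, h2⟩
        exact ⟨h1, fun g hg => h2 _ ⟨g, hg, rfl⟩⟩
      · rintro ⟨h1, h2⟩
        refine ⟨h1, ?_⟩
        rintro w ⟨g, hg, rfl⟩
        exact h2 g hg
    have hmeas : ∀ g : Gam, MeasurableSet {x | Near' S P m (g • x)} := fun g => Q.meas_smul g hm
    refine ⟨?_, ?_⟩
    · rw [heq]
      exact hP.inter (Finset.measurableSet_biInter _ fun g _ => hmeas g)
    · have hsub : {x | ¬ Near' S P (m + 1) x} ⊆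
          {x | ¬ P x} ∪ ⋃ g ∈ S, {x | g • x ∈ {y | ¬ Near' S P m y}} := by
        intro x hx
        by_cases h1 : P x
        · right
          simp only [mem_iUnion, mem_ofPred_eq]
          by_contra hno
          push Not at hno
          apply hx
          have : x ∈ {x | Near' S P (m + 1) x} := by
            rw [heq]
            exact ⟨h1, by simpa using hno⟩
          exact this
        · left; exact h1
      calc μ.real {x | ¬ Near' S P (m + 1) x}
          ≤ μ.real ({x | ¬ P x} ∪ ⋃ g ∈ S, {x | g • x ∈ {y | ¬ Near' S P m y}}) :=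
            measureReal_mono hsub
        _ ≤ μ.real {x | ¬ P x} + μ.real (⋃ g ∈ S, {x | g • x ∈ {y | ¬ Near' S P m y}}) :=
            measureReal_union_le _ _
        _ ≤ μ.real {x | ¬ P x} + ∑ g ∈ S, μ.real {x | g • x ∈ {y | ¬ Near' S P m y}} := by
            gcongr
            exact measureReal_biUnion_finset_le _ _
        _ ≤ μ.real {x | ¬ P x} + ∑ g ∈ S, D g * (C * μ.real {x | ¬ P x}) := by
            gcongr with g hg
            refine (hD g _ hm.compl).trans ?_
            exact mul_le_mul_of_nonneg_left hb (hD0 g)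
        _ = (1 + ∑ g ∈ S, D g * C) * μ.real {x | ¬ P x} := by
            rw [add_mul, one_mul, Finset.sum_mul]
            simp only [mul_assoc]

/-- continuity of the kernel moments in the colouring -/
theorem kp_pin_close (Q : QI Gam X μ) [IsFiniteMeasure μ] (S : Finset Gam)
    (K : X → X → X → ℂ) (hK : ∀ v y w, ‖K v y w‖ ≤ 1) (cw : CW Gam K) (r m : ℕ) {κ : ℝ}
    (hκ : 0 < κ) :
    ∃ δ : ℝ, 0 < δ ∧ ∀ c c' : X → Fin r, Measurable c → Measurable c' →
      μ.real {x | c x ≠ c' x} ≤ δ →
      |∫ v, (kp S (pin c K v) m v v).re ∂μ - ∫ v, (kp S (pin c' K v) m v v).re ∂μ| ≤ κ := by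
  classical
  obtain ⟨C, hC0, hC⟩ := exists_near_bound Q (μ := μ) S m
  set B : ℝ := 2 * (S.card : ℝ) ^ m with hB
  have hB0 : 0 ≤ B := by positivity
  refine ⟨κ / (B * C + 1), by positivity, fun c c' hc hc' hd => ?_⟩
  have hPm : MeasurableSet {x | c x = c' x} := measurableSet_eq_fun hc hc'
  obtain ⟨hm, hb⟩ := hC (fun x => c x = c' x) hPm
  have hbound : ∀ (d : X → Fin r) (v : X), |(kp S (pin d K v) m v v).re| ≤ (S.card : ℝ) ^ m := by
    intro d v
    refine (Complex.abs_re_le_norm _).trans (norm_kp_le S _ ?_ m v v)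
    exact pin_norm d K hK v
  have hint : ∀ d : X → Fin r, Measurable d →
      Integrable (fun v => (kp S (pin d K v) m v v).re) μ := by
    intro d hd
    refine Integrable.of_bound (C := (S.card : ℝ) ^ m) ?_ ?_
    · exact (Complex.measurable_re.comp
        (measurable_kp Q.meas_eq S _ (CW_pin Q d hd K cw) m)).aestronglyMeasurable
    · exact Filter.Eventually.of_forall fun v => by
        rw [Real.norm_eq_abs]; exact hbound d v
  rw [← integral_sub (hint c hc) (hint c' hc')]
  have hpt : ∀ v, |(kp S (pin c K v) m v v).re - (kp S (pin c' K v) m v v).re|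
      ≤ {x | ¬ Near' S (fun x => c x = c' x) m x}.indicator (fun _ => B) v := by
    intro v
    by_cases h : Near' S (fun x => c x = c' x) m v
    · rw [kp_pin_congr S K c c' m v v v h, sub_self, abs_zero]
      exact indicator_nonneg (fun _ _ => hB0) _
    · rw [indicator_of_mem (show v ∈ {x | ¬ Near' S (fun x => c x = c' x) m x} from h)]
      calc _ ≤ |(kp S (pin c K v) m v v).re| + |(kp S (pin c' K v) m v v).re| := abs_sub _ _
        _ ≤ (S.card : ℝ) ^ m + (S.card : ℝ) ^ m := add_le_add (hbound c v) (hbound c' v)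
        _ = B := by rw [hB]; ring
  calc |∫ v, ((kp S (pin c K v) m v v).re - (kp S (pin c' K v) m v v).re) ∂μ|
      ≤ ∫ v, |(kp S (pin c K v) m v v).re - (kp S (pin c' K v) m v v).re| ∂μ :=
        abs_integral_le_integral_abs
    _ ≤ ∫ v, {x | ¬ Near' S (fun x => c x = c' x) m x}.indicator (fun _ => B) v ∂μ := by
        refine integral_mono ((hint c hc).sub (hint c' hc')).abs ?_ hpt
        exact (integrable_const B).indicator hm.compl
    _ = B * μ.real {x | ¬ Near' S (fun x => c x = c' x) m x} := by
        have hm' : MeasurableSet {x | ¬ Near' S (fun x => c x = c' x) m x} := hm.compl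
        rw [integral_indicator hm']
        simp [mul_comm]
    _ ≤ B * (C * μ.real {x | ¬ (c x = c' x)}) := mul_le_mul_of_nonneg_left hb hB0
    _ ≤ B * (C * (κ / (B * C + 1))) := by
        have : μ.real {x | ¬ (c x = c' x)} ≤ κ / (B * C + 1) := hd
        gcongr
    _ = (B * C) / (B * C + 1) * κ := by ring
    _ ≤ 1 * κ := by
        refine mul_le_mul_of_nonneg_right ?_ hκ.le
        rw [div_le_one (by positivity)]
        linarith
    _ = κ := one_mul κ

end Continuity

end Crest.Agent.R109.Clop
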