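import Crest.Agent.R109.FinVolA
import Crest.Agent.R109.Book3

/-!
# Row 109, (H2) CLUSTER: the Moebius inverse of `H` lives on connected sets with at most `2k` points
-/

set_option autoImplicit false
set_option linter.unusedSectionVars false
set_option linter.unusedSimpArgs false

namespace Crest.Agent.R109.Cluster

open Finset Crest.Agent.R109.Ann Crest.Agent.R109.Book

/-! ### Moebius algebra -/

section Mob

variable {X : Type*}

theorem mob_add (f g : Finset X → ℝ) (U : Finset X) :
    mob (fun V => f V + g V) U = mob f U + mob g U := by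
  simp only [mob, mul_add, Finset.sum_add_distrib]

/-- a function which ignores a point of `U` has zero Moebius inverse at `U` -/
theorem mob_eq_zero_of_ignore [DecidableEq X] (f : Finset X → ℝ) {a : X} {U : Finset X}
    (ha : a ∈ U) (h : ∀ V ⊆ U, f (insert a V) = f V) : mob f U = 0 := by
  have h1 : insert a (U.erase a) = U := Finset.insert_erase ha
  rw [← h1, mob_insert f (Finset.notMem_erase a U), sub_eq_zero]
  exact mob_congr fun V hV => h V (hV.trans (Finset.erase_subset _ _))

/-- uniqueness of the Moebius inverse -/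
theorem mob_unique (f φ : Finset X → ℝ) (U : Finset X)
    (h : ∀ W ⊆ U, f W = ∑ S ∈ W.powerset, φ S) : ∀ W ⊆ U, mob f W = φ W := by
  classical
  have key : ∀ n : ℕ, ∀ W ⊆ U, W.card = n → mob f W = φ W := by
    intro n
    induction n using Nat.strong_induction_on with
    | _ n ih =>
      intro W hW hn
      have h1 : ∑ S ∈ W.powerset, mob f S = ∑ S ∈ W.powerset, φ S := by
        rw [sum_mob, h W hW]
      rw [← Finset.add_sum_erase _ _ (Finset.mem_powerset_self W),
        ← Finset.add_sum_erase _ _ (Finset.mem_powerset_self W)] at h1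
      have h2 : ∑ S ∈ W.powerset.erase W, mob f S = ∑ S ∈ W.powerset.erase W, φ S := by
        refine Finset.sum_congr rfl fun S hS => ?_
        rw [Finset.mem_erase, Finset.mem_powerset] at hS
        have hlt : S.card < W.card := Finset.card_lt_card ⟨hS.2, fun h => hS.1 (subset_antisymm hS.2 h)⟩
        exact ih S.card (hn ▸ hlt) S (hS.2.trans hW) rfl
      linarith
  exact fun W hW => key _ W hW rfl

/-- `f` is of degree at most `n` on the subsets of `U` -/
def Dg (U : Finset X) (n : ℕ) (f : Finset X → ℝ) : Prop :=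
  ∃ φ : Finset X → ℝ, (∀ W ⊆ U, f W = ∑ S ∈ W.powerset, φ S) ∧ ∀ S ⊆ U, n < S.card → φ S = 0

theorem Dg.mob_eq_zero {U : Finset X} {n : ℕ} {f : Finset X → ℝ} (h : Dg U n f)
    (hn : n < U.card) : mob f U = 0 := by
  obtain ⟨φ, h1, h2⟩ := h
  rw [mob_unique f φ U h1 U subset_rfl]
  exact h2 U subset_rfl hn

theorem Dg.mono {U : Finset X} {n m : ℕ} {f : Finset X → ℝ} (h : Dg U n f) (hnm : n ≤ m) :
    Dg U m f := by
  obtain ⟨φ, h1, h2⟩ := h
  exact ⟨φ, h1, fun S hS hn => h2 S hS (by omega)⟩

theorem Dg.congr {U : Finset X} {n : ℕ} {f g : Finset X → ℝ} (h : Dg U n f)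
    (hfg : ∀ W ⊆ U, g W = f W) : Dg U n g := by
  obtain ⟨φ, h1, h2⟩ := h
  exact ⟨φ, fun W hW => (hfg W hW).trans (h1 W hW), h2⟩

theorem Dg.const (U : Finset X) (n : ℕ) (c : ℝ) : Dg U n (fun _ => c) := by
  classical
  refine ⟨fun S => if S = ∅ then c else 0, fun W _ => ?_, fun S _ hS => ?_⟩
  · rw [Finset.sum_ite_eq' W.powerset ∅ (fun _ => c), if_pos (Finset.empty_mem_powerset W)]
  · have : S ≠ ∅ := by
      rintro rfl
      simp at hS
    simp [this]

theorem Dg.add {U : Finset X} {n : ℕ} {f g : Finset X → ℝ} (hf : Dg U n f) (hg : Dg U n g) :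
    Dg U n (fun W => f W + g W) := by
  obtain ⟨φ, h1, h2⟩ := hf
  obtain ⟨ψ, h3, h4⟩ := hg
  refine ⟨fun S => φ S + ψ S, fun W hW => ?_, fun S hS hn => ?_⟩
  · simp only [h1 W hW, h3 W hW, Finset.sum_add_distrib]
  · simp only [h2 S hS hn, h4 S hS hn, add_zero]

theorem Dg.cmul {U : Finset X} {n : ℕ} {f : Finset X → ℝ} (c : ℝ) (hf : Dg U n f) :
    Dg U n (fun W => c * f W) := by
  obtain ⟨φ, h1, h2⟩ := hf
  refine ⟨fun S => c * φ S, fun W hW => ?_, fun S hS hn => ?_⟩
  · simp only [h1 W hW, Finset.mul_sum]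
  · simp only [h2 S hS hn, mul_zero]

theorem Dg.sum {U : Finset X} {n : ℕ} {ι : Type*} (s : Finset ι) (f : ι → Finset X → ℝ)
    (h : ∀ i ∈ s, Dg U n (f i)) : Dg U n (fun W => ∑ i ∈ s, f i W) := by
  classical
  induction s using Finset.induction_on with
  | empty => simpa using Dg.const U n 0
  | insert a s ha ih =>
    have h1 := (h a (Finset.mem_insert_self a s)).add
      (ih fun i hi => h i (Finset.mem_insert_of_mem hi))
    exact h1.congr fun W _ => Finset.sum_insert ha

theorem Dg.mul {U : Finset X} {n m : ℕ} {f g : Finset X → ℝ} (hf : Dg U n f) (hg : Dg U m g) :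
    Dg U (n + m) (fun W => f W * g W) := by
  classical
  obtain ⟨φ, h1, h2⟩ := hf
  obtain ⟨ψ, h3, h4⟩ := hg
  refine ⟨fun R => ∑ p ∈ (R.powerset ×ˢ R.powerset).filter (fun p => p.1 ∪ p.2 = R),
    φ p.1 * ψ p.2, fun W hW => ?_, fun R hR hn => ?_⟩
  · beta_reduce
    rw [h1 W hW, h3 W hW, Finset.sum_mul_sum, ← Finset.sum_product']
    rw [← Finset.sum_fiberwise_of_maps_to (s := W.powerset ×ˢ W.powerset) (t := W.powerset)
      (g := fun p => p.1 ∪ p.2) (fun p hp => by
        rw [Finset.mem_product, Finset.mem_powerset, Finset.mem_powerset] at hp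
        rw [Finset.mem_powerset]
        exact Finset.union_subset hp.1 hp.2)]
    refine Finset.sum_congr rfl fun R hR => ?_
    rw [Finset.mem_powerset] at hR
    refine Finset.sum_congr ?_ fun _ _ => rfl
    ext p
    simp only [Finset.mem_filter, Finset.mem_product, Finset.mem_powerset]
    constructor
    · rintro ⟨⟨_, _⟩, h⟩
      subst h
      exact ⟨⟨Finset.subset_union_left, Finset.subset_union_right⟩, rfl⟩
    · rintro ⟨⟨h5, h6⟩, h⟩
      exact ⟨⟨h5.trans hR, h6.trans hR⟩, h⟩
  · refine Finset.sum_eq_zero fun p hp => ?_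
    rw [Finset.mem_filter, Finset.mem_product, Finset.mem_powerset, Finset.mem_powerset] at hp
    have hc : R.card ≤ p.1.card + p.2.card := by
      rw [← hp.2]; exact Finset.card_union_le _ _
    rcases Nat.lt_or_ge n p.1.card with h | h
    · rw [h2 p.1 (hp.1.1.trans hR) h, zero_mul]
    · rw [h4 p.2 (hp.1.2.trans hR) (by omega), mul_zero]

/-- power series version -/
def DgS (U : Finset X) (F : Finset X → PowerSeries ℝ) : Prop :=
  ∀ n, Dg U n (fun W => PowerSeries.coeff n (F W))

theorem DgS.one (U : Finset X) : DgS U (fun _ => 1) := fun n => Dg.const U n _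

theorem DgS.sub {U : Finset X} {F G : Finset X → PowerSeries ℝ} (hF : DgS U F) (hG : DgS U G) :
    DgS U (fun W => F W - G W) := fun n =>
  ((hF n).add ((hG n).cmul (-1))).congr fun W _ => by
    simp only [map_sub]; ring

theorem DgS.mul {U : Finset X} {F G : Finset X → PowerSeries ℝ} (hF : DgS U F) (hG : DgS U G) :
    DgS U (fun W => F W * G W) := fun n => by
  have h := Dg.sum (U := U) (n := n) (Finset.HasAntidiagonal.antidiagonal n)
    (fun (p : ℕ × ℕ) W => PowerSeries.coeff p.1 (F W) * PowerSeries.coeff p.2 (G W)) (fun p hp => by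
      rw [Finset.HasAntidiagonal.mem_antidiagonal] at hp
      exact ((hF p.1).mul (hG p.2)).mono (le_of_eq hp))
  exact h.congr fun W _ => PowerSeries.coeff_mul _ _ _

theorem DgS.pow {U : Finset X} {F : Finset X → PowerSeries ℝ} (hF : DgS U F) (m : ℕ) :
    DgS U (fun W => F W ^ m) := by
  induction m with
  | zero => simpa using DgS.one U
  | succ m ih => simpa only [pow_succ] using ih.mul hF

end Mob

/-! ### the annealed polynomial as a function of the window -/

section Pol

variable {X : Type*} {r : ℕ}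

open Classical in
/-- the annealed polynomial of the window -/
noncomputable def PW (x : X → X → ℂ) (g : X → Fin r → ℝ) (W : Finset X) : Polynomial ℝ :=
  pol (fun u w : W => x u w) (fun (v : W) i => g v i)

theorem H_eq_PW (k : ℕ) (x : X → X → ℂ) (g : X → Fin r → ℝ) (W : Finset X) :
    FinVol.H k x g W = PowerSeries.coeff (2 * k) (qS (1 - (PW x g W : PowerSeries ℝ))) := rfl

open Classical in
theorem PW_subset (x : X → X → ℂ) (g : X → Fin r → ℝ) {W U : Finset X} (hW : W ⊆ U) :
    PW x g W = pol (fun u w : U => x u w) (fun (v : U) i => if v.1 ∈ W then g v i else 0) := by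
  rw [FinVol.pol_extend (fun v : W => (⟨v.1, hW v.2⟩ : U)) ?_ (fun u w : U => x u w)
    (fun (v : U) i => if v.1 ∈ W then g v i else 0) ?_]
  · rw [PW]
    congr 1
    funext v i
    simp
  · intro a b h
    exact Subtype.ext (by simpa using congrArg Subtype.val h)
  · rintro ⟨v, hv⟩ hn
    have : v ∉ W := fun h => hn ⟨⟨v, h⟩, rfl⟩
    funext i
    simp [this]

open Classical in
theorem PW_coeff_zero (x : X → X → ℂ) (g : X → Fin r → ℝ) (W : Finset X) :
    (PW x g W).coeff 0 = 1 := pol_coeff_zero _ _

open Classical in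
theorem coeff_pol {V K : Type*} [Fintype V] [DecidableEq V] [Fintype K] [DecidableEq K]
    (x : V → V → ℂ) (γ : V → K → ℝ) (n : ℕ) :
    (pol x γ).coeff n = ∑ c : V → Option K,
      if n = (Ann.sup c).card then (N x c).det.re * ∏ v, wt (γ v) (c v) else 0 := by
  rw [pol, annD_apply, Polynomial.finsetSum_coeff]
  refine Finset.sum_congr rfl fun c _ => ?_
  have : (∏ w, wt (fun i => (Polynomial.C (γ w i) : Polynomial ℝ)) (c w))
      = Polynomial.C (∏ w, wt (γ w) (c w)) := by
    rw [map_prod]
    refine Finset.prod_congr rfl fun w _ => ?_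
    cases c w <;> simp
  rw [this, Dp, mul_right_comm, ← Polynomial.C_mul, Polynomial.coeff_C_mul_X_pow]

theorem DgS_PW (x : X → X → ℂ) (g : X → Fin r → ℝ) (U : Finset X) :
    DgS U (fun W => (PW x g W : PowerSeries ℝ)) := by
  classical
  intro n
  -- support of a coloring of `U`
  let S : (U → Option (Fin r)) → Finset X := fun c => (Ann.sup c).map (Function.Embedding.subtype _)
  have hS : ∀ c, (S c).card = (Ann.sup c).card := fun c => Finset.card_map _
  have h := Dg.sum (U := U) (n := n) (Finset.univ : Finset (U → Option (Fin r)))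
    (fun c W => if n = (Ann.sup c).card ∧ S c ⊆ W then
      (N (fun u w : U => x u w) c).det.re * ∏ v : U, wt (g v) (c v) else 0) (fun c _ => by
      refine ⟨fun T => if n = (Ann.sup c).card ∧ S c = T then
        (N (fun u w : U => x u w) c).det.re * ∏ v : U, wt (g v) (c v) else 0, fun W _ => ?_,
        fun T _ hT => ?_⟩
      · by_cases h1 : n = (Ann.sup c).card
        · simp only [h1, true_and]
          rw [Finset.sum_ite_eq W.powerset (S c)]
          simp only [Finset.mem_powerset]
        · simp [h1]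
      · beta_reduce
        rw [if_neg]
        rintro ⟨h1, h2⟩
        rw [← h2, hS] at hT
        omega)
  refine h.congr fun W hW => ?_
  rw [Polynomial.coeff_coe, PW_subset x g hW, coeff_pol]
  refine Finset.sum_congr rfl fun c _ => ?_
  by_cases h1 : n = (Ann.sup c).card
  · simp only [h1, true_and, if_true]
    by_cases h2 : S c ⊆ W
    · rw [if_pos h2]
      congr 1
      refine Finset.prod_congr rfl fun v _ => ?_
      by_cases hv : v.1 ∈ W
      · simp [hv]
      · have : c v = none := by
          by_contra hc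
          apply hv
          apply h2
          simp only [S, Finset.mem_map, Function.Embedding.coe_subtype]
          exact ⟨v, by simp [Ann.sup, hc], rfl⟩
        rw [this]; rfl
    · rw [if_neg h2]
      obtain ⟨v, hv, hvW⟩ := Finset.not_subset.1 h2
      simp only [S, Finset.mem_map, Function.Embedding.coe_subtype] at hv
      obtain ⟨a, ha, rfl⟩ := hv
      rw [Finset.prod_eq_zero (Finset.mem_univ a), mul_zero]
      have hc : c a ≠ none := by simpa [Ann.sup] using ha
      cases hc' : c a with
      | none => exact absurd hc' hc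
      | some i => simp [hvW]
  · simp [h1]

theorem cc_one_sub_PW (x : X → X → ℂ) (g : X → Fin r → ℝ) (W : Finset X) :
    PowerSeries.constantCoeff (1 - (PW x g W : PowerSeries ℝ)) = 0 := by
  rw [map_sub, map_one, Polynomial.constantCoeff_coe, PW_coeff_zero, sub_self]

theorem Dg_H (k : ℕ) (x : X → X → ℂ) (g : X → Fin r → ℝ) (U : Finset X) :
    Dg U (2 * k) (FinVol.H k x g) := by
  have h1 : DgS U (fun W => 1 - (PW x g W : PowerSeries ℝ)) := (DgS.one U).sub (DgS_PW x g U)
  have h2 := Dg.sum (U := U) (n := 2 * k) (Finset.range (2 * k + 1))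
    (fun n W => ((2 * k : ℕ) : ℝ) / (n + 1) *
      PowerSeries.coeff (2 * k) ((1 - (PW x g W : PowerSeries ℝ)) ^ (n + 1)))
    (fun n _ => ((h1.pow (n + 1)) (2 * k)).cmul _)
  refine h2.congr fun W _ => ?_
  rw [H_eq_PW, coeff_qS _ (cc_one_sub_PW x g W)]

/-- **(H2a)** clusters have at most `2k` points -/
theorem card_le_of_mob (k : ℕ) (x : X → X → ℂ) (g : X → Fin r → ℝ) (U : Finset X)
    (h : mob (FinVol.H k x g) U ≠ 0) : U.card ≤ 2 * k := by
  by_contra hcon
  exact h ((Dg_H k x g U).mob_eq_zero (by omega))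

end Pol

end Crest.Agent.R109.Cluster
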