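import Crest.Agent.R109.SeqLev
import Crest.Agent.R109.Cut

/-!
# Row 109, part without normal expectation: the random colouring
-/

set_option autoImplicit false
set_option linter.unusedSectionVars false

namespace Crest.Agent.R109

open scoped InnerProductSpace
open ContinuousLinearMap Crest.Agent.R124 Crest.Agent.R121

universe u

/-- a sum over colourings vanishes if the sum over one colour vanishes -/
lemma sum_col_eq_zero {I : Type*} [Fintype I] [DecidableEq I] {R : ℕ} (a : I)
    (F : (I → Fin R) → ℝ) (h : ∀ c, ∑ k, F (Function.update c a k) = 0) : ∑ c, F c = 0 := by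
  rw [← (Equiv.funSplitAt a (Fin R)).symm.sum_comp F, Fintype.sum_prod_type, Finset.sum_comm]
  refine Finset.sum_eq_zero fun g _ => ?_
  rcases Nat.eq_zero_or_pos R with h0 | h0
  · subst h0
    simp
  · have h1 := h ((Equiv.funSplitAt a (Fin R)).symm (⟨0, h0⟩, g))
    rw [← h1]
    refine Finset.sum_congr rfl fun k _ => ?_
    congr 1
    funext j
    by_cases hj : j = a
    · subst hj
      simp [Equiv.funSplitAt, Equiv.piSplitAt]
    · simp [Equiv.funSplitAt, Equiv.piSplitAt, hj]

/-- centred colour coincidence -/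
noncomputable def th {I : Type*} [DecidableEq I] {R : ℕ} (c : I → Fin R) (p : I × I) : ℝ :=
  if p.1 = p.2 then 0 else (if c p.1 = c p.2 then 1 else 0) - 1 / (R : ℝ)

lemma th_symm {I : Type*} [DecidableEq I] {R : ℕ} (c : I → Fin R) (p : I × I) :
    th c p = th c p.swap := by
  unfold th
  simp only [Prod.fst_swap, Prod.snd_swap]
  by_cases h : p.1 = p.2
  · rw [if_pos h, if_pos h.symm]
  · rw [if_neg h, if_neg (Ne.symm h)]
    simp only [eq_comm]

lemma sum_th_update {I : Type*} [DecidableEq I] {R : ℕ} (hR : 0 < R) (c : I → Fin R) (a b : I)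
    (hab : a ≠ b) : ∑ k, th (Function.update c a k) (a, b) = 0 := by
  have h1 : ∀ k, th (Function.update c a k) (a, b) = (if k = c b then 1 else 0) - 1 / (R : ℝ) := by
    intro k
    unfold th
    simp only [if_neg hab, Function.update_self, Function.update_of_ne (Ne.symm hab)]
  simp only [h1, Finset.sum_sub_distrib, Finset.sum_ite_eq', Finset.mem_univ, if_true,
    Finset.sum_const, Finset.card_univ, Fintype.card_fin]
  have h2 : (R : ℝ) ≠ 0 := by positivity
  rw [nsmul_eq_mul, mul_one_div_cancel h2, sub_self]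

/-- decorrelation -/
lemma sum_th_th {I : Type*} [Fintype I] [DecidableEq I] {R : ℕ} (hR : 0 < R) (p p' : I × I)
    (h1 : p' ≠ p) (h2 : p' ≠ p.swap) : ∑ c : I → Fin R, th c p * th c p' = 0 := by
  obtain ⟨a, b⟩ := p
  obtain ⟨a', b'⟩ := p'
  by_cases hab : a = b
  · refine Finset.sum_eq_zero fun c _ => ?_
    simp [th, hab]
  by_cases hab' : a' = b'
  · refine Finset.sum_eq_zero fun c _ => ?_
    simp [th, hab']
  -- one of a, b is not in {a', b'}
  have hcase : (a ≠ a' ∧ a ≠ b') ∨ (b ≠ a' ∧ b ≠ b') := by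
    by_contra hcon
    push Not at hcon
    obtain ⟨c1, c2⟩ := hcon
    by_cases ha : a = a'
    · subst ha
      have hb : b = b' := c2 (fun h => hab h.symm)
      subst hb
      exact h1 rfl
    · have hb : a = b' := c1 ha
      subst hb
      by_cases hb' : b = a'
      · subst hb'
        exact h2 rfl
      · exact hab (c2 hb').symm
  have main : ∀ a b a' b' : I, a ≠ b → a ≠ a' → a ≠ b' →
      ∑ c : I → Fin R, th c (a, b) * th c (a', b') = 0 := by
    intro a b a' b' hab h3 h4
    refine sum_col_eq_zero a _ fun c => ?_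
    have h5 : ∀ k, th (Function.update c a k) (a', b') = th c (a', b') := by
      intro k
      unfold th
      simp only [Function.update_of_ne (Ne.symm h3), Function.update_of_ne (Ne.symm h4)]
    simp only [h5, ← Finset.sum_mul, sum_th_update hR c a b hab, zero_mul]
  rcases hcase with ⟨h3, h4⟩ | ⟨h3, h4⟩
  · exact main a b a' b' hab h3 h4
  · have h5 : ∀ c : I → Fin R, th c (a, b) = th c (b, a) := fun c => th_symm c (a, b)
    simp only [h5]
    exact main b a a' b' (Ne.symm hab) h3 h4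

/-- the second moment -/
lemma sum_th_sq {I : Type*} [Fintype I] [DecidableEq I] {R : ℕ} (hR : 0 < R) (p : I × I) :
    ∑ c : I → Fin R, th c p ^ 2 ≤ (Fintype.card (I → Fin R) : ℝ) * (1 / R) := by
  obtain ⟨a, b⟩ := p
  have hRR : (0 : ℝ) < R := by exact_mod_cast hR
  by_cases hab : a = b
  · have : ∑ c : I → Fin R, th c (a, b) ^ 2 = 0 := Finset.sum_eq_zero fun c _ => by simp [th, hab]
    rw [this]; positivity
  · -- th² - (1/R) has nonpositive ... use : th² = θ (1 - 2/R) + (1/R)(1 - 1/R)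
    have h1 : ∀ c : I → Fin R, th c (a, b) ^ 2
        = (1 - 2 / R) * th c (a, b) + (1 / R) * (1 - 1 / R) := by
      intro c
      unfold th
      simp only [if_neg hab]
      split_ifs
      · field_simp; ring
      · field_simp; ring
    have h2 : ∑ c : I → Fin R, th c (a, b) = 0 :=
      sum_col_eq_zero a _ fun c => sum_th_update hR c a b hab
    simp only [h1, Finset.sum_add_distrib, ← Finset.mul_sum, h2, mul_zero, zero_add,
      Finset.sum_const, Finset.card_univ, nsmul_eq_mul]
    have h3 : 1 - 1 / (R : ℝ) ≤ 1 := by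
      have : 0 ≤ 1 / (R : ℝ) := by positivity
      linarith
    have h4 : 1 / (R : ℝ) * (1 - 1 / R) ≤ 1 / (R : ℝ) :=
      mul_le_of_le_one_right (by positivity) h3
    have h5 := mul_le_mul_of_nonneg_left h4 (Nat.cast_nonneg (α := ℝ) (Fintype.card (I → Fin R)))
    linarith

variable {H : Type u} [NormedAddCommGroup H] [InnerProductSpace ℂ H] [CompleteSpace H]

/-- the averaged square norm of a combination with centred colour coincidences -/
lemma sum_norm_th_sq {I : Type*} [Fintype I] [DecidableEq I] {R : ℕ} (hR : 0 < R)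
    (v : I × I → H) :
    ∑ c : I → Fin R, ‖∑ p, (th c p : ℂ) • v p‖ ^ 2
      ≤ (Fintype.card (I → Fin R) : ℝ) * (2 / R) * ∑ p, ‖v p‖ ^ 2 := by
  have hRR : (0 : ℝ) < R := by exact_mod_cast hR
  -- expand
  have h1 : ∀ c : I → Fin R, ‖∑ p, (th c p : ℂ) • v p‖ ^ 2
      = ∑ p, ∑ p', th c p * th c p' * (⟪v p, v p'⟫_ℂ).re := by
    intro c
    rw [← re_inner_self', sum_inner, Complex.re_sum]
    refine Finset.sum_congr rfl fun p _ => ?_
    rw [inner_sum, Complex.re_sum]
    refine Finset.sum_congr rfl fun p' _ => ?_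
    rw [inner_smul_left, inner_smul_right, Complex.conj_ofReal, Complex.re_ofReal_mul,
      Complex.re_ofReal_mul]
    ring
  simp only [h1]
  rw [Finset.sum_comm]
  have h2 : ∀ p : I × I, ∑ c : I → Fin R, ∑ p', th c p * th c p' * (⟪v p, v p'⟫_ℂ).re
      ≤ (Fintype.card (I → Fin R) : ℝ) * (1 / R) * (‖v p‖ ^ 2 + ‖v p‖ * ‖v p.swap‖) := by
    intro p
    rw [Finset.sum_comm]
    have h3 : ∀ p', ∑ c : I → Fin R, th c p * th c p' * (⟪v p, v p'⟫_ℂ).re
        = (∑ c : I → Fin R, th c p * th c p') * (⟪v p, v p'⟫_ℂ).re := by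
      intro p'; rw [Finset.sum_mul]
    simp only [h3]
    -- only p' = p, p.swap
    have h4 : ∑ p', (∑ c : I → Fin R, th c p * th c p') * (⟪v p, v p'⟫_ℂ).re
        ≤ ∑ p', ((if p' = p then (∑ c : I → Fin R, th c p ^ 2) * ‖v p‖ ^ 2 else 0)
          + (if p' = p.swap then (∑ c : I → Fin R, th c p ^ 2) * (‖v p‖ * ‖v p.swap‖) else 0)) := by
      refine Finset.sum_le_sum fun p' _ => ?_
      have hn : 0 ≤ ∑ c : I → Fin R, th c p ^ 2 := Finset.sum_nonneg fun _ _ => sq_nonneg _
      by_cases e1 : p' = p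
      · subst e1
        rw [if_pos rfl]
        have h5 : ∑ c : I → Fin R, th c p' * th c p' = ∑ c : I → Fin R, th c p' ^ 2 :=
          Finset.sum_congr rfl fun c _ => (sq _).symm
        rw [h5, re_inner_self']
        have h6 : 0 ≤ (if p' = p'.swap then
            (∑ c : I → Fin R, th c p' ^ 2) * (‖v p'‖ * ‖v p'.swap‖) else 0) := by
          split_ifs <;> positivity
        linarith
      · rw [if_neg e1]
        by_cases e2 : p' = p.swap
        · subst e2
          rw [if_pos rfl, zero_add]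
          have h5 : ∑ c : I → Fin R, th c p * th c p.swap = ∑ c : I → Fin R, th c p ^ 2 :=
            Finset.sum_congr rfl fun c _ => by rw [← th_symm, sq]
          rw [h5]
          gcongr
          exact (Complex.re_le_norm _).trans (norm_inner_le_norm _ _)
        · rw [if_neg e2, sum_th_th hR p p' e1 e2]
          simp
    refine h4.trans ?_
    rw [Finset.sum_add_distrib, Finset.sum_ite_eq' Finset.univ p,
      Finset.sum_ite_eq' Finset.univ p.swap]
    simp only [Finset.mem_univ, if_true]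
    rw [← mul_add]
    gcongr
    exact sum_th_sq hR p
  refine (Finset.sum_le_sum fun p _ => h2 p).trans ?_
  rw [← Finset.mul_sum, Finset.sum_add_distrib]
  have h6 : ∑ p : I × I, ‖v p‖ * ‖v p.swap‖ ≤ ∑ p, ‖v p‖ ^ 2 := by
    have h7 : ∑ p : I × I, ‖v p.swap‖ ^ 2 = ∑ p, ‖v p‖ ^ 2 :=
      (Equiv.prodComm I I).sum_comp (fun p => ‖v p‖ ^ 2)
    have h8 : ∑ p : I × I, ‖v p‖ * ‖v p.swap‖
        ≤ ∑ p : I × I, (‖v p‖ ^ 2 / 2 + ‖v p.swap‖ ^ 2 / 2) := by
      refine Finset.sum_le_sum fun p _ => ?_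
      nlinarith [sq_nonneg (‖v p‖ - ‖v p.swap‖)]
    rw [Finset.sum_add_distrib, ← Finset.sum_div, ← Finset.sum_div, h7] at h8
    linarith
  calc (Fintype.card (I → Fin R) : ℝ) * (1 / R) * (∑ p, ‖v p‖ ^ 2 + ∑ p : I × I, ‖v p‖ * ‖v p.swap‖)
      ≤ (Fintype.card (I → Fin R) : ℝ) * (1 / R) * (∑ p, ‖v p‖ ^ 2 + ∑ p, ‖v p‖ ^ 2) := by gcongr
    _ = (Fintype.card (I → Fin R) : ℝ) * (2 / R) * ∑ p, ‖v p‖ ^ 2 := by ring

section Grp

variable {A : StarSubalgebra ℂ (H →L[ℂ] H)} {z : H →L[ℂ] H} {I : Type*} [Fintype I]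
  [DecidableEq I] {E : I → H →L[ℂ] H}

lemma Part.mul_ite (hE : Part A z E) (a b : I) : E a * E b = if a = b then E a else 0 := by
  by_cases h : a = b
  · subst h
    rw [if_pos rfl]
    exact (hE.proj a).isIdempotentElem.eq
  · rw [if_neg h, hE.orth _ _ h]

/-- grouping a partition by colours -/
lemma Part.group (hE : Part A z E) {R : ℕ} (c : I → Fin R) :
    Part A z (fun i => ∑ a, if c a = i then E a else 0) where
  mem i := sum_mem fun a _ => by
    split_ifs
    · exact hE.mem a
    · exact zero_mem _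
  proj i := by
    refine ⟨?_, ?_⟩
    · change (∑ a, if c a = i then E a else 0) * (∑ a, if c a = i then E a else 0) = _
      rw [Finset.sum_mul]
      refine Finset.sum_congr rfl fun a _ => ?_
      by_cases h : c a = i
      · rw [if_pos h, Finset.mul_sum, Finset.sum_eq_single a]
        · rw [if_pos h]; exact (hE.proj a).isIdempotentElem.eq
        · intro b _ hb
          split_ifs
          · exact hE.orth _ _ (Ne.symm hb)
          · exact mul_zero _
        · simp
      · rw [if_neg h, zero_mul]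
    · change Star.star (∑ a, if c a = i then E a else 0) = ∑ a, if c a = i then E a else 0
      rw [star_sum]
      refine Finset.sum_congr rfl fun a _ => ?_
      split_ifs
      · exact (hE.proj a).isSelfAdjoint
      · exact star_zero _
  orth i j hij := by
    rw [Finset.sum_mul]
    refine Finset.sum_eq_zero fun a _ => ?_
    rw [Finset.mul_sum]
    refine Finset.sum_eq_zero fun b _ => ?_
    by_cases h1 : c a = i
    · by_cases h2 : c b = j
      · rw [if_pos h1, if_pos h2]
        apply hE.orth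
        rintro rfl
        exact hij (h1.symm.trans h2)
      · rw [if_neg h2, mul_zero]
    · rw [if_neg h1, zero_mul]
  sum := by
    rw [Finset.sum_comm]
    conv_rhs => rw [← hE.sum]
    refine Finset.sum_congr rfl fun a _ => ?_
    rw [Finset.sum_ite_eq Finset.univ (c a)]
    simp

/-- the pinching by the colour classes -/
lemma Part.group_pinch (hE : Part A z E) {R : ℕ} (c : I → Fin R) (x : H →L[ℂ] H) :
    (∑ i, (∑ a, if c a = i then E a else 0) * x * (∑ a, if c a = i then E a else 0))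
      - ((1 / R : ℝ) : ℂ) • (z * x * z) - ((1 - 1 / R : ℝ) : ℂ) • ∑ a, E a * x * E a
      = ∑ p : I × I, (th c p : ℂ) • (E p.1 * x * E p.2) := by
  have h1 : (∑ i, (∑ a, if c a = i then E a else 0) * x * (∑ a, if c a = i then E a else 0))
      = ∑ p : I × I, (if c p.1 = c p.2 then (1 : ℂ) else 0) • (E p.1 * x * E p.2) := by
    rw [Fintype.sum_prod_type]
    have h2 : ∀ i : Fin R, (∑ a, if c a = i then E a else 0) * x
        * (∑ a, if c a = i then E a else 0)
        = ∑ a, ∑ b, if c a = i then (if c b = i then E a * x * E b else 0) else 0 := by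
      intro i
      rw [Finset.sum_mul, Finset.sum_mul]
      refine Finset.sum_congr rfl fun a _ => ?_
      by_cases h : c a = i
      · simp only [if_pos h]
        rw [Finset.mul_sum]
        refine Finset.sum_congr rfl fun b _ => ?_
        split_ifs
        · rfl
        · exact mul_zero _
      · simp [h]
    simp only [h2]
    rw [Finset.sum_comm]
    refine Finset.sum_congr rfl fun a _ => ?_
    rw [Finset.sum_comm]
    refine Finset.sum_congr rfl fun b _ => ?_
    rw [Finset.sum_ite_eq Finset.univ (c a)]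
    simp only [Finset.mem_univ, if_true]
    by_cases h : c a = c b
    · rw [if_pos h.symm, if_pos h, one_smul]
    · rw [if_neg (Ne.symm h), if_neg h, zero_smul]
  have h3 : z * x * z = ∑ p : I × I, E p.1 * x * E p.2 := by
    rw [Fintype.sum_prod_type]
    conv_lhs => rw [← hE.sum]
    rw [Finset.sum_mul, Finset.sum_mul]
    refine Finset.sum_congr rfl fun a _ => ?_
    rw [Finset.mul_sum]
  have h4 : ∑ a, E a * x * E a = ∑ p : I × I, (if p.1 = p.2 then (1 : ℂ) else 0)
      • (E p.1 * x * E p.2) := by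
    rw [Fintype.sum_prod_type]
    refine Finset.sum_congr rfl fun a _ => ?_
    rw [Finset.sum_eq_single a]
    · simp
    · intro b _ hb
      simp [Ne.symm hb]
    · simp
  rw [h1, h3, h4, Finset.smul_sum, Finset.smul_sum, ← Finset.sum_sub_distrib,
    ← Finset.sum_sub_distrib]
  refine Finset.sum_congr rfl fun p _ => ?_
  rw [smul_smul, ← sub_smul, ← sub_smul]
  congr 1
  unfold th
  by_cases h : p.1 = p.2
  · rw [if_pos h, if_pos h, if_pos (by rw [h])]
    push_cast
    ring
  · rw [if_neg h, if_neg h]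
    split_ifs <;> push_cast <;> ring

/-- a good colouring -/
theorem exists_color (hz : IsStarProjection z) (hE : Part A z E) {R : ℕ} (hR : 0 < R)
    {q : H →L[ℂ] H} {η : ℝ} (hη0 : 0 ≤ η) (hη : ∀ a w, ‖q (E a w)‖ ^ 2 ≤ η * ‖E a w‖ ^ 2)
    (x : H →L[ℂ] H) (ζ : H) : ∃ c : I → Fin R,
      ‖q (((∑ i, (∑ a, if c a = i then E a else 0) * x * (∑ a, if c a = i then E a else 0))
        - ((1 / R : ℝ) : ℂ) • (z * x * z) - ((1 - 1 / R : ℝ) : ℂ) • ∑ a, E a * x * E a) ζ)‖ ^ 2
        ≤ 2 / R * (η * (‖x‖ ^ 2 * ‖ζ‖ ^ 2)) := by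
  have hRR : (0 : ℝ) < R := by exact_mod_cast hR
  have : Nonempty (Fin R) := ⟨⟨0, hR⟩⟩
  have h1 : ∑ c : I → Fin R, ‖∑ p : I × I, (th c p : ℂ) • q (E p.1 (x (E p.2 ζ)))‖ ^ 2
      ≤ ∑ _c : I → Fin R, 2 / R * (η * (‖x‖ ^ 2 * ‖ζ‖ ^ 2)) := by
    refine (sum_norm_th_sq hR _).trans ?_
    rw [Finset.sum_const, Finset.card_univ, nsmul_eq_mul, mul_assoc]
    gcongr
    rw [Fintype.sum_prod_type, Finset.sum_comm]
    have h2 : ∀ b, ∑ a, ‖q (E a (x (E b ζ)))‖ ^ 2 ≤ η * (‖x‖ ^ 2 * ‖E b ζ‖ ^ 2) := by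
      intro b
      calc ∑ a, ‖q (E a (x (E b ζ)))‖ ^ 2 ≤ ∑ a, η * ‖E a (x (E b ζ))‖ ^ 2 :=
            Finset.sum_le_sum fun a _ => hη a _
        _ = η * ∑ a, ‖E a (x (E b ζ))‖ ^ 2 := by rw [Finset.mul_sum]
        _ ≤ η * ‖x (E b ζ)‖ ^ 2 := by gcongr; exact hE.sum_norm_sq_le hz _
        _ ≤ η * (‖x‖ * ‖E b ζ‖) ^ 2 := by gcongr; exact le_opNorm _ _
        _ = η * (‖x‖ ^ 2 * ‖E b ζ‖ ^ 2) := by ring
    calc ∑ b, ∑ a, ‖q (E a (x (E b ζ)))‖ ^ 2 ≤ ∑ b, η * (‖x‖ ^ 2 * ‖E b ζ‖ ^ 2) :=
          Finset.sum_le_sum fun b _ => h2 b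
      _ = η * (‖x‖ ^ 2 * ∑ b, ‖E b ζ‖ ^ 2) := by rw [← Finset.mul_sum, ← Finset.mul_sum]
      _ ≤ η * (‖x‖ ^ 2 * ‖ζ‖ ^ 2) := by gcongr; exact hE.sum_norm_sq_le hz _
  obtain ⟨c, -, hc⟩ := Finset.exists_le_of_sum_le Finset.univ_nonempty h1
  refine ⟨c, ?_⟩
  rw [hE.group_pinch, sum_apply, map_sum]
  simp only [smul_apply, map_smul]
  exact hc

end Grp

end Crest.Agent.R109
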