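import Crest.Agent.R109.Supp

/-!
# Row 109: the corner von Neumann algebra under a projection of the masa
-/

set_option autoImplicit false
set_option linter.unusedSectionVars false
set_option linter.style.haveILetI false

namespace Crest.Agent.R109

open scoped InnerProductSpace
open ContinuousLinearMap Crest.Agent.R121 Crest.Agent.R124

universe u

variable {H : Type u} [NormedAddCommGroup H] [InnerProductSpace ℂ H] [CompleteSpace H]

section Abstract

variable {K : Type u} [NormedAddCommGroup K] [InnerProductSpace ℂ K] [CompleteSpace K]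
variable {M : VonNeumannAlgebra H} {A : StarSubalgebra ℂ (H →L[ℂ] H)}

/-- `T ↦ J T J*` -/
noncomputable def up (J : K →L[ℂ] H) (T : K →L[ℂ] K) : H →L[ℂ] H := J ∘L T ∘L adjoint J

/-- `x ↦ J* x J` -/
noncomputable def dn (J : K →L[ℂ] H) (x : H →L[ℂ] H) : K →L[ℂ] K := adjoint J ∘L x ∘L J

variable {J : K →L[ℂ] H}

lemma up_apply (T : K →L[ℂ] K) (v : H) : up J T v = J (T (adjoint J v)) := rfl

lemma dn_apply (x : H →L[ℂ] H) (v : K) : dn J x v = adjoint J (x (J v)) := rfl

lemma up_add (T T' : K →L[ℂ] K) : up J (T + T') = up J T + up J T' := by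
  ext v; simp [up_apply]

lemma up_sub (T T' : K →L[ℂ] K) : up J (T - T') = up J T - up J T' := by
  ext v; simp [up_apply]

lemma up_zero : up J (0 : K →L[ℂ] K) = 0 := by
  ext v; simp [up_apply]

lemma up_smul (c : ℂ) (T : K →L[ℂ] K) : up J (c • T) = c • up J T := by
  ext v; simp [up_apply]

lemma up_sum {ι : Type*} (s : Finset ι) (T : ι → K →L[ℂ] K) :
    up J (∑ i ∈ s, T i) = ∑ i ∈ s, up J (T i) := by
  classical
  induction s using Finset.induction_on with
  | empty => simp [up_zero]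
  | insert a s ha ih => rw [Finset.sum_insert ha, Finset.sum_insert ha, up_add, ih]

lemma up_star (T : K →L[ℂ] K) : up J (star T) = star (up J T) := by
  rw [star_eq_adjoint, star_eq_adjoint]
  refine (eq_adjoint_iff _ _).2 ?_
  intro v w
  rw [up_apply, up_apply, ← adjoint_inner_right J, adjoint_inner_left T, adjoint_inner_left J]

lemma dn_star (x : H →L[ℂ] H) : dn J (star x) = star (dn J x) := by
  rw [star_eq_adjoint, star_eq_adjoint]
  refine (eq_adjoint_iff _ _).2 ?_
  intro v w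
  rw [dn_apply, dn_apply, adjoint_inner_left, adjoint_inner_left, adjoint_inner_right]

lemma norm_dn_le (hJ : ‖J‖ ≤ 1) (x : H →L[ℂ] H) : ‖dn J x‖ ≤ ‖x‖ := by
  have h1 : ‖adjoint J‖ ≤ 1 := by rwa [LinearIsometryEquiv.norm_map]
  calc ‖dn J x‖ ≤ ‖adjoint J‖ * ‖x ∘L J‖ := opNorm_comp_le _ _
    _ ≤ 1 * (‖x‖ * ‖J‖) := by
        gcongr
        exact opNorm_comp_le _ _
    _ ≤ 1 * (‖x‖ * 1) := by gcongr
    _ = ‖x‖ := by ring

lemma norm_up_le (hJ : ‖J‖ ≤ 1) (T : K →L[ℂ] K) : ‖up J T‖ ≤ ‖T‖ := by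
  have h1 : ‖adjoint J‖ ≤ 1 := by rwa [LinearIsometryEquiv.norm_map]
  calc ‖up J T‖ ≤ ‖J‖ * ‖T ∘L adjoint J‖ := opNorm_comp_le _ _
    _ ≤ 1 * (‖T‖ * ‖adjoint J‖) := by
        gcongr
        exact opNorm_comp_le _ _
    _ ≤ 1 * (‖T‖ * 1) := by gcongr
    _ = ‖T‖ := by ring

/-- the data of a corner -/
structure IsCorner (J : K →L[ℂ] H) (e : H →L[ℂ] H) : Prop where
  one : ∀ v : K, adjoint J (J v) = v
  proj : ∀ v : H, J (adjoint J v) = e v

namespace IsCorner

variable {e : H →L[ℂ] H} (h : IsCorner J e)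

include h

lemma up_one : up J (1 : K →L[ℂ] K) = e := by
  ext v
  exact h.proj v

lemma up_mul (T T' : K →L[ℂ] K) : up J (T * T') = up J T * up J T' := by
  ext v
  change J (T (T' (adjoint J v))) = J (T (adjoint J (J (T' (adjoint J v)))))
  rw [h.one]

lemma dn_up (T : K →L[ℂ] K) : dn J (up J T) = T := by
  ext v
  rw [dn_apply, up_apply, h.one, h.one]

lemma up_dn (x : H →L[ℂ] H) : up J (dn J x) = e * x * e := by
  ext v
  rw [up_apply, dn_apply, h.proj, h.proj]
  rfl

lemma up_inj {T T' : K →L[ℂ] K} (hTT : up J T = up J T') : T = T' := by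
  rw [← h.dn_up T, hTT, h.dn_up T']

lemma e_up (T : K →L[ℂ] K) : e * up J T = up J T := by
  rw [← h.up_one, ← h.up_mul, one_mul]

lemma up_e (T : K →L[ℂ] K) : up J T * e = up J T := by
  rw [← h.up_one, ← h.up_mul, mul_one]

lemma norm_le : ‖J‖ ≤ 1 := by
  refine opNorm_le_bound _ zero_le_one ?_
  intro v
  have : ‖J v‖ ^ 2 = ‖v‖ ^ 2 := by
    rw [← inner_self_eq_norm_sq (𝕜 := ℂ), ← inner_self_eq_norm_sq (𝕜 := ℂ) v,
      ← adjoint_inner_right, h.one]
  rw [one_mul]
  exact (pow_le_pow_iff_left₀ (norm_nonneg _) (norm_nonneg _) two_ne_zero).1 this.le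

lemma norm_apply (v : K) : ‖J v‖ = ‖v‖ := by
  have : ‖J v‖ ^ 2 = ‖v‖ ^ 2 := by
    rw [← inner_self_eq_norm_sq (𝕜 := ℂ), ← inner_self_eq_norm_sq (𝕜 := ℂ) v,
      ← adjoint_inner_right, h.one]
  exact (pow_left_inj₀ (norm_nonneg _) (norm_nonneg _) two_ne_zero).1 this

lemma e_comm_up {y : H →L[ℂ] H} (hy : y * e = e * y) (T : K →L[ℂ] K) :
    y * up J T = up J (dn J y * T) := by
  rw [h.up_mul, h.up_dn, ← hy, mul_assoc, mul_assoc, h.e_up, h.e_up]

lemma up_comm_e {y : H →L[ℂ] H} (hy : y * e = e * y) (T : K →L[ℂ] K) :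
    up J T * y = up J (T * dn J y) := by
  rw [h.up_mul, h.up_dn, mul_assoc e y e, hy, ← mul_assoc (up J T) e, h.up_e,
    ← mul_assoc (up J T), h.up_e]

end IsCorner

/-- the corner von Neumann algebra -/
noncomputable def cM (J : K →L[ℂ] H) (M : VonNeumannAlgebra H) : VonNeumannAlgebra K where
  toStarSubalgebra := StarSubalgebra.centralizer ℂ {T | ∃ y ∈ M.commutant, T = dn J y}
  centralizer_centralizer' := by simp

lemma mem_cM' {T : K →L[ℂ] K} :
    T ∈ cM J M ↔ ∀ y ∈ M.commutant, dn J y * T = T * dn J y := by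
  have h0 : T ∈ cM J M ↔ T ∈ (StarSubalgebra.centralizer ℂ
      {T | ∃ y ∈ M.commutant, T = dn J y} : StarSubalgebra ℂ (K →L[ℂ] K)) := Iff.rfl
  rw [h0, StarSubalgebra.mem_centralizer_iff]
  constructor
  · intro h y hy
    exact (h _ ⟨y, hy, rfl⟩).1
  · rintro h _ ⟨y, hy, rfl⟩
    refine ⟨h y hy, ?_⟩
    rw [← dn_star]
    exact h _ (star_mem hy)

lemma mem_cM {e : H →L[ℂ] H} (h : IsCorner J e) (heM : e ∈ M) {T : K →L[ℂ] K} :
    T ∈ cM J M ↔ up J T ∈ M := by
  rw [mem_cM']
  constructor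
  · intro hT
    apply mem_of_commutant
    intro y hy
    have hye : y * e = e * y := commutant_comm M heM hy
    rw [h.e_comm_up hye, h.up_comm_e hye, hT y hy]
  · intro hT y hy
    have hye : y * e = e * y := commutant_comm M heM hy
    apply h.up_inj
    rw [← h.e_comm_up hye, ← h.up_comm_e hye]
    exact commutant_comm M hT hy

/-- the corner of the masa -/
noncomputable def cA (J : K →L[ℂ] H) {e : H →L[ℂ] H} (h : IsCorner J e)
    (A : StarSubalgebra ℂ (H →L[ℂ] H)) (heA : e ∈ A) : StarSubalgebra ℂ (K →L[ℂ] K) where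
  carrier := {T | up J T ∈ A}
  mul_mem' := by
    intro T T' hT hT'
    change up J (T * T') ∈ A
    rw [h.up_mul]
    exact mul_mem hT hT'
  add_mem' := by
    intro T T' hT hT'
    change up J (T + T') ∈ A
    rw [up_add]
    exact add_mem hT hT'
  algebraMap_mem' := by
    intro c
    change up J (algebraMap ℂ (K →L[ℂ] K) c) ∈ A
    rw [Algebra.algebraMap_eq_smul_one, up_smul, h.up_one]
    exact SMulMemClass.smul_mem c heA
  star_mem' := by
    intro T hT
    change up J (star T) ∈ A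
    rw [up_star]
    exact star_mem hT

lemma mem_cA {e : H →L[ℂ] H} (h : IsCorner J e) (heA : e ∈ A) {T : K →L[ℂ] K} :
    T ∈ cA J h A heA ↔ up J T ∈ A := Iff.rfl

lemma cornerMasa {e : H →L[ℂ] H} (h : IsCorner J e) (heA : e ∈ A) (hM : Masa M A) :
    Masa (cM J M) (cA J h A heA) where
  le := by
    intro T hT
    exact (mem_cM h (hM.le heA)).2 (hM.le hT)
  comm := by
    intro a ha b hb
    apply h.up_inj
    rw [h.up_mul, h.up_mul]
    exact hM.comm _ ha _ hb
  max := by
    intro T hT hc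
    rw [mem_cA h heA]
    apply hM.max _ ((mem_cM h (hM.le heA)).1 hT)
    intro a ha
    have hae : a * e = e * a := hM.comm a ha e heA
    rw [h.e_comm_up hae, h.up_comm_e hae]
    congr 1
    apply hc
    rw [mem_cA h heA, h.up_dn]
    exact mul_mem (mul_mem heA ha) heA

lemma cornerAmp {e : H →L[ℂ] H} (h : IsCorner J e) (heM : e ∈ M) (hA : Amp M) :
    Amp (cM J M) := by
  obtain ⟨S, T, hS, hT, hSS, hTT, hST⟩ := hA
  have key : ∀ y ∈ M.commutant, dn J y ∈ (cM J M).commutant := by
    intro y hy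
    rw [VonNeumannAlgebra.mem_commutant_iff]
    intro g hg
    exact ((mem_cM' (J := J)).1 hg y hy).symm
  have mulk : ∀ y ∈ M.commutant, ∀ y' ∈ M.commutant, dn J y * dn J y' = dn J (y * y') := by
    intro y hy y' hy'
    apply h.up_inj
    have hye : y * e = e * y := commutant_comm M heM hy
    have hye' : y' * e = e * y' := commutant_comm M heM hy'
    have hee : e * e = e := by
      rw [← h.up_one, ← h.up_mul, mul_one]
    rw [h.up_mul, h.up_dn, h.up_dn, h.up_dn]
    calc e * y * e * (e * y' * e) = e * y * ((e * e) * y') * e := by simp only [mul_assoc]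
      _ = e * y * (y' * e) * e := by rw [hee, hye']
      _ = e * (y * y') * (e * e) := by simp only [mul_assoc]
      _ = _ := by rw [hee]
  have one1 : dn J (1 : H →L[ℂ] H) = 1 := by
    ext v
    rw [dn_apply]
    exact h.one v
  have zero1 : dn J (0 : H →L[ℂ] H) = 0 := by
    ext v
    rw [dn_apply]
    simp
  refine ⟨dn J S, dn J T, key S hS, key T hT, ?_, ?_, ?_⟩
  · rw [← dn_star, mulk _ (star_mem hS) _ hS, hSS, one1]
  · rw [← dn_star, mulk _ (star_mem hT) _ hT, hTT, one1]
  · rw [← dn_star, mulk _ (star_mem hS) _ hT, hST, zero1]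

end Abstract

/-- every projection has a corner -/
theorem exists_corner {e : H →L[ℂ] H} (he : IsStarProjection e) :
    ∃ (K : Type u) (_ : NormedAddCommGroup K) (_ : InnerProductSpace ℂ K) (_ : CompleteSpace K)
      (J : K →L[ℂ] H), IsCorner J e := by
  set L : Submodule ℂ H := LinearMap.ker ((1 - e : H →L[ℂ] H) : H →ₗ[ℂ] H) with hL
  have hmem : ∀ v : H, v ∈ L ↔ e v = v := by
    intro v
    rw [hL, LinearMap.mem_ker]
    change v - e v = 0 ↔ _
    rw [sub_eq_zero, eq_comm]
  have hcl : IsClosed (L : Set H) := ContinuousLinearMap.isClosed_ker (1 - e : H →L[ℂ] H)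
  haveI : CompleteSpace L := hcl.completeSpace_coe
  have hee : e * e = e := he.isIdempotentElem
  have hes : star e = e := he.isSelfAdjoint
  have hev : ∀ v : H, e v ∈ L := by
    intro v
    rw [hmem]
    exact congrArg (fun F : H →L[ℂ] H => F v) hee
  refine ⟨L, inferInstance, inferInstance, inferInstance, L.subtypeL, ?_, ?_⟩
  · intro v
    rw [Submodule.adjoint_subtypeL]
    exact Submodule.orthogonalProjectionOnto_mem_subspace_eq_self v
  · intro v
    rw [Submodule.adjoint_subtypeL]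
    change L.starProjection v = e v
    refine Submodule.eq_starProjection_of_mem_of_inner_eq_zero (hev v) ?_
    intro w hw
    have h1 : e w = w := (hmem w).1 hw
    rw [inner_sub_left, ← h1]
    have h2 : ⟪e v, e w⟫_ℂ = ⟪v, e w⟫_ℂ := by
      rw [← adjoint_inner_right, ← star_eq_adjoint, hes]
      have : e (e w) = e w := congrArg (fun F : H →L[ℂ] H => F w) hee
      rw [this]
    rw [h2, sub_self]

end Crest.Agent.R109
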