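import Crest.Agent.R121.DichA

/-!
# Row 109: paving over arbitrary MASAs, shared definitions of the reduction layer
-/

set_option autoImplicit false
set_option linter.unusedSectionVars false

namespace Crest.Agent.R109

open scoped InnerProductSpace
open ContinuousLinearMap

universe u

section Defs

variable {H : Type u} [NormedAddCommGroup H] [InnerProductSpace ℂ H] [CompleteSpace H]

/-- `A` is a maximal abelian `*`-subalgebra of `M`. -/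
structure Masa (M : VonNeumannAlgebra H) (A : StarSubalgebra ℂ (H →L[ℂ] H)) : Prop where
  le : A ≤ M.toStarSubalgebra
  comm : ∀ a ∈ A, ∀ b ∈ A, a * b = b * a
  max : ∀ y ∈ M, (∀ a ∈ A, a * y = y * a) → y ∈ A

/-- the commutant contains two isometries with orthogonal ranges -/
def Amp (M : VonNeumannAlgebra H) : Prop :=
  ∃ S T : H →L[ℂ] H, S ∈ M.commutant ∧ T ∈ M.commutant ∧ star S * S = 1 ∧ star T * T = 1 ∧
    star S * T = 0

/-- `A`-central vectors -/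
def CVec (M : VonNeumannAlgebra H) (A : StarSubalgebra ℂ (H →L[ℂ] H)) (η : H) : Prop :=
  ∀ a ∈ A, ∀ x ∈ M, ⟪η, (a * x) η⟫_ℂ = ⟪η, (x * a) η⟫_ℂ

/-- no nonzero `A`-central vector under `z` -/
def NoC (M : VonNeumannAlgebra H) (A : StarSubalgebra ℂ (H →L[ℂ] H)) (z : H →L[ℂ] H) : Prop :=
  ∀ η : H, CVec M A η → z η = 0

/-- a partition of `z` into projections of `A` -/
structure Part (A : StarSubalgebra ℂ (H →L[ℂ] H)) (z : H →L[ℂ] H) {ι : Type*} [Fintype ι]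
    (p : ι → H →L[ℂ] H) : Prop where
  mem : ∀ i, p i ∈ A
  proj : ∀ i, IsStarProjection (p i)
  orth : ∀ i j, i ≠ j → p i * p j = 0
  sum : ∑ i, p i = z

end Defs

/-- the theorem for masas with a faithful normal `A`-central state, q-form -/
def NCE_q : Prop :=
  ∀ (H : Type u) [NormedAddCommGroup H] [InnerProductSpace ℂ H] [CompleteSpace H]
    (M : VonNeumannAlgebra H) (A : StarSubalgebra ℂ (H →L[ℂ] H)), Masa M A → Amp M →
    ∀ η : H, CVec M A η → (∀ x ∈ M, x η = 0 → x = 0) →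
    ∀ x ∈ M, IsSelfAdjoint x → ‖x‖ ≤ 1 → (∀ a ∈ A, ⟪η, (a * x) η⟫_ℂ = 0) →
    ∀ ε : ℝ, 0 < ε → ε < 1 → ∀ r : ℕ, 10 ^ 8 / ε ^ 2 ≤ (r : ℝ) → ∀ δ : ℝ, 0 < δ →
    ∃ p : Fin r → H →L[ℂ] H, Part A 1 p ∧ ∃ q ∈ M, IsStarProjection q ∧ ‖(1 - q) η‖ < δ ∧
      ‖q * (∑ i, p i * x * p i) * q‖ ≤ ε

/-- the part without normal expectation: small block diagonal (L0) -/
def ExistsQ : Prop :=
  ∀ (H : Type u) [NormedAddCommGroup H] [InnerProductSpace ℂ H] [CompleteSpace H]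
    (M : VonNeumannAlgebra H) (A : StarSubalgebra ℂ (H →L[ℂ] H)), Masa M A → Amp M →
    ∀ z ∈ A, IsStarProjection z → NoC M A z → ∀ ξ : H, ∀ κ : ℝ, 0 < κ →
    ∃ q ∈ M, IsStarProjection q ∧ z * q = q ∧ ‖(z - q) ξ‖ < κ ∧
      ∃ (n : ℕ) (e : Fin n → H →L[ℂ] H), Part A z e ∧ ‖∑ j, e j * q * e j‖ ≤ κ

/-- the part without normal expectation, S0143 -/
def NoNCE143 : Prop :=
  ∀ (H : Type u) [NormedAddCommGroup H] [InnerProductSpace ℂ H] [CompleteSpace H]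
    (M : VonNeumannAlgebra H) (A : StarSubalgebra ℂ (H →L[ℂ] H)), Masa M A → Amp M →
    ∀ z ∈ A, IsStarProjection z → NoC M A z → ∀ x ∈ M, IsSelfAdjoint x → ∀ ξ : H,
    ∀ R : ℕ, 0 < R → ∀ κ : ℝ, 0 < κ →
    ∃ p : Fin R → H →L[ℂ] H, Part A z p ∧ ∃ a ∈ A, IsSelfAdjoint a ∧ z * a = a ∧ ‖a‖ ≤ ‖x‖ ∧
      ∃ q ∈ M, IsStarProjection q ∧ z * q = q ∧ ‖(z - q) ξ‖ < κ ∧
        ‖q * (∑ i, p i * x * p i - a) * q‖ ≤ 2 / R * ‖x‖ + κ

/-- the part without normal expectation, S0144 -/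
def NoNCE144 : Prop :=
  ∀ (H : Type u) [NormedAddCommGroup H] [InnerProductSpace ℂ H] [CompleteSpace H]
    (M : VonNeumannAlgebra H) (A : StarSubalgebra ℂ (H →L[ℂ] H)), Masa M A → Amp M →
    ∀ z ∈ A, IsStarProjection z → NoC M A z → ∀ ξ : H,
    ∀ R : ℕ, 0 < R → ∀ κ : ℝ, 0 < κ →
    ∃ p : Fin R → H →L[ℂ] H, Part A z p ∧
      ∃ q ∈ M, IsStarProjection q ∧ z * q = q ∧ ‖(z - q) ξ‖ < κ ∧
        ∀ i, ‖q * p i * q‖ ≤ 1 / R + κ

end Crest.Agent.R109
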