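import Crest.Agent.R109.CE
import Crest.Agent.R109.Select

/-!
# Row 109, diffuse lemma, part 1: the intertwining limit
-/

set_option autoImplicit false
set_option linter.unusedSectionVars false
set_option linter.style.haveILetI false

namespace Crest.Agent.R109

open Crest.Agent.R124 Crest.Agent.R121
open scoped InnerProductSpace ComplexOrder Topology
open ContinuousLinearMap Set TopologicalSpace Filter

universe u

variable {H : Type u} [NormedAddCommGroup H] [InnerProductSpace ℂ H] [CompleteSpace H]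
variable {M : VonNeumannAlgebra H} {A : StarSubalgebra ℂ (H →L[ℂ] H)} {η : H}

lemma inner_mul_star' (x y : H →L[ℂ] H) (u v : H) : ⟪x u, y v⟫_ℂ = ⟪u, (star x * y) v⟫_ℂ := by
  rw [ContinuousLinearMap.star_eq_adjoint]
  exact (ContinuousLinearMap.adjoint_inner_right _ _ _).symm

/-- right multiplication by a projection of `A`: Pythagoras -/
lemma CVec.pythagoras (hc : CVec M A η) {x p : H →L[ℂ] H} (hx : x ∈ M) (hpM : p ∈ M) (hp : p ∈ A)
    (hpp : IsStarProjection p) : ‖x η‖ ^ 2 = ‖x (p η)‖ ^ 2 + ‖x ((1 - p) η)‖ ^ 2 := by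
  have h1 : ⟪x (p η), x ((1 - p) η)⟫_ℂ = 0 := by
    change ⟪(x * p) η, (x * (1 - p)) η⟫_ℂ = 0
    rw [inner_mul_star', star_mul, hpp.isSelfAdjoint.star_eq, mul_assoc,
      hc p hp _ (mul_mem (star_mem hx) (mul_mem hx (sub_mem (one_mem _) hpM)))]
    have : star x * (x * (1 - p)) * p = 0 := by
      rw [mul_assoc, mul_assoc, sub_mul, one_mul, hpp.isIdempotentElem.eq, sub_self, mul_zero,
        mul_zero]
    rw [this]; simp
  have h2 : x η = x (p η) + x ((1 - p) η) := by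
    rw [← map_add]
    congr 1
    change η = p η + (η - p η)
    abel
  rw [h2, sq, sq, sq]
  exact norm_add_sq_eq_norm_sq_add_norm_sq_of_inner_eq_zero _ _ h1

lemma CVec.norm_right (hc : CVec M A η) {x p : H →L[ℂ] H} (hx : x ∈ M) (hpM : p ∈ M) (hp : p ∈ A)
    (hpp : IsStarProjection p) : ‖x (p η)‖ ≤ ‖x η‖ := by
  have h := hc.pythagoras hx hpM hp hpp
  apply le_of_sq_le_sq _ (norm_nonneg _)
  nlinarith [sq_nonneg ‖x ((1 - p) η)‖]

/-- a Boolean homomorphism from clopen sets to projections of `A` -/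
structure BHom (A : StarSubalgebra ℂ (H →L[ℂ] H)) {X : Type u} [TopologicalSpace X]
    (θ : Clopens X → H →L[ℂ] H) : Prop where
  mem : ∀ V, θ V ∈ A
  proj : ∀ V, IsStarProjection (θ V)
  inf : ∀ V W, θ (V ⊓ W) = θ V * θ W
  compl : ∀ V, θ Vᶜ = θ ⊤ - θ V

namespace Diff

variable (m : Model A) (θ : Clopens m.X → H →L[ℂ] H)

/-- elementary averaging -/
noncomputable def T (V : Clopens m.X) (z : H →L[ℂ] H) : H →L[ℂ] H :=
  m.pr V * z * θ V + m.pr Vᶜ * z * θ Vᶜ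

/-- the convex set -/
structure S (M : VonNeumannAlgebra H) (η : H) (y : H →L[ℂ] H) (c : ℝ) (z : H →L[ℂ] H) : Prop where
  mem : z ∈ M
  norm : ‖z‖ ≤ ‖y‖
  low : ∀ V W : Clopens m.X, c * ‖(θ V * m.pr W) η‖ ^ 2 ≤
    (⟪y (m.pr W η), m.pr V (z η)⟫_ℂ).re
  left : ∀ g ∈ M, (∀ V, m.pr V * g = g * θ V) → ⟪g η, z η⟫_ℂ = ⟪g η, y η⟫_ℂ
  right : ∀ g ∈ M, (∀ V, m.pr V * g = g * θ V) → ⟪star g η, star z η⟫_ℂ = ⟪star g η, star y η⟫_ℂ
  rel : ∀ a ∈ A, ∀ b ∈ A, a * y = y * b → a * z = z * b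

variable {m θ}

lemma T_mem (hA : Masa M A) (hθ : BHom A θ) {z : H →L[ℂ] H} (hz : z ∈ M) (V : Clopens m.X) :
    T m θ V z ∈ M :=
  add_mem (mul_mem (mul_mem (hA.memM (m.pr_mem _)) hz) (hA.memM (hθ.mem _)))
    (mul_mem (mul_mem (hA.memM (m.pr_mem _)) hz) (hA.memM (hθ.mem _)))

lemma pr_orth (V : Clopens m.X) : m.pr V * m.pr Vᶜ = 0 := by
  rw [m.pr_compl, mul_sub, mul_one, m.pr_idem, sub_self]

lemma BHom.orth (hθ : BHom A θ) (V : Clopens m.X) : θ V * θ Vᶜ = 0 := by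
  rw [hθ.compl, mul_sub, ← hθ.inf, inf_top_eq, (hθ.proj V).isIdempotentElem.eq, sub_self]

lemma norm_sq_add_of_orth {u v : H} (V : Clopens m.X) :
    ‖m.pr V u + m.pr Vᶜ v‖ ^ 2 = ‖m.pr V u‖ ^ 2 + ‖m.pr Vᶜ v‖ ^ 2 := by
  have h1 : ⟪m.pr V u, m.pr Vᶜ v⟫_ℂ = 0 := by
    rw [inner_mul_star', m.star_pr, pr_orth]; simp
  rw [sq, sq, sq]
  exact norm_add_sq_eq_norm_sq_add_norm_sq_of_inner_eq_zero _ _ h1

lemma norm_sq_pr (V : Clopens m.X) (u : H) : ‖u‖ ^ 2 = ‖m.pr V u‖ ^ 2 + ‖m.pr Vᶜ u‖ ^ 2 := by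
  rw [← norm_sq_add_of_orth, m.pr_compl]
  congr 2
  change u = m.pr V u + (u - m.pr V u)
  abel

lemma norm_sq_theta (hθ : BHom A θ) (V : Clopens m.X) (u : H) :
    ‖θ V u‖ ^ 2 + ‖θ Vᶜ u‖ ^ 2 ≤ ‖u‖ ^ 2 := by
  have h1 : ⟪θ V u, θ Vᶜ u⟫_ℂ = 0 := by
    rw [inner_mul_star', (hθ.proj V).isSelfAdjoint.star_eq, BHom.orth hθ]; simp
  have h2 : ‖θ V u + θ Vᶜ u‖ ^ 2 = ‖θ V u‖ ^ 2 + ‖θ Vᶜ u‖ ^ 2 := by
    rw [sq, sq, sq]
    exact norm_add_sq_eq_norm_sq_add_norm_sq_of_inner_eq_zero _ _ h1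
  rw [← h2]
  have h3 : θ V u + θ Vᶜ u = θ ⊤ u := by
    rw [hθ.compl]
    change θ V u + (θ ⊤ u - θ V u) = _
    abel
  rw [h3]
  exact norm_proj_le (hθ.proj ⊤) u

lemma T_apply (V : Clopens m.X) (z : H →L[ℂ] H) (u : H) :
    T m θ V z u = m.pr V (z (θ V u)) + m.pr Vᶜ (z (θ Vᶜ u)) := rfl

lemma norm_T_le (hθ : BHom A θ) (V : Clopens m.X) (z : H →L[ℂ] H) : ‖T m θ V z‖ ≤ ‖z‖ := by
  refine ContinuousLinearMap.opNorm_le_bound _ (norm_nonneg _) fun u => ?_
  apply le_of_sq_le_sq _ (by positivity)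
  rw [T_apply, norm_sq_add_of_orth]
  have h1 : ∀ W (v : H), ‖m.pr W (z v)‖ ^ 2 ≤ ‖z‖ ^ 2 * ‖v‖ ^ 2 := by
    intro W v
    calc ‖m.pr W (z v)‖ ^ 2 ≤ ‖z v‖ ^ 2 := norm_proj_le (m.pr_proj W) _
      _ ≤ (‖z‖ * ‖v‖) ^ 2 := by gcongr; exact z.le_opNorm v
      _ = _ := by ring
  calc _ ≤ ‖z‖ ^ 2 * ‖θ V u‖ ^ 2 + ‖z‖ ^ 2 * ‖θ Vᶜ u‖ ^ 2 := add_le_add (h1 _ _) (h1 _ _)
    _ = ‖z‖ ^ 2 * (‖θ V u‖ ^ 2 + ‖θ Vᶜ u‖ ^ 2) := by ring
    _ ≤ ‖z‖ ^ 2 * ‖u‖ ^ 2 := by gcongr; exact norm_sq_theta hθ V u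
    _ = _ := by ring

lemma norm_T_apply_le (h : NCE M A η) (hθ : BHom A θ) (V : Clopens m.X) {z : H →L[ℂ] H}
    (hz : z ∈ M) : ‖T m θ V z η‖ ≤ ‖z η‖ := by
  apply le_of_sq_le_sq _ (norm_nonneg _)
  rw [T_apply, norm_sq_add_of_orth, norm_sq_pr V (z η)]
  have h1 : ∀ W V', ‖m.pr W (z (θ V' η))‖ ^ 2 ≤ ‖m.pr W (z η)‖ ^ 2 := by
    intro W V'
    have := h.cvec.norm_right (x := m.pr W * z) (p := θ V') (mul_mem (h.masa.memM (m.pr_mem W)) hz)
      (h.masa.memM (hθ.mem V')) (hθ.mem V') (hθ.proj V')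
    exact pow_le_pow_left₀ (norm_nonneg _) this 2
  exact add_le_add (h1 _ _) (h1 _ _)

lemma S_self (h : NCE M A η) (hθ : BHom A θ) {y : H →L[ℂ] H} (hy : y ∈ M) {c : ℝ}
    (hlow : ∀ V, (c : ℂ) • θ V ≤ CE A η (star y * m.pr V * y)) : S m θ M η y c y where
  mem := hy
  norm := le_rfl
  left := fun _ _ _ => rfl
  right := fun _ _ _ => rfl
  rel := fun _ _ _ _ h => h
  low := by
    intro V W
    have hA := h.masa
    have hWM := hA.memM (m.pr_mem W)
    have hVM := hA.memM (m.pr_mem V)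
    have hX : star y * m.pr V * y ∈ M := mul_mem (mul_mem (star_mem hy) hVM) hy
    -- both sides as `φ(W ·)`
    have h1 : ⟪y (m.pr W η), m.pr V (y η)⟫_ℂ = ⟪η, (m.pr W * (star y * m.pr V * y)) η⟫_ℂ := by
      change ⟪(y * m.pr W) η, (m.pr V * y) η⟫_ℂ = _
      rw [inner_mul_star', star_mul, m.star_pr]
      simp only [mul_assoc]
    rw [h1, ← h.inner_CE hX (m.pr_mem W)]
    set K := CE A η (star y * m.pr V * y) with hK
    have hKA : K ∈ A := h.CE_mem hX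
    have h2 : ⟪η, (m.pr W * K) η⟫_ℂ = ⟪m.pr W η, K (m.pr W η)⟫_ℂ := by
      change _ = ⟪m.pr W η, (K * m.pr W) η⟫_ℂ
      rw [inner_mul_star', m.star_pr, ← mul_assoc, hA.comm _ (m.pr_mem W) _ hKA, mul_assoc,
        m.pr_idem, hA.comm _ hKA _ (m.pr_mem W)]
    rw [h2]
    have h3 : 0 ≤ K - (c : ℂ) • θ V := sub_nonneg.2 (hlow V)
    have h4 := ((ContinuousLinearMap.nonneg_iff_isPositive _).1 h3).re_inner_nonneg_right
      (m.pr W η)
    rw [sub_apply, inner_sub_right, smul_apply, inner_smul_right] at h4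
    have h5 : ⟪m.pr W η, θ V (m.pr W η)⟫_ℂ = ((‖(θ V * m.pr W) η‖ ^ 2 : ℝ) : ℂ) := by
      have : ⟪(θ V * m.pr W) η, (θ V * m.pr W) η⟫_ℂ = ⟪m.pr W η, θ V (m.pr W η)⟫_ℂ := by
        change ⟪θ V (m.pr W η), θ V (m.pr W η)⟫_ℂ = _
        rw [inner_mul_star', (hθ.proj V).isSelfAdjoint.star_eq, (hθ.proj V).isIdempotentElem.eq]
      rw [← this, inner_self_eq_norm_sq_to_K]
      norm_cast
    rw [h5] at h4
    have h6 : (RCLike.re (⟪m.pr W η, K (m.pr W η)⟫_ℂ - (c : ℂ) * ((‖(θ V * m.pr W) η‖ ^ 2 : ℝ) : ℂ))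
        : ℝ) = (⟪m.pr W η, K (m.pr W η)⟫_ℂ).re - c * ‖(θ V * m.pr W) η‖ ^ 2 := by
      rw [← Complex.ofReal_mul]
      change (⟪m.pr W η, K (m.pr W η)⟫_ℂ - ((c * ‖(θ V * m.pr W) η‖ ^ 2 : ℝ) : ℂ)).re = _
      rw [Complex.sub_re, Complex.ofReal_re]
    rw [h6] at h4
    linarith

lemma S_convex {y : H →L[ℂ] H} {c : ℝ} {z w : H →L[ℂ] H} (hz : S m θ M η y c z)
    (hw : S m θ M η y c w) : S m θ M η y c ((1 / 2 : ℂ) • (z + w)) where
  mem := by
    exact M.toStarSubalgebra.smul_mem (add_mem hz.mem hw.mem) _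
  norm := by
    rw [norm_smul]
    have h1 : ‖(1 / 2 : ℂ)‖ = 1 / 2 := by norm_num
    rw [h1]
    have := norm_add_le z w
    linarith [hz.norm, hw.norm]
  low := by
    intro V W
    have h1 : ⟪y (m.pr W η), m.pr V (((1 / 2 : ℂ) • (z + w)) η)⟫_ℂ =
        (1 / 2 : ℂ) * (⟪y (m.pr W η), m.pr V (z η)⟫_ℂ + ⟪y (m.pr W η), m.pr V (w η)⟫_ℂ) := by
      rw [smul_apply, add_apply, map_smul, map_add, inner_smul_right, inner_add_right]
    rw [h1]
    have h2 := hz.low V W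
    have h3 := hw.low V W
    have h4 : ((1 / 2 : ℂ) * (⟪y (m.pr W η), m.pr V (z η)⟫_ℂ
        + ⟪y (m.pr W η), m.pr V (w η)⟫_ℂ)).re =
        1 / 2 * ((⟪y (m.pr W η), m.pr V (z η)⟫_ℂ).re + (⟪y (m.pr W η), m.pr V (w η)⟫_ℂ).re) := by
      have : (1 / 2 : ℂ) = ((1 / 2 : ℝ) : ℂ) := by norm_num
      rw [this, Complex.re_ofReal_mul, Complex.add_re]
    rw [h4]
    linarith
  left := by
    intro g hg hg2
    rw [smul_apply, add_apply, inner_smul_right, inner_add_right, hz.left g hg hg2,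
      hw.left g hg hg2]
    ring
  right := by
    intro g hg hg2
    have : star ((1 / 2 : ℂ) • (z + w)) = (1 / 2 : ℂ) • (star z + star w) := by
      rw [star_smul, star_add]
      congr 1
      norm_num
    rw [this, smul_apply, add_apply, inner_smul_right, inner_add_right, hz.right g hg hg2,
      hw.right g hg hg2]
    ring
  rel := by
    intro a ha b hb hab
    rw [mul_smul_comm, smul_mul_assoc, mul_add, add_mul, hz.rel a ha b hb hab,
      hw.rel a ha b hb hab]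

lemma S_T (h : NCE M A η) (hθ : BHom A θ) {y : H →L[ℂ] H} (hy : y ∈ M) {c : ℝ}
    {z : H →L[ℂ] H} (hz : S m θ M η y c z) (V : Clopens m.X) : S m θ M η y c (T m θ V z) where
  mem := T_mem h.masa hθ hz.mem V
  norm := (norm_T_le hθ V z).trans hz.norm
  low := by
    intro V₁ W
    have hA := h.masa
    -- the inner product splits
    have key : ∀ V' : Clopens m.X, ⟪y (m.pr W η), m.pr V₁ (m.pr V' (z (θ V' η)))⟫_ℂ =
        ⟪y (m.pr W (θ V' η)), (m.pr (V₁ ⊓ V')) (z η)⟫_ℂ := by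
      intro V'
      change ⟪(y * m.pr W) η, ((m.pr V₁ * m.pr V') * z * θ V') η⟫_ℂ =
        ⟪(y * (m.pr W * θ V')) η, (m.pr (V₁ ⊓ V') * z) η⟫_ℂ
      rw [inner_mul_star', inner_mul_star', m.pr_inf, ← mul_assoc (star (y * m.pr W)),
        ← h.cvec _ (hθ.mem V') _ (mul_mem (star_mem (mul_mem hy (hA.memM (m.pr_mem W))))
          (mul_mem (mul_mem (hA.memM (m.pr_mem _)) (hA.memM (m.pr_mem _))) hz.mem))]
      congr 2
      simp only [star_mul, m.star_pr, (hθ.proj V').isSelfAdjoint.star_eq, mul_assoc]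
    have key2 : ∀ V' : Clopens m.X, c * ‖(θ V' * (θ V₁ * m.pr W)) η‖ ^ 2 ≤
        (⟪y (m.pr W η), m.pr V₁ (m.pr V' (z (θ V' η)))⟫_ℂ).re := by
      intro V'
      obtain ⟨W', hW'⟩ := m.exists_pr (hθ.mem V') (hθ.proj V')
      have h1 := hz.low (V₁ ⊓ V') (W ⊓ W')
      have h2 : m.pr (W ⊓ W') η = m.pr W (θ V' η) := by
        rw [m.pr_inf, hW']; rfl
      rw [h2, ← key] at h1
      have h3 : θ (V₁ ⊓ V') * m.pr (W ⊓ W') = θ V' * (θ V₁ * m.pr W) := by
        rw [hθ.inf, m.pr_inf, hW', hA.comm _ (m.pr_mem W) _ (hθ.mem V'), mul_assoc,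
          ← mul_assoc (θ V') (θ V'), (hθ.proj V').isIdempotentElem.eq, ← mul_assoc, ← mul_assoc,
          hA.comm _ (hθ.mem V₁) _ (hθ.mem V')]
      rwa [h3] at h1
    have h1 : m.pr V₁ (T m θ V z η) = m.pr V₁ (m.pr V (z (θ V η)))
        + m.pr V₁ (m.pr Vᶜ (z (θ Vᶜ η))) := by
      rw [T_apply, map_add]
    rw [h1, inner_add_right, Complex.add_re]
    have h2 := key2 V
    have h3 := key2 Vᶜ
    have h4 : ‖(θ V₁ * m.pr W) η‖ ^ 2 =
        ‖(θ V * (θ V₁ * m.pr W)) η‖ ^ 2 + ‖(θ Vᶜ * (θ V₁ * m.pr W)) η‖ ^ 2 := by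
      have h5 : (θ V₁ * m.pr W) η = θ V ((θ V₁ * m.pr W) η) + θ Vᶜ ((θ V₁ * m.pr W) η) := by
        have h6 : θ V₁ = θ ⊤ * θ V₁ := by rw [← hθ.inf, top_inf_eq]
        have h7 : θ V ((θ V₁ * m.pr W) η) + θ Vᶜ ((θ V₁ * m.pr W) η)
            = (θ ⊤ * θ V₁ * m.pr W) η := by
          rw [hθ.compl]
          change θ V ((θ V₁ * m.pr W) η) + (θ ⊤ ((θ V₁ * m.pr W) η) - θ V ((θ V₁ * m.pr W) η))
            = θ ⊤ ((θ V₁ * m.pr W) η)
          abel
        rw [h7, ← h6]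
      have h8 : ⟪θ V ((θ V₁ * m.pr W) η), θ Vᶜ ((θ V₁ * m.pr W) η)⟫_ℂ = 0 := by
        rw [inner_mul_star', (hθ.proj V).isSelfAdjoint.star_eq, BHom.orth hθ]; simp
      conv_lhs => rw [h5]
      rw [sq, sq, sq]
      exact norm_add_sq_eq_norm_sq_add_norm_sq_of_inner_eq_zero _ _ h8
    rw [h4]
    linarith
  left := by
    intro g hg hg2
    have hA := h.masa
    have key : ∀ V' : Clopens m.X, ⟪g η, m.pr V' (z (θ V' η))⟫_ℂ = ⟪g η, m.pr V' (z η)⟫_ℂ := by
      intro V'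
      have h1 : ⟪g η, m.pr V' (z (θ V' η))⟫_ℂ = ⟪η, (star g * m.pr V' * z * θ V') η⟫_ℂ := by
        change ⟪g η, (m.pr V' * z * θ V') η⟫_ℂ = _
        rw [inner_mul_star']; simp only [mul_assoc]
      have h2 : star g * m.pr V' = θ V' * star g := by
        have := congrArg star (hg2 V')
        rwa [star_mul, star_mul, m.star_pr, (hθ.proj V').isSelfAdjoint.star_eq] at this
      rw [h1, h2]
      have h3 : θ V' * star g * z * θ V' = θ V' * (star g * z * θ V') := by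
        simp only [mul_assoc]
      rw [h3, h.cvec _ (hθ.mem V') _ (mul_mem (mul_mem (star_mem hg) hz.mem)
        (hA.memM (hθ.mem V'))), mul_assoc (star g * z), (hθ.proj V').isIdempotentElem.eq,
        ← h.cvec _ (hθ.mem V') _ (mul_mem (star_mem hg) hz.mem), ← mul_assoc, ← h2]
      change _ = ⟪g η, (m.pr V' * z) η⟫_ℂ
      rw [inner_mul_star', mul_assoc]
    rw [T_apply, inner_add_right, key, key, ← inner_add_right, m.pr_compl]
    have : m.pr V (z η) + (1 - m.pr V) (z η) = z η := by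
      change m.pr V (z η) + (z η - m.pr V (z η)) = z η
      abel
    rw [this, hz.left g hg hg2]
  right := by
    intro g hg hg2
    have hA := h.masa
    have hst : star (T m θ V z) = θ V * star z * m.pr V + θ Vᶜ * star z * m.pr Vᶜ := by
      rw [T, star_add, star_mul, star_mul, star_mul, star_mul, m.star_pr, m.star_pr,
        (hθ.proj V).isSelfAdjoint.star_eq, (hθ.proj Vᶜ).isSelfAdjoint.star_eq, ← mul_assoc,
        ← mul_assoc]
    have key : ∀ V' : Clopens m.X, ⟪star g η, (θ V' * star z * m.pr V') η⟫_ℂ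
        = ⟪star g η, (star z * m.pr V') η⟫_ℂ := by
      intro V'
      rw [inner_mul_star', inner_mul_star', star_star]
      have h1 : g * (θ V' * star z * m.pr V') = m.pr V' * (g * (star z * m.pr V')) := by
        rw [← mul_assoc, ← mul_assoc, ← hg2]; simp only [mul_assoc]
      rw [h1, h.cvec _ (m.pr_mem V') _ (mul_mem hg (mul_mem (star_mem hz.mem)
        (hA.memM (m.pr_mem V')))), mul_assoc, mul_assoc, m.pr_idem]
    rw [hst, add_apply, inner_add_right, key, key, ← inner_add_right, m.pr_compl]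
    have : (star z * m.pr V) η + (star z * (1 - m.pr V)) η = star z η := by
      rw [← add_apply, ← mul_add]
      have : m.pr V + (1 - m.pr V) = 1 := by abel
      rw [this, mul_one]
    rw [this, hz.right g hg hg2]
  rel := by
    intro a ha b hb hab
    have h1 := hz.rel a ha b hb hab
    have hA := h.masa
    rw [T, mul_add, add_mul]
    have key : ∀ V', a * (m.pr V' * z * θ V') = m.pr V' * z * θ V' * b := by
      intro V'
      rw [← mul_assoc, ← mul_assoc, hA.comm a ha _ (m.pr_mem V'), mul_assoc (m.pr V') a z, h1,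
        mul_assoc _ (θ V') b, hA.comm _ (hθ.mem V') b hb]
      simp only [mul_assoc]
    rw [key, key]

/-- The intertwining limit: the element of minimal `η`-norm of the convex set `S`. -/
theorem exists_Y (h : NCE M A η) (hθ : BHom A θ) {y : H →L[ℂ] H} (hy : y ∈ M) {c : ℝ}
    (hlow : ∀ V, (c : ℂ) • θ V ≤ CE A η (star y * m.pr V * y)) :
    ∃ Y, S m θ M η y c Y ∧ ∀ V, m.pr V * Y = Y * θ V := by
  classical
  have hA := h.masa
  have hne : ∃ z, S m θ M η y c z := ⟨y, S_self h hθ hy hlow⟩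
  set I : ℝ := sInf {r | ∃ z, S m θ M η y c z ∧ r = ‖z η‖ ^ 2} with hI
  have hbdd : BddBelow {r | ∃ z, S m θ M η y c z ∧ r = ‖z η‖ ^ 2} :=
    ⟨0, by rintro _ ⟨z, -, rfl⟩; positivity⟩
  have hnon : {r | ∃ z, S m θ M η y c z ∧ r = ‖z η‖ ^ 2}.Nonempty :=
    ⟨_, y, S_self h hθ hy hlow, rfl⟩
  have hIle : ∀ z, S m θ M η y c z → I ≤ ‖z η‖ ^ 2 := fun z hz => csInf_le hbdd ⟨z, hz, rfl⟩
  have hex : ∀ n : ℕ, ∃ z, S m θ M η y c z ∧ ‖z η‖ ^ 2 < I + 1 / ((n : ℝ) + 1) := by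
    intro n
    obtain ⟨_, ⟨z, hz, rfl⟩, hlt⟩ := exists_lt_of_csInf_lt hnon
      (show sInf {r | ∃ z, S m θ M η y c z ∧ r = ‖z η‖ ^ 2} < I + 1 / ((n : ℝ) + 1) by
        rw [← hI]; linarith [show (0 : ℝ) < 1 / ((n : ℝ) + 1) by positivity])
    exact ⟨z, hz, hlt⟩
  choose z hz hzlt using hex
  -- two almost minimal elements are close
  have hclose : ∀ z w : H →L[ℂ] H, S m θ M η y c z → S m θ M η y c w → ∀ a b : ℝ,
      ‖z η‖ ^ 2 ≤ I + a → ‖w η‖ ^ 2 ≤ I + b → ‖z η - w η‖ ^ 2 ≤ 2 * a + 2 * b := by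
    intro z w hz hw a b ha hb
    have h1 := hIle _ (S_convex hz hw)
    have h2 : ‖((1 / 2 : ℂ) • (z + w)) η‖ ^ 2 = 1 / 4 * ‖z η + w η‖ ^ 2 := by
      rw [smul_apply, add_apply, norm_smul, mul_pow]
      have : ‖(1 / 2 : ℂ)‖ = 1 / 2 := by norm_num
      rw [this]; norm_num
    rw [h2] at h1
    have h3 := parallelogram_law_with_norm ℂ (z η) (w η)
    nlinarith [sq_nonneg ‖z η - w η‖]
  have hcauchy : CauchySeq (fun n => z n η) := by
    rw [Metric.cauchySeq_iff']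
    intro ε hε
    obtain ⟨N, hN⟩ := exists_nat_one_div_lt (show (0 : ℝ) < ε ^ 2 / 4 by positivity)
    refine ⟨N, fun n hn => ?_⟩
    rw [dist_eq_norm]
    have h1 := hclose _ _ (hz n) (hz N) _ _ (hzlt n).le (hzlt N).le
    have h2 : (1 : ℝ) / (n + 1) ≤ 1 / (N + 1) := by
      apply one_div_le_one_div_of_le (by positivity)
      have : (N : ℝ) ≤ n := by exact_mod_cast hn
      linarith
    have h3 : ‖z n η - z N η‖ ^ 2 < ε ^ 2 := by linarith
    exact lt_of_pow_lt_pow_left₀ 2 hε.le h3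
  obtain ⟨L, hLM, hLn, hL⟩ := strong_lim M h.sep (l := atTop) (F := z) (fun n => (hz n).mem)
    (fun n => (hz n).norm) hcauchy
  have hSL : S m θ M η y c L :=
    { mem := hLM
      norm := hLn
      low := by
        intro V W
        have h1 : Tendsto (fun n => (⟪y (m.pr W η), m.pr V (z n η)⟫_ℂ).re) atTop
            (𝓝 (⟪y (m.pr W η), m.pr V (L η)⟫_ℂ).re) := by
          refine (Complex.continuous_re.tendsto _).comp ?_
          exact (tendsto_const_nhds).inner (((m.pr V).continuous.tendsto _).comp (hL η))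
        exact ge_of_tendsto' h1 fun n => (hz n).low V W
      left := by
        intro g hg hg2
        have h1 : Tendsto (fun n => ⟪g η, z n η⟫_ℂ) atTop (𝓝 ⟪g η, L η⟫_ℂ) :=
          tendsto_const_nhds.inner (hL η)
        have h2 : Tendsto (fun n => ⟪g η, z n η⟫_ℂ) atTop (𝓝 ⟪g η, y η⟫_ℂ) :=
          tendsto_const_nhds.congr fun n => ((hz n).left g hg hg2).symm
        exact tendsto_nhds_unique h1 h2
      right := by
        intro g hg hg2
        have e : ∀ x : H →L[ℂ] H, ⟪star g η, star x η⟫_ℂ = ⟪x (star g η), η⟫_ℂ := by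
          intro x
          rw [ContinuousLinearMap.star_eq_adjoint x, ContinuousLinearMap.adjoint_inner_right]
        have h1 : Tendsto (fun n => ⟪star g η, star (z n) η⟫_ℂ) atTop
            (𝓝 ⟪star g η, star L η⟫_ℂ) := by
          simp only [e]
          exact (hL (star g η)).inner tendsto_const_nhds
        have h2 : Tendsto (fun n => ⟪star g η, star (z n) η⟫_ℂ) atTop
            (𝓝 ⟪star g η, star y η⟫_ℂ) :=
          tendsto_const_nhds.congr fun n => ((hz n).right g hg hg2).symm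
        exact tendsto_nhds_unique h1 h2
      rel := by
        intro a ha b hb hab
        ext ζ
        have h1 : Tendsto (fun n => a (z n ζ)) atTop (𝓝 (a (L ζ))) :=
          (a.continuous.tendsto _).comp (hL ζ)
        have h2 : Tendsto (fun n => a (z n ζ)) atTop (𝓝 (L (b ζ))) := by
          refine (hL (b ζ)).congr fun n => ?_
          have := congrArg (fun R : H →L[ℂ] H => R ζ) ((hz n).rel a ha b hb hab)
          exact this.symm
        exact tendsto_nhds_unique h1 h2 }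
  refine ⟨L, hSL, ?_⟩
  have hTL : ∀ V, T m θ V L = L := by
    intro V
    apply eq_of_apply_eq M h.sep (T_mem hA hθ hLM V) hLM
    have h1 : Tendsto (fun n => z n η - T m θ V (z n) η) atTop (𝓝 (L η - T m θ V L η)) := by
      refine (hL η).sub ?_
      simp only [T_apply]
      exact (((m.pr V).continuous.tendsto _).comp (hL _)).add
        (((m.pr Vᶜ).continuous.tendsto _).comp (hL _))
    have h2 : Tendsto (fun n => z n η - T m θ V (z n) η) atTop (𝓝 0) := by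
      rw [tendsto_zero_iff_norm_tendsto_zero]
      have h3 : Tendsto (fun n : ℕ => Real.sqrt (4 * (1 / ((n : ℝ) + 1)))) atTop (𝓝 0) := by
        have h4 : Tendsto (fun n : ℕ => 4 * (1 / ((n : ℝ) + 1))) atTop (𝓝 0) := by
          have := (tendsto_one_div_add_atTop_nhds_zero_nat (𝕜 := ℝ)).const_mul 4
          simpa using this
        have h5 := (Real.continuous_sqrt.tendsto 0).comp h4
        rwa [Real.sqrt_zero] at h5
      refine squeeze_zero (fun n => norm_nonneg _) (fun n => ?_) h3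
      apply Real.le_sqrt_of_sq_le
      have h6 : ‖T m θ V (z n) η‖ ^ 2 ≤ I + 1 / ((n : ℝ) + 1) :=
        (pow_le_pow_left₀ (norm_nonneg _) (norm_T_apply_le h hθ V (hz n).mem) 2).trans
          (hzlt n).le
      have := hclose _ _ (hz n) (S_T h hθ hy (hz n) V) _ _ (hzlt n).le h6
      linarith
    have h3 := tendsto_nhds_unique h1 h2
    exact (sub_eq_zero.1 h3).symm
  intro V
  have h1 : m.pr V * L = m.pr V * L * θ V := by
    conv_lhs => rw [← hTL V]
    rw [T, mul_add, ← mul_assoc, ← mul_assoc, m.pr_idem, ← mul_assoc, ← mul_assoc, pr_orth,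
      zero_mul, zero_mul, add_zero]
  have h2 : L * θ V = m.pr V * L * θ V := by
    conv_lhs => rw [← hTL V]
    rw [T, add_mul, mul_assoc _ (θ V) (θ V), (hθ.proj V).isIdempotentElem.eq,
      mul_assoc _ (θ Vᶜ) (θ V)]
    have : θ Vᶜ * θ V = 0 := by
      have := BHom.orth hθ Vᶜ
      rwa [compl_compl] at this
    rw [this, mul_zero, add_zero]
  rw [h1, h2]

end Diff

end Crest.Agent.R109
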