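import Crest.Agent.R109.CE

/-!
# Row 109, module GN: normalising partial isometries
-/

set_option autoImplicit false
set_option linter.unusedSectionVars false
set_option linter.style.haveILetI false

namespace Crest.Agent.R109

open Crest.Agent.R124 Crest.Agent.R121 Filter Topology
open scoped InnerProductSpace

universe u

variable {H : Type u} [NormedAddCommGroup H] [InnerProductSpace ℂ H] [CompleteSpace H]
variable {M : VonNeumannAlgebra H} {A : StarSubalgebra ℂ (H →L[ℂ] H)} {η : H}

/-! ### normality -/

section Normal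

variable (h : NCE M A η)
include h

/-- a bounded family which converges at the separating vector converges strongly -/
theorem NCE.tendsto_of_apply {ι : Type*} {l : Filter ι} {F : ι → H →L[ℂ] H}
    (hF : ∀ i, F i ∈ M) {C : ℝ} (hC : ∀ i, ‖F i‖ ≤ C) {L : H →L[ℂ] H} (hL : L ∈ M)
    (hη : Tendsto (fun i => F i η) l (𝓝 (L η))) (ζ : H) :
    Tendsto (fun i => F i ζ) l (𝓝 (L ζ)) := by
  rcases l.eq_or_neBot with hl | hl
  · rw [hl]; exact tendsto_bot
  · obtain ⟨L', hL', -, hLt⟩ := strong_lim M h.sep hF hC
      (cauchy_map_iff_exists_tendsto.2 ⟨_, hη⟩)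
    have : L' = L := eq_of_apply_eq M h.sep hL' hL (tendsto_nhds_unique (hLt η) hη)
    rw [← this]
    exact hLt ζ

/-- Schwarz for the vector `η` -/
lemma NCE.norm_CE_apply_le {x : H →L[ℂ] H} (hx : x ∈ M) : ‖CE A η x η‖ ≤ ‖x η‖ := by
  apply le_of_sq_le_sq _ (norm_nonneg _)
  have h1 := h.CE_schwarz hx
  have h2 : star (CE A η x) * CE A η x ∈ M := mul_mem (star_mem (h.CE_memM hx)) (h.CE_memM hx)
  have h3 : CE A η (star x * x) ∈ M := h.CE_memM (mul_mem (star_mem hx) hx)
  have s1 : star (star (CE A η x) * CE A η x) = star (CE A η x) * CE A η x := by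
    rw [star_mul, star_star]
  have s2 : star (CE A η (star x * x)) = CE A η (star x * x) := by
    rw [← h.CE_star (mul_mem (star_mem hx) hx), star_mul, star_star]
  have h4 := (op_le_iff s1 s2).1 h1 η
  rw [re_star_mul_self] at h4
  refine h4.trans_eq ?_
  have h5 : (⟪CE A η (star x * x) η, η⟫_ℂ).re = (⟪η, CE A η (star x * x) η⟫_ℂ).re := by
    rw [← inner_conj_symm, Complex.conj_re]
  rw [h5, h.inner_CE' (mul_mem (star_mem hx) hx), ← re_star_mul_self x η,
    ← inner_conj_symm, Complex.conj_re]

theorem NCE.CE_tendsto {ι : Type*} {l : Filter ι} {F : ι → H →L[ℂ] H}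
    (hF : ∀ i, F i ∈ M) {C : ℝ} (hC : ∀ i, ‖F i‖ ≤ C) {L : H →L[ℂ] H} (hL : L ∈ M)
    (hη : Tendsto (fun i => F i η) l (𝓝 (L η))) (ζ : H) :
    Tendsto (fun i => CE A η (F i) ζ) l (𝓝 (CE A η L ζ)) := by
  refine h.tendsto_of_apply (fun i => h.CE_memM (hF i)) (C := C)
    (fun i => (h.norm_CE_le (hF i)).trans (hC i)) (h.CE_memM hL) ?_ ζ
  rw [tendsto_iff_norm_sub_tendsto_zero] at hη ⊢
  refine squeeze_zero (fun i => norm_nonneg _) (fun i => ?_) hη
  have h1 := h.norm_CE_apply_le (sub_mem (hF i) hL)
  rw [h.CE_sub (hF i) hL] at h1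
  exact h1

/-- `A`-central normal functionals factor through the conditional expectation -/
theorem NCE.inner_CE_central {α β : H}
    (hc : ∀ b ∈ A, ∀ y ∈ M, ⟪α, (b * y) β⟫_ℂ = ⟪α, (y * b) β⟫_ℂ) {x : H →L[ℂ] H} (hx : x ∈ M) :
    ⟪α, CE A η x β⟫_ℂ = ⟪α, x β⟫_ℂ := by
  haveI := FP.atTop_neBot h.masa
  have h1 : ∀ P : FP A, ⟪α, (D P x) β⟫_ℂ = ⟪α, x β⟫_ℂ := by
    intro P
    have e2 : ∀ i, ⟪α, (P.e i * x * P.e i) β⟫_ℂ = ⟪α, (x * P.e i) β⟫_ℂ := by
      intro i
      rw [mul_assoc, hc (P.e i) (P.part.mem i) _ (mul_mem hx (h.masa.memM (P.part.mem i))),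
        mul_assoc, P.e_mul_e]
    rw [D, sum_apply, inner_sum, Finset.sum_congr rfl fun i _ => e2 i, ← inner_sum,
      ← sum_apply, ← Finset.mul_sum, P.part.sum, mul_one]
  have h2 : Tendsto (fun P : FP A => ⟪α, (D P x) β⟫_ℂ) atTop (𝓝 ⟪α, CE A η x β⟫_ℂ) :=
    Filter.Tendsto.inner tendsto_const_nhds (h.tendsto_D hx β)
  exact tendsto_nhds_unique h2 ((tendsto_const_nhds).congr fun P => (h1 P).symm)

end Normal

/-! ### normalising partial isometries -/

/-- normalising partial isometries -/
structure GN (M : VonNeumannAlgebra H) (A : StarSubalgebra ℂ (H →L[ℂ] H)) (u : H →L[ℂ] H) :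
    Prop where
  mem : u ∈ M
  part : u * star u * u = u
  src : star u * u ∈ A
  rng : u * star u ∈ A
  conj : ∀ a ∈ A, u * a * star u ∈ A
  conj' : ∀ a ∈ A, star u * a * u ∈ A

namespace GN

variable {u v : H →L[ℂ] H}

lemma mk' (h1 : u ∈ M) (h2 : u * star u * u = u) (h3 : ∀ a ∈ A, u * a * star u ∈ A)
    (h4 : ∀ a ∈ A, star u * a * u ∈ A) : GN M A u :=
  ⟨h1, h2, by simpa using h4 1 (one_mem A), by simpa using h3 1 (one_mem A), h3, h4⟩

lemma part' (hu : GN M A u) : star u * u * star u = star u := by
  have := congrArg star hu.part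
  rwa [star_mul, star_mul, star_star, ← mul_assoc] at this

lemma src_proj (hu : GN M A u) : IsStarProjection (star u * u) := by
  refine ⟨?_, ?_⟩
  · change star u * u * (star u * u) = _
    rw [← mul_assoc, hu.part']
  · rw [isSelfAdjoint_iff, star_mul, star_star]

lemma rng_proj (hu : GN M A u) : IsStarProjection (u * star u) := by
  refine ⟨?_, ?_⟩
  · change u * star u * (u * star u) = _
    rw [← mul_assoc, hu.part]
  · rw [isSelfAdjoint_iff, star_mul, star_star]

lemma norm_le (hu : GN M A u) : ‖u‖ ≤ 1 := by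
  have h1 : ‖star u * u‖ ≤ 1 := hu.src_proj.norm_le
  rw [CStarRing.norm_star_mul_self] at h1
  nlinarith [norm_nonneg u]

protected lemma star (hu : GN M A u) : GN M A (star u) where
  mem := star_mem hu.mem
  part := by rw [star_star]; exact hu.part'
  src := by rw [star_star]; exact hu.rng
  rng := by rw [star_star]; exact hu.src
  conj := fun a ha => by rw [star_star]; exact hu.conj' a ha
  conj' := fun a ha => by rw [star_star]; exact hu.conj a ha

lemma rng_comm (hM : Masa M A) (hu : GN M A u) {a : H →L[ℂ] H} (ha : a ∈ A) :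
    u * star u * a = a * (u * star u) := hM.comm _ hu.rng a ha

lemma src_comm (hM : Masa M A) (hu : GN M A u) {a : H →L[ℂ] H} (ha : a ∈ A) :
    star u * u * a = a * (star u * u) := hM.comm _ hu.src a ha

/-- `a u = u (u* a u)` -/
lemma mul_eq (hM : Masa M A) (hu : GN M A u) {a : H →L[ℂ] H} (ha : a ∈ A) :
    a * u = u * (star u * a * u) := by
  have h1 : u * (star u * a * u) = (u * star u) * a * u := by simp only [mul_assoc]
  rw [h1, hu.rng_comm hM ha]
  have h2 : a * (u * star u) * u = a * (u * star u * u) := by simp only [mul_assoc]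
  rw [h2, hu.part]

/-- `u a = (u a u*) u` -/
lemma mul_eq' (hM : Masa M A) (hu : GN M A u) {a : H →L[ℂ] H} (ha : a ∈ A) :
    u * a = (u * a * star u) * u := by
  have h1 : (u * a * star u) * u = u * (a * (star u * u)) := by simp only [mul_assoc]
  rw [h1, ← hu.src_comm hM ha]
  have h2 : u * (star u * u * a) = (u * star u * u) * a := by simp only [mul_assoc]
  rw [h2, hu.part]

lemma mul (hM : Masa M A) (hu : GN M A u) (hv : GN M A v) : GN M A (u * v) := by
  apply mk'
  · exact mul_mem hu.mem hv.mem
  · have h1 : u * v * star (u * v) * (u * v)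
        = u * ((v * star v) * (star u * u)) * v := by
      rw [star_mul]; simp only [mul_assoc]
    rw [h1, hM.comm _ hv.rng _ hu.src]
    have h2 : u * (star u * u * (v * star v)) * v = (u * star u * u) * (v * star v * v) := by
      simp only [mul_assoc]
    rw [h2, hu.part, hv.part]
  · intro a ha
    have h1 : u * v * a * star (u * v) = u * (v * a * star v) * star u := by
      rw [star_mul]; simp only [mul_assoc]
    rw [h1]
    exact hu.conj _ (hv.conj a ha)
  · intro a ha
    have h1 : star (u * v) * a * (u * v) = star v * (star u * a * u) * v := by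
      rw [star_mul]; simp only [mul_assoc]
    rw [h1]
    exact hv.conj' _ (hu.conj' a ha)

lemma of_partial (hM : Masa M A) (hu : u ∈ A) (hp : u * star u * u = u) : GN M A u := by
  apply mk' (hM.memM hu) hp
  · intro a ha
    exact mul_mem (mul_mem hu ha) (star_mem hu)
  · intro a ha
    exact mul_mem (mul_mem (star_mem hu) ha) hu

lemma of_proj (hM : Masa M A) {p : H →L[ℂ] H} (hp : p ∈ A) (hpp : IsStarProjection p) :
    GN M A p := by
  apply of_partial hM hp
  rw [hpp.isSelfAdjoint.star_eq, hpp.isIdempotentElem.eq, hpp.isIdempotentElem.eq]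

lemma one (hM : Masa M A) : GN M A 1 := of_proj hM (one_mem A) ⟨by simp [IsIdempotentElem], by simp⟩

lemma zero (hM : Masa M A) : GN M A 0 :=
  of_proj hM (zero_mem A) ⟨by simp [IsIdempotentElem], by simp⟩

/-- cut down by a projection on the right -/
lemma cut (hM : Masa M A) (hu : GN M A u) {p : H →L[ℂ] H} (hp : p ∈ A)
    (hpp : IsStarProjection p) : GN M A (u * p) := hu.mul hM (of_proj hM hp hpp)

/-- cut down by a projection on the left -/
lemma cut' (hM : Masa M A) (hu : GN M A u) {p : H →L[ℂ] H} (hp : p ∈ A)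
    (hpp : IsStarProjection p) : GN M A (p * u) := (of_proj hM hp hpp).mul hM hu

/-- `a ↦ u a u*` is multiplicative on `A` -/
lemma conj_mul (hM : Masa M A) (hu : GN M A u) {a b : H →L[ℂ] H} (ha : a ∈ A) (_hb : b ∈ A) :
    u * (a * b) * star u = (u * a * star u) * (u * b * star u) := by
  have h1 : (u * a * star u) * (u * b * star u) = u * (a * (star u * u)) * b * star u := by
    simp only [mul_assoc]
  rw [h1, ← hu.src_comm hM ha]
  have h2 : u * (star u * u * a) * b * star u = (u * star u * u) * (a * b) * star u := by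
    simp only [mul_assoc]
  rw [h2, hu.part]

lemma conj'_mul (hM : Masa M A) (hu : GN M A u) {a b : H →L[ℂ] H} (ha : a ∈ A) (hb : b ∈ A) :
    star u * (a * b) * u = (star u * a * u) * (star u * b * u) := by
  have := hu.star.conj_mul hM ha hb
  rwa [star_star] at this

lemma conj_proj (hM : Masa M A) (hu : GN M A u) {p : H →L[ℂ] H} (hp : p ∈ A)
    (hpp : IsStarProjection p) : IsStarProjection (u * p * star u) := by
  refine ⟨?_, ?_⟩
  · change _ * _ = _
    rw [← hu.conj_mul hM hp hp, hpp.isIdempotentElem.eq]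
  · rw [isSelfAdjoint_iff, star_mul, star_mul, star_star, hpp.isSelfAdjoint.star_eq, mul_assoc]

lemma conj'_proj (hM : Masa M A) (hu : GN M A u) {p : H →L[ℂ] H} (hp : p ∈ A)
    (hpp : IsStarProjection p) : IsStarProjection (star u * p * u) := by
  have := hu.star.conj_proj hM hp hpp
  rwa [star_star] at this

end GN

/-- unitaries of `M` which normalise `A` -/
lemma GN.of_unitary {u : H →L[ℂ] H} (h1 : u ∈ M) (h2 : star u * u = 1)
    (h3 : ∀ a ∈ A, u * a * star u ∈ A) (h4 : ∀ a ∈ A, star u * a * u ∈ A) : GN M A u :=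
  GN.mk' h1 (by rw [mul_assoc, h2, mul_one]) h3 h4

section CEGN

variable (h : NCE M A η)
include h

/-- the conditional expectation is equivariant -/
theorem NCE.CE_conj {u x : H →L[ℂ] H} (hu : GN M A u) (hx : x ∈ M) :
    CE A η (u * x * star u) = u * CE A η x * star u := by
  refine h.CE_unique (mul_mem (mul_mem hu.mem hx) (star_mem hu.mem))
    (hu.conj _ (h.CE_mem hx)) fun a ha => ?_
  have key : ⟪(star (a * u)) η, CE A η x ((star u) η)⟫_ℂ
      = ⟪(star (a * u)) η, x ((star u) η)⟫_ℂ := by
    refine h.inner_CE_central ?_ hx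
    intro b hb y hy
    have e : ∀ z : H →L[ℂ] H, ⟪(star (a * u)) η, z ((star u) η)⟫_ℂ
        = ⟪η, (a * u * z * star u) η⟫_ℂ := by
      intro z
      rw [ContinuousLinearMap.star_eq_adjoint, ContinuousLinearMap.adjoint_inner_left]
      rfl
    rw [e, e]
    have e1 : a * u * (b * y) * star u = (u * b * star u) * (a * (u * y * star u)) := by
      calc a * u * (b * y) * star u = a * (u * b) * y * star u := by simp only [mul_assoc]
        _ = a * (u * b * star u * u) * y * star u := by rw [← hu.mul_eq' h.masa hb]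
        _ = (a * (u * b * star u)) * (u * y * star u) := by simp only [mul_assoc]
        _ = ((u * b * star u) * a) * (u * y * star u) := by
            rw [h.masa.comm a ha _ (hu.conj b hb)]
        _ = _ := by simp only [mul_assoc]
    have e2 : a * u * (y * b) * star u = (a * (u * y * star u)) * (u * b * star u) := by
      have h0 : b * star u = star u * (u * b * star u) := by
        have := hu.star.mul_eq h.masa hb
        rwa [star_star] at this
      have : a * u * (y * b) * star u = a * u * y * (b * star u) := by simp only [mul_assoc]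
      rw [this, h0]
      simp only [mul_assoc]
    rw [e1, e2]
    exact h.cvec _ (hu.conj b hb) _ (mul_mem (h.masa.memM ha)
      (mul_mem (mul_mem hu.mem hy) (star_mem hu.mem)))
  have e : ∀ z : H →L[ℂ] H, ⟪(star (a * u)) η, z ((star u) η)⟫_ℂ
      = ⟪η, (a * (u * z * star u)) η⟫_ℂ := by
    intro z
    rw [ContinuousLinearMap.star_eq_adjoint, ContinuousLinearMap.adjoint_inner_left]
    rfl
  rw [e, e] at key
  exact key

theorem NCE.CE_conj' {u x : H →L[ℂ] H} (hu : GN M A u) (hx : x ∈ M) :
    CE A η (star u * x * u) = star u * CE A η x * u := by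
  have := h.CE_conj hu.star hx
  rwa [star_star] at this

/-- the conditional expectation of a normalising partial isometry -/
theorem NCE.CE_GN {u : H →L[ℂ] H} (hu : GN M A u) :
    ∃ p ∈ A, IsStarProjection p ∧ CE A η u = u * p ∧ p * (star u * u) = p := by
  set v := CE A η u with hv
  have hvA : v ∈ A := h.CE_mem hu.mem
  have hvs : star v ∈ A := star_mem hvA
  -- `v = v u* u`, `v = u u* v`
  have h1 : v * (star u * u) = v := by
    rw [hv, ← h.CE_mul_right hu.src hu.mem, ← mul_assoc, hu.part]
  have h1' : (u * star u) * v = v := by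
    rw [hv, ← h.CE_mul_left hu.rng hu.mem, hu.part]
  -- `(u a u*) v = v a`
  have h2 : ∀ a ∈ A, (u * a * star u) * v = v * a := by
    intro a ha
    rw [hv, ← h.CE_mul_left (hu.conj a ha) hu.mem, ← hu.mul_eq' h.masa ha,
      h.CE_mul_right ha hu.mem]
  have h3 : ∀ a ∈ A, star v * (u * a * star u) = a * star v := by
    intro a ha
    have := congrArg star (h2 (star a) (star_mem ha))
    simp only [star_mul, star_star] at this
    rw [mul_assoc]
    exact this
  set b := star v * u with hb
  have hbA : b ∈ A := by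
    apply h.masa.max _ (mul_mem (h.masa.memM hvs) hu.mem)
    intro a ha
    rw [← mul_assoc, ← h3 a ha, mul_assoc (star v), ← hu.mul_eq' h.masa ha, mul_assoc]
  have hbv : b = star v * v := by
    have e1 : CE A η b = b := h.CE_of_mem hbA
    rw [← e1, hb, h.CE_mul_left hvs hu.mem]
  have hbs : star b = b := by rw [hbv, star_mul, star_star]
  have hvv : v * star v = b := by rw [hbv, h.masa.comm v hvA _ hvs]
  have hb2 : star u * b * u = b * b := by
    rw [← hvv]
    have : star u * (v * star v) * u = (star u * v) * (star v * u) := by simp only [mul_assoc]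
    rw [this, ← hb]
    have : star u * v = b := by
      have := hbs
      rw [hb, star_mul, star_star] at this
      rw [this]
    rw [this, hvv]
  have hub : star u * v = b := by
    have := hbs
    rw [hb, star_mul, star_star] at this
    rw [this]
  -- `u b = v`
  have hubv : u * b = v := by
    rw [← hub, ← mul_assoc, h1']
  have hbu : b * u = v * b := by
    rw [← hvv, mul_assoc, ← hb, hvv]
  have hb3 : star u * (b * b) * u = b * b * b := by
    have e1 : star u * (b * b) * u = star (b * u) * (b * u) := by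
      rw [star_mul, hbs]; simp only [mul_assoc]
    rw [e1, hbu, star_mul, hbs]
    have : b * star v * (v * b) = b * (star v * v) * b := by simp only [mul_assoc]
    rw [this, ← hbv]
  have hb4 : star u * (b * b) * u = (b * b) * (b * b) := by
    rw [hu.conj'_mul h.masa hbA hbA, hb2]
  have hb34 : b * b * b = (b * b) * (b * b) := by rw [← hb3, hb4]
  -- `c = b - b²` satisfies `c³ = 0`
  have hc : b * b = b := by
    clear_value b
    set c := b - b * b with hcdef
    have hcs : star c = c := by rw [hcdef, star_sub, star_mul, hbs]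
    have hc0 : b * b * c = 0 := by
      rw [hcdef, mul_sub, ← hb34, sub_self]
    have hc2 : (c * c) * (c * c) = 0 := by
      have e1 : c = b * (1 - b) := by rw [hcdef, mul_sub, mul_one]
      have e2 : c * c = (1 - b) * (1 - b) * (b * b) := by
        rw [e1]; noncomm_ring
      have e3 : (c * c) * (c * c) = (1 - b) * (1 - b) * (b * b * c) * c := by
        conv_lhs => lhs; rw [e2]
        simp only [mul_assoc]
      rw [e3, hc0, mul_zero, zero_mul]
    have hc3 : c * c = 0 := by
      have : star (c * c) * (c * c) = 0 := by rw [star_mul, hcs]; exact hc2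
      exact CStarRing.star_mul_self_eq_zero_iff _ |>.1 this
    have hc4 : c = 0 := by
      have : star c * c = 0 := by rw [hcs]; exact hc3
      exact CStarRing.star_mul_self_eq_zero_iff _ |>.1 this
    exact (sub_eq_zero.1 hc4).symm
  refine ⟨b, hbA, ⟨hc, hbs⟩, hubv.symm, ?_⟩
  rw [hbv, mul_assoc, h1]

end CEGN

end Crest.Agent.R109
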