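import Crest.Agent.R109.CEBase
import Mathlib.Analysis.CStarAlgebra.ContinuousFunctionalCalculus.Order

/-!
# Row 109, module CE, part 1: a masa is the norm closed span of its projections
-/

set_option autoImplicit false
set_option linter.unusedSectionVars false

namespace Crest.Agent.R109

open Crest.Agent.R124 Crest.Agent.R121 Filter Topology
open scoped InnerProductSpace

universe u

variable {H : Type u} [NormedAddCommGroup H] [InnerProductSpace ℂ H] [CompleteSpace H]
variable {M : VonNeumannAlgebra H} {A : StarSubalgebra ℂ (H →L[ℂ] H)}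

lemma Masa.memM (hM : Masa M A) {a : H →L[ℂ] H} (ha : a ∈ A) : a ∈ M := hM.le ha

lemma rp_comm {b c : H →L[ℂ] H} (h : c * b = b * c) (h' : star c * b = b * star c) :
    c * rp b = rp b * c := by
  have hs : star (rp b) = rp b := (rp_proj b).isSelfAdjoint
  have key : ∀ d : H →L[ℂ] H, d * b = b * d → rp b * d * rp b = d * rp b := by
    intro d hd
    have h1 : ((1 - rp b) * d) * rp b = 0 := by
      apply mul_rp_eq_zero
      rw [mul_assoc, hd, ← mul_assoc, sub_mul, one_mul, rp_mul_self, sub_self, zero_mul]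
    rw [sub_mul, one_mul, sub_mul, sub_eq_zero] at h1
    exact h1.symm
  have h1 := key c h
  have h2 := congrArg star (key (star c) h')
  simp only [star_mul, star_star, hs] at h2
  rw [← h1, mul_assoc]
  exact h2

lemma Masa.rp_mem (hM : Masa M A) {b : H →L[ℂ] H} (hb : b ∈ A) : rp b ∈ A := by
  apply hM.max _ (R121.rp_mem M (hM.memM hb))
  intro a ha
  exact rp_comm (hM.comm a ha b hb) (hM.comm _ (star_mem ha) b hb)

lemma Masa.cfc_mem (hM : Masa M A) {b : H →L[ℂ] H} (hb : b ∈ A) (f : ℝ → ℝ) : cfc f b ∈ A := by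
  apply hM.max _ (R124.cfc_mem M (hM.memM hb) f)
  intro a ha
  have h1 : Commute b a := hM.comm b hb a ha
  have h2 : Commute (cfc f b) a := by
    by_cases hsa : IsSelfAdjoint b
    · exact Commute.cfc_real h1 f
    · rw [cfc_apply_of_not_predicate b hsa]
      exact Commute.zero_left a
  exact h2.symm

lemma op_le_iff {X Y : H →L[ℂ] H} (hX : star X = X) (hY : star Y = Y) :
    X ≤ Y ↔ ∀ η, (⟪X η, η⟫_ℂ).re ≤ (⟪Y η, η⟫_ℂ).re := by
  rw [ContinuousLinearMap.le_def, ContinuousLinearMap.isPositive_def']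
  constructor
  · rintro ⟨-, h⟩ η
    have h1 := h η
    rw [ContinuousLinearMap.reApplyInnerSelf_apply] at h1
    change 0 ≤ (⟪(Y - X) η, η⟫_ℂ).re at h1
    rw [sub_apply, inner_sub_left, Complex.sub_re] at h1
    linarith
  · intro h
    refine ⟨?_, fun η => ?_⟩
    · rw [isSelfAdjoint_iff, star_sub, hX, hY]
    · rw [ContinuousLinearMap.reApplyInnerSelf_apply]
      change 0 ≤ (⟪(Y - X) η, η⟫_ℂ).re
      rw [sub_apply, inner_sub_left, Complex.sub_re]
      linarith [h η]

/-- approximation of positive elements of a masa by positive combinations of projections -/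
theorem Masa.exists_simple (hM : Masa M A) {a : H →L[ℂ] H} (ha : a ∈ A) (h0 : 0 ≤ a) {δ : ℝ}
    (hδ : 0 < δ) : ∃ (n : ℕ) (q : ℕ → H →L[ℂ] H), (∀ k, q k ∈ A) ∧
      (∀ k, IsStarProjection (q k)) ∧ a ≤ ∑ k ∈ Finset.range n, (δ : ℂ) • q k ∧
      ∑ k ∈ Finset.range n, (δ : ℂ) • q k ≤ a + (δ : ℂ) • 1 := by
  obtain ⟨n, hn⟩ := exists_nat_ge (‖a‖ / δ)
  have hn' : ‖a‖ ≤ (n + 1 : ℕ) * δ := by
    have h0 : ‖a‖ ≤ n * δ := (div_le_iff₀ hδ).1 hn
    push_cast
    nlinarith
  set b : ℕ → H →L[ℂ] H := fun k => tr a (k * δ) with hb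
  have hbs : ∀ k : ℕ, b (k + 1) = tr a (k * δ + δ) := by
    intro k
    simp only [hb]
    congr 1
    push_cast; ring
  have hb0 : b 0 = a := by simp only [hb]; simpa using tr_zero h0
  have hbn : b (n + 1) = 0 := tr_eq_zero h0 hn'
  have hbA : ∀ k, b k ∈ A := fun k => hM.cfc_mem ha _
  set q : ℕ → H →L[ℂ] H := fun k => rp (b k) with hq
  have hqA : ∀ k, q k ∈ A := fun k => hM.rp_mem (hbA k)
  have hqp : ∀ k, IsStarProjection (q k) := fun k => rp_proj _
  set G : ℕ → H →L[ℂ] H := fun k => b k - b (k + 1) with hG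
  have hGdef : ∀ k, G k = tr a (k * δ) - tr a (k * δ + δ) := fun k => by
    simp only [hG]; rw [hbs]
  have hGs : ∀ k, star (G k) = G k := by
    intro k
    simp only [hG, hb, star_sub, tr_sa h0]
  have hup : ∀ k η, (⟪G k η, η⟫_ℂ).re ≤ δ * ‖q k η‖ ^ 2 := by
    intro k η
    have h1 : q k * G k = G k := by
      obtain ⟨c, hc⟩ := tr_factor h0 (t := k * δ) hδ
      have e1 : b (k + 1) = b k * c := by rw [hbs, hc]
      have e2 : q k * b k = b k := rp_mul_self _
      simp only [hG]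
      rw [mul_sub, e1, ← mul_assoc, e2]
    have h2 : G k * q k = G k := by
      have := congrArg star h1
      rwa [star_mul, hGs, (hqp k).isSelfAdjoint.star_eq] at this
    have h3 : ⟪G k η, η⟫_ℂ = ⟪G k (q k η), q k η⟫_ℂ := by
      have e3 : ContinuousLinearMap.adjoint (q k) = q k := (hqp k).isSelfAdjoint
      conv_rhs => rw [← e3, ContinuousLinearMap.adjoint_inner_right, e3]
      have e4 : q k (G k (q k η)) = G k η := by
        have : q k * (G k * q k) = G k := by rw [h2, h1]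
        exact congrArg (fun R : H →L[ℂ] H => R η) this
      rw [e4]
    rw [h3, hGdef]
    exact tr_diff_le h0 _ hδ _
  have hlow : ∀ k η, δ * ‖q (k + 1) η‖ ^ 2 ≤ (⟪G k η, η⟫_ℂ).re := by
    intro k η
    set p := q (k + 1) with hp
    have h1 : G k * p = (δ : ℂ) • p := by
      apply mul_rp_of
      rw [hGdef, hbs]
      exact tr_diff_mul h0 _ hδ
    have h2 : p * G k = (δ : ℂ) • p := by
      have := congrArg star h1
      rwa [star_mul, hGs, star_smul, (hqp (k + 1)).isSelfAdjoint.star_eq,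
        Complex.star_def, Complex.conj_ofReal] at this
    have hpp : p * p = p := (hqp (k + 1)).isIdempotentElem
    have h3 : G k = (1 - p) * G k * (1 - p) + (δ : ℂ) • p := by
      have : (1 - p) * G k * (1 - p) = G k - G k * p - p * G k + p * (G k * p) := by
        noncomm_ring
      rw [this, h1, h2, mul_smul_comm, hpp]
      abel
    have h4 : ⟪((1 - p) * G k * (1 - p)) η, η⟫_ℂ = ⟪G k ((1 - p) η), (1 - p) η⟫_ℂ := by
      have e3 : ContinuousLinearMap.adjoint (1 - p) = 1 - p :=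
        (hqp (k + 1)).one_sub.isSelfAdjoint
      change ⟪(1 - p) (G k ((1 - p) η)), η⟫_ℂ = _
      conv_lhs => rw [← e3, ContinuousLinearMap.adjoint_inner_left, e3]
    have h5 : 0 ≤ (⟪G k ((1 - p) η), (1 - p) η⟫_ℂ).re := by
      rw [hGdef]
      exact re_inner_nonneg (tr_diff_nonneg h0 _ hδ) _
    have h6 : (⟪((δ : ℂ) • p) η, η⟫_ℂ).re = δ * ‖p η‖ ^ 2 := by
      change (⟪(δ : ℂ) • (p η), η⟫_ℂ).re = _
      rw [inner_smul_left, Complex.conj_ofReal, Complex.re_ofReal_mul,
        re_inner_proj (hqp (k + 1))]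
    conv_rhs => rw [h3]
    rw [add_apply, inner_add_left, Complex.add_re, h4, h6]
    linarith
  have hsum : ∑ k ∈ Finset.range (n + 1), G k = a := by
    rw [Finset.sum_range_sub' b (n + 1), hb0, hbn, sub_zero]
  have hsumη : ∀ η, (⟪a η, η⟫_ℂ).re = ∑ k ∈ Finset.range (n + 1), (⟪G k η, η⟫_ℂ).re := by
    intro η
    rw [← hsum, sum_apply, sum_inner, Complex.re_sum]
  have hSη : ∀ η, (⟪(∑ k ∈ Finset.range (n + 1), (δ : ℂ) • q k) η, η⟫_ℂ).re
      = ∑ k ∈ Finset.range (n + 1), δ * ‖q k η‖ ^ 2 := by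
    intro η
    rw [sum_apply, sum_inner, Complex.re_sum]
    refine Finset.sum_congr rfl fun k _ => ?_
    change (⟪(δ : ℂ) • (q k η), η⟫_ℂ).re = _
    rw [inner_smul_left, Complex.conj_ofReal, Complex.re_ofReal_mul, re_inner_proj (hqp k)]
  have has : star a = a := h0.isSelfAdjoint
  have hSs : star (∑ k ∈ Finset.range (n + 1), (δ : ℂ) • q k)
      = ∑ k ∈ Finset.range (n + 1), (δ : ℂ) • q k := by
    rw [star_sum]
    refine Finset.sum_congr rfl fun k _ => ?_
    rw [star_smul, (hqp k).isSelfAdjoint.star_eq, Complex.star_def, Complex.conj_ofReal]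
  refine ⟨n + 1, q, hqA, hqp, ?_, ?_⟩
  · rw [op_le_iff has hSs]
    intro η
    rw [hSη, hsumη]
    exact Finset.sum_le_sum fun k _ => hup k η
  · have h1s : star (a + (δ : ℂ) • (1 : H →L[ℂ] H)) = a + (δ : ℂ) • 1 := by
      rw [star_add, star_smul, star_one, has, Complex.star_def, Complex.conj_ofReal]
    rw [op_le_iff hSs h1s]
    intro η
    rw [hSη, add_apply, inner_add_left, Complex.add_re, hsumη,
      Finset.sum_range_succ']
    have h2 : ∑ k ∈ Finset.range n, δ * ‖q (k + 1) η‖ ^ 2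
        ≤ ∑ k ∈ Finset.range n, (⟪G k η, η⟫_ℂ).re := Finset.sum_le_sum fun k _ => hlow k η
    have h3 : 0 ≤ (⟪G n η, η⟫_ℂ).re := by
      rw [hGdef]
      exact re_inner_nonneg (tr_diff_nonneg h0 _ hδ) _
    have h4 : (⟪((δ : ℂ) • (1 : H →L[ℂ] H)) η, η⟫_ℂ).re = δ * ‖η‖ ^ 2 := by
      change (⟪(δ : ℂ) • η, η⟫_ℂ).re = _
      have e2 : (⟪η, η⟫_ℂ).re = ‖η‖ ^ 2 := inner_self_eq_norm_sq (𝕜 := ℂ) η
      rw [inner_smul_left, Complex.conj_ofReal, Complex.re_ofReal_mul, e2]
    have h5 : δ * ‖q 0 η‖ ^ 2 ≤ δ * ‖η‖ ^ 2 :=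
      mul_le_mul_of_nonneg_left (norm_proj_le (hqp 0) _) hδ.le
    rw [h4, Finset.sum_range_succ]
    linarith

/-- An operator which commutes with the projections of a masa commutes with the masa. -/
theorem Masa.comm_of_proj (hM : Masa M A) {T : H →L[ℂ] H}
    (hT : ∀ p ∈ A, IsStarProjection p → p * T = T * p) {a : H →L[ℂ] H} (ha : a ∈ A) :
    a * T = T * a := by
  -- positive elements
  have hpos : ∀ b ∈ A, 0 ≤ b → b * T = T * b := by
    intro b hb h0
    have hbd : ∀ δ : ℝ, 0 < δ → ‖b * T - T * b‖ ≤ 2 * δ * ‖T‖ := by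
      intro δ hδ
      obtain ⟨n, q, hqA, hqp, h1, h2⟩ := hM.exists_simple hb h0 hδ
      set S := ∑ k ∈ Finset.range n, (δ : ℂ) • q k with hS
      have hST : S * T = T * S := by
        rw [hS, Finset.sum_mul, Finset.mul_sum]
        refine Finset.sum_congr rfl fun k _ => ?_
        rw [smul_mul_assoc, mul_smul_comm, hT _ (hqA k) (hqp k)]
      have h3 : ‖S - b‖ ≤ δ := by
        have h4 : 0 ≤ S - b := sub_nonneg.2 h1
        have h5 : S - b ≤ algebraMap ℝ (H →L[ℂ] H) δ := by
          rw [Algebra.algebraMap_eq_smul_one]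
          have : (δ : ℂ) • (1 : H →L[ℂ] H) = δ • (1 : H →L[ℂ] H) := Complex.coe_smul δ _
          rw [← this, sub_le_iff_le_add']
          exact h2
        rw [CStarAlgebra.norm_le_iff_le_algebraMap _ hδ.le h4]
        exact h5
      have h6 : b * T - T * b = T * (S - b) - (S - b) * T := by
        rw [mul_sub, sub_mul, hST]; abel
      rw [h6]
      calc ‖T * (S - b) - (S - b) * T‖ ≤ ‖T * (S - b)‖ + ‖(S - b) * T‖ := norm_sub_le _ _
        _ ≤ ‖T‖ * ‖S - b‖ + ‖S - b‖ * ‖T‖ := add_le_add (norm_mul_le _ _) (norm_mul_le _ _)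
        _ ≤ ‖T‖ * δ + δ * ‖T‖ := by gcongr
        _ = 2 * δ * ‖T‖ := by ring
    have h0' : ‖b * T - T * b‖ ≤ 0 := by
      by_contra hcon
      push Not at hcon
      have h3 := hbd (‖b * T - T * b‖ / (4 * (‖T‖ + 1))) (by positivity)
      have h4 : 2 * (‖b * T - T * b‖ / (4 * (‖T‖ + 1))) * ‖T‖ ≤ ‖b * T - T * b‖ / 2 := by
        have h5 : 2 * (‖b * T - T * b‖ / (4 * (‖T‖ + 1))) * ‖T‖
          = (‖b * T - T * b‖ / 2) * (‖T‖ / (‖T‖ + 1)) := by
          field_simp; ring
        rw [h5]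
        have h6 : ‖T‖ / (‖T‖ + 1) ≤ 1 := by
          rw [div_le_one (by positivity)]; linarith
        nlinarith [norm_nonneg (b * T - T * b)]
      linarith
    exact sub_eq_zero.1 (norm_le_zero_iff.1 h0')
  -- self-adjoint elements
  have hsa : ∀ b ∈ A, IsSelfAdjoint b → b * T = T * b := by
    intro b hb hbs
    have h1 : 0 ≤ b + (‖b‖ : ℂ) • (1 : H →L[ℂ] H) := by
      have h2 := IsSelfAdjoint.neg_algebraMap_norm_le_self hbs
      have h3 : algebraMap ℝ (H →L[ℂ] H) ‖b‖ = (‖b‖ : ℂ) • (1 : H →L[ℂ] H) := by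
        rw [Algebra.algebraMap_eq_smul_one]
        exact (Complex.coe_smul _ _).symm
      rw [h3] at h2
      rw [add_comm]
      exact neg_le_iff_add_nonneg'.1 h2
    have h2 := hpos _ (add_mem hb (A.smul_mem (one_mem A) _)) h1
    rw [add_mul, mul_add, smul_mul_assoc, mul_smul_comm, one_mul, mul_one] at h2
    exact add_right_cancel h2
  -- general elements
  have h1 := hsa (a + star a) (add_mem ha (star_mem ha)) (IsSelfAdjoint.add_star_self a)
  have h2 := hsa (Complex.I • (a - star a)) (A.smul_mem (sub_mem ha (star_mem ha)) _) (by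
    rw [isSelfAdjoint_iff, star_smul, star_sub, star_star, Complex.star_def, Complex.conj_I,
      neg_smul, ← smul_neg, neg_sub])
  rw [smul_mul_assoc, mul_smul_comm] at h2
  have h3 : (a - star a) * T = T * (a - star a) := smul_right_injective _ Complex.I_ne_zero h2
  have h4 : (2 : ℂ) • (a * T) = (2 : ℂ) • (T * a) := by
    rw [two_smul, two_smul]
    have h5 : a * T + a * T = (a + star a) * T + (a - star a) * T := by
      rw [add_mul, sub_mul]; abel
    have h6 : T * a + T * a = T * (a + star a) + T * (a - star a) := by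
      rw [mul_add, mul_sub]; abel
    rw [h5, h6, h1, h3]
  exact smul_right_injective _ two_ne_zero h4

end Crest.Agent.R109
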