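import Crest.Agent.R109.Spec
import Crest.Agent.R109.Simple

/-!
# Row 109: order reflection in the spectral model
-/

set_option autoImplicit false
set_option linter.unusedSectionVars false

namespace Crest.Agent.R109

open scoped InnerProductSpace ComplexOrder
open ContinuousLinearMap Set TopologicalSpace

universe u

variable {H : Type u} [NormedAddCommGroup H] [InnerProductSpace ℂ H] [CompleteSpace H]
variable {M : VonNeumannAlgebra H} {A : StarSubalgebra ℂ (H →L[ℂ] H)}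

namespace Model

variable (m : Model A)

lemma pr_eq_zero_iff {V : Clopens m.X} : m.pr V = 0 ↔ V = ⊥ := by
  rw [← m.pr_bot]; exact m.pr_injective.eq_iff

lemma real_of_isSelfAdjoint {f : C(m.X, ℂ)} (hf : IsSelfAdjoint (m.Φ f)) (t : m.X) :
    f t = ((f t).re : ℂ) := by
  have h1 : star f = f := m.inj (by rw [map_star]; exact hf.star_eq)
  have h2 := congrArg (fun g : C(m.X, ℂ) => g t) h1
  simp only [ContinuousMap.star_apply] at h2
  exact (Complex.conj_eq_iff_re.1 h2).symm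

/-- positivity is pointwise -/
theorem nonneg_iff (hA : Masa M A) {f : C(m.X, ℂ)} : 0 ≤ m.Φ f ↔ ∀ t, 0 ≤ f t := by
  constructor
  · intro h t
    have hsa : IsSelfAdjoint (m.Φ f) := IsSelfAdjoint.of_nonneg h
    rw [m.real_of_isSelfAdjoint hsa t]
    by_contra hneg
    have hlt : (f t).re < 0 := by
      by_contra h2
      exact hneg (by exact_mod_cast not_lt.1 h2)
    -- clopen neighbourhood
    have hopen : IsOpen {s : m.X | (f s).re < (f t).re / 2} :=
      isOpen_lt (Complex.continuous_re.comp f.continuous) continuous_const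
    obtain ⟨V, htV, hV⟩ := m.exists_clopen_between hA hopen (show (f t).re < (f t).re / 2 by linarith)
    have hV0 : m.pr V ≠ 0 := by
      rw [Ne, m.pr_eq_zero_iff]
      rintro rfl
      exact htV
    obtain ⟨ζ, hζ⟩ : ∃ ζ, m.pr V ζ ≠ 0 := by
      by_contra hc
      push Not at hc
      exact hV0 (ContinuousLinearMap.ext hc)
    set ξ := m.pr V ζ with hξ
    have hfix : m.pr V ξ = ξ := by
      change (m.pr V * m.pr V) ζ = _
      rw [m.pr_idem]
    set δ : ℝ := -((f t).re / 2) with hδ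
    have hδ0 : 0 < δ := by rw [hδ]; linarith
    have h1 : 0 ≤ m.Φ (m.ind V * (-f - algebraMap ℂ C(m.X, ℂ) (δ : ℂ))) := by
      apply m.nonneg_of_nonneg
      intro s
      classical
      change (0 : ℂ) ≤ m.ind V s * (-(f s) - (algebraMap ℂ C(m.X, ℂ) (δ : ℂ)) s)
      rw [m.real_of_isSelfAdjoint hsa s]
      by_cases hs : s ∈ V
      · rw [m.ind_of_mem hs, one_mul]
        have h2 : (f s).re < (f t).re / 2 := hV hs
        have h3 : (algebraMap ℂ C(m.X, ℂ) (δ : ℂ)) s = (δ : ℂ) := rfl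
        rw [h3]
        have : (0 : ℝ) ≤ -(f s).re - δ := by rw [hδ]; linarith
        exact_mod_cast this
      · rw [m.ind_of_notMem hs, zero_mul]
    have h2 := ((ContinuousLinearMap.nonneg_iff_isPositive _).1 h1).re_inner_nonneg_right ξ
    have h3 := ((ContinuousLinearMap.nonneg_iff_isPositive _).1 h).re_inner_nonneg_right ξ
    have h4 : m.Φ (m.ind V * (-f - algebraMap ℂ C(m.X, ℂ) (δ : ℂ))) ξ =
        m.pr V (-(m.Φ f ξ) - (δ : ℂ) • ξ) := by
      rw [map_mul, map_sub, map_neg, AlgHomClass.commutes]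
      rfl
    have h5 : ⟪ξ, m.pr V (-(m.Φ f ξ) - (δ : ℂ) • ξ)⟫_ℂ = ⟪ξ, -(m.Φ f ξ) - (δ : ℂ) • ξ⟫_ℂ := by
      have hs : ContinuousLinearMap.adjoint (m.pr V) = m.pr V := m.star_pr V
      conv_lhs => rw [← hs, ContinuousLinearMap.adjoint_inner_right, hfix]
    rw [h4, h5, inner_sub_right, inner_neg_right, inner_smul_right, inner_self_eq_norm_sq_to_K]
      at h2
    have h6 : (RCLike.re (-⟪ξ, m.Φ f ξ⟫_ℂ - (δ : ℂ) * ((‖ξ‖ : ℂ)) ^ 2) : ℝ) =
        -(⟪ξ, m.Φ f ξ⟫_ℂ).re - δ * ‖ξ‖ ^ 2 := by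
      change (-⟪ξ, m.Φ f ξ⟫_ℂ - (δ : ℂ) * ((‖ξ‖ : ℂ)) ^ 2).re = _
      rw [Complex.sub_re, Complex.neg_re, ← Complex.ofReal_pow, ← Complex.ofReal_mul,
        Complex.ofReal_re]
    have h7 : (0 : ℝ) ≤ -(⟪ξ, m.Φ f ξ⟫_ℂ).re - δ * ‖ξ‖ ^ 2 := by
      rw [← h6]; exact h2
    have h8 : (0 : ℝ) ≤ (⟪ξ, m.Φ f ξ⟫_ℂ).re := h3
    have h9 : 0 < ‖ξ‖ := norm_pos_iff.2 hζ
    nlinarith [pow_pos h9 2]
  · intro h
    exact m.nonneg_of_nonneg h

theorem le_iff (hA : Masa M A) {f g : C(m.X, ℂ)} : m.Φ f ≤ m.Φ g ↔ ∀ t, f t ≤ g t := by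
  rw [← sub_nonneg, ← map_sub, m.nonneg_iff hA]
  exact forall_congr' fun t => by
    change 0 ≤ g t - f t ↔ _
    exact sub_nonneg

/-- an element of `M` commuting with all `m.pr V` is in `A` -/
theorem mem_of_pr_comm (hA : Masa M A) {z : H →L[ℂ] H} (hz : z ∈ M)
    (h : ∀ V : Clopens m.X, m.pr V * z = z * m.pr V) : z ∈ A := by
  refine hA.max z hz fun a ha => hA.comm_of_proj (fun p hp hpp => ?_) ha
  obtain ⟨V, rfl⟩ := m.exists_pr hp hpp
  exact h V

end Model

end Crest.Agent.R109
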