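import Crest.Agent.R109.DiffLim
import Crest.Agent.R109.Spec2
import Crest.Agent.R109.GN

/-!
# Row 109, diffuse lemma: an element of `M` which is orthogonal to all normalisers is diffuse
-/

set_option autoImplicit false
set_option linter.unusedSectionVars false
set_option linter.style.haveILetI false

namespace Crest.Agent.R109

open Crest.Agent.R124 Crest.Agent.R121
open scoped InnerProductSpace ComplexOrder Topology
open ContinuousLinearMap Set TopologicalSpace Filter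

universe u

variable {H : Type u} [NormedAddCommGroup H] [InnerProductSpace ℂ H] [CompleteSpace H]
variable {M : VonNeumannAlgebra H} {A : StarSubalgebra ℂ (H →L[ℂ] H)} {η : H}

namespace Diff

variable (m : Model A)

/-- representing functions of the kernel -/
structure Rep (A : StarSubalgebra ℂ (H →L[ℂ] H)) (m : Model A) (η : H) (y : H →L[ℂ] H)
    (f : Clopens m.X → C(m.X, ℂ)) : Prop where
  rep : ∀ V, m.Φ (f V) = CE A η (star y * m.pr V * y)

variable {m}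

lemma exists_rep (h : NCE M A η) {y : H →L[ℂ] H} (hy : y ∈ M) : ∃ f, Rep A m η y f := by
  have : ∀ V : Clopens m.X, ∃ f, m.Φ f = CE A η (star y * m.pr V * y) := fun V =>
    (m.mem_iff _).1 (h.CE_mem (mul_mem (mul_mem (star_mem hy) (h.masa.memM (m.pr_mem V))) hy))
  choose f hf using this
  exact ⟨f, ⟨hf⟩⟩

lemma kernel_mem (h : NCE M A η) {y : H →L[ℂ] H} (hy : y ∈ M) (V : Clopens m.X) :
    star y * m.pr V * y ∈ M := mul_mem (mul_mem (star_mem hy) (h.masa.memM (m.pr_mem V))) hy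

lemma conj_le {a b : H →L[ℂ] H} (hab : a ≤ b) (y : H →L[ℂ] H) : star y * a * y ≤ star y * b * y := by
  rw [← sub_nonneg]
  have : star y * b * y - star y * a * y = star y * (b - a) * y := by
    rw [mul_sub, sub_mul]
  rw [this]
  exact star_left_conjugate_nonneg (sub_nonneg.2 hab) y

lemma pr_mono {V W : Clopens m.X} (hVW : V ≤ W) : m.pr V ≤ m.pr W := by
  classical
  apply m.mono
  intro x
  change m.ind V x ≤ m.ind W x
  by_cases h1 : x ∈ V
  · rw [m.ind_of_mem h1, m.ind_of_mem (hVW h1)]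
  · rw [m.ind_of_notMem h1]
    by_cases h2 : x ∈ W
    · rw [m.ind_of_mem h2]; exact zero_le_one
    · rw [m.ind_of_notMem h2]

lemma Rep.mono {y : H →L[ℂ] H} {f : Clopens m.X → C(m.X, ℂ)} (hf : Rep A m η y f) (h : NCE M A η)
    (hy : y ∈ M) {V W : Clopens m.X} (hVW : V ≤ W) (t : m.X) : f V t ≤ f W t := by
  revert t
  rw [← m.le_iff h.masa, hf.rep, hf.rep]
  exact h.CE_mono (kernel_mem h hy V) (kernel_mem h hy W) (conj_le (pr_mono hVW) y)

lemma Rep.nonneg {y : H →L[ℂ] H} {f : Clopens m.X → C(m.X, ℂ)} (hf : Rep A m η y f)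
    (h : NCE M A η) (hy : y ∈ M) (V : Clopens m.X) (t : m.X) : 0 ≤ f V t := by
  revert t
  rw [← m.nonneg_iff h.masa, hf.rep]
  exact h.CE_nonneg (kernel_mem h hy V) (star_left_conjugate_nonneg (m.pr_proj V).nonneg y)

lemma Rep.bot {y : H →L[ℂ] H} {f : Clopens m.X → C(m.X, ℂ)} (hf : Rep A m η y f)
    (h : NCE M A η) : f ⊥ = 0 := by
  apply m.inj
  rw [hf.rep, m.pr_bot, mul_zero, zero_mul, h.CE_zero, map_zero]

lemma Rep.top_le {y : H →L[ℂ] H} {f : Clopens m.X → C(m.X, ℂ)} (hf : Rep A m η y f)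
    (h : NCE M A η) (hy : y ∈ M) (V : Clopens m.X) (t : m.X) :
    f V t ≤ ((‖y‖ ^ 2 : ℝ) : ℂ) := by
  have h0 : m.Φ (f V) ≤ m.Φ (algebraMap ℂ _ ((‖y‖ ^ 2 : ℝ) : ℂ)) := by
    rw [hf.rep, AlgHomClass.commutes, ← h.CE_of_mem (algebraMap_mem A ((‖y‖ ^ 2 : ℝ) : ℂ))]
    refine h.CE_mono (kernel_mem h hy V) (h.masa.memM (algebraMap_mem A _)) ?_
    have h1 : star y * m.pr V * y ≤ star y * 1 * y := by
      rw [← m.pr_top]
      exact conj_le (pr_mono le_top) y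
    rw [mul_one] at h1
    refine h1.trans ?_
    have h2 : star y * y ≤ algebraMap ℝ _ (‖y‖ ^ 2) := CStarAlgebra.star_mul_le_algebraMap_norm_sq
    exact h2
  exact (m.le_iff h.masa).1 h0 t

/-- real part of an inequality between real functions -/
lemma re_mono {a b : ℂ} (hab : a ≤ b) : a.re ≤ b.re := (Complex.le_def.1 hab).1

lemma eq_re_of_nonneg {a : ℂ} (ha : 0 ≤ a) : a = (a.re : ℂ) := by
  have := (Complex.le_def.1 ha).2
  exact Complex.ext rfl (by simpa using this.symm)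

/-- the preimage of a clopen set under the selection, inside `F` -/
def pre (F : Clopens m.X) (σ : m.X → m.X) (hσ : Continuous σ) (V : Clopens m.X) : Clopens m.X :=
  ⟨(F : Set m.X) ∩ σ ⁻¹' (V : Set m.X), F.isClopen.inter (V.isClopen.preimage hσ)⟩

lemma mem_pre {F : Clopens m.X} {σ : m.X → m.X} {hσ : Continuous σ} {V : Clopens m.X} {t : m.X} :
    t ∈ pre F σ hσ V ↔ t ∈ F ∧ σ t ∈ V := Iff.rfl

lemma bhom_pre (F : Clopens m.X) (σ : m.X → m.X) (hσ : Continuous σ) :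
    BHom A (fun V => m.pr (pre F σ hσ V)) where
  mem := fun V => m.pr_mem _
  proj := fun V => m.pr_proj _
  inf := fun V W => by
    rw [← m.pr_inf]
    congr 1
    ext t
    change t ∈ pre F σ hσ (V ⊓ W) ↔ t ∈ pre F σ hσ V ∧ t ∈ pre F σ hσ W
    rw [mem_pre, mem_pre, mem_pre]
    change t ∈ F ∧ (σ t ∈ V ∧ σ t ∈ W) ↔ _
    tauto
  compl := fun V => by
    have h1 : pre F σ hσ ⊤ = pre F σ hσ V ⊔ pre F σ hσ Vᶜ := by
      ext t
      change t ∈ pre F σ hσ ⊤ ↔ t ∈ pre F σ hσ V ∨ t ∈ pre F σ hσ Vᶜ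
      rw [mem_pre, mem_pre, mem_pre]
      change t ∈ F ∧ True ↔ (t ∈ F ∧ σ t ∈ V) ∨ (t ∈ F ∧ ¬ σ t ∈ V)
      tauto
    have h2 : Disjoint (pre F σ hσ V) (pre F σ hσ Vᶜ) := by
      rw [disjoint_iff]
      ext t
      change (t ∈ pre F σ hσ V ∧ t ∈ pre F σ hσ Vᶜ) ↔ False
      rw [mem_pre, mem_pre]
      change (t ∈ F ∧ σ t ∈ V) ∧ (t ∈ F ∧ ¬ σ t ∈ V) ↔ False
      tauto
    rw [h1, m.pr_sup _ _ h2, add_sub_cancel_left]

/-- either a continuous selection of heavy points, or smallness on a dense open set -/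
lemma dich (h : NCE M A η) {y : H →L[ℂ] H} (hy : y ∈ M) {f : Clopens m.X → C(m.X, ℂ)}
    (hf : Rep A m η y f) {c : ℝ} (hc : 0 < c) :
    (∃ F : Clopens m.X, F ≠ ⊥ ∧ ∃ θ : Clopens m.X → H →L[ℂ] H, BHom A θ ∧ θ ⊤ = m.pr F ∧
      ∀ V, (c : ℂ) • θ V ≤ CE A η (star y * m.pr V * y)) ∨
    (∃ U : Set m.X, IsOpen U ∧ Dense U ∧ ∀ V : Clopens m.X, (V : Set m.X) ⊆ U →
        ∃ s : Finset (Clopens m.X), ∀ W, Sub s W → ∀ t ∈ V, (f W t).re < c) := by
  have hED := m.extremallyDisconnected h.masa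
  rcases select (fun V t => (f V t).re) (fun V => Complex.continuous_re.comp (f V).continuous)
    (fun V W hVW t => re_mono (hf.mono h hy hVW t)) (fun t => by
      rw [hf.bot h]; simp) hc with ⟨F, hF, σ, hσ, hsel⟩ | hU
  · left
    refine ⟨F, hF, fun V => m.pr (pre F σ hσ V), bhom_pre F σ hσ, ?_, fun V => ?_⟩
    · change m.pr _ = _
      congr 1
      ext t
      change t ∈ pre F σ hσ ⊤ ↔ t ∈ F
      rw [mem_pre]
      exact and_iff_left trivial
    · rw [← hf.rep]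
      have h1 : (c : ℂ) • m.pr (pre F σ hσ V) = m.Φ ((c : ℂ) • m.ind (pre F σ hσ V)) := by
        rw [map_smul]; rfl
      change (c : ℂ) • m.pr (pre F σ hσ V) ≤ _
      rw [h1, m.le_iff h.masa]
      intro t
      change (c : ℂ) * m.ind (pre F σ hσ V) t ≤ f V t
      by_cases ht : t ∈ pre F σ hσ V
      · rw [m.ind_of_mem ht, mul_one, eq_re_of_nonneg (hf.nonneg h hy V t)]
        exact_mod_cast hsel t ht.1 V ht.2
      · rw [m.ind_of_notMem ht, mul_zero]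
        exact hf.nonneg h hy V t
  · right; exact hU

/-- a partition all of whose refinements are subordinate to a finite family of clopen sets -/
lemma exists_FP_sub (hA : Masa M A) (s : Finset (Clopens m.X)) :
    ∃ P : FP A, ∀ Q, P ≤ Q → ∀ i, ∃ W, Q.e i = m.pr W ∧ Sub s W := by
  classical
  have hdir := FP.directed (A := A) hA.comm
  haveI := hdir
  obtain ⟨P, hP⟩ := (s.image fun V => FP.two (m.pr_mem V) (m.pr_proj V)).exists_le
  refine ⟨P, fun Q hPQ i => ?_⟩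
  obtain ⟨W, hW⟩ := m.exists_pr (Q.part.mem i) (Q.part.proj i)
  refine ⟨W, hW.symm, fun V hV => ?_⟩
  have h1 : FP.two (m.pr_mem V) (m.pr_proj V) ≤ Q :=
    (hP _ (Finset.mem_image_of_mem _ hV)).trans hPQ
  obtain ⟨g, hg⟩ := h1
  have h2 := FP.le_mul g hg (0 : Fin 2) i
  have h3 : (FP.two (m.pr_mem V) (m.pr_proj V)).e (0 : Fin 2) = m.pr V := rfl
  rw [h3, ← hW] at h2
  by_cases h4 : g i = (0 : Fin 2)
  · left
    rw [if_pos h4, ← m.pr_inf] at h2
    exact inf_eq_right.1 (m.pr_injective h2)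
  · right
    rw [if_neg h4, ← m.pr_inf, m.pr_eq_zero_iff] at h2
    rw [disjoint_comm, disjoint_iff]
    exact h2

lemma inner_re_mono {a b : H →L[ℂ] H} (hab : a ≤ b) (ξ : H) :
    (⟪ξ, a ξ⟫_ℂ).re ≤ (⟪ξ, b ξ⟫_ℂ).re := by
  have h1 := ((ContinuousLinearMap.nonneg_iff_isPositive _).1
    (sub_nonneg.2 hab)).re_inner_nonneg_right ξ
  rw [sub_apply, inner_sub_right] at h1
  have h2 : (0 : ℝ) ≤ (⟪ξ, b ξ⟫_ℂ - ⟪ξ, a ξ⟫_ℂ).re := h1
  rw [Complex.sub_re] at h2
  linarith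

/-- the basic estimate -/
lemma sum_sq_le (h : NCE M A η) {y : H →L[ℂ] H} (hy : y ∈ M) {f : Clopens m.X → C(m.X, ℂ)}
    (hf : Rep A m η y f) {c : ℝ} (hc : 0 < c) (V : Clopens m.X) (Q : FP A)
    (W : Fin Q.n → Clopens m.X) (hW : ∀ i, Q.e i = m.pr (W i))
    (hlt : ∀ i, ∀ t ∈ V, (f (W i) t).re < c) :
    ∑ i, ‖CE A η (star y * Q.e i * y) η‖ ^ 2 ≤
      ‖y‖ ^ 2 * (c * ‖η‖ ^ 2 + ‖y‖ ^ 2 * ‖m.pr Vᶜ η‖ ^ 2) := by
  classical
  set K : Fin Q.n → H →L[ℂ] H := fun i => CE A η (star y * Q.e i * y) with hK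
  have hKf : ∀ i, K i = m.Φ (f (W i)) := fun i => by rw [hf.rep, hK]; simp only [hW]
  have hKs : ∀ i, star (K i) = K i := fun i => by
    have : 0 ≤ K i := by
      rw [hKf, m.nonneg_iff h.masa]; exact hf.nonneg h hy _
    exact (IsSelfAdjoint.of_nonneg this).star_eq
  set b : C(m.X, ℂ) := (c : ℂ) • 1 + ((‖y‖ ^ 2 : ℝ) : ℂ) • m.ind Vᶜ with hb
  have hbt : ∀ t, b t = if t ∈ V then (c : ℂ) else (c : ℂ) + ((‖y‖ ^ 2 : ℝ) : ℂ) := by
    intro t
    have h1 : b t = (c : ℂ) * 1 + ((‖y‖ ^ 2 : ℝ) : ℂ) * m.ind Vᶜ t := rfl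
    rw [h1]
    by_cases ht : t ∈ V
    · rw [if_pos ht, m.ind_of_notMem (show t ∉ Vᶜ from fun h => h ht)]; ring
    · rw [if_neg ht, m.ind_of_mem (show t ∈ Vᶜ from ht)]; ring
  have hfb : ∀ i t, f (W i) t ≤ b t := by
    intro i t
    rw [hbt]
    by_cases ht : t ∈ V
    · rw [if_pos ht, eq_re_of_nonneg (hf.nonneg h hy _ t)]
      exact_mod_cast (hlt i t ht).le
    · rw [if_neg ht]
      refine (hf.top_le h hy (W i) t).trans ?_
      have : (0 : ℝ) ≤ c := hc.le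
      exact_mod_cast (by linarith : ‖y‖ ^ 2 ≤ c + ‖y‖ ^ 2)
  have h1 : ∀ i, K i * K i ≤ m.Φ b * K i := by
    intro i
    rw [hKf, ← map_mul, ← map_mul, m.le_iff h.masa]
    intro t
    exact mul_le_mul_of_nonneg_right (hfb i t) (hf.nonneg h hy _ t)
  have h2 : ∑ i, K i = m.Φ (f ⊤) := by
    rw [hf.rep, m.pr_top, mul_one, hK]
    simp only
    rw [← h.CE_sum (s := Finset.univ) (F := fun i => star y * Q.e i * y)
      fun i _ => mul_mem (mul_mem (star_mem hy) (h.masa.memM (Q.part.mem i))) hy]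
    rw [← Finset.sum_mul, ← Finset.mul_sum, Q.part.sum, mul_one]
  have h3 : ∑ i, K i * K i ≤ ((‖y‖ ^ 2 : ℝ) : ℂ) • m.Φ b := by
    calc ∑ i, K i * K i ≤ ∑ i, m.Φ b * K i := Finset.sum_le_sum fun i _ => h1 i
      _ = m.Φ (b * f ⊤) := by rw [← Finset.mul_sum, h2, map_mul]
      _ ≤ m.Φ (((‖y‖ ^ 2 : ℝ) : ℂ) • b) := by
        rw [m.le_iff h.masa]
        intro t
        change b t * f ⊤ t ≤ ((‖y‖ ^ 2 : ℝ) : ℂ) * b t
        rw [mul_comm]
        refine mul_le_mul_of_nonneg_right (hf.top_le h hy ⊤ t) ?_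
        rw [hbt]
        split_ifs
        · exact_mod_cast hc.le
        · exact_mod_cast (by positivity : (0 : ℝ) ≤ c + ‖y‖ ^ 2)
      _ = _ := by rw [map_smul]
  have h4 := inner_re_mono h3 η
  have h5 : (⟪η, (∑ i, K i * K i) η⟫_ℂ).re = ∑ i, ‖K i η‖ ^ 2 := by
    rw [sum_apply, inner_sum, Complex.re_sum]
    refine Finset.sum_congr rfl fun i _ => ?_
    have : ⟪η, (K i * K i) η⟫_ℂ = ⟪K i η, K i η⟫_ℂ := by
      rw [inner_mul_star', hKs]
    rw [this, inner_self_eq_norm_sq_to_K]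
    norm_cast
  rw [h5] at h4
  refine h4.trans (le_of_eq ?_)
  have h6 : m.Φ b = (c : ℂ) • 1 + ((‖y‖ ^ 2 : ℝ) : ℂ) • m.pr Vᶜ := by
    rw [hb, map_add, map_smul, map_smul, map_one]; rfl
  have h7 : ⟪η, m.pr Vᶜ η⟫_ℂ = ((‖m.pr Vᶜ η‖ ^ 2 : ℝ) : ℂ) := by
    have : ⟪m.pr Vᶜ η, m.pr Vᶜ η⟫_ℂ = ⟪η, m.pr Vᶜ η⟫_ℂ := by
      rw [inner_mul_star', m.star_pr, m.pr_idem]
    rw [← this, inner_self_eq_norm_sq_to_K]
    norm_cast
  have h8 : ⟪η, (((‖y‖ ^ 2 : ℝ) : ℂ) • m.Φ b) η⟫_ℂ =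
      ((‖y‖ ^ 2 * (c * ‖η‖ ^ 2 + ‖y‖ ^ 2 * ‖m.pr Vᶜ η‖ ^ 2) : ℝ) : ℂ) := by
    have e1 : (1 : H →L[ℂ] H) η = η := rfl
    rw [h6, smul_apply, add_apply, smul_apply, smul_apply, e1, inner_smul_right,
      inner_add_right, inner_smul_right, inner_smul_right, h7, inner_self_eq_norm_sq_to_K]
    push_cast
    rfl
  rw [h8, Complex.ofReal_re]

/-- diffuseness in terms of partitions -/
def Dif (A : StarSubalgebra ℂ (H →L[ℂ] H)) (η : H) (y : H →L[ℂ] H) : Prop :=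
  ∀ κ : ℝ, 0 < κ → ∃ P : FP A, ∀ Q, P ≤ Q → ∑ i, ‖CE A η (star y * Q.e i * y) η‖ ^ 2 ≤ κ

lemma dif_of_small (h : NCE M A η) {y : H →L[ℂ] H} (hy : y ∈ M) {f : Clopens m.X → C(m.X, ℂ)}
    (hf : Rep A m η y f)
    (hB : ∀ c : ℝ, 0 < c → ∃ U : Set m.X, IsOpen U ∧ Dense U ∧ ∀ V : Clopens m.X,
      (V : Set m.X) ⊆ U → ∃ s : Finset (Clopens m.X), ∀ W, Sub s W → ∀ t ∈ V, (f W t).re < c) :
    Dif A η y := by
  intro κ hκ
  obtain ⟨U, hU, hUd, hUV⟩ := hB (κ / (2 * (‖y‖ ^ 2 * ‖η‖ ^ 2 + 1))) (by positivity)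
  obtain ⟨V, hVU, -, hVη⟩ := m.exists_clopen_inside h.masa U hU ⊤
    (by rw [hUd.closure_eq]; exact subset_univ _) η
    (show (0 : ℝ) < Real.sqrt (κ / 2) / (‖y‖ ^ 2 + 1) by positivity)
  obtain ⟨s, hs⟩ := hUV V hVU
  obtain ⟨P, hP⟩ := exists_FP_sub h.masa s
  refine ⟨P, fun Q hPQ => ?_⟩
  choose W hW hWs using hP Q hPQ
  refine (sum_sq_le h hy hf (by positivity) V Q W hW fun i t ht => hs (W i) (hWs i) t ht).trans ?_
  rw [m.pr_top, ← m.pr_compl] at hVη
  rw [mul_add]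
  have h1 : ‖y‖ ^ 2 * (κ / (2 * (‖y‖ ^ 2 * ‖η‖ ^ 2 + 1)) * ‖η‖ ^ 2) ≤ κ / 2 := by
    have : ‖y‖ ^ 2 * (κ / (2 * (‖y‖ ^ 2 * ‖η‖ ^ 2 + 1)) * ‖η‖ ^ 2) =
        κ / 2 * ((‖y‖ ^ 2 * ‖η‖ ^ 2) / (‖y‖ ^ 2 * ‖η‖ ^ 2 + 1)) := by
      field_simp
    rw [this]
    have h2 : (‖y‖ ^ 2 * ‖η‖ ^ 2) / (‖y‖ ^ 2 * ‖η‖ ^ 2 + 1) ≤ 1 := by
      rw [div_le_one (by positivity)]; linarith
    calc κ / 2 * ((‖y‖ ^ 2 * ‖η‖ ^ 2) / (‖y‖ ^ 2 * ‖η‖ ^ 2 + 1)) ≤ κ / 2 * 1 := by gcongr
      _ = κ / 2 := mul_one _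
  have h2 : ‖y‖ ^ 2 * (‖y‖ ^ 2 * ‖m.pr Vᶜ η‖ ^ 2) ≤ κ / 2 := by
    have h3 : ‖y‖ ^ 2 * ‖m.pr Vᶜ η‖ ≤ Real.sqrt (κ / 2) := by
      have h4 : ‖m.pr Vᶜ η‖ * (‖y‖ ^ 2 + 1) < Real.sqrt (κ / 2) := by
        rwa [lt_div_iff₀ (by positivity)] at hVη
      nlinarith [norm_nonneg (m.pr Vᶜ η)]
    calc ‖y‖ ^ 2 * (‖y‖ ^ 2 * ‖m.pr Vᶜ η‖ ^ 2) = (‖y‖ ^ 2 * ‖m.pr Vᶜ η‖) ^ 2 := by ring
      _ ≤ Real.sqrt (κ / 2) ^ 2 := pow_le_pow_left₀ (by positivity) h3 2
      _ = κ / 2 := Real.sq_sqrt (by positivity)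
  linarith

/-- the positive function of a positive element, cut to be invertible -/
lemma exists_cut (hA : Masa M A) {k : H →L[ℂ] H} (hk : k ∈ A) (h0 : 0 ≤ k) (hne : k ≠ 0) :
    ∃ G : Clopens m.X, G ≠ ⊥ ∧ ∃ b ∈ A, star b = b ∧ b * k * b = m.pr G ∧ m.pr G * b = b ∧
      b * k ≠ 0 := by
  classical
  obtain ⟨f, rfl⟩ := (m.mem_iff k).1 hk
  have hf := (m.nonneg_iff hA).1 h0
  have hne' : f ≠ 0 := fun h => hne (by rw [h, map_zero])
  obtain ⟨t₀, ht₀⟩ : ∃ t, f t ≠ 0 := by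
    by_contra hc
    push Not at hc
    exact hne' (ContinuousMap.ext hc)
  have hpos : 0 < (f t₀).re := by
    rcases lt_or_eq_of_le (re_mono (hf t₀)) with h | h
    · simpa using h
    · exfalso
      apply ht₀
      rw [eq_re_of_nonneg (hf t₀), ← h]; simp
  obtain ⟨G, ht₀G, hG⟩ := m.exists_clopen_between hA
    (isOpen_lt continuous_const (Complex.continuous_re.comp f.continuous))
    (show t₀ ∈ {t : m.X | (f t₀).re / 2 < (f t).re} by
      change (f t₀).re / 2 < (f t₀).re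
      linarith)
  have hG' : ∀ t ∈ G, (f t₀).re / 2 < (f t).re := fun t ht => hG ht
  -- the function `f^{-1/2}` on `G`
  let g : C(m.X, ℂ) :=
    ⟨fun t => ((Real.sqrt (max ((f t).re) ((f t₀).re / 2)))⁻¹ : ℝ), by
      refine Complex.continuous_ofReal.comp (Continuous.inv₀ ?_ ?_)
      · exact Real.continuous_sqrt.comp ((Complex.continuous_re.comp f.continuous).max
          continuous_const)
      · intro t
        have : 0 < max ((f t).re) ((f t₀).re / 2) := lt_max_of_lt_right (by linarith)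
        exact (Real.sqrt_pos.2 this).ne'⟩
  have hgt : ∀ t ∈ G, g t * f t * g t = 1 := by
    intro t ht
    have h1 : max ((f t).re) ((f t₀).re / 2) = (f t).re := max_eq_left (hG' t ht).le
    have h2 : g t = ((Real.sqrt ((f t).re))⁻¹ : ℝ) := by
      change (((Real.sqrt (max ((f t).re) ((f t₀).re / 2)))⁻¹ : ℝ) : ℂ) = _
      rw [h1]
    have h3 : 0 < (f t).re := by linarith [hG' t ht]
    rw [h2, eq_re_of_nonneg (hf t)]
    rw [Complex.ofReal_re, ← Complex.ofReal_mul, ← Complex.ofReal_mul]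
    have h4 : (Real.sqrt (f t).re)⁻¹ * (f t).re * (Real.sqrt (f t).re)⁻¹ = 1 := by
      have h5 := Real.mul_self_sqrt h3.le
      have h6 : Real.sqrt (f t).re ≠ 0 := (Real.sqrt_pos.2 h3).ne'
      field_simp
      nlinarith
    rw [h4]; simp
  refine ⟨G, ?_, m.Φ (m.ind G * g), m.mem _, ?_, ?_, ?_, ?_⟩
  · rintro rfl; exact ht₀G
  · rw [← map_star, star_mul, m.star_ind]
    congr 1
    rw [mul_comm]
    congr 1
    ext t
    rw [ContinuousMap.star_apply]
    exact Complex.conj_ofReal _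
  · rw [← map_mul, ← map_mul]
    change _ = m.Φ (m.ind G)
    congr 1
    ext t
    change (m.ind G t * g t) * f t * (m.ind G t * g t) = m.ind G t
    by_cases ht : t ∈ G
    · rw [m.ind_of_mem ht, one_mul, hgt t ht]
    · rw [m.ind_of_notMem ht]; ring
  · change m.Φ (m.ind G) * _ = _
    rw [← map_mul, ← mul_assoc, ← m.ind_inf, inf_idem]
  · rw [← map_mul]
    intro h1
    have h2 := m.eq_zero_iff.1 h1
    have h3 : (m.ind G t₀ * g t₀) * f t₀ = 0 := congrArg (fun F : C(m.X, ℂ) => F t₀) h2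
    rw [m.ind_of_mem ht₀G, one_mul] at h3
    have h4 := hgt t₀ ht₀G
    rw [h3, zero_mul] at h4
    exact zero_ne_one h4

lemma apply_eq_zero_of_re {T : H →L[ℂ] H} (hT : 0 ≤ T) {ζ : H} (h0 : (⟪ζ, T ζ⟫_ℂ).re = 0) :
    T ζ = 0 := by
  have h1 : CFC.sqrt T * CFC.sqrt T = T := CFC.sqrt_mul_sqrt_self T hT
  have h2 : star (CFC.sqrt T) = CFC.sqrt T := (IsSelfAdjoint.of_nonneg (CFC.sqrt_nonneg T)).star_eq
  have h3 : ⟪CFC.sqrt T ζ, CFC.sqrt T ζ⟫_ℂ = ⟪ζ, T ζ⟫_ℂ := by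
    rw [inner_mul_star', h2, h1]
  have h4 : ‖CFC.sqrt T ζ‖ ^ 2 = 0 := by
    rw [← h0, ← h3, inner_self_eq_norm_sq_to_K]
    norm_cast
  have h5 : CFC.sqrt T ζ = 0 := norm_eq_zero.1 (pow_eq_zero_iff two_ne_zero |>.1 h4)
  calc T ζ = (CFC.sqrt T * CFC.sqrt T) ζ := by rw [h1]
    _ = CFC.sqrt T (CFC.sqrt T ζ) := rfl
    _ = 0 := by rw [h5, map_zero]

/-- Main step: if `y` is not diffuse it has a component along a normaliser. -/
theorem exists_GN_of_not_dif (h : NCE M A η) (m : Model A) {y : H →L[ℂ] H} (hy : y ∈ M)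
    (hnd : ¬ Dif A η y) : ∃ u, GN M A u ∧ CE A η (star u * y) ≠ 0 := by
  classical
  have hA := h.masa
  -- first selection
  obtain ⟨f, hf⟩ := exists_rep (m := m) h hy
  obtain ⟨c, hc, F, hF, θ, hθ, hθF, hlow⟩ : ∃ c : ℝ, 0 < c ∧ ∃ F : Clopens m.X, F ≠ ⊥ ∧
      ∃ θ : Clopens m.X → H →L[ℂ] H, BHom A θ ∧ θ ⊤ = m.pr F ∧
      ∀ V, (c : ℂ) • θ V ≤ CE A η (star y * m.pr V * y) := by
    by_contra hcon
    refine hnd (dif_of_small h hy hf fun c hc => ?_)
    rcases dich h hy hf hc with h1 | h1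
    · exact absurd ⟨c, hc, h1⟩ hcon
    · exact h1
  obtain ⟨Y, hYS, hY⟩ := exists_Y h hθ hy hlow
  have hYM := hYS.mem
  have hYstar : ∀ V, star Y * m.pr V = θ V * star Y := fun V => by
    have := congrArg star (hY V)
    rwa [star_mul, star_mul, m.star_pr, (hθ.proj V).isSelfAdjoint.star_eq] at this
  have hYne : Y ≠ 0 := by
    rintro rfl
    have h1 := hYS.low ⊤ ⊤
    rw [m.pr_top, mul_one, hθF] at h1
    have h2 : (⟪y ((1 : H →L[ℂ] H) η), (1 : H →L[ℂ] H) ((0 : H →L[ℂ] H) η)⟫_ℂ).re = 0 := by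
      simp
    rw [h2] at h1
    have h3 : m.pr F η = 0 := by
      have : ‖m.pr F η‖ ^ 2 ≤ 0 := by
        by_contra hcon
        push Not at hcon
        nlinarith
      have h4 : ‖m.pr F η‖ = 0 := by
        have := le_antisymm this (sq_nonneg _)
        exact pow_eq_zero_iff (two_ne_zero) |>.1 this
      exact norm_eq_zero.1 h4
    exact hF (m.pr_eq_zero_iff.1 (h.sep _ (hA.memM (m.pr_mem F)) h3))
  -- `Y a Y* ∈ A`
  have hYA : ∀ a ∈ A, Y * a * star Y ∈ A := by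
    intro a ha
    apply m.mem_of_pr_comm hA (mul_mem (mul_mem hYM (hA.memM ha)) (star_mem hYM))
    intro V
    calc m.pr V * (Y * a * star Y) = (m.pr V * Y) * a * star Y := by simp only [mul_assoc]
      _ = Y * (θ V * a) * star Y := by rw [hY]; simp only [mul_assoc]
      _ = Y * a * (θ V * star Y) := by rw [hA.comm _ (hθ.mem V) _ ha]; simp only [mul_assoc]
      _ = Y * a * star Y * m.pr V := by rw [← hYstar]; simp only [mul_assoc]
  -- second selection, for `star Y`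
  have hYsM : star Y ∈ M := star_mem hYM
  obtain ⟨f', hf'⟩ := exists_rep (m := m) h hYsM
  have hnd' : ¬ Dif A η (star Y) := by
    intro hD
    -- `⟨D_Q(Y*Y) Y*η, Y*η⟩ = ∑ ‖Y Q_i Y* η‖²`
    have hq : star Y * Y ∈ M := mul_mem hYsM hYM
    have hlim := h.tendsto_D hq (star Y η)
    have hlim2 : Tendsto (fun P : FP A => (⟪star Y η, D P (star Y * Y) (star Y η)⟫_ℂ).re) atTop
        (𝓝 (⟪star Y η, CE A η (star Y * Y) (star Y η)⟫_ℂ).re) :=
      (Complex.continuous_re.tendsto _).comp (tendsto_const_nhds.inner hlim)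
    have hval : ∀ P : FP A, (⟪star Y η, D P (star Y * Y) (star Y η)⟫_ℂ).re =
        ∑ i, ‖CE A η (star (star Y) * P.e i * star Y) η‖ ^ 2 := by
      intro P
      rw [D, sum_apply, inner_sum, Complex.re_sum]
      refine Finset.sum_congr rfl fun i _ => ?_
      rw [star_star, h.CE_of_mem (hYA _ (P.part.mem i))]
      have h1 : ⟪star Y η, (P.e i * (star Y * Y) * P.e i) (star Y η)⟫_ℂ =
          ⟪(Y * P.e i * star Y) η, (Y * P.e i * star Y) η⟫_ℂ := by
        change ⟪star Y η, ((P.e i * (star Y * Y) * P.e i) * star Y) η⟫_ℂ = _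
        rw [inner_mul_star', inner_mul_star', star_star]
        simp only [star_mul, star_star, P.star_e, mul_assoc]
      rw [h1, inner_self_eq_norm_sq_to_K]
      norm_cast
    have h0 : (⟪star Y η, CE A η (star Y * Y) (star Y η)⟫_ℂ).re ≤ 0 := by
      haveI := FP.atTop_neBot hA
      refine le_of_forall_pos_le_add fun κ hκ => ?_
      rw [zero_add]
      obtain ⟨P, hP⟩ := hD κ hκ
      refine le_of_tendsto hlim2 ?_
      filter_upwards [eventually_ge_atTop P] with Q hQ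
      rw [hval]
      exact hP Q hQ
    have hE0 : 0 ≤ CE A η (star Y * Y) := h.CE_nonneg hq (star_mul_self_nonneg _)
    have h1 : CE A η (star Y * Y) (star Y η) = 0 := by
      have h2 := ((ContinuousLinearMap.nonneg_iff_isPositive _).1 hE0)
      have h3 : (⟪star Y η, CE A η (star Y * Y) (star Y η)⟫_ℂ).re = 0 :=
        le_antisymm h0 (h2.re_inner_nonneg_right _)
      exact apply_eq_zero_of_re hE0 h3
    have h2 : CE A η (star Y * Y) * star Y = 0 :=
      h.sep _ (mul_mem (h.CE_memM hq) hYsM) h1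
    have h3 : star Y * Y * CE A η (star Y * Y) = 0 := by
      have h4 := congrArg star h2
      rw [star_mul, star_star, star_zero, (IsSelfAdjoint.of_nonneg hE0).star_eq] at h4
      rw [mul_assoc, h4, mul_zero]
    have h4 : CE A η (star Y * Y) * CE A η (star Y * Y) = 0 := by
      rw [← h.CE_mul_right (h.CE_mem hq) hq, h3, h.CE_zero]
    have h5 : CE A η (star Y * Y) = 0 := by
      have h6 : star (CE A η (star Y * Y)) * CE A η (star Y * Y) = 0 := by
        rw [(IsSelfAdjoint.of_nonneg hE0).star_eq]; exact h4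
      exact CStarRing.star_mul_self_eq_zero_iff _ |>.1 h6
    exact hYne (h.eq_zero_of_CE hYM h5)
  obtain ⟨c', hc', F', hF', θ', hθ', hθF', hlow'⟩ : ∃ c : ℝ, 0 < c ∧ ∃ F : Clopens m.X, F ≠ ⊥ ∧
      ∃ θ : Clopens m.X → H →L[ℂ] H, BHom A θ ∧ θ ⊤ = m.pr F ∧
      ∀ V, (c : ℂ) • θ V ≤ CE A η (star (star Y) * m.pr V * star Y) := by
    by_contra hcon
    refine hnd' (dif_of_small h hYsM hf' fun c hc => ?_)
    rcases dich h hYsM hf' hc with h1 | h1
    · exact absurd ⟨c, hc, h1⟩ hcon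
    · exact h1
  obtain ⟨w, hwS, hw⟩ := exists_Y h hθ' hYsM hlow'
  have hwM := hwS.mem
  have hwrel : ∀ V, θ V * w = w * m.pr V := fun V =>
    hwS.rel _ (hθ.mem V) _ (m.pr_mem V) (hYstar V).symm
  have hwstar : ∀ V, star w * m.pr V = θ' V * star w := fun V => by
    have := congrArg star (hw V)
    rwa [star_mul, star_mul, m.star_pr, (hθ'.proj V).isSelfAdjoint.star_eq] at this
  have hwstar' : ∀ V, star w * θ V = m.pr V * star w := fun V => by
    have := congrArg star (hwrel V)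
    rwa [star_mul, star_mul, m.star_pr, (hθ.proj V).isSelfAdjoint.star_eq] at this
  have hwne : w ≠ 0 := by
    rintro rfl
    have h1 := hwS.low ⊤ ⊤
    rw [m.pr_top, mul_one, hθF'] at h1
    have h2 : (⟪star Y ((1 : H →L[ℂ] H) η), (1 : H →L[ℂ] H) ((0 : H →L[ℂ] H) η)⟫_ℂ).re = 0 := by
      simp
    rw [h2] at h1
    have h3 : m.pr F' η = 0 := by
      have : ‖m.pr F' η‖ ^ 2 ≤ 0 := by
        by_contra hcon
        push Not at hcon
        nlinarith
      have h4 : ‖m.pr F' η‖ = 0 := by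
        have := le_antisymm this (sq_nonneg _)
        exact pow_eq_zero_iff (two_ne_zero) |>.1 this
      exact norm_eq_zero.1 h4
    exact hF' (m.pr_eq_zero_iff.1 (h.sep _ (hA.memM (m.pr_mem F')) h3))
  have hwA : ∀ a ∈ A, w * a * star w ∈ A := by
    intro a ha
    apply m.mem_of_pr_comm hA (mul_mem (mul_mem hwM (hA.memM ha)) (star_mem hwM))
    intro V
    calc m.pr V * (w * a * star w) = (m.pr V * w) * a * star w := by simp only [mul_assoc]
      _ = w * (θ' V * a) * star w := by rw [hw]; simp only [mul_assoc]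
      _ = w * a * (θ' V * star w) := by rw [hA.comm _ (hθ'.mem V) _ ha]; simp only [mul_assoc]
      _ = w * a * star w * m.pr V := by rw [← hwstar]; simp only [mul_assoc]
  have hwA' : ∀ a ∈ A, star w * a * w ∈ A := by
    intro a ha
    apply m.mem_of_pr_comm hA (mul_mem (mul_mem (star_mem hwM) (hA.memM ha)) hwM)
    intro V
    calc m.pr V * (star w * a * w) = (m.pr V * star w) * a * w := by simp only [mul_assoc]
      _ = star w * (θ V * a) * w := by rw [← hwstar']; simp only [mul_assoc]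
      _ = star w * a * (θ V * w) := by rw [hA.comm _ (hθ.mem V) _ ha]; simp only [mul_assoc]
      _ = star w * a * w * m.pr V := by rw [hwrel]; simp only [mul_assoc]
  set k := w * star w with hk
  have hkA : k ∈ A := by
    have := hwA 1 (one_mem A)
    rwa [mul_one] at this
  have hk0 : 0 ≤ k := mul_star_self_nonneg w
  have hkne : k ≠ 0 := fun h1 => hwne (CStarRing.mul_star_self_eq_zero_iff _ |>.1 h1)
  obtain ⟨G, -, b, hbA, hbs, hbkb, hGb, hbk⟩ := exists_cut (m := m) hA hkA hk0 hkne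
  have hstar : star (b * w) = star w * b := by rw [star_mul, hbs]
  have hv : GN M A (b * w) := by
    apply GN.mk' (mul_mem (hA.memM hbA) hwM)
    · have h1 : b * w * star (b * w) = m.pr G := by
        rw [hstar, ← hbkb, hk]; simp only [mul_assoc]
      rw [h1, ← mul_assoc, hGb]
    · intro a ha
      have h1 : b * w * a * star (b * w) = b * (w * a * star w) * b := by
        rw [hstar]; simp only [mul_assoc]
      rw [h1]
      exact mul_mem (mul_mem hbA (hwA a ha)) hbA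
    · intro a ha
      have h1 : star (b * w) * a * (b * w) = star w * (b * a * b) * w := by
        rw [hstar]; simp only [mul_assoc]
      rw [h1]
      exact hwA' _ (mul_mem (mul_mem hbA ha) hbA)
  refine ⟨star (b * w), hv.star, ?_⟩
  rw [star_star, mul_assoc, h.CE_mul_left hbA (mul_mem hwM hy)]
  have hCE : CE A η (w * y) = k := by
    refine h.CE_unique (mul_mem hwM hy) hkA fun a ha => ?_
    have h1 := hYS.left (star w * star a) (mul_mem (star_mem hwM) (star_mem (hA.memM ha)))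
      fun V => by
        rw [← mul_assoc, ← hwstar', mul_assoc, mul_assoc, hA.comm _ (hθ.mem V) _ (star_mem ha)]
    have h2 := hwS.right (a * w) (mul_mem (hA.memM ha) hwM) fun V => by
      rw [← mul_assoc, hA.comm _ (m.pr_mem V) _ ha, mul_assoc, hw, mul_assoc]
    rw [inner_mul_star', inner_mul_star', star_mul, star_star, star_star] at h1
    rw [inner_mul_star', inner_mul_star', star_star, star_star] at h2
    rw [← mul_assoc a w y, ← h1, ← h2, hk, mul_assoc]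
  rw [hCE]
  exact hbk

end Diff

/-- DIFF: an element orthogonal to all normalisers is diffuse (all refinements of a partition). -/
theorem diffuse_all (h : NCE M A η) {y : H →L[ℂ] H} (hy : y ∈ M)
    (horth : ∀ u, GN M A u → CE A η (star u * y) = 0) (κ : ℝ) (hκ : 0 < κ) :
    ∃ P : FP A, ∀ Q, P ≤ Q → ∑ i, ‖CE A η (star y * Q.e i * y) η‖ ^ 2 ≤ κ := by
  obtain ⟨m⟩ := h.masa.exists_model
  by_contra hcon
  have hnd : ¬ Diff.Dif A η y := fun hD => hcon (hD κ hκ)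
  obtain ⟨u, hu, hne⟩ := Diff.exists_GN_of_not_dif h m hy hnd
  exact hne (horth u hu)

/-- DIFF for self-adjoint elements -/
theorem diffuse (h : NCE M A η) {z : H →L[ℂ] H} (hz : z ∈ M) (hsa : IsSelfAdjoint z)
    (horth : ∀ u, GN M A u → CE A η (star u * z) = 0) :
    ∀ κ : ℝ, 0 < κ → ∃ P : FP A, ∑ i, ‖CE A η (z * P.e i * z) η‖ ^ 2 ≤ κ := by
  intro κ hκ
  obtain ⟨P, hP⟩ := diffuse_all h hz horth κ hκ
  refine ⟨P, ?_⟩
  have := hP P le_rfl
  rwa [hsa.star_eq] at this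

end Crest.Agent.R109
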