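import Crest.Agent.R109.Defs

/-!
# Row 109: supports of `A`-central vectors
-/

set_option autoImplicit false
set_option linter.unusedSectionVars false
set_option linter.style.haveILetI false

namespace Crest.Agent.R109

open scoped InnerProductSpace
open ContinuousLinearMap Crest.Agent.R121 Crest.Agent.R124

universe u

variable {H : Type u} [NormedAddCommGroup H] [InnerProductSpace ℂ H] [CompleteSpace H]

section CProj

/-- projection onto the closure of a subspace -/
noncomputable def cproj (W : Submodule ℂ H) : H →L[ℂ] H :=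
  haveI : CompleteSpace W.topologicalClosure :=
    (Submodule.isClosed_topologicalClosure _).completeSpace_coe
  W.topologicalClosure.starProjection

variable (W : Submodule ℂ H)

lemma cproj_proj : IsStarProjection (cproj W) := by
  have : CompleteSpace W.topologicalClosure :=
    (Submodule.isClosed_topologicalClosure _).completeSpace_coe
  exact isStarProjection_starProjection

variable {W}

lemma cproj_of_mem {w : H} (hw : w ∈ W) : cproj W w = w := by
  have : CompleteSpace W.topologicalClosure :=
    (Submodule.isClosed_topologicalClosure _).completeSpace_coe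
  exact Submodule.starProjection_eq_self_iff.2 (Submodule.le_topologicalClosure _ hw)

lemma cproj_apply_mem (t : H) : cproj W t ∈ closure (W : Set H) := by
  have : CompleteSpace W.topologicalClosure :=
    (Submodule.isClosed_topologicalClosure _).completeSpace_coe
  have h := Submodule.starProjection_apply_mem W.topologicalClosure t
  have h2 : cproj W t ∈ (W.topologicalClosure : Set H) := h
  rwa [Submodule.topologicalClosure_coe] at h2

lemma mul_cproj_eq_zero {B : H →L[ℂ] H} (h : ∀ w ∈ W, B w = 0) : B * cproj W = 0 := by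
  ext t
  change B (cproj W t) = 0
  have hcl : IsClosed {z : H | B z = 0} := isClosed_eq (by fun_prop) continuous_const
  exact closure_minimal (fun w hw => h w hw) hcl (cproj_apply_mem t)

lemma cproj_comm {T : H →L[ℂ] H} (h : ∀ w ∈ W, T w ∈ W) (h' : ∀ w ∈ W, (star T) w ∈ W) :
    T * cproj W = cproj W * T := by
  have hs : star (cproj W) = cproj W := (cproj_proj W).isSelfAdjoint
  have key : ∀ S : H →L[ℂ] H, (∀ w ∈ W, S w ∈ W) → cproj W * S * cproj W = S * cproj W := by
    intro S hS
    have : (1 - cproj W) * S * cproj W = 0 := by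
      apply mul_cproj_eq_zero
      intro w hw
      change S w - cproj W (S w) = 0
      rw [cproj_of_mem (hS w hw), sub_self]
    rw [sub_mul, one_mul, sub_mul, sub_eq_zero] at this
    exact this.symm
  have h1 := key T h
  have h2 := congrArg star (key (star T) h')
  rw [star_mul, star_mul, star_mul, star_star, hs] at h2
  rw [← h1, mul_assoc]
  exact h2

lemma cproj_mem (M : VonNeumannAlgebra H) (h : ∀ T ∈ M.commutant, ∀ w ∈ W, T w ∈ W) :
    cproj W ∈ M := by
  apply mem_of_commutant
  intro T hT
  exact cproj_comm (h T hT) (h (star T) (star_mem hT))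

end CProj

section Amp

variable {M : VonNeumannAlgebra H} {A : StarSubalgebra ℂ (H →L[ℂ] H)}

/-- sums of vector functionals are vector functionals -/
lemma amp_inner {S T : H →L[ℂ] H} (hS : S ∈ M.commutant) (hT : T ∈ M.commutant)
    (hSS : star S * S = 1) (hTT : star T * T = 1) (hST : star S * T = 0) (η₁ η₂ : H)
    {x : H →L[ℂ] H} (hx : x ∈ M) :
    ⟪S η₁ + T η₂, x (S η₁ + T η₂)⟫_ℂ = ⟪η₁, x η₁⟫_ℂ + ⟪η₂, x η₂⟫_ℂ := by
  have hTS : star T * S = 0 := by
    have := congrArg star hST
    rwa [star_mul, star_star, star_zero] at this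
  have key : ∀ (P Q R : H →L[ℂ] H), P ∈ M.commutant → Q ∈ M.commutant → star P * Q = R →
      ∀ u v : H, ⟪P u, x (Q v)⟫_ℂ = ⟪u, R (x v)⟫_ℂ := by
    intro P Q R hP hQ hPQ u v
    have h1 : x (Q v) = Q (x v) := by
      have := congrArg (fun F : H →L[ℂ] H => F v) (commutant_comm M hx hQ)
      exact this.symm
    rw [h1, ← adjoint_inner_right, ← star_eq_adjoint]
    have h2 : (star P) (Q (x v)) = (star P * Q) (x v) := rfl
    rw [h2, hPQ]
  rw [map_add, inner_add_left, inner_add_right, inner_add_right,
    key S S 1 hS hS hSS, key S T 0 hS hT hST, key T S 0 hT hS hTS, key T T 1 hT hT hTT]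
  simp

lemma CVec.zero : CVec M A (0 : H) := by
  intro a _ x _
  simp

lemma CVec.add {S T : H →L[ℂ] H} (hle : A ≤ M.toStarSubalgebra)
    (hS : S ∈ M.commutant) (hT : T ∈ M.commutant)
    (hSS : star S * S = 1) (hTT : star T * T = 1) (hST : star S * T = 0) {η₁ η₂ : H}
    (h₁ : CVec M A η₁) (h₂ : CVec M A η₂) : CVec M A (S η₁ + T η₂) := by
  intro a ha x hx
  have haM : a ∈ M := hle ha
  rw [amp_inner hS hT hSS hTT hST η₁ η₂ (mul_mem haM hx),
    amp_inner hS hT hSS hTT hST η₁ η₂ (mul_mem hx haM), h₁ a ha x hx, h₂ a ha x hx]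

/-- the support of an `A`-central vector lies in `A` -/
theorem CVec.vs_mem (hM : Masa M A) {η : H} (h : CVec M A η) : vs M η ∈ A := by
  set p := vs M η with hp
  have hpM : p ∈ M := R121.vs_mem M η
  have hps : star p = p := (vs_proj M η).isSelfAdjoint
  have hpp : p * p = p := (vs_proj M η).isIdempotentElem
  have hpη : p η = η := vs_self M η
  have key : ∀ a ∈ A, p * a * p = a * p := by
    intro a ha
    have haM : a ∈ M := hM.le ha
    have h0 : (1 - p) * a * p = 0 := by
      apply mul_vs_eq_zero M (mul_mem (sub_mem (one_mem _) hpM) haM)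
      rw [← norm_eq_zero, ← sq_eq_zero_iff, ← inner_self_eq_norm_sq (𝕜 := ℂ)]
      have e1 : ⟪((1 - p) * a) η, ((1 - p) * a) η⟫_ℂ = ⟪η, (star a * ((1 - p) * a)) η⟫_ℂ := by
        have h3 : star ((1 - p) * a) * ((1 - p) * a) = star a * ((1 - p) * a) := by
          rw [star_mul, star_sub, star_one, hps]
          have : (1 - p) * (1 - p) = 1 - p := by
            rw [sub_mul, one_mul, mul_sub, mul_one, hpp, sub_self, sub_zero]
          calc star a * (1 - p) * ((1 - p) * a) = star a * (((1 - p) * (1 - p)) * a) := by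
                simp only [mul_assoc]
            _ = _ := by rw [this]
        rw [← h3, star_eq_adjoint]
        exact (adjoint_inner_right _ _ _).symm
      rw [e1, h (star a) (star_mem ha) _ (mul_mem (sub_mem (one_mem _) hpM) haM)]
      have e2 : (((1 - p) * a) * star a) η = ((1 - p) * (a * star a)) η := by rw [mul_assoc]
      have e3 : ⟪η, (((1 - p) * a) * star a) η⟫_ℂ = 0 := by
        rw [e2]
        have e4 : ⟪η, ((1 - p) * (a * star a)) η⟫_ℂ = ⟪(1 - p) η, (a * star a) η⟫_ℂ := by
          have : star (1 - p) = 1 - p := by rw [star_sub, star_one, hps]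
          change ⟪η, (1 - p) ((a * star a) η)⟫_ℂ = _
          rw [← this, star_eq_adjoint, adjoint_inner_right, ← star_eq_adjoint, this]
        rw [e4]
        have : (1 - p) η = 0 := by
          change η - p η = 0
          rw [hpη, sub_self]
        rw [this, inner_zero_left]
      rw [e3]
      simp
    rw [sub_mul, one_mul, sub_mul, sub_eq_zero] at h0
    exact h0.symm
  apply hM.max p hpM
  intro a ha
  have h1 := key a ha
  have h2 := congrArg star (key (star a) (star_mem ha))
  rw [star_mul, star_mul, star_mul, star_star, hps] at h2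
  rw [← h1, mul_assoc]
  exact h2

/-- for `A`-central vectors, support of the sum dominates the supports -/
lemma vs_le_left {S T : H →L[ℂ] H}
    (hS : S ∈ M.commutant) (hSS : star S * S = 1) (hST : star S * T = 0) (η₁ η₂ : H) :
    vs M (S η₁ + T η₂) * vs M η₁ = vs M η₁ := by
  have h0 : (1 - vs M (S η₁ + T η₂)) * vs M η₁ = 0 := by
    apply mul_vs_eq_zero M (sub_mem (one_mem _) (R121.vs_mem M _))
    have h1 : (star S) (S η₁ + T η₂) = η₁ := by
      have e1 : (star S) (S η₁) = (star S * S) η₁ := rfl
      have e2 : (star S) (T η₂) = (star S * T) η₂ := rfl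
      rw [map_add, e1, e2, hSS, hST]
      simp
    have h2 : (1 - vs M (S η₁ + T η₂)) η₁ = 0 := by
      have h3 := congrArg (fun F : H →L[ℂ] H => F (S η₁ + T η₂))
        (commutant_comm M (sub_mem (one_mem _) (R121.vs_mem M (S η₁ + T η₂)))
          (star_mem hS))
      change (star S) ((1 - vs M (S η₁ + T η₂)) (S η₁ + T η₂)) =
        (1 - vs M (S η₁ + T η₂)) ((star S) (S η₁ + T η₂)) at h3
      rw [h1] at h3
      rw [← h3]
      have : (1 - vs M (S η₁ + T η₂)) (S η₁ + T η₂) = 0 := by
        change (S η₁ + T η₂) - vs M (S η₁ + T η₂) (S η₁ + T η₂) = 0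
        rw [vs_self, sub_self]
      rw [this, map_zero]
    exact h2
  rw [sub_mul, one_mul, sub_eq_zero] at h0
  exact h0.symm

lemma vs_le_right {S T : H →L[ℂ] H}
    (hT : T ∈ M.commutant) (hTT : star T * T = 1) (hST : star S * T = 0) (η₁ η₂ : H) :
    vs M (S η₁ + T η₂) * vs M η₂ = vs M η₂ := by
  have hTS : star T * S = 0 := by
    have := congrArg star hST
    rwa [star_mul, star_star, star_zero] at this
  have := vs_le_left (M := M) hT hTT hTS η₂ η₁
  rwa [add_comm] at this

/-- directedness -/
theorem CVec.directed (hM : Masa M A) (hA : Amp M) {η₁ η₂ : H} (h₁ : CVec M A η₁)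
    (h₂ : CVec M A η₂) :
    ∃ η, CVec M A η ∧ vs M η * vs M η₁ = vs M η₁ ∧ vs M η * vs M η₂ = vs M η₂ := by
  obtain ⟨S, T, hS, hT, hSS, hTT, hST⟩ := hA
  exact ⟨S η₁ + T η₂, CVec.add hM.le hS hT hSS hTT hST h₁ h₂,
    vs_le_left hS hSS hST η₁ η₂, vs_le_right hT hTT hST η₁ η₂⟩

end Amp

section Zed

variable {M : VonNeumannAlgebra H} {A : StarSubalgebra ℂ (H →L[ℂ] H)}

/-- union of the ranges of the supports of the `A`-central vectors -/
def zsub (hM : Masa M A) (hA : Amp M) : Submodule ℂ H where
  carrier := {w | ∃ η, CVec M A η ∧ vs M η w = w}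
  add_mem' := by
    rintro w w' ⟨η₁, h₁, e₁⟩ ⟨η₂, h₂, e₂⟩
    obtain ⟨η, h, l₁, l₂⟩ := CVec.directed hM hA h₁ h₂
    refine ⟨η, h, ?_⟩
    have f1 : vs M η w = w := by
      rw [← e₁]
      exact congrArg (fun F : H →L[ℂ] H => F w) l₁
    have f2 : vs M η w' = w' := by
      rw [← e₂]
      exact congrArg (fun F : H →L[ℂ] H => F w') l₂
    rw [map_add, f1, f2]
  zero_mem' := ⟨0, CVec.zero, map_zero _⟩
  smul_mem' := by
    rintro c w ⟨η, h, e⟩
    exact ⟨η, h, by rw [map_smul, e]⟩

variable (hM : Masa M A) (hA : Amp M)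

include hM hA in
/-- the projection carrying the normal conditional expectation, and approximation of it by the
support of one `A`-central vector -/
theorem exists_zed : ∃ z ∈ A, IsStarProjection z ∧ NoC M A (1 - z) ∧
    (∀ η, CVec M A η → z * vs M η = vs M η) ∧
    ∀ ξ : H, ∀ δ : ℝ, 0 < δ → ∃ η, CVec M A η ∧ ‖(z - vs M η) ξ‖ < δ := by
  set Z := cproj (zsub hM hA) with hZ
  have hZp : IsStarProjection Z := cproj_proj _
  have hZM : Z ∈ M := by
    apply cproj_mem M
    rintro T hT w ⟨η, h, e⟩
    refine ⟨η, h, ?_⟩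
    have h1 := congrArg (fun F : H →L[ℂ] H => F w) (commutant_comm M (R121.vs_mem M η) hT)
    change T (vs M η w) = vs M η (T w) at h1
    rw [← h1, e]
  have hAinv : ∀ a ∈ A, ∀ w ∈ zsub hM hA, a w ∈ zsub hM hA := by
    rintro a ha w ⟨η, h, e⟩
    refine ⟨η, h, ?_⟩
    have h1 := congrArg (fun F : H →L[ℂ] H => F w) (hM.comm a ha _ (h.vs_mem hM))
    change a (vs M η w) = vs M η (a w) at h1
    rw [← h1, e]
  have hZA : Z ∈ A := by
    apply hM.max Z hZM
    intro a ha
    exact cproj_comm (hAinv a ha) (hAinv (star a) (star_mem ha))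
  have hle : ∀ η, CVec M A η → Z * vs M η = vs M η := by
    intro η h
    ext t
    change Z (vs M η t) = vs M η t
    apply cproj_of_mem
    refine ⟨η, h, ?_⟩
    have := (vs_proj M η).isIdempotentElem
    exact congrArg (fun F : H →L[ℂ] H => F t) this
  refine ⟨Z, hZA, hZp, ?_, hle, ?_⟩
  · intro η h
    change η - Z η = 0
    have h1 := congrArg (fun F : H →L[ℂ] H => F η) (hle η h)
    change Z (vs M η η) = vs M η η at h1
    rw [vs_self] at h1
    rw [h1, sub_self]
  · intro ξ δ hδ
    have hcl : Z ξ ∈ closure (zsub hM hA : Set H) := cproj_apply_mem ξ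
    rw [Metric.mem_closure_iff] at hcl
    obtain ⟨w, ⟨η, h, e⟩, hw⟩ := hcl δ hδ
    refine ⟨η, h, ?_⟩
    set p := vs M η with hp
    have hpp : IsStarProjection p := vs_proj M η
    have hZs : star Z = Z := hZp.isSelfAdjoint
    have hps : star p = p := hpp.isSelfAdjoint
    have hpZ : p * Z = p := by
      have := congrArg star (hle η h)
      rwa [star_mul, hZs, ← hp, hps] at this
    have e1 : (Z - p) ξ = (1 - p) (Z ξ - w) := by
      have f1 : (1 - p) w = 0 := by
        change w - p w = 0
        rw [e, sub_self]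
      have f2 : p (Z ξ) = p ξ := congrArg (fun F : H →L[ℂ] H => F ξ) hpZ
      rw [map_sub, f1, sub_zero]
      change Z ξ - p ξ = Z ξ - p (Z ξ)
      rw [f2]
    rw [e1]
    refine lt_of_le_of_lt ?_ (by rwa [dist_eq_norm] at hw)
    have h1p : IsStarProjection (1 - p) := hpp.one_sub
    calc ‖(1 - p) (Z ξ - w)‖ ≤ ‖(1 - p : H →L[ℂ] H)‖ * ‖Z ξ - w‖ := le_opNorm _ _
      _ ≤ 1 * ‖Z ξ - w‖ := by
          gcongr
          exact h1p.norm_le
      _ = _ := one_mul _

end Zed

end Crest.Agent.R109
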