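import Mathlib.Analysis.CStarAlgebra.ContinuousFunctionalCalculus.Order
import Mathlib.Analysis.CStarAlgebra.ContinuousFunctionalCalculus.Commute
import Crest.Agent.R109.GN
import Crest.Agent.R109.Supp

/-!
# Row 109: the normaliser part `x₁ = E_N(x)` of a self-adjoint element, elementary construction
(part 1: algebra of finite range elements, orthogonalisation)
-/

set_option autoImplicit false
set_option linter.unusedSectionVars false
set_option linter.style.haveILetI false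
set_option linter.unusedVariables false

namespace Crest.Agent.R109

open scoped InnerProductSpace
open ContinuousLinearMap Crest.Agent.R121 Crest.Agent.R124

universe u

variable {H : Type u} [NormedAddCommGroup H] [InnerProductSpace ℂ H] [CompleteSpace H]

/-- normalising partial isometries with bounded right multiplications -/
def ENG (M : VonNeumannAlgebra H) (A : StarSubalgebra ℂ (H →L[ℂ] H)) (η : H)
    (u : H →L[ℂ] H) : Prop :=
  GN M A u ∧ ∃ C : ℝ, 0 ≤ C ∧ (∀ y ∈ M, ‖(y * u) η‖ ≤ C * ‖y η‖) ∧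
    (∀ y ∈ M, ‖(y * star u) η‖ ≤ C * ‖y η‖)

/-- left `A`-span of a set of operators -/
def ENspan (A : StarSubalgebra ℂ (H →L[ℂ] H)) (S : Set (H →L[ℂ] H)) : Submodule ℂ (H →L[ℂ] H) :=
  Submodule.span ℂ {x | ∃ a ∈ A, ∃ u ∈ S, x = a * u}

/-- finite range elements -/
def ENalg0 (M : VonNeumannAlgebra H) (A : StarSubalgebra ℂ (H →L[ℂ] H)) (η : H) :
    Submodule ℂ (H →L[ℂ] H) := ENspan A {u | ENG M A η u}

lemma en_inner_star_mul (y w : H →L[ℂ] H) (η : H) : ⟪η, (star y * w) η⟫_ℂ = ⟪y η, w η⟫_ℂ := by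
  change ⟪η, (star y) (w η)⟫_ℂ = _
  rw [star_eq_adjoint, adjoint_inner_right]

lemma en_norm_sq_eq_inner (y : H →L[ℂ] H) (η : H) :
    ‖y η‖ ^ 2 = (⟪η, (star y * y) η⟫_ℂ).re := by
  rw [en_inner_star_mul]
  exact (inner_self_eq_norm_sq (𝕜 := ℂ) _).symm

section
variable {M : VonNeumannAlgebra H} {A : StarSubalgebra ℂ (H →L[ℂ] H)} {η : H}

lemma en_cfc_mem (hM : Masa M A) {a : H →L[ℂ] H} (ha : a ∈ A) (f : ℝ → ℝ) :
    cfc f a ∈ A := by
  by_cases hsa : IsSelfAdjoint a
  · apply hM.max _ (R124.cfc_mem M (hM.le ha) f)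
    intro b hb
    have h1 : Commute a b := hM.comm a ha b hb
    exact ((h1.cfc_real f).eq).symm
  · rw [cfc_apply_of_not_predicate a hsa]
    exact zero_mem _

/-- right multiplication by elements of `A` -/
theorem NCE.en_right_le (h : NCE M A η) {a : H →L[ℂ] H} (ha : a ∈ A) {y : H →L[ℂ] H} (hy : y ∈ M) :
    ‖(y * a) η‖ ≤ ‖a‖ * ‖y η‖ := by
  set b : H →L[ℂ] H := algebraMap ℝ (H →L[ℂ] H) (‖a‖ ^ 2) - a * star a with hb
  have hb0 : 0 ≤ b := sub_nonneg.2 CStarAlgebra.mul_star_le_algebraMap_norm_sq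
  have hbA : b ∈ A := by
    refine sub_mem ?_ (mul_mem ha (star_mem ha))
    have : algebraMap ℝ (H →L[ℂ] H) (‖a‖ ^ 2) = algebraMap ℂ (H →L[ℂ] H) ((‖a‖ ^ 2 : ℝ) : ℂ) := rfl
    rw [this]
    exact A.algebraMap_mem _
  set s : H →L[ℂ] H := cfc Real.sqrt b with hs
  have hbsa : IsSelfAdjoint b := hb0.isSelfAdjoint
  have hsA : s ∈ A := en_cfc_mem h.masa hbA _
  have hss : star s = s := (cfc_predicate Real.sqrt b : IsSelfAdjoint s)
  have hs2 : s * s = b := by
    rw [hs, ← cfc_mul Real.sqrt Real.sqrt b (by fun_prop) (by fun_prop)]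
    conv_rhs => rw [← cfc_id' ℝ b]
    apply cfc_congr
    intro t ht
    exact Real.mul_self_sqrt (spectrum_nonneg_of_nonneg hb0 ht)
  have haM : a ∈ M := h.masa.le ha
  have hsM : s ∈ M := h.masa.le hsA
  have hzM : star y * y ∈ M := mul_mem (star_mem hy) hy
  have e1 : ⟪η, (star (y * a) * (y * a)) η⟫_ℂ = ⟪η, ((star y * y) * (a * star a)) η⟫_ℂ := by
    have h1 := h.cvec (star a) (star_mem ha) ((star y * y) * a) (mul_mem hzM haM)
    have h2 : star (y * a) * (y * a) = star a * ((star y * y) * a) := by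
      rw [star_mul]; simp only [mul_assoc]
    rw [h2, h1]
    simp only [mul_assoc]
  have e2 : ⟪η, ((star y * y) * b) η⟫_ℂ = ⟪η, (star (y * s) * (y * s)) η⟫_ℂ := by
    have h1 := h.cvec s hsA ((star y * y) * s) (mul_mem hzM hsM)
    have h2 : star (y * s) * (y * s) = s * ((star y * y) * s) := by
      rw [star_mul, hss]; simp only [mul_assoc]
    rw [h2, h1, ← hs2]
    simp only [mul_assoc]
  have e3 : (⟪η, ((star y * y) * b) η⟫_ℂ).re
      = ‖a‖ ^ 2 * ‖y η‖ ^ 2 - ‖(y * a) η‖ ^ 2 := by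
    have h1 : (star y * y) * b = ((‖a‖ ^ 2 : ℝ) : ℂ) • (star y * y)
        - (star y * y) * (a * star a) := by
      rw [hb, mul_sub]
      congr 1
      have : algebraMap ℝ (H →L[ℂ] H) (‖a‖ ^ 2) = ((‖a‖ ^ 2 : ℝ) : ℂ) • (1 : H →L[ℂ] H) := by
        rw [Algebra.algebraMap_eq_smul_one]; rfl
      rw [this, mul_smul_comm, mul_one]
    rw [h1, sub_apply, inner_sub_right, Complex.sub_re, ← e1, ← en_norm_sq_eq_inner,
      smul_apply, inner_smul_right, Complex.re_ofReal_mul, ← en_norm_sq_eq_inner]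
  rw [e2, ← en_norm_sq_eq_inner] at e3
  have h5 : ‖(y * a) η‖ ^ 2 ≤ (‖a‖ * ‖y η‖) ^ 2 := by
    rw [mul_pow]; nlinarith [sq_nonneg ‖(y * s) η‖]
  exact (sq_le_sq₀ (norm_nonneg _) (by positivity)).1 h5


/-! ### bounded normalisers -/

lemma en_gn_part' {u : H →L[ℂ] H} (hu : GN M A u) : star u * u * star u = star u := by
  have := congrArg star hu.part
  simpa [mul_assoc] using this

lemma en_gn_comm_src (hM : Masa M A) {u a : H →L[ℂ] H} (hu : GN M A u) (ha : a ∈ A) :
    u * a = (u * a * star u) * u := by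
  have h1 : a * (star u * u) = (star u * u) * a := hM.comm a ha _ hu.src
  calc u * a = (u * star u * u) * a := by rw [hu.part]
    _ = u * ((star u * u) * a) := by simp only [mul_assoc]
    _ = u * (a * (star u * u)) := by rw [h1]
    _ = (u * a * star u) * u := by simp only [mul_assoc]

lemma en_gn_of_proj (hM : Masa M A) {e : H →L[ℂ] H} (he : e ∈ A) (hp : IsStarProjection e) :
    GN M A e := by
  have h1 : star e = e := hp.isSelfAdjoint
  have h2 : e * e = e := hp.isIdempotentElem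
  refine ⟨hM.le he, by rw [h1, h2, h2], by rw [h1, h2]; exact he, by rw [h1, h2]; exact he,
    fun a ha => by rw [h1]; exact mul_mem (mul_mem he ha) he,
    fun a ha => by rw [h1]; exact mul_mem (mul_mem he ha) he⟩

lemma en_gnb_gn {u : H →L[ℂ] H} (hu : ENG M A η u) : GN M A u := hu.1

lemma en_gnb_star {u : H →L[ℂ] H} (hu : ENG M A η u) : ENG M A η (star u) := by
  obtain ⟨h1, C, hC, h2, h3⟩ := hu
  exact ⟨h1.star, C, hC, h3, by rwa [star_star]⟩

lemma en_gnb_mul (hM : Masa M A) {u v : H →L[ℂ] H} (hu : ENG M A η u) (hv : ENG M A η v) : ENG M A η (u * v) := by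
  obtain ⟨h1, C, hC, h2, h3⟩ := hu
  obtain ⟨g1, D, hD, g2, g3⟩ := hv
  refine ⟨h1.mul hM g1, C * D, by positivity, fun y hy => ?_, fun y hy => ?_⟩
  · calc ‖(y * (u * v)) η‖ = ‖((y * u) * v) η‖ := by rw [mul_assoc]
      _ ≤ D * ‖(y * u) η‖ := g2 _ (mul_mem hy h1.mem)
      _ ≤ D * (C * ‖y η‖) := mul_le_mul_of_nonneg_left (h2 y hy) hD
      _ = C * D * ‖y η‖ := by ring
  · calc ‖(y * star (u * v)) η‖ = ‖((y * star v) * star u) η‖ := by
          rw [star_mul, mul_assoc]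
      _ ≤ C * ‖(y * star v) η‖ := h3 _ (mul_mem hy (star_mem g1.mem))
      _ ≤ C * (D * ‖y η‖) := mul_le_mul_of_nonneg_left (g3 y hy) hC
      _ = C * D * ‖y η‖ := by ring

lemma NCE.en_gnb_proj (h : NCE M A η) {e : H →L[ℂ] H} (he : e ∈ A) (hp : IsStarProjection e) :
    ENG M A η e := by
  refine ⟨en_gn_of_proj h.masa he hp, ‖e‖, norm_nonneg _, fun y hy => h.en_right_le he hy,
    fun y hy => ?_⟩
  rw [hp.isSelfAdjoint.star_eq]
  exact h.en_right_le he hy

/-! ### `A`-spans -/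

lemma ENspan_mul_mem {S : Set (H →L[ℂ] H)} {a : H →L[ℂ] H} (ha : a ∈ A) {m : H →L[ℂ] H}
    (hm : m ∈ ENspan A S) : a * m ∈ ENspan A S := by
  unfold ENspan at hm ⊢
  induction hm using Submodule.span_induction with
  | mem x hx =>
    obtain ⟨b, hb, u, hu, rfl⟩ := hx
    exact Submodule.subset_span ⟨a * b, mul_mem ha hb, u, hu, by rw [mul_assoc]⟩
  | zero => rw [mul_zero]; exact zero_mem _
  | add x y _ _ hx hy => rw [mul_add]; exact add_mem hx hy
  | smul c x _ hx => rw [mul_smul_comm]; exact Submodule.smul_mem _ _ hx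

lemma ENspan_le {S T : Set (H →L[ℂ] H)} (hST : ∀ u ∈ S, u ∈ ENspan A T) : ENspan A S ≤ ENspan A T := by
  unfold ENspan
  rw [Submodule.span_le]
  rintro _ ⟨a, ha, u, hu, rfl⟩
  exact ENspan_mul_mem ha (hST u hu)

lemma ENspan_of_mem {S : Set (H →L[ℂ] H)} {u : H →L[ℂ] H} (hu : u ∈ S) : u ∈ ENspan A S :=
  Submodule.subset_span ⟨1, one_mem _, u, hu, by rw [one_mul]⟩

lemma ENspan_mul_mem' {S : Set (H →L[ℂ] H)} {a : H →L[ℂ] H} (ha : a ∈ A) {u : H →L[ℂ] H}
    (hu : u ∈ S) : a * u ∈ ENspan A S :=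
  Submodule.subset_span ⟨a, ha, u, hu, rfl⟩

/-- elements of a span are in a finite sub-span -/
lemma ENspan_finite {S : Set (H →L[ℂ] H)} {m : H →L[ℂ] H} (hm : m ∈ ENspan A S) :
    ∃ F : Finset (H →L[ℂ] H), (↑F : Set (H →L[ℂ] H)) ⊆ S ∧ m ∈ ENspan A (↑F : Set (H →L[ℂ] H)) := by
  classical
  unfold ENspan at hm
  induction hm using Submodule.span_induction with
  | mem x hx =>
    obtain ⟨b, hb, u, hu, rfl⟩ := hx
    exact ⟨{u}, by simpa using hu, ENspan_mul_mem' hb (by simp)⟩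
  | zero => exact ⟨∅, by simp, zero_mem _⟩
  | add x y _ _ hx hy =>
    obtain ⟨F, hF, h1⟩ := hx
    obtain ⟨G, hG, h2⟩ := hy
    refine ⟨F ∪ G, by rw [Finset.coe_union]; exact Set.union_subset hF hG, add_mem ?_ ?_⟩
    · exact ENspan_le (fun u hu => ENspan_of_mem (by simp at hu ⊢; exact Or.inl hu)) h1
    · exact ENspan_le (fun u hu => ENspan_of_mem (by simp at hu ⊢; exact Or.inr hu)) h2
  | smul c x _ hx =>
    obtain ⟨F, hF, h1⟩ := hx
    exact ⟨F, hF, Submodule.smul_mem _ _ h1⟩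

lemma ENspan_star (hM : Masa M A) {S T : Set (H →L[ℂ] H)} (hS : ∀ u ∈ S, GN M A u ∧ star u ∈ ENspan A T)
    {m : H →L[ℂ] H} (hm : m ∈ ENspan A S) : star m ∈ ENspan A T := by
  unfold ENspan at hm
  induction hm using Submodule.span_induction with
  | mem x hx =>
    obtain ⟨b, hb, u, hu, rfl⟩ := hx
    obtain ⟨h1, h2⟩ := hS u hu
    have h3 := en_gn_comm_src hM (h1.star) (star_mem hb)
    rw [star_mul, h3]
    refine ENspan_mul_mem ?_ h2
    rw [star_star]
    exact h1.conj' _ (star_mem hb)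
  | zero => rw [star_zero]; exact zero_mem _
  | add x y _ _ hx hy => rw [star_add]; exact add_mem hx hy
  | smul c x _ hx => rw [star_smul]; exact Submodule.smul_mem _ _ hx

lemma ENalg0_star (hM : Masa M A) {m : H →L[ℂ] H} (hm : m ∈ ENalg0 M A η) : star m ∈ ENalg0 M A η :=
  ENspan_star hM (fun _ hu => ⟨hu.1, ENspan_of_mem (en_gnb_star hu)⟩) hm

lemma ENalg0_mul (hM : Masa M A) {m n : H →L[ℂ] H} (hm : m ∈ ENalg0 M A η) (hn : n ∈ ENalg0 M A η) :
    m * n ∈ ENalg0 M A η := by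
  unfold ENalg0 ENspan at hm
  induction hm using Submodule.span_induction with
  | mem x hx =>
    obtain ⟨a, ha, u, hu, rfl⟩ := hx
    unfold ENalg0 ENspan at hn
    induction hn using Submodule.span_induction with
    | mem y hy =>
      obtain ⟨b, hb, v, hv, rfl⟩ := hy
      have h1 : (a * u) * (b * v) = (a * (u * b * star u)) * (u * v) := by
        calc (a * u) * (b * v) = a * (u * b) * v := by simp only [mul_assoc]
          _ = a * ((u * b * star u) * u) * v := by rw [← en_gn_comm_src hM hu.1 hb]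
          _ = _ := by simp only [mul_assoc]
      rw [h1]
      exact ENspan_mul_mem' (mul_mem ha (hu.1.conj b hb)) (en_gnb_mul hM hu hv)
    | zero => rw [mul_zero]; exact zero_mem _
    | add x y _ _ hx hy => rw [mul_add]; exact add_mem hx hy
    | smul c x _ hx => rw [mul_smul_comm]; exact Submodule.smul_mem _ _ hx
  | zero => rw [zero_mul]; exact zero_mem _
  | add x y _ _ hx hy => rw [add_mul]; exact add_mem hx hy
  | smul c x _ hx => rw [smul_mul_assoc]; exact Submodule.smul_mem _ _ hx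

lemma NCE.en_A_le_alg (h : NCE M A η) {a : H →L[ℂ] H} (ha : a ∈ A) : a ∈ ENalg0 M A η := by
  have h1 : ENG M A η (1 : H →L[ℂ] H) := h.en_gnb_proj (one_mem _) (IsStarProjection.one _)
  have := ENspan_mul_mem' (S := {u | ENG M A η u}) ha h1
  rwa [mul_one] at this

lemma ENalg0_le (hM : Masa M A) {m : H →L[ℂ] H} (hm : m ∈ ENalg0 M A η) : m ∈ M := by
  unfold ENalg0 ENspan at hm
  induction hm using Submodule.span_induction with
  | mem x hx =>
    obtain ⟨a, ha, u, hu, rfl⟩ := hx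
    exact mul_mem (hM.le ha) hu.1.mem
  | zero => exact zero_mem _
  | add x y _ _ hx hy => exact add_mem hx hy
  | smul c x _ hx => exact M.toStarSubalgebra.smul_mem hx c

/-- right multiplication by finite range elements is bounded -/
lemma NCE.en_right_alg (h : NCE M A η) {m : H →L[ℂ] H} (hm : m ∈ ENalg0 M A η) :
    ∃ C : ℝ, 0 ≤ C ∧ ∀ y ∈ M, ‖(y * m) η‖ ≤ C * ‖y η‖ := by
  unfold ENalg0 ENspan at hm
  induction hm using Submodule.span_induction with
  | mem x hx =>
    obtain ⟨a, ha, u, ⟨hu, C, hC, h1, h2⟩, rfl⟩ := hx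
    refine ⟨C * ‖a‖, by positivity, fun y hy => ?_⟩
    calc ‖(y * (a * u)) η‖ = ‖((y * a) * u) η‖ := by rw [mul_assoc]
      _ ≤ C * ‖(y * a) η‖ := h1 _ (mul_mem hy (h.masa.le ha))
      _ ≤ C * (‖a‖ * ‖y η‖) := mul_le_mul_of_nonneg_left (h.en_right_le ha hy) hC
      _ = C * ‖a‖ * ‖y η‖ := by ring
  | zero => exact ⟨0, le_rfl, fun y _ => by simp⟩
  | add x y _ _ hx hy =>
    obtain ⟨C, hC, h1⟩ := hx
    obtain ⟨D, hD, h2⟩ := hy
    refine ⟨C + D, by positivity, fun z hz => ?_⟩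
    rw [mul_add, add_mul]
    exact (norm_add_le _ _).trans (add_le_add (h1 z hz) (h2 z hz))
  | smul c x _ hx =>
    obtain ⟨C, hC, h1⟩ := hx
    refine ⟨‖c‖ * C, by positivity, fun z hz => ?_⟩
    rw [mul_smul_comm, smul_apply, norm_smul, mul_assoc]
    exact mul_le_mul_of_nonneg_left (h1 z hz) (norm_nonneg _)

end

end Crest.Agent.R109
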