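import Crest.Agent.R109.EN1

/-!
# Row 109: the normaliser part `x₁ = E_N(x)` of a self-adjoint element, elementary construction
(part 2: orthogonalisation, finite range approximation of `P x η`)
-/

set_option autoImplicit false
set_option linter.unusedSectionVars false
set_option linter.style.haveILetI false
set_option linter.unusedVariables false

namespace Crest.Agent.R109

open scoped InnerProductSpace
open ContinuousLinearMap Crest.Agent.R121 Crest.Agent.R124

universe u

variable {H : Type u} [NormedAddCommGroup H] [InnerProductSpace ℂ H] [CompleteSpace H]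

section
variable {M : VonNeumannAlgebra H} {A : StarSubalgebra ℂ (H →L[ℂ] H)} {η : H}

/-- the `A`-component along `v` -/
noncomputable def ENQ (A : StarSubalgebra ℂ (H →L[ℂ] H)) (η : H) (v y : H →L[ℂ] H) : H →L[ℂ] H :=
  CE A η (y * star v) * v

lemma NCE.en_ENQ_mem (h : NCE M A η) {v y : H →L[ℂ] H} (hv : GN M A v) (hy : y ∈ M) :
    ENQ A η v y ∈ M :=
  mul_mem (h.masa.le (h.CE_mem (mul_mem hy (star_mem hv.mem)))) hv.mem

lemma NCE.en_ENQ_span (h : NCE M A η) {S : Set (H →L[ℂ] H)} {v y : H →L[ℂ] H} (hv : GN M A v)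
    (hS : v ∈ S) (hy : y ∈ M) : ENQ A η v y ∈ ENspan A S :=
  ENspan_mul_mem' (h.CE_mem (mul_mem hy (star_mem hv.mem))) hS

lemma NCE.en_ENQ_sub (h : NCE M A η) {v y z : H →L[ℂ] H} (hv : GN M A v) (hy : y ∈ M) (hz : z ∈ M) :
    ENQ A η v (y - z) = ENQ A η v y - ENQ A η v z := by
  have hv' : star v ∈ M := star_mem hv.mem
  unfold ENQ
  rw [sub_mul, h.CE_sub (mul_mem hy hv') (mul_mem hz hv'), sub_mul]

/-- `φ(X v) ` helper: `⟪η, (X * (star v * v)) η⟫ = ⟪η, (star v * (v * X) ) η⟫` -/
lemma NCE.en_move (h : NCE M A η) {v X : H →L[ℂ] H} (hv : GN M A v) (hX : X ∈ M) :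
    ⟪η, (X * (star v * v)) η⟫_ℂ = ⟪η, (star v * (v * X)) η⟫_ℂ := by
  rw [← h.cvec _ hv.src X hX, mul_assoc]

/-- symmetry of the component map -/
theorem NCE.en_ENQ_symm (h : NCE M A η) {v y z : H →L[ℂ] H} (hv : GN M A v) (hy : y ∈ M)
    (hz : z ∈ M) : ⟪(ENQ A η v z) η, y η⟫_ℂ = ⟪z η, (ENQ A η v y) η⟫_ℂ := by
  have hvM : v ∈ M := hv.mem
  have hv' : star v ∈ M := star_mem hv.mem
  set b := CE A η (y * star v) with hb
  set c := CE A η (v * star z) with hc
  have hbA : b ∈ A := h.CE_mem (mul_mem hy hv')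
  have hbM : b ∈ M := h.masa.le hbA
  have hcA : c ∈ A := h.CE_mem (mul_mem hvM (star_mem hz))
  have hcM : c ∈ M := h.masa.le hcA
  have hcs : CE A η (z * star v) = star c := by
    rw [hc, ← h.CE_star (mul_mem hvM (star_mem hz)), star_mul, star_star]
  -- right side
  have r1 : ⟪z η, (ENQ A η v y) η⟫_ℂ = ⟪η, (star v * (c * b) * v) η⟫_ℂ := by
    rw [← en_inner_star_mul]
    change ⟪η, (star z * (b * v)) η⟫_ℂ = _
    have e1 : star z * (b * v) = (star z * (b * v)) * (star v * v) := by
      have := hv.part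
      calc star z * (b * v) = star z * (b * (v * star v * v)) := by rw [this]
        _ = _ := by simp only [mul_assoc]
    rw [e1, h.en_move hv (mul_mem (star_mem hz) (mul_mem hbM hvM))]
    have e2 : star v * (v * (star z * (b * v))) = star v * (v * star z * b) * v := by
      simp only [mul_assoc]
    have hm : v * star z * b ∈ M := mul_mem (mul_mem hvM (star_mem hz)) hbM
    rw [e2, ← h.inner_CE' (mul_mem (mul_mem hv' hm) hvM), h.CE_conj' hv hm,
      h.CE_mul_right hbA (mul_mem hvM (star_mem hz))]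
  have l1 : ⟪(ENQ A η v z) η, y η⟫_ℂ = ⟪η, (star v * (c * b) * v) η⟫_ℂ := by
    rw [← en_inner_star_mul]
    have e0 : star (ENQ A η v z) = star v * c := by
      unfold ENQ
      rw [hcs, star_mul, star_star]
    rw [e0]
    have e1 : star v * c * y = (star v * v) * (star v * c * y) := by
      have := en_gn_part' hv
      calc star v * c * y = (star v * v * star v) * c * y := by rw [this]
        _ = _ := by simp only [mul_assoc]
    have hXM : star v * c * y ∈ M := mul_mem (mul_mem hv' hcM) hy
    rw [e1, h.cvec _ hv.src _ hXM]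
    have e2 : star v * c * y * (star v * v) = star v * (c * (y * star v)) * v := by
      simp only [mul_assoc]
    have hm : c * (y * star v) ∈ M := mul_mem hcM (mul_mem hy hv')
    rw [e2, ← h.inner_CE' (mul_mem (mul_mem hv' hm) hvM), h.CE_conj' hv hm,
      h.CE_mul_left hcA (mul_mem hy hv')]
  rw [l1, r1]

lemma NCE.en_CE_right_proj (h : NCE M A η) {v y : H →L[ℂ] H} (hv : GN M A v) (hy : y ∈ M) :
    CE A η (y * star v) * (v * star v) = CE A η (y * star v) := by
  rw [← h.CE_mul_right hv.rng (mul_mem hy (star_mem hv.mem))]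
  congr 1
  have := en_gn_part' hv
  calc y * star v * (v * star v) = y * (star v * v * star v) := by simp only [mul_assoc]
    _ = _ := by rw [this]

lemma NCE.en_ENQ_self (h : NCE M A η) {v a : H →L[ℂ] H} (hv : GN M A v) (ha : a ∈ A) :
    ENQ A η v (a * v) = a * v := by
  unfold ENQ
  rw [mul_assoc, h.CE_mul_left ha (mul_mem hv.mem (star_mem hv.mem)), h.CE_of_mem hv.rng,
    mul_assoc, hv.part]

lemma NCE.en_ENQ_idem (h : NCE M A η) {v y : H →L[ℂ] H} (hv : GN M A v) (hy : y ∈ M) :
    ENQ A η v (ENQ A η v y) = ENQ A η v y :=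
  h.en_ENQ_self hv (h.CE_mem (mul_mem hy (star_mem hv.mem)))

lemma NCE.en_ENQ_orth (h : NCE M A η) {v w a : H →L[ℂ] H} (hv : GN M A v) (hw : GN M A w) (ha : a ∈ A)
    (h0 : CE A η (v * star w) = 0) : ENQ A η w (a * v) = 0 := by
  unfold ENQ
  rw [mul_assoc, h.CE_mul_left ha (mul_mem hv.mem (star_mem hw.mem)), h0, mul_zero, zero_mul]

/-- finite orthogonal families -/
structure ENOF (M : VonNeumannAlgebra H) (A : StarSubalgebra ℂ (H →L[ℂ] H)) (η : H)
    (F : Finset (H →L[ℂ] H)) : Prop where
  gnb : ∀ v ∈ F, ENG M A η v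
  orth : ∀ v ∈ F, ∀ w ∈ F, v ≠ w → CE A η (v * star w) = 0

/-- component along a finite family -/
noncomputable def ENQF (A : StarSubalgebra ℂ (H →L[ℂ] H)) (η : H) (F : Finset (H →L[ℂ] H))
    (y : H →L[ℂ] H) : H →L[ℂ] H := ∑ v ∈ F, ENQ A η v y

lemma NCE.en_ENQF_mem (h : NCE M A η) {F : Finset (H →L[ℂ] H)} (hF : ENOF M A η F) {y : H →L[ℂ] H}
    (hy : y ∈ M) : ENQF A η F y ∈ ENspan A (↑F : Set (H →L[ℂ] H)) :=
  Submodule.sum_mem _ fun v hv => h.en_ENQ_span (hF.gnb v hv).1 (by simpa using hv) hy

lemma NCE.en_span_le_alg {F : Finset (H →L[ℂ] H)} (hF : ∀ v ∈ F, ENG M A η v) {m : H →L[ℂ] H}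
    (hm : m ∈ ENspan A (↑F : Set (H →L[ℂ] H))) : m ∈ ENalg0 M A η :=
  ENspan_le (fun u hu => ENspan_of_mem (hF u (by simpa using hu))) hm

lemma NCE.en_ENQ_add (h : NCE M A η) {v y z : H →L[ℂ] H} (hv : GN M A v) (hy : y ∈ M) (hz : z ∈ M) :
    ENQ A η v (y + z) = ENQ A η v y + ENQ A η v z := by
  have hv' : star v ∈ M := star_mem hv.mem
  unfold ENQ
  rw [add_mul, h.CE_add (mul_mem hy hv') (mul_mem hz hv'), add_mul]

lemma NCE.en_ENQ_smul (h : NCE M A η) {v y : H →L[ℂ] H} (hv : GN M A v) (hy : y ∈ M) (c : ℂ) :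
    ENQ A η v (c • y) = c • ENQ A η v y := by
  have hv' : star v ∈ M := star_mem hv.mem
  have h1 : (c • y) * star v = (algebraMap ℂ (H →L[ℂ] H) c) * (y * star v) := by
    rw [Algebra.algebraMap_eq_smul_one, smul_mul_assoc, smul_mul_assoc, one_mul]
  unfold ENQ
  rw [h1, h.CE_mul_left (A.algebraMap_mem c) (mul_mem hy hv'), Algebra.algebraMap_eq_smul_one,
    smul_mul_assoc, one_mul, smul_mul_assoc]

lemma NCE.en_ENQF_self (h : NCE M A η) {F : Finset (H →L[ℂ] H)} (hF : ENOF M A η F) {m : H →L[ℂ] H}
    (hm : m ∈ ENspan A (↑F : Set (H →L[ℂ] H))) : ENQF A η F m = m := by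
  have key : m ∈ M ∧ ENQF A η F m = m := by
    unfold ENspan at hm
    induction hm using Submodule.span_induction with
    | mem x hx =>
      obtain ⟨a, ha, v, hv, rfl⟩ := hx
      have hvF : v ∈ F := by simpa using hv
      refine ⟨mul_mem (h.masa.le ha) (hF.gnb v hvF).1.mem, ?_⟩
      unfold ENQF
      rw [Finset.sum_eq_single v]
      · exact h.en_ENQ_self (hF.gnb v hvF).1 ha
      · intro w hw hwv
        exact h.en_ENQ_orth (hF.gnb v hvF).1 (hF.gnb w hw).1 ha (hF.orth v hvF w hw (Ne.symm hwv))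
      · intro hn; exact absurd hvF hn
    | zero =>
      refine ⟨zero_mem _, ?_⟩
      unfold ENQF
      apply Finset.sum_eq_zero
      intro v hv
      have := h.en_ENQ_smul (hF.gnb v hv).1 (zero_mem M) 0
      simpa using this
    | add x y _ _ hx hy =>
      refine ⟨add_mem hx.1 hy.1, ?_⟩
      have : ENQF A η F (x + y) = ENQF A η F x + ENQF A η F y := by
        unfold ENQF
        rw [← Finset.sum_add_distrib]
        exact Finset.sum_congr rfl fun v hv => h.en_ENQ_add (hF.gnb v hv).1 hx.1 hy.1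
      rw [this, hx.2, hy.2]
    | smul c x _ hx =>
      refine ⟨M.toStarSubalgebra.smul_mem hx.1 c, ?_⟩
      have : ENQF A η F (c • x) = c • ENQF A η F x := by
        unfold ENQF
        rw [Finset.smul_sum]
        exact Finset.sum_congr rfl fun v hv => h.en_ENQ_smul (hF.gnb v hv).1 hx.1 c
      rw [this, hx.2]
  exact key.2

lemma en_sum_op_apply {ι : Type*} (s : Finset ι) (f : ι → H →L[ℂ] H) (ξ : H) :
    (∑ i ∈ s, f i) ξ = ∑ i ∈ s, f i ξ := by
  rw [_root_.sum_apply]

lemma NCE.en_ENQF_symm (h : NCE M A η) {F : Finset (H →L[ℂ] H)} (hF : ENOF M A η F) {y z : H →L[ℂ] H}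
    (hy : y ∈ M) (hz : z ∈ M) : ⟪(ENQF A η F z) η, y η⟫_ℂ = ⟪z η, (ENQF A η F y) η⟫_ℂ := by
  unfold ENQF
  rw [en_sum_op_apply, en_sum_op_apply, sum_inner, inner_sum]
  exact Finset.sum_congr rfl fun v hv => h.en_ENQ_symm (hF.gnb v hv).1 hy hz


/-- `u` agrees with an `A`-multiple of `v` on a projection `g ∈ A` -/
lemma NCE.en_agree (h : NCE M A η) {u v : H →L[ℂ] H} (hu : GN M A u) (hv : GN M A v) :
    IsStarProjection (CE A η (u * star v) * star (CE A η (u * star v))) ∧
    (CE A η (u * star v) * star (CE A η (u * star v))) * u = CE A η (u * star v) * v ∧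
    (CE A η (u * star v) * star (CE A η (u * star v))) * (u * star u)
      = CE A η (u * star v) * star (CE A η (u * star v)) ∧
    (CE A η (u * star v) * star (CE A η (u * star v))) * CE A η (u * star v)
      = CE A η (u * star v) := by
  have hw : GN M A (u * star v) := hu.mul h.masa hv.star
  set w := u * star v with hwdef
  obtain ⟨p, hpA, hp, h1, h2⟩ := h.CE_GN hw
  have hps : star p = p := hp.isSelfAdjoint
  have hpp : p * p = p := hp.isIdempotentElem
  have h2' : (star w * w) * p = p := by
    rw [h.masa.comm _ hw.src p hpA, h2]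
  have hg : (w * p) * star (w * p) = w * p * star w := by
    rw [star_mul, hps]
    calc w * p * (p * star w) = w * (p * p) * star w := by simp only [mul_assoc]
      _ = _ := by rw [hpp]
  have hstar : star (w * p * star w) = w * p * star w := by
    rw [star_mul (w * p) (star w), star_mul w p, star_star w, hps]
    exact (mul_assoc w p (star w)).symm
  have hidem : (w * p * star w) * (w * p * star w) = w * p * star w := by
    calc (w * p * star w) * (w * p * star w) = w * p * ((star w * w) * p) * star w := by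
          simp only [mul_assoc]
      _ = w * (p * p) * star w := by rw [h2']; simp only [mul_assoc]
      _ = _ := by rw [hpp]
  have hwg : (w * p * star w) * (w * p) = w * p := by
    calc (w * p * star w) * (w * p) = w * p * ((star w * w) * p) := by simp only [mul_assoc]
      _ = w * (p * p) := by rw [h2']; simp only [mul_assoc]
      _ = _ := by rw [hpp]
  have hsvw : star v * p * v ∈ A := hv.conj' p hpA
  rw [h1, hg]
  refine ⟨⟨hidem, hstar⟩, ?_, ?_, hwg⟩
  · -- g u = w p v
    have e1 : w * p * star w * u = u * ((star v * p * v) * (star u * u)) := by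
      rw [hwdef, star_mul, star_star]; simp only [mul_assoc]
    have e2 : (star v * p * v) * (star u * u) = (star u * u) * (star v * p * v) :=
      h.masa.comm _ hsvw _ hu.src
    rw [e1, e2]
    have e3 : u * ((star u * u) * (star v * p * v)) = (u * star u * u) * (star v * p * v) := by
      simp only [mul_assoc]
    rw [e3, hu.part, hwdef]
    simp only [mul_assoc]
  · have e1 : star w * (u * star u) = star w := by
      rw [hwdef, star_mul, star_star]
      calc v * star u * (u * star u) = v * (star u * u * star u) := by simp only [mul_assoc]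
        _ = _ := by rw [en_gn_part' hu]
    rw [mul_assoc, e1]

/-- Gram–Schmidt step -/
lemma NCE.en_gs_step (h : NCE M A η) {F : Finset (H →L[ℂ] H)} (hF : ENOF M A η F) {u : H →L[ℂ] H}
    (hu : ENG M A η u) : ∃ F' : Finset (H →L[ℂ] H), ENOF M A η F' ∧
      (∀ v ∈ F, v ∈ F') ∧ u ∈ ENspan A (↑F' : Set (H →L[ℂ] H)) := by
  classical
  set b : (H →L[ℂ] H) → (H →L[ℂ] H) := fun v => CE A η (u * star v) with hb
  set g : (H →L[ℂ] H) → (H →L[ℂ] H) := fun v => b v * star (b v) with hg
  have hbA : ∀ v ∈ F, b v ∈ A := fun v hv =>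
    h.CE_mem (mul_mem hu.1.mem (star_mem (hF.gnb v hv).1.mem))
  have hgA : ∀ v ∈ F, g v ∈ A := fun v hv => mul_mem (hbA v hv) (star_mem (hbA v hv))
  have hag := fun v (hv : v ∈ F) => h.en_agree hu.1 (hF.gnb v hv).1
  have horth : ∀ v ∈ F, ∀ w ∈ F, v ≠ w → g v * g w = 0 := by
    intro v hv w hw hvw
    obtain ⟨p1, q1, r1, s1⟩ := hag v hv
    obtain ⟨p2, q2, r2, s2⟩ := hag w hw
    change g v * u = b v * v at q1
    change g v * (u * star u) = g v at r1
    change g w * u = b w * w at q2
    have hgw : star (g w) = g w := p2.isSelfAdjoint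
    have e1 : g v * g w = b v * (v * star w) * star (b w) := by
      calc g v * g w = (g v * (u * star u)) * g w := by rw [r1]
        _ = (g v * u) * star (g w * u) := by rw [star_mul, hgw]; simp only [mul_assoc]
        _ = (b v * v) * star (b w * w) := by rw [q1, q2]
        _ = _ := by rw [star_mul]; simp only [mul_assoc]
    have hvw' : v * star w ∈ M := mul_mem (hF.gnb v hv).1.mem (star_mem (hF.gnb w hw).1.mem)
    have e2 : CE A η (g v * g w) = g v * g w := h.CE_of_mem (mul_mem (hgA v hv) (hgA w hw))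
    rw [← e2, e1, h.CE_mul_right (star_mem (hbA w hw)) (mul_mem (h.masa.le (hbA v hv)) hvw'),
      h.CE_mul_left (hbA v hv) hvw', hF.orth v hv w hw hvw, mul_zero, zero_mul]
  set e : H →L[ℂ] H := 1 - ∑ v ∈ F, g v with he
  have heA : e ∈ A := sub_mem (one_mem _) (sum_mem fun v hv => hgA v hv)
  have hsumsq : (∑ v ∈ F, g v) * (∑ v ∈ F, g v) = ∑ v ∈ F, g v := by
    rw [Finset.sum_mul]
    refine Finset.sum_congr rfl fun v hv => ?_
    rw [Finset.mul_sum, Finset.sum_eq_single v]
    · exact (hag v hv).1.isIdempotentElem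
    · intro w hw hwv; exact horth v hv w hw (Ne.symm hwv)
    · intro hn; exact absurd hv hn
  have hep : IsStarProjection e := by
    constructor
    · change e * e = e
      rw [he, sub_mul, one_mul, mul_sub, mul_one, hsumsq]; abel
    · change star e = e
      rw [he, star_sub, star_one, star_sum]
      congr 1
      exact Finset.sum_congr rfl fun v hv => (hag v hv).1.isSelfAdjoint
  have hu' : ENG M A η (e * u) := en_gnb_mul h.masa (h.en_gnb_proj heA hep) hu
  have hdec : u = e * u + ∑ v ∈ F, b v * v := by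
    have : ∑ v ∈ F, b v * v = (∑ v ∈ F, g v) * u := by
      rw [Finset.sum_mul]
      exact Finset.sum_congr rfl fun v hv => ((hag v hv).2.1).symm
    rw [this, he, ← add_mul]; simp
  have hzero : ∀ v ∈ F, CE A η ((e * u) * star v) = 0 := by
    intro v hv
    rw [mul_assoc, h.CE_mul_left heA (mul_mem hu.1.mem (star_mem (hF.gnb v hv).1.mem))]
    change e * b v = 0
    have s1 : g v * b v = b v := (hag v hv).2.2.2
    rw [he, sub_mul, one_mul, Finset.sum_mul, Finset.sum_eq_single v, s1, sub_self]
    · intro w hw hwv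
      rw [← s1, ← mul_assoc, horth w hw v hv hwv, zero_mul]
    · intro hn; exact absurd hv hn
  refine ⟨insert (e * u) F, ⟨?_, ?_⟩, ?_, ?_⟩
  · intro v hv
    rcases Finset.mem_insert.1 hv with rfl | hv
    · exact hu'
    · exact hF.gnb v hv
  · intro v hv w hw hvw
    rcases Finset.mem_insert.1 hv with hv | hv
    · rcases Finset.mem_insert.1 hw with hw | hw
      · exact absurd (hv.trans hw.symm) hvw
      · rw [hv]; exact hzero w hw
    · rcases Finset.mem_insert.1 hw with hw | hw
      · have h1 : v * star w = star ((e * u) * star v) := by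
          rw [star_mul (e * u) (star v), star_star, hw]
        rw [h1, h.CE_star (mul_mem hu'.1.mem (star_mem (hF.gnb v hv).1.mem)), hzero v hv,
          star_zero]
      · exact hF.orth v hv w hw hvw
  · intro v hv; exact Finset.mem_insert_of_mem hv
  · have hmem : e * u + ∑ v ∈ F, b v * v ∈
        ENspan A (↑(insert (e * u) F) : Set (H →L[ℂ] H)) := by
      refine add_mem (ENspan_of_mem (by simp)) (Submodule.sum_mem _ fun v hv => ?_)
      exact ENspan_mul_mem' (hbA v hv) (by simp [hv])
    rwa [← hdec] at hmem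

lemma NCE.en_gs (h : NCE M A η) (G : Finset (H →L[ℂ] H)) (hG : ∀ u ∈ G, ENG M A η u) :
    ∃ F : Finset (H →L[ℂ] H), ENOF M A η F ∧ ∀ u ∈ G, u ∈ ENspan A (↑F : Set (H →L[ℂ] H)) := by
  classical
  induction G using Finset.induction_on with
  | empty => exact ⟨∅, ⟨by simp, by simp⟩, by simp⟩
  | insert u G hu ih =>
    obtain ⟨F, hF, h1⟩ := ih (fun v hv => hG v (Finset.mem_insert_of_mem hv))
    obtain ⟨F', hF', h2, h3⟩ := h.en_gs_step hF (hG u (Finset.mem_insert_self _ _))
    refine ⟨F', hF', fun v hv => ?_⟩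
    rcases Finset.mem_insert.1 hv with rfl | hv
    · exact h3
    · exact ENspan_le (fun w hw => ENspan_of_mem (by
        have : w ∈ F := by simpa using hw
        simpa using h2 w this)) (h1 v hv)

/-- the adjoint family is orthogonal -/
lemma NCE.en_orth_star (h : NCE M A η) {v w : H →L[ℂ] H} (hv : GN M A v) (hw : GN M A w)
    (h0 : CE A η (w * star v) = 0) : CE A η (star v * w) = 0 := by
  have hvM := hv.mem
  have hwM := hw.mem
  have hv' := star_mem hv.mem
  have h1 : v * CE A η (star v * w) * star v = 0 := by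
    rw [← h.CE_conj hv (mul_mem hv' hwM)]
    have : v * (star v * w) * star v = (v * star v) * (w * star v) := by simp only [mul_assoc]
    rw [this, h.CE_mul_left hv.rng (mul_mem hwM hv'), h0, mul_zero]
  have hc : CE A η (star v * w) ∈ A := h.CE_mem (mul_mem hv' hwM)
  have h2 : CE A η (star v * w) = (star v * v) * CE A η (star v * w) := by
    rw [← h.CE_mul_left hv.src (mul_mem hv' hwM)]
    congr 1
    calc star v * w = (star v * v * star v) * w := by rw [en_gn_part' hv]
      _ = _ := by simp only [mul_assoc]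
  have h3 : CE A η (star v * w) = (star v * v) * CE A η (star v * w) * (star v * v) := by
    rw [← h2, ← h.masa.comm _ hv.src _ hc]
    exact h2
  rw [h3]
  have : (star v * v) * CE A η (star v * w) * (star v * v)
      = star v * (v * CE A η (star v * w) * star v) * v := by simp only [mul_assoc]
  rw [this, h1, mul_zero, zero_mul]

end

end Crest.Agent.R109
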