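import Crest.Agent.R124.Density
import Mathlib.Analysis.CStarAlgebra.ContinuousFunctionalCalculus.Basic
import Mathlib.Analysis.CStarAlgebra.ContinuousFunctionalCalculus.Range
import Mathlib.Analysis.CStarAlgebra.ContinuousFunctionalCalculus.Commute
import Mathlib.Analysis.CStarAlgebra.ContinuousFunctionalCalculus.Isometric

/-!
# Row 109: Kaplansky's density theorem (self-adjoint version)
-/

set_option autoImplicit false
set_option linter.unusedSectionVars false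
set_option linter.style.haveILetI false

namespace Crest.Agent.R109

open scoped InnerProductSpace
open ContinuousLinearMap

noncomputable section

section General

/-- closure of a real subspace of a complex Hilbert space via real orthogonality -/
lemma mem_closure_of_real_orth {E : Type*} [NormedAddCommGroup E] [InnerProductSpace ℂ E]
    [CompleteSpace E] (W : Set E) (h0 : (0 : E) ∈ W) (hadd : ∀ v ∈ W, ∀ w ∈ W, v + w ∈ W)
    (hsmul : ∀ (r : ℝ), ∀ v ∈ W, (r : ℂ) • v ∈ W) (v : E)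
    (h : ∀ ω : E, (∀ w ∈ W, (⟪ω, w⟫_ℂ).re = 0) → (⟪ω, v⟫_ℂ).re = 0) : v ∈ closure W := by
  letI : InnerProductSpace ℝ E := InnerProductSpace.complexToReal
  let W' : Submodule ℝ E :=
    { carrier := W
      add_mem' := fun {a b} ha hb => hadd a ha b hb
      zero_mem' := h0
      smul_mem' := fun r a ha => hsmul r a ha }
  let V : Submodule ℝ E := W'.topologicalClosure
  haveI : CompleteSpace V := W'.isClosed_topologicalClosure.completeSpace_coe
  have h1 : ∀ w ∈ V, (⟪v - V.starProjection v, w⟫_ℂ).re = 0 := by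
    intro w hw
    have h2 := V.sub_starProjection_mem_orthogonal v
    rw [Submodule.mem_orthogonal] at h2
    have h3 := h2 w hw
    have h4 : (⟪w, v - V.starProjection v⟫_ℂ).re = 0 := h3
    rw [← inner_conj_symm, Complex.conj_re] at h4
    exact h4
  have h2 := h (v - V.starProjection v) (fun w hw => h1 w (W'.le_topologicalClosure hw))
  have h3 := h1 _ (V.starProjection_apply_mem v)
  have h4 : (⟪v - V.starProjection v, v - V.starProjection v⟫_ℂ).re = 0 := by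
    rw [inner_sub_right, Complex.sub_re, h2, h3, sub_zero]
  have h5 : v - V.starProjection v = 0 := by
    have := norm_sq_eq_re_inner (𝕜 := ℂ) (v - V.starProjection v)
    have h6 : ‖v - V.starProjection v‖ ^ 2 = 0 := by
      rw [this]; exact h4
    simpa using h6
  have h6 : v ∈ V := by
    rw [sub_eq_zero] at h5
    rw [h5]
    exact V.starProjection_apply_mem v
  exact h6

end General

variable {L : Type*} [NormedAddCommGroup L] [InnerProductSpace ℂ L] [CompleteSpace L]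

open R124 in
/-- density theorem, self-adjoint version -/
theorem exists_approx_sa (S : StarSubalgebra ℂ (L →L[ℂ] L)) (T : L →L[ℂ] L)
    (hT : IsSelfAdjoint T)
    (hc : T ∈ Set.centralizer (Set.centralizer (S : Set (L →L[ℂ] L)))) {m : ℕ} (ξ : Fin m → L)
    {ε : ℝ} (hε : 0 < ε) :
    ∃ s ∈ S, IsSelfAdjoint s ∧ ∀ j, ‖T (ξ j) - s (ξ j)‖ < ε := by
  classical
  let Ξ : LL L m := WithLp.toLp 2 ξ
  let W : Set (LL L m) := {v | ∃ s ∈ S, IsSelfAdjoint s ∧ v = amp m s Ξ}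
  have hW : amp m T Ξ ∈ closure W := by
    refine mem_closure_of_real_orth W ⟨0, zero_mem S, IsSelfAdjoint.zero _, ?_⟩ ?_ ?_ _ ?_
    · ext j; simp
    · rintro _ ⟨s, hs, hs', rfl⟩ _ ⟨t, ht, ht', rfl⟩
      refine ⟨s + t, add_mem hs ht, hs'.add ht', ?_⟩
      ext j; simp
    · rintro r _ ⟨s, hs, hs', rfl⟩
      refine ⟨(r : ℂ) • s, SMulMemClass.smul_mem _ hs, ?_, ?_⟩
      · rw [isSelfAdjoint_iff, star_smul, hs'.star_eq]; simp
      · ext j; simp
    · intro ω hω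
      by_contra hne
      -- total error bound
      set B : ℝ := ∑ j, (‖ω.ofLp j‖ + ‖ξ j‖) with hB
      have hB0 : 0 ≤ B := Finset.sum_nonneg (fun j _ => by positivity)
      have hpos : 0 < |(⟪ω, amp m T Ξ⟫_ℂ).re| := abs_pos.mpr hne
      obtain ⟨δ, hδ, hδB⟩ : ∃ δ : ℝ, 0 < δ ∧ δ * (B + 1) < |(⟪ω, amp m T Ξ⟫_ℂ).re| := by
        refine ⟨|(⟪ω, amp m T Ξ⟫_ℂ).re| / (2 * (B + 1)), by positivity, ?_⟩
        field_simp
        linarith
      obtain ⟨n, hn, hn'⟩ := exists_approx S T hc (Fin.append ξ (fun j => ω.ofLp j)) hδ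
      have hn1 : ∀ j, ‖T (ξ j) - n (ξ j)‖ < δ := fun j => by
        have := hn' (Fin.castAdd m j)
        rw [Fin.append_left] at this
        exact this
      have hn2 : ∀ j, ‖T (ω.ofLp j) - n (ω.ofLp j)‖ < δ := fun j => by
        have := hn' (Fin.natAdd m j)
        rw [Fin.append_right] at this
        exact this
      have hself : IsSelfAdjoint (n + star n) := by
        rw [isSelfAdjoint_iff, star_add, star_star, add_comm]
      have h0 := hω _ ⟨n + star n, add_mem hn (star_mem hn), hself, rfl⟩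
      have e1 : ⟪ω, amp m (n + star n) Ξ⟫_ℂ
          = ∑ j, (⟪ω.ofLp j, n (ξ j)⟫_ℂ + ⟪n (ω.ofLp j), ξ j⟫_ℂ) := by
        rw [PiLp.inner_apply]
        refine Finset.sum_congr rfl (fun j _ => ?_)
        rw [amp_apply, add_apply, inner_add_right, star_eq_adjoint, adjoint_inner_right]
      have e2 : ⟪ω, amp m T Ξ⟫_ℂ = ∑ j, ⟪ω.ofLp j, T (ξ j)⟫_ℂ := by
        rw [PiLp.inner_apply]
        refine Finset.sum_congr rfl (fun j _ => ?_)
        rw [amp_apply]
      have e3 : ⟪ω, amp m T Ξ⟫_ℂ = ∑ j, ⟪T (ω.ofLp j), ξ j⟫_ℂ := by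
        rw [e2]
        refine Finset.sum_congr rfl (fun j _ => ?_)
        rw [← adjoint_inner_left, ← star_eq_adjoint, hT.star_eq]
      have e4 : (2 : ℂ) * ⟪ω, amp m T Ξ⟫_ℂ - ⟪ω, amp m (n + star n) Ξ⟫_ℂ
          = ∑ j, (⟪ω.ofLp j, T (ξ j) - n (ξ j)⟫_ℂ + ⟪T (ω.ofLp j) - n (ω.ofLp j), ξ j⟫_ℂ) := by
        rw [two_mul]
        nth_rewrite 2 [e3]
        rw [e2, e1, ← Finset.sum_add_distrib, ← Finset.sum_sub_distrib]
        refine Finset.sum_congr rfl (fun j _ => ?_)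
        rw [inner_sub_right, inner_sub_left]
        ring
      have e5 : ‖(2 : ℂ) * ⟪ω, amp m T Ξ⟫_ℂ - ⟪ω, amp m (n + star n) Ξ⟫_ℂ‖ ≤ δ * B := by
        rw [e4, hB, Finset.mul_sum]
        refine (norm_sum_le _ _).trans (Finset.sum_le_sum (fun j _ => ?_))
        refine (norm_add_le _ _).trans ?_
        have f1 : ‖⟪ω.ofLp j, T (ξ j) - n (ξ j)⟫_ℂ‖ ≤ ‖ω.ofLp j‖ * δ :=
          (norm_inner_le_norm _ _).trans (mul_le_mul_of_nonneg_left (hn1 j).le (norm_nonneg _))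
        have f2 : ‖⟪T (ω.ofLp j) - n (ω.ofLp j), ξ j⟫_ℂ‖ ≤ δ * ‖ξ j‖ :=
          (norm_inner_le_norm _ _).trans (mul_le_mul_of_nonneg_right (hn2 j).le (norm_nonneg _))
        linarith
      have e6 : |((2 : ℂ) * ⟪ω, amp m T Ξ⟫_ℂ - ⟪ω, amp m (n + star n) Ξ⟫_ℂ).re| ≤ δ * B :=
        (Complex.abs_re_le_norm _).trans e5
      rw [Complex.sub_re, h0, sub_zero, two_mul, Complex.add_re, ← two_mul, abs_mul,
        abs_two] at e6
      have : δ * B ≤ δ * (B + 1) := by nlinarith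
      linarith [abs_nonneg (⟪ω, amp m T Ξ⟫_ℂ).re]
  rw [Metric.mem_closure_iff] at hW
  obtain ⟨w, ⟨s, hs, hs', rfl⟩, hw⟩ := hW ε hε
  refine ⟨s, hs, hs', fun j => ?_⟩
  rw [dist_eq_norm] at hw
  exact lt_of_le_of_lt (PiLp.norm_apply_le (amp m T Ξ - amp m s Ξ) j) hw

/-! ### the function `2t/(1+t^2)` -/

/-- `1/(1+t²)` -/
def k1 (t : ℝ) : ℝ := 1 / (1 + t ^ 2)

/-- `2t/(1+t²)` -/
def k2 (t : ℝ) : ℝ := 2 * t / (1 + t ^ 2)

/-- the inverse function of `k2` on `[-1,1]` -/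
def k3 (t : ℝ) : ℝ := t / (1 + Real.sqrt (1 - t ^ 2))

lemma k1_cont : Continuous k1 := by
  unfold k1
  exact continuous_const.div (by fun_prop) (fun t => by positivity)

lemma k2_cont : Continuous k2 := by
  unfold k2
  exact Continuous.div (by fun_prop) (by fun_prop) (fun t => by positivity)

lemma k3_cont : Continuous k3 := by
  unfold k3
  exact Continuous.div (by fun_prop) (by fun_prop) (fun t => by positivity)

lemma k2_k3 {t : ℝ} (ht : |t| ≤ 1) : k2 (k3 t) = t := by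
  unfold k2 k3
  have h1 : 0 ≤ 1 - t ^ 2 := by
    have := sq_le_one_iff_abs_le_one t |>.mpr ht
    linarith
  have h2 : Real.sqrt (1 - t ^ 2) ^ 2 = 1 - t ^ 2 := Real.sq_sqrt h1
  have h3 : 0 < 1 + Real.sqrt (1 - t ^ 2) := by positivity
  set w := Real.sqrt (1 - t ^ 2)
  have h4 : (1 + w) ^ 2 + t ^ 2 ≠ 0 := by positivity
  field_simp
  linear_combination (-t) * h2

lemma norm_k1_le (h : L →L[ℂ] L) : ‖cfc k1 h‖ ≤ 1 := by
  refine norm_cfc_le zero_le_one (fun t _ => ?_)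
  unfold k1
  rw [Real.norm_eq_abs, abs_of_nonneg (by positivity), div_le_one (by positivity)]
  nlinarith [sq_nonneg t]

lemma norm_k2_le (h : L →L[ℂ] L) : ‖cfc k2 h‖ ≤ 1 := by
  refine norm_cfc_le zero_le_one (fun t _ => ?_)
  unfold k2
  rw [Real.norm_eq_abs, abs_div, abs_of_pos (show 0 < 1 + t ^ 2 by positivity),
    div_le_one (by positivity), abs_mul, abs_two]
  nlinarith [sq_nonneg (|t| - 1), sq_abs t]

lemma k1_mul (h : L →L[ℂ] L) (hh : IsSelfAdjoint h) : cfc k1 h * (1 + h * h) = 1 := by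
  have e1 : (1 + h * h : L →L[ℂ] L) = cfc (fun t : ℝ => 1 + t * t) h := by
    rw [cfc_const_add (1 : ℝ) (fun t : ℝ => t * t) h, cfc_mul (fun t : ℝ => t) (fun t : ℝ => t) h,
      cfc_id' ℝ h]
    simp
  rw [e1, ← cfc_mul k1 _ h k1_cont.continuousOn]
  have e2 : (fun t => k1 t * (1 + t * t)) = fun _ : ℝ => (1 : ℝ) := by
    funext t
    unfold k1
    field_simp
  rw [e2]
  exact cfc_const_one ℝ h

lemma mul_k1 (h : L →L[ℂ] L) (hh : IsSelfAdjoint h) : (1 + h * h) * cfc k1 h = 1 := by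
  have : Commute (cfc k1 h) (1 + h * h) := by
    refine Commute.cfc_real ?_ k1
    exact (Commute.one_right h).add_right ((Commute.refl h).mul_right (Commute.refl h))
  rw [← this.eq, k1_mul h hh]

lemma k2_eq (h : L →L[ℂ] L) (hh : IsSelfAdjoint h) : cfc k2 h = (2 : ℂ) • (cfc k1 h * h) := by
  have : k2 = fun t => (2 : ℝ) • (k1 t * t) := by
    funext t
    unfold k1 k2
    simp only [smul_eq_mul]
    ring
  rw [this, cfc_smul (2 : ℝ) (fun t => k1 t * t) h (k1_cont.mul continuous_id).continuousOn,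
    cfc_mul k1 (fun t => t) h k1_cont.continuousOn, cfc_id' ℝ h]
  rw [show ((2 : ℂ)) = ((2 : ℝ) : ℂ) by norm_num, Complex.coe_smul]

/-- the resolvent identity behind Kaplansky's theorem -/
lemma k2_sub (a b : L →L[ℂ] L) (ha : IsSelfAdjoint a) (hb : IsSelfAdjoint b) :
    cfc k2 a - cfc k2 b = (2 : ℂ) • (cfc k1 a * (a - b) * cfc k1 b)
      + cfc k2 a * (b - a) * (b * cfc k1 b) := by
  have e1 : cfc k2 b = (2 : ℂ) • (b * cfc k1 b) := by
    rw [k2_eq b hb]
    have : Commute (cfc k1 b) b := Commute.cfc_real (Commute.refl b) k1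
    rw [this.eq]
  have e2 : cfc k2 a = (2 : ℂ) • (cfc k1 a * a * ((1 + b * b) * cfc k1 b)) := by
    rw [mul_k1 b hb, mul_one, k2_eq a ha]
  have e3 : b * cfc k1 b = (cfc k1 a * (1 + a * a)) * (b * cfc k1 b) := by
    rw [k1_mul a ha, one_mul]
  calc cfc k2 a - cfc k2 b
      = (2 : ℂ) • (cfc k1 a * a * ((1 + b * b) * cfc k1 b))
        - (2 : ℂ) • ((cfc k1 a * (1 + a * a)) * (b * cfc k1 b)) := by
        rw [← e2, ← e3, e1]
    _ = (2 : ℂ) • (cfc k1 a * (a - b) * cfc k1 b)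
      + (2 : ℂ) • (cfc k1 a * a) * (b - a) * (b * cfc k1 b) := by
        simp only [smul_mul_assoc, ← smul_sub, ← smul_add]
        congr 1
        noncomm_ring
    _ = _ := by rw [← k2_eq a ha]

lemma k2_sub_apply (a b : L →L[ℂ] L) (ha : IsSelfAdjoint a) (hb : IsSelfAdjoint b) (η : L) :
    ‖(cfc k2 a) η - (cfc k2 b) η‖ ≤ 2 * ‖(a - b) (cfc k1 b η)‖
      + ‖(a - b) (b (cfc k1 b η))‖ := by
  have h := congrArg (fun T : L →L[ℂ] L => T η) (k2_sub a b ha hb)
  simp only [sub_apply, add_apply, smul_apply] at h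
  rw [h]
  refine (norm_add_le _ _).trans (add_le_add ?_ ?_)
  · rw [norm_smul]
    have : ‖(2 : ℂ)‖ = 2 := by simp
    rw [this]
    refine mul_le_mul_of_nonneg_left ?_ (by norm_num)
    calc _ ≤ ‖cfc k1 a‖ * ‖(a - b) (cfc k1 b η)‖ := by
          simpa using (cfc k1 a).le_opNorm ((a - b) (cfc k1 b η))
      _ ≤ 1 * ‖(a - b) (cfc k1 b η)‖ :=
          mul_le_mul_of_nonneg_right (norm_k1_le a) (norm_nonneg _)
      _ = _ := one_mul _
  · calc _ ≤ ‖cfc k2 a‖ * ‖(b - a) (b (cfc k1 b η))‖ := by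
          simpa using (cfc k2 a).le_opNorm ((b - a) (b (cfc k1 b η)))
      _ ≤ 1 * ‖(b - a) (b (cfc k1 b η))‖ :=
          mul_le_mul_of_nonneg_right (norm_k2_le a) (norm_nonneg _)
      _ = _ := by rw [one_mul, ← norm_neg, ← neg_apply, neg_sub]

/-- elements of norm `≤ 1` of the closure are approximated by elements of norm `≤ 1` -/
lemma exists_norm_le_one (S : StarSubalgebra ℂ (L →L[ℂ] L)) (h : L →L[ℂ] L) (hS : h ∈ S)
    {ε : ℝ} (hε : 0 < ε) :
    ∃ s ∈ S, IsSelfAdjoint s ∧ ‖s‖ ≤ 1 ∧ ‖s - cfc k2 h‖ < ε := by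
  have hmem : cfc k2 h ∈ S.topologicalClosure := by
    haveI : IsClosed (S.topologicalClosure : Set (L →L[ℂ] L)) := S.isClosed_topologicalClosure
    exact cfc_mem k2 (S.le_topologicalClosure hS)
  have hcl : cfc k2 h ∈ closure (S : Set (L →L[ℂ] L)) := hmem
  rw [Metric.mem_closure_iff] at hcl
  obtain ⟨δ, hδ, hδε⟩ : ∃ δ : ℝ, 0 < δ ∧ 2 * δ < ε := ⟨ε / 4, by positivity, by linarith⟩
  obtain ⟨t, ht, htd⟩ := hcl δ hδ
  rw [dist_eq_norm] at htd
  have hsa : IsSelfAdjoint (cfc k2 h) := cfc_predicate k2 h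
  -- real part
  set t' : L →L[ℂ] L := (1 / 2 : ℂ) • (t + star t) with ht'
  have ht'S : t' ∈ S := SMulMemClass.smul_mem _ (add_mem ht (star_mem ht))
  have ht'sa : IsSelfAdjoint t' := by
    rw [isSelfAdjoint_iff, ht', star_smul, star_add, star_star, add_comm]
    congr 1
    simp
  have hd : ‖cfc k2 h - t'‖ < δ := by
    have e : cfc k2 h - t' = (1 / 2 : ℂ) • ((cfc k2 h - t) + star (cfc k2 h - t)) := by
      rw [star_sub, hsa.star_eq, ht']
      rw [show (cfc k2 h - t + (cfc k2 h - star t)) = (2 : ℂ) • cfc k2 h - (t + star t) by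
        rw [two_smul]; abel]
      rw [smul_sub, smul_smul]
      norm_num
    rw [e, norm_smul]
    have h1 := norm_add_le (cfc k2 h - t) (star (cfc k2 h - t))
    rw [norm_star] at h1
    have : ‖(1 / 2 : ℂ)‖ = 1 / 2 := by simp
    rw [this]
    linarith
  have hnt' : ‖t'‖ ≤ 1 + δ := by
    have h1 : ‖t'‖ ≤ ‖cfc k2 h‖ + ‖cfc k2 h - t'‖ := by
      have := norm_sub_le (cfc k2 h) (cfc k2 h - t')
      simpa using this
    have h2 := norm_k2_le h
    linarith
  have hδ1 : (0 : ℝ) < 1 + δ := by linarith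
  refine ⟨((1 / (1 + δ) : ℝ) : ℂ) • t', SMulMemClass.smul_mem _ ht'S, ?_, ?_, ?_⟩
  · rw [isSelfAdjoint_iff, star_smul, ht'sa.star_eq]
    simp
  · rw [norm_smul, Complex.norm_real, Real.norm_eq_abs, abs_of_pos (by positivity)]
    rw [div_mul_eq_mul_div, one_mul, div_le_one hδ1]
    exact hnt'
  · have e : ((1 / (1 + δ) : ℝ) : ℂ) • t' - cfc k2 h
        = (((1 / (1 + δ) : ℝ) : ℂ) - 1) • t' - (cfc k2 h - t') := by
      rw [sub_smul, one_smul]; abel
    rw [e]
    refine (norm_sub_le _ _).trans_lt ?_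
    rw [norm_smul]
    have h1 : ‖((1 / (1 + δ) : ℝ) : ℂ) - 1‖ = δ / (1 + δ) := by
      rw [show ((1 / (1 + δ) : ℝ) : ℂ) - 1 = ((1 / (1 + δ) - 1 : ℝ) : ℂ) by push_cast; ring]
      rw [Complex.norm_real, Real.norm_eq_abs]
      rw [show (1 / (1 + δ) - 1 : ℝ) = - (δ / (1 + δ)) by field_simp; ring]
      rw [abs_neg, abs_of_pos (by positivity)]
    rw [h1]
    have h2 : δ / (1 + δ) * ‖t'‖ ≤ δ := by
      rw [div_mul_eq_mul_div, div_le_iff₀ hδ1]
      exact mul_le_mul_of_nonneg_left hnt' hδ.le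
    linarith

/-- **Kaplansky's density theorem**, self-adjoint version, for finitely many vectors, relative to
an invariant subspace (projection `P`): the approximants are elements of `N` with the norm bound
on the whole space. -/
theorem kaplansky_rel (N : StarSubalgebra ℂ (L →L[ℂ] L)) (P : L →L[ℂ] L)
    (hP : IsStarProjection P) (hPN : ∀ n ∈ N, n * P = P * n) (T : L →L[ℂ] L)
    (hT : IsSelfAdjoint T) (hTP : T * P = T)
    (hc : ∀ s : L →L[ℂ] L, s * P = P * s → (∀ n ∈ N, n * P * s = s * n * P) → T * s = s * T)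
    {m : ℕ} (ξ : Fin m → L) (hξ : ∀ j, P (ξ j) = ξ j) {ε : ℝ} (hε : 0 < ε) :
    ∃ y ∈ N, IsSelfAdjoint y ∧ ‖y‖ ≤ ‖T‖ ∧ ∀ j, ‖T (ξ j) - y (ξ j)‖ < ε := by
  classical
  rcases eq_or_ne T 0 with rfl | hT0
  · refine ⟨0, zero_mem N, IsSelfAdjoint.zero _, le_rfl, fun j => ?_⟩
    simpa using hε
  have hn' : 0 < ‖T‖ := norm_pos_iff.mpr hT0
  haveI : Nontrivial L := by
    by_contra hL
    rw [not_nontrivial_iff_subsingleton] at hL
    exact hT0 (ContinuousLinearMap.ext (fun v => Subsingleton.elim _ _))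
  -- normalise
  set T₁ : L →L[ℂ] L := ((‖T‖⁻¹ : ℝ) : ℂ) • T with hT₁
  have hT₁sa : IsSelfAdjoint T₁ := by
    rw [isSelfAdjoint_iff, hT₁, star_smul, hT.star_eq]; simp
  have hT₁n : ‖T₁‖ = 1 := by
    rw [hT₁, norm_smul, Complex.norm_real, Real.norm_eq_abs, abs_of_pos (inv_pos.mpr hn')]
    exact inv_mul_cancel₀ hn'.ne'
  have hTT₁ : T = ((‖T‖ : ℝ) : ℂ) • T₁ := by
    rw [hT₁, smul_smul, ← Complex.ofReal_mul, mul_inv_cancel₀ hn'.ne']; simp
  -- the algebra
  let S : StarSubalgebra ℂ (L →L[ℂ] L) :=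
    { carrier := {s | s * P = P * s ∧ ∃ n ∈ N, s * P = n * P}
      mul_mem' := by
        rintro a b ⟨ha, n, hn, han⟩ ⟨hb, n', hn', hbn⟩
        refine ⟨by rw [mul_assoc, hb, ← mul_assoc, ha, mul_assoc], n * n', mul_mem hn hn', ?_⟩
        rw [mul_assoc, hbn, hPN n' hn', ← mul_assoc, han, mul_assoc, ← hPN n' hn', ← mul_assoc]
      one_mem' := ⟨by simp, 1, one_mem N, rfl⟩
      add_mem' := by
        rintro a b ⟨ha, n, hn, han⟩ ⟨hb, n', hn', hbn⟩
        exact ⟨by rw [add_mul, mul_add, ha, hb], n + n', add_mem hn hn', by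
          rw [add_mul, add_mul, han, hbn]⟩
      zero_mem' := ⟨by simp, 0, zero_mem N, rfl⟩
      algebraMap_mem' := fun c => ⟨Algebra.commutes c P, algebraMap ℂ _ c,
        N.algebraMap_mem c, rfl⟩
      star_mem' := by
        rintro a ⟨ha, n, hn, han⟩
        have hPs := hP.isSelfAdjoint.star_eq
        have h1 : star a * P = P * star a := by
          have := congrArg star ha
          rw [star_mul, star_mul, hPs] at this
          exact this.symm
        refine ⟨h1, star n, star_mem hn, ?_⟩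
        have h2 := congrArg star han
        rw [star_mul, star_mul, hPs] at h2
        rw [h1, h2, hPN _ (star_mem hn)] }
  have hPS : P ∈ S := ⟨rfl, 1, one_mem N, by rw [one_mul, hP.isIdempotentElem.eq]⟩
  have hNS : ∀ n ∈ N, n ∈ S := fun n hn => ⟨hPN n hn, n, hn, rfl⟩
  -- the preimage under `k2`
  set S₀ : L →L[ℂ] L := cfc k3 T₁ with hS₀
  have hS₀sa : IsSelfAdjoint S₀ := cfc_predicate k3 T₁
  have hS₀c : ∀ z : L →L[ℂ] L, T * z = z * T → Commute S₀ z := by
    intro z hz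
    refine Commute.cfc_real ?_ k3
    have : Commute T z := hz
    exact this.smul_left _
  have hk2S₀ : cfc k2 S₀ = T₁ := by
    rw [hS₀, ← cfc_comp' k2 k3 T₁ k2_cont.continuousOn k3_cont.continuousOn]
    have : Set.EqOn (fun x => k2 (k3 x)) (fun x => x) (spectrum ℝ T₁) := by
      intro t ht
      refine k2_k3 ?_
      have := spectrum.norm_le_norm_of_mem ht
      rw [hT₁n] at this
      exact this
    rw [cfc_congr this, cfc_id' ℝ T₁]
  have hS₀mem : S₀ ∈ Set.centralizer (Set.centralizer (S : Set (L →L[ℂ] L))) := by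
    intro z hz
    have h1 : T * z = z * T := by
      refine hc z (hz P hPS).symm (fun n hn => ?_)
      have h1 := hz P hPS
      have h2 := hz n (hNS n hn)
      rw [mul_assoc, h1, ← mul_assoc, h2, mul_assoc]
    exact ((hS₀c z h1).eq).symm
  have hPT : T * P = P * T := by
    rw [hTP]
    have := congrArg star hTP
    rw [star_mul, hP.isSelfAdjoint.star_eq, hT.star_eq] at this
    exact this.symm
  have hPS₀ : Commute S₀ P := hS₀c P hPT
  have hPk1 : Commute (cfc k1 S₀) P := Commute.cfc_real hPS₀ k1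
  have hζ1 : ∀ j, P (cfc k1 S₀ (ξ j)) = cfc k1 S₀ (ξ j) := by
    intro j
    have h1 := congrArg (fun Z : L →L[ℂ] L => Z (ξ j)) hPk1.eq
    have h2 : (cfc k1 S₀) (P (ξ j)) = P ((cfc k1 S₀) (ξ j)) := h1
    rw [← h2, hξ]
  have hζ2 : ∀ j, P (S₀ (cfc k1 S₀ (ξ j))) = S₀ (cfc k1 S₀ (ξ j)) := by
    intro j
    have h1 := congrArg (fun Z : L →L[ℂ] L => Z (cfc k1 S₀ (ξ j))) hPS₀.eq
    have h2 : S₀ (P (cfc k1 S₀ (ξ j))) = P (S₀ ((cfc k1 S₀) (ξ j))) := h1
    rw [← h2, hζ1]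
  -- tolerance
  set B : ℝ := ∑ j, ‖ξ j‖ with hB
  have hBj : ∀ j, ‖ξ j‖ ≤ B := fun j =>
    Finset.single_le_sum (f := fun j => ‖ξ j‖) (fun _ _ => norm_nonneg _) (Finset.mem_univ j)
  have hB0 : 0 ≤ B := Finset.sum_nonneg (fun _ _ => norm_nonneg _)
  obtain ⟨δ, hδ, hδε⟩ : ∃ δ : ℝ, 0 < δ ∧ ‖T‖ * (δ * (3 + B)) < ε := by
    refine ⟨ε / (2 * (‖T‖ * (3 + B))), by positivity, ?_⟩
    have h3 : 0 < ‖T‖ * (3 + B) := by positivity
    have : ‖T‖ * (ε / (2 * (‖T‖ * (3 + B))) * (3 + B)) = ε / 2 := by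
      field_simp
    rw [this]
    linarith
  obtain ⟨s, ⟨hsP, n, hn, hsn⟩, hs', hs⟩ := exists_approx_sa S S₀ hS₀sa hS₀mem
    (Fin.append (fun j => cfc k1 S₀ (ξ j)) (fun j => S₀ (cfc k1 S₀ (ξ j)))) hδ
  have hs1 : ∀ j, ‖S₀ (cfc k1 S₀ (ξ j)) - s (cfc k1 S₀ (ξ j))‖ < δ := fun j => by
    have := hs (Fin.castAdd m j)
    rw [Fin.append_left] at this
    exact this
  have hs2 : ∀ j, ‖S₀ (S₀ (cfc k1 S₀ (ξ j))) - s (S₀ (cfc k1 S₀ (ξ j)))‖ < δ := fun j => by
    have := hs (Fin.natAdd m j)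
    rw [Fin.append_right] at this
    exact this
  -- self-adjoint element of `N` agreeing with `s` on the range of `P`
  set h : L →L[ℂ] L := (1 / 2 : ℂ) • (n + star n) with hh
  have hhN : h ∈ N := SMulMemClass.smul_mem _ (add_mem hn (star_mem hn))
  have hhsa : IsSelfAdjoint h := by
    rw [isSelfAdjoint_iff, hh, star_smul, star_add, star_star, add_comm]
    congr 1
    simp
  have hhP : h * P = s * P := by
    have h1 : star n * P = s * P := by
      have h2 := congrArg star hsn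
      rw [star_mul, star_mul, hP.isSelfAdjoint.star_eq, hs'.star_eq] at h2
      rw [hPN _ (star_mem hn), ← h2, hsP]
    rw [hh, smul_mul_assoc, add_mul, h1, ← hsn, ← two_smul ℂ, smul_smul]
    norm_num
  have hhv : ∀ v, P v = v → h v = s v := by
    intro v hv
    have h1 := congrArg (fun Z : L →L[ℂ] L => Z v) hhP
    have h2 : h (P v) = s (P v) := h1
    rwa [hv] at h2
  obtain ⟨y, hyN, hysa, hyn, hyd⟩ := exists_norm_le_one N h hhN hδ
  refine ⟨((‖T‖ : ℝ) : ℂ) • y, SMulMemClass.smul_mem _ hyN, ?_, ?_, fun j => ?_⟩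
  · rw [isSelfAdjoint_iff, star_smul, hysa.star_eq]; simp
  · rw [norm_smul, Complex.norm_real, Real.norm_eq_abs, abs_of_pos hn']
    exact mul_le_of_le_one_right hn'.le hyn
  · have h1 : T (ξ j) - (((‖T‖ : ℝ) : ℂ) • y) (ξ j)
        = ((‖T‖ : ℝ) : ℂ) • (T₁ (ξ j) - y (ξ j)) := by
      conv_lhs => rw [hTT₁]
      rw [smul_apply, smul_apply, smul_sub]
      simp [norm_smul, hT₁n]
    rw [h1, norm_smul, Complex.norm_real, Real.norm_eq_abs, abs_of_pos hn']
    have h2 : ‖T₁ (ξ j) - y (ξ j)‖ ≤ δ * (3 + B) := by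
      have h3 := k2_sub_apply h S₀ hhsa hS₀sa (ξ j)
      rw [hk2S₀] at h3
      have h4 : ‖(h - S₀) (cfc k1 S₀ (ξ j))‖ ≤ δ := by
        rw [sub_apply, hhv _ (hζ1 j), norm_sub_rev]
        exact (hs1 j).le
      have h5 : ‖(h - S₀) (S₀ (cfc k1 S₀ (ξ j)))‖ ≤ δ := by
        rw [sub_apply, hhv _ (hζ2 j), norm_sub_rev]
        exact (hs2 j).le
      have h6 : ‖y (ξ j) - cfc k2 h (ξ j)‖ ≤ δ * B := by
        rw [← sub_apply]
        exact (le_opNorm _ _).trans (mul_le_mul hyd.le (hBj j) (norm_nonneg _) hδ.le)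
      have h7 : ‖T₁ (ξ j) - y (ξ j)‖ ≤ ‖cfc k2 h (ξ j) - T₁ (ξ j)‖ + ‖y (ξ j) - cfc k2 h (ξ j)‖ := by
        rw [norm_sub_rev (T₁ (ξ j))]
        have : y (ξ j) - T₁ (ξ j) = (cfc k2 h (ξ j) - T₁ (ξ j)) + (y (ξ j) - cfc k2 h (ξ j)) := by
          abel
        rw [this]
        exact norm_add_le _ _
      nlinarith
    exact lt_of_le_of_lt (mul_le_mul_of_nonneg_left h2 hn'.le) hδε

/-- **Kaplansky's density theorem**, self-adjoint version, finitely many vectors. -/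
theorem kaplansky (N : StarSubalgebra ℂ (L →L[ℂ] L)) (T : L →L[ℂ] L)
    (hT : IsSelfAdjoint T)
    (hc : T ∈ Set.centralizer (Set.centralizer (N : Set (L →L[ℂ] L))))
    {m : ℕ} (ξ : Fin m → L) {ε : ℝ} (hε : 0 < ε) :
    ∃ y ∈ N, IsSelfAdjoint y ∧ ‖y‖ ≤ ‖T‖ ∧ ∀ j, ‖T (ξ j) - y (ξ j)‖ < ε := by
  refine kaplansky_rel N 1 ⟨by simp [IsIdempotentElem], by simp [isSelfAdjoint_iff]⟩
    (fun n _ => by simp) T hT (mul_one T) (fun s _ hs => ?_) ξ (fun j => rfl) hε
  refine (hc s (fun n hn => ?_)).symm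
  have := hs n hn
  simpa using this

end

end Crest.Agent.R109
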