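import Crest.Agent.R109.EN2
import Crest.Agent.R109.Kap

/-!
# Row 109: the normaliser part `x₁ = E_N(x)` of a self-adjoint element, elementary construction
(part 3: self-adjoint approximants, commutation, Kaplansky)
-/

set_option autoImplicit false
set_option linter.unusedSectionVars false
set_option linter.style.haveILetI false
set_option linter.unusedVariables false

namespace Crest.Agent.R109

open scoped InnerProductSpace
open ContinuousLinearMap Crest.Agent.R121 Crest.Agent.R124 Filter Topology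

universe u

variable {H : Type u} [NormedAddCommGroup H] [InnerProductSpace ℂ H] [CompleteSpace H]

section
variable {M : VonNeumannAlgebra H} {A : StarSubalgebra ℂ (H →L[ℂ] H)} {η : H}

/-- evaluation at a vector -/
def ENev (η : H) : (H →L[ℂ] H) →ₗ[ℂ] H where
  toFun := fun T => T η
  map_add' := fun S T => rfl
  map_smul' := fun c T => rfl

/-- the subspace `ENalg0 η` -/
def ENW (M : VonNeumannAlgebra H) (A : StarSubalgebra ℂ (H →L[ℂ] H)) (η : H) : Submodule ℂ H :=
  (ENalg0 M A η).map (ENev η)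

lemma mem_ENW {m : H →L[ℂ] H} (hm : m ∈ ENalg0 M A η) : m η ∈ ENW M A η := ⟨m, hm, rfl⟩

/-- the projection onto the closure of `ENalg0 η` -/
noncomputable def ENP (M : VonNeumannAlgebra H) (A : StarSubalgebra ℂ (H →L[ℂ] H)) (η : H) :
    H →L[ℂ] H := cproj (ENW M A η)

lemma ENP_proj : IsStarProjection (ENP M A η) := cproj_proj _

lemma ENP_apply {m : H →L[ℂ] H} (hm : m ∈ ENalg0 M A η) : ENP M A η (m η) = m η :=
  cproj_of_mem (mem_ENW hm)

lemma ENP_inner_left {m : H →L[ℂ] H} (hm : m ∈ ENalg0 M A η) (ζ : H) :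
    ⟪m η, ENP M A η ζ⟫_ℂ = ⟪m η, ζ⟫_ℂ := by
  have h1 : star (ENP M A η) = ENP M A η := ENP_proj.isSelfAdjoint
  conv_lhs => rw [← h1, star_eq_adjoint, adjoint_inner_right]
  rw [ENP_apply hm]

/-- a vector in the range of `ENP` orthogonal to `ENalg0 η` is zero -/
lemma ENP_ext {ζ : H} (h1 : ENP M A η ζ = ζ) (h2 : ∀ m ∈ ENalg0 M A η, ⟪m η, ζ⟫_ℂ = 0) : ζ = 0 := by
  have hcl : ζ ∈ closure ((ENW M A η : Submodule ℂ H) : Set H) := by
    rw [← h1]; exact cproj_apply_mem _
  have h3 : IsClosed {w : H | ⟪w, ζ⟫_ℂ = 0} := isClosed_eq (by fun_prop) continuous_const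
  have h4 : ∀ w ∈ closure ((ENW M A η : Submodule ℂ H) : Set H), ⟪w, ζ⟫_ℂ = 0 := by
    intro w hw
    refine closure_minimal ?_ h3 hw
    rintro _ ⟨m, hm, rfl⟩
    exact h2 m hm
  exact inner_self_eq_zero.1 (h4 ζ hcl)

lemma NCE.ENP_comm (h : NCE M A η) {n : H →L[ℂ] H} (hn : n ∈ ENalg0 M A η) :
    n * ENP M A η = ENP M A η * n := by
  apply cproj_comm
  · rintro _ ⟨m, hm, rfl⟩
    exact ⟨n * m, ENalg0_mul h.masa hn hm, rfl⟩
  · rintro _ ⟨m, hm, rfl⟩
    exact ⟨star n * m, ENalg0_mul h.masa (ENalg0_star h.masa hn) hm, rfl⟩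

/-- approximation by a component -/
lemma NCE.en_best (h : NCE M A η) {F : Finset (H →L[ℂ] H)} (hF : ENOF M A η F) {y q : H →L[ℂ] H}
    (hy : y ∈ M) (hq : q ∈ ENspan A (↑F : Set (H →L[ℂ] H)))
    (ho : ∀ n ∈ ENspan A (↑F : Set (H →L[ℂ] H)), ⟪n η, (y - q) η⟫_ℂ = 0)
    {m : H →L[ℂ] H} (hm : m ∈ ENspan A (↑F : Set (H →L[ℂ] H))) :
    ‖ENP M A η (y η) - q η‖ ≤ ‖ENP M A η (y η) - m η‖ := by
  set a := ENP M A η (y η) - q η with ha
  set b := (q - m) η with hb
  have hqm : q - m ∈ ENspan A (↑F : Set (H →L[ℂ] H)) := sub_mem hq hm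
  have hab : ⟪b, a⟫_ℂ = 0 := by
    have h1 := NCE.en_span_le_alg hF.gnb hqm
    rw [ha, inner_sub_right, hb, ENP_inner_left h1]
    have := ho _ hqm
    rw [sub_apply (f := y) (g := q), inner_sub_right] at this
    exact this
  have hba : ⟪a, b⟫_ℂ = 0 := by rw [← inner_conj_symm, hab, map_zero]
  have h2 : ENP M A η (y η) - m η = a + b := by rw [ha, hb, sub_apply]; abel
  have h3 : ‖a + b‖ ^ 2 = ‖a‖ ^ 2 + ‖b‖ ^ 2 := by
    rw [@norm_add_sq ℂ]
    rw [hba]; simp
  rw [h2]
  apply le_of_sq_le_sq _ (norm_nonneg _)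
  rw [h3]; nlinarith [sq_nonneg ‖b‖]

lemma NCE.en_ENQF_orth (h : NCE M A η) {F : Finset (H →L[ℂ] H)} (hF : ENOF M A η F)
    {y n : H →L[ℂ] H} (hy : y ∈ M) (hn : n ∈ ENspan A (↑F : Set (H →L[ℂ] H))) :
    ⟪n η, (y - ENQF A η F y) η⟫_ℂ = 0 := by
  have hnM : n ∈ M := ENalg0_le h.masa (NCE.en_span_le_alg hF.gnb hn)
  have h1 := h.en_ENQF_symm hF hy hnM
  rw [h.en_ENQF_self hF hn] at h1
  rw [sub_apply, inner_sub_right, h1, sub_self]

lemma NCE.en_ENQ_star (h : NCE M A η) {v x : H →L[ℂ] H} (hv : GN M A v) (hx : x ∈ M)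
    (hxs : star x = x) : star (ENQ A η v x) = ENQ A η (star v) x := by
  have hvM := hv.mem
  have hv' : star v ∈ M := star_mem hv.mem
  have hc : CE A η (v * x) ∈ A := h.CE_mem (mul_mem hvM hx)
  have e1 : star (ENQ A η v x) = star v * CE A η (v * x) := by
    unfold ENQ
    rw [star_mul, ← h.CE_star (mul_mem hx hv'), star_mul, star_star, hxs]
  have e2 : CE A η (v * x) = CE A η (v * x) * (v * star v) := by
    rw [h.masa.comm _ hc _ hv.rng, ← h.CE_mul_left hv.rng (mul_mem hvM hx)]
    congr 1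
    rw [← mul_assoc, hv.part]
  have e3 : star v * CE A η (v * x) * v = CE A η (x * v) := by
    rw [← h.CE_conj' hv (mul_mem hvM hx)]
    have : star v * (v * x) * v = (star v * v) * (x * v) := by simp only [mul_assoc]
    rw [this, h.CE_mul_left hv.src (mul_mem hx hvM),
      h.masa.comm _ hv.src _ (h.CE_mem (mul_mem hx hvM)),
      ← h.CE_mul_right hv.src (mul_mem hx hvM)]
    congr 1
    calc x * v * (star v * v) = x * (v * star v * v) := by simp only [mul_assoc]
      _ = _ := by rw [hv.part]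
  rw [e1]
  unfold ENQ
  rw [star_star, ← e3]
  conv_lhs => rw [e2]
  simp only [mul_assoc]


/-- self-adjoint finite range elements approximating `P x η` -/
theorem NCE.en_approx (h : NCE M A η) {x : H →L[ℂ] H} (hx : x ∈ M) (hxs : star x = x) {κ : ℝ}
    (hκ : 0 < κ) : ∃ Y ∈ ENalg0 M A η, star Y = Y ∧ ‖ENP M A η (x η) - Y η‖ ≤ κ := by
  classical
  -- a finite range element close to `P x η`
  obtain ⟨w, ⟨m, hm, hmw⟩, hw⟩ := Metric.mem_closure_iff.1
    (cproj_apply_mem (W := ENW M A η) (x η)) κ hκ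
  have hmw' : m η = w := hmw
  rw [← hmw', dist_eq_norm] at hw
  change ‖ENP M A η (x η) - m η‖ < κ at hw
  obtain ⟨G, hG, hmG⟩ := ENspan_finite hm
  set G' : Finset (H →L[ℂ] H) := G ∪ G.image star with hG'
  have hG'b : ∀ u ∈ G', ENG M A η u := by
    intro u hu
    rcases Finset.mem_union.1 hu with hu | hu
    · exact hG (by simpa using hu)
    · obtain ⟨v, hv, rfl⟩ := Finset.mem_image.1 hu
      exact en_gnb_star (hG (by simpa using hv))
  obtain ⟨F, hF, hFG⟩ := h.en_gs G' hG'b
  set F' : Finset (H →L[ℂ] H) := F.image star with hF'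
  have hF'of : ENOF M A η F' := by
    constructor
    · intro v hv
      obtain ⟨w, hw, rfl⟩ := Finset.mem_image.1 hv
      exact en_gnb_star (hF.gnb w hw)
    · intro v hv w hw hvw
      obtain ⟨v, hv0, rfl⟩ := Finset.mem_image.1 hv
      obtain ⟨w, hw0, rfl⟩ := Finset.mem_image.1 hw
      rw [star_star]
      apply h.en_orth_star (hF.gnb v hv0).1 (hF.gnb w hw0).1
      exact hF.orth w hw0 v hv0 (fun e => hvw (by rw [e]))
  have hmF : m ∈ ENspan A (↑F : Set (H →L[ℂ] H)) := by
    refine ENspan_le (fun u hu => ?_) hmG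
    exact hFG u (Finset.mem_union_left _ (by simpa using hu))
  have hmF' : m ∈ ENspan A (↑F' : Set (H →L[ℂ] H)) := by
    refine ENspan_le (fun u hu => ?_) hmG
    have h1 : star u ∈ ENspan A (↑F : Set (H →L[ℂ] H)) :=
      hFG (star u) (Finset.mem_union_right _ (Finset.mem_image_of_mem _ (by simpa using hu)))
    have h2 := ENspan_star (T := (↑F' : Set (H →L[ℂ] H))) h.masa (fun v hv => ?_) h1
    · rwa [star_star] at h2
    · have hv' : v ∈ F := by simpa using hv
      exact ⟨(hF.gnb v hv').1, ENspan_of_mem (Finset.mem_coe.2 (Finset.mem_image_of_mem star hv'))⟩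
  -- the component and its adjoint
  set q := ENQF A η F x with hq
  have hqs : star q = ENQF A η F' x := by
    rw [hq]
    unfold ENQF
    rw [star_sum, hF', Finset.sum_image (fun a _ b _ hab => star_injective hab)]
    exact Finset.sum_congr rfl fun v hv => h.en_ENQ_star (hF.gnb v hv).1 hx hxs
  have hqm : q ∈ ENalg0 M A η := NCE.en_span_le_alg hF.gnb (h.en_ENQF_mem hF hx)
  have b1 : ‖ENP M A η (x η) - q η‖ ≤ κ :=
    (h.en_best hF hx (h.en_ENQF_mem hF hx) (fun n hn => h.en_ENQF_orth hF hx hn) hmF).trans hw.le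
  have b2 : ‖ENP M A η (x η) - (star q) η‖ ≤ κ := by
    rw [hqs]
    exact (h.en_best hF'of hx (h.en_ENQF_mem hF'of hx)
      (fun n hn => h.en_ENQF_orth hF'of hx hn) hmF').trans hw.le
  refine ⟨(2⁻¹ : ℂ) • (q + star q), Submodule.smul_mem _ _ (add_mem hqm (ENalg0_star h.masa hqm)),
    ?_, ?_⟩
  · rw [star_smul, star_add, star_star, add_comm]
    congr 1
    simp
  · have e1 : ENP M A η (x η) - ((2⁻¹ : ℂ) • (q + star q)) η
        = (2⁻¹ : ℂ) • (ENP M A η (x η) - q η) + (2⁻¹ : ℂ) • (ENP M A η (x η) - (star q) η) := by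
      rw [smul_apply, add_apply, ← smul_add]
      have : (2⁻¹ : ℂ) • (ENP M A η (x η) - q η + (ENP M A η (x η) - (star q) η))
          = (2⁻¹ : ℂ) • ((2 : ℂ) • ENP M A η (x η)) - (2⁻¹ : ℂ) • (q η + (star q) η) := by
        rw [← smul_sub, two_smul]; congr 1; abel
      rw [this, smul_smul]; simp
    rw [e1]
    refine (norm_add_le _ _).trans ?_
    rw [norm_smul, norm_smul]
    have : ‖(2⁻¹ : ℂ)‖ = 2⁻¹ := by simp
    rw [this]; linarith

/-- the component along `v` is dominated by the projection -/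
lemma NCE.en_ENQ_le (h : NCE M A η) {v z : H →L[ℂ] H} (hv : ENG M A η v) (hz : z ∈ M) :
    ‖(ENQ A η v z) η‖ ≤ ‖ENP M A η (z η)‖ := by
  set q := ENQ A η v z with hq
  have hqN : q ∈ ENalg0 M A η := h.en_ENQ_span hv.1 hv hz
  have hqM : q ∈ M := ENalg0_le h.masa hqN
  have h1 := h.en_ENQ_symm hv.1 hqM hz
  rw [hq, h.en_ENQ_idem hv.1 hz, ← hq] at h1
  have h2 : ‖q η‖ ^ 2 ≤ ‖ENP M A η (z η)‖ * ‖q η‖ := by
    have h3 : ⟪q η, q η⟫_ℂ = ⟪ENP M A η (z η), q η⟫_ℂ := by
      rw [h1, ← inner_conj_symm, ← ENP_inner_left hqN, inner_conj_symm]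
    rw [← inner_self_eq_norm_sq (𝕜 := ℂ), h3]
    exact (Complex.re_le_norm _).trans (norm_inner_le_norm _ _)
  by_cases h0 : ‖q η‖ = 0
  · rw [h0]; positivity
  · have h4 : 0 < ‖q η‖ := lt_of_le_of_ne (norm_nonneg _) (Ne.symm h0)
    rw [sq] at h2
    exact le_of_mul_le_mul_right h2 h4

/-- matrix coefficients on `ENalg0 η` are controlled by the projection -/
theorem NCE.en_bil (h : NCE M A η) {m n : H →L[ℂ] H} (hm : m ∈ ENalg0 M A η) (hn : n ∈ ENalg0 M A η) :
    ∃ C : ℝ, 0 ≤ C ∧ ∀ z ∈ M, ‖⟪n η, (z * m) η⟫_ℂ‖ ≤ C * ‖ENP M A η (z η)‖ := by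
  unfold ENalg0 ENspan at hm
  induction hm using Submodule.span_induction with
  | mem x hx =>
    obtain ⟨a, ha, u, hu, rfl⟩ := hx
    unfold ENalg0 ENspan at hn
    induction hn using Submodule.span_induction with
    | mem y hy =>
      obtain ⟨b, hb, w, hw, rfl⟩ := hy
      have haM := h.masa.le ha
      have hbM := h.masa.le hb
      have huM := hu.1.mem
      have hwM := hw.1.mem
      have hv : ENG M A η (w * star u) := en_gnb_mul h.masa hw (en_gnb_star hu)
      obtain ⟨-, C, hC, hC1, -⟩ := en_gnb_mul h.masa (en_gnb_star hv) hw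
      set v := w * star u with hvdef
      have hvM := hv.1.mem
      set c := v * a * star v with hc
      have hcA : c ∈ A := hv.1.conj a ha
      refine ⟨‖(b * w) η‖ * (‖c‖ * C), by positivity, fun z hz => ?_⟩
      have hzM : z * (a * u) ∈ M := mul_mem hz (mul_mem haM huM)
      have e1 : ⟪(b * w) η, (z * (a * u)) η⟫_ℂ
          = ⟪(b * w) η, (ENQ A η w (z * (a * u))) η⟫_ℂ := by
        have := h.en_ENQ_symm hw.1 hzM (mul_mem hbM hwM)
        rw [h.en_ENQ_self hw.1 hb] at this
        exact this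
      have hzv : z * star v ∈ M := mul_mem hz (star_mem hvM)
      have e2 : ENQ A η w (z * (a * u)) = c * (ENQ A η v z * (star v * w)) := by
        have f1 : z * (a * u) * star w = (z * star v) * c := by
          have f2 : star v = u * star w := by rw [hvdef, star_mul, star_star]
          have f3 : a * star v = star v * (v * a * star v) := by
            calc a * star v = a * (star v * v * star v) := by rw [en_gn_part' hv.1]
              _ = (a * (star v * v)) * star v := by simp only [mul_assoc]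
              _ = ((star v * v) * a) * star v := by rw [h.masa.comm a ha _ hv.1.src]
              _ = _ := by simp only [mul_assoc]
          calc z * (a * u) * star w = z * (a * (u * star w)) := by simp only [mul_assoc]
            _ = z * (a * star v) := by rw [f2]
            _ = z * (star v * (v * a * star v)) := by rw [f3]
            _ = _ := by rw [hc]; simp only [mul_assoc]
        unfold ENQ
        rw [f1, h.CE_mul_right hcA hzv, h.masa.comm _ (h.CE_mem hzv) _ hcA]
        have f4 := h.en_CE_right_proj hv.1 hz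
        calc c * CE A η (z * star v) * w
            = c * (CE A η (z * star v) * (v * star v)) * w := by rw [f4]
          _ = _ := by simp only [mul_assoc]
      rw [e1, e2]
      have hQM : ENQ A η v z ∈ M := h.en_ENQ_mem hv.1 hz
      calc ‖⟪(b * w) η, (c * (ENQ A η v z * (star v * w))) η⟫_ℂ‖
          ≤ ‖(b * w) η‖ * ‖(c * (ENQ A η v z * (star v * w))) η‖ := norm_inner_le_norm _ _
        _ ≤ ‖(b * w) η‖ * (‖c‖ * (C * ‖ENP M A η (z η)‖)) := by
            refine mul_le_mul_of_nonneg_left ?_ (norm_nonneg _)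
            refine (c.le_opNorm _).trans (mul_le_mul_of_nonneg_left ?_ (norm_nonneg _))
            refine (hC1 _ hQM).trans (mul_le_mul_of_nonneg_left ?_ hC)
            exact h.en_ENQ_le hv hz
        _ = _ := by ring
    | zero => exact ⟨0, le_rfl, fun z _ => by simp⟩
    | add x y _ _ hx hy =>
      obtain ⟨C, hC, h1⟩ := hx
      obtain ⟨D, hD, h2⟩ := hy
      refine ⟨C + D, by positivity, fun z hz => ?_⟩
      rw [add_apply, inner_add_left, add_mul]
      exact (norm_add_le _ _).trans (add_le_add (h1 z hz) (h2 z hz))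
    | smul c x _ hx =>
      obtain ⟨C, hC, h1⟩ := hx
      refine ⟨‖c‖ * C, by positivity, fun z hz => ?_⟩
      rw [smul_apply, inner_smul_left, norm_mul, mul_assoc]
      have : ‖(starRingEnd ℂ) c‖ = ‖c‖ := by simp
      rw [this]
      exact mul_le_mul_of_nonneg_left (h1 z hz) (norm_nonneg _)
  | zero => exact ⟨0, le_rfl, fun z _ => by simp⟩
  | add x y _ _ hx hy =>
    obtain ⟨C, hC, h1⟩ := hx
    obtain ⟨D, hD, h2⟩ := hy
    refine ⟨C + D, by positivity, fun z hz => ?_⟩
    rw [mul_add, add_apply, inner_add_right, add_mul]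
    exact (norm_add_le _ _).trans (add_le_add (h1 z hz) (h2 z hz))
  | smul c x _ hx =>
    obtain ⟨C, hC, h1⟩ := hx
    refine ⟨‖c‖ * C, by positivity, fun z hz => ?_⟩
    rw [mul_smul_comm, smul_apply, inner_smul_right, norm_mul, mul_assoc]
    exact mul_le_mul_of_nonneg_left (h1 z hz) (norm_nonneg _)

end

end Crest.Agent.R109
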