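import Crest.Agent.R109.EN3

/-!
# Row 109: the normaliser part `x₁ = E_N(x)` of a self-adjoint element, elementary construction
(part 4: Kaplansky and the limit)
-/

set_option autoImplicit false
set_option linter.unusedSectionVars false
set_option linter.style.haveILetI false
set_option linter.unusedVariables false

namespace Crest.Agent.R109

open scoped InnerProductSpace
open ContinuousLinearMap Crest.Agent.R121 Crest.Agent.R124 Filter Topology

universe u

variable {H : Type u} [NormedAddCommGroup H] [InnerProductSpace ℂ H] [CompleteSpace H]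

section
variable {M : VonNeumannAlgebra H} {A : StarSubalgebra ℂ (H →L[ℂ] H)} {η : H}

/-- `ENalg0` as a star subalgebra -/
def ENalg (h : NCE M A η) : StarSubalgebra ℂ (H →L[ℂ] H) where
  carrier := ENalg0 M A η
  mul_mem' := fun ha hb => ENalg0_mul h.masa ha hb
  add_mem' := fun ha hb => add_mem ha hb
  algebraMap_mem' := fun r => h.en_A_le_alg (A.algebraMap_mem r)
  star_mem' := fun ha => ENalg0_star h.masa ha

/-- the compression of `x` -/
noncomputable def ENT (M : VonNeumannAlgebra H) (A : StarSubalgebra ℂ (H →L[ℂ] H)) (η : H)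
    (x : H →L[ℂ] H) : H →L[ℂ] H := ENP M A η * x * ENP M A η

lemma ENT_apply {x m : H →L[ℂ] H} (hm : m ∈ ENalg0 M A η) :
    ENT M A η x (m η) = ENP M A η (x (m η)) := by
  change ENP M A η (x (ENP M A η (m η))) = _
  rw [ENP_apply hm]

/-- strong convergence of the approximants on `ENalg0 η` -/
theorem NCE.en_tendsto (h : NCE M A η) {x : H →L[ℂ] H} (hx : x ∈ M) {Y : ℕ → H →L[ℂ] H}
    (hY : ∀ k, Y k ∈ ENalg0 M A η) (hYs : ∀ k, star (Y k) = Y k)
    (hlim : Tendsto (fun k => ENP M A η (x η) - Y k η) atTop (𝓝 0))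
    {m : H →L[ℂ] H} (hm : m ∈ ENalg0 M A η) :
    Tendsto (fun k => Y k (m η)) atTop (𝓝 (ENT M A η x (m η))) := by
  obtain ⟨C, hC, hCb⟩ := h.en_right_alg hm
  have hYM : ∀ k, Y k ∈ M := fun k => ENalg0_le h.masa (hY k)
  have hYη : Tendsto (fun k => Y k η) atTop (𝓝 (ENP M A η (x η))) := by
    have := (tendsto_const_nhds (x := ENP M A η (x η))).sub hlim
    simpa using this
  -- Cauchy
  have hcau : CauchySeq (fun k => Y k (m η)) := by
    have h1 : CauchySeq (fun k => Y k η) := hYη.cauchySeq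
    rw [Metric.cauchySeq_iff] at h1 ⊢
    intro ε hε
    obtain ⟨N, hN⟩ := h1 (ε / (C + 1)) (by positivity)
    refine ⟨N, fun a ha b hb => ?_⟩
    have h2 := hN a ha b hb
    rw [dist_eq_norm] at h2 ⊢
    have h3 := hCb (Y a - Y b) (sub_mem (hYM a) (hYM b))
    have e1 : ((Y a - Y b) * m) η = Y a (m η) - Y b (m η) := rfl
    have e2 : (Y a - Y b) η = Y a η - Y b η := rfl
    rw [e1, e2] at h3
    calc ‖Y a (m η) - Y b (m η)‖ ≤ C * ‖Y a η - Y b η‖ := h3
      _ ≤ (C + 1) * ‖Y a η - Y b η‖ := by nlinarith [norm_nonneg (Y a η - Y b η)]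
      _ < (C + 1) * (ε / (C + 1)) := mul_lt_mul_of_pos_left h2 (by positivity)
      _ = ε := by field_simp
  obtain ⟨L, hL⟩ := cauchySeq_tendsto_of_complete hcau
  have hPL : ENP M A η L = L := by
    refine tendsto_nhds_unique (((ENP M A η).continuous.tendsto L).comp hL) ?_
    refine hL.congr fun k => ?_
    exact (ENP_apply (ENalg0_mul h.masa (hY k) hm)).symm
  have hPT : ENP M A η (ENT M A η x (m η)) = ENT M A η x (m η) := by
    have : ENP M A η * ENP M A η = ENP M A η := ENP_proj.isIdempotentElem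
    rw [ENT_apply hm]
    exact congrArg (fun R : H →L[ℂ] H => R (x (m η))) this
  have hkey : L - ENT M A η x (m η) = 0 := by
    apply ENP_ext
    · rw [map_sub, hPL, hPT]
    · intro n hn
      rw [inner_sub_right, ENT_apply hm, ENP_inner_left hn, sub_eq_zero]
      obtain ⟨D, hD, hDb⟩ := h.en_bil hm hn
      have h1 : Tendsto (fun k => ⟪n η, ((x - Y k) * m) η⟫_ℂ) atTop (𝓝 0) := by
        rw [tendsto_zero_iff_norm_tendsto_zero]
        have h2 : Tendsto (fun k => D * ‖ENP M A η (x η) - Y k η‖) atTop (𝓝 0) := by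
          have := (tendsto_norm_zero.comp hlim).const_mul D
          simpa using this
        refine squeeze_zero (fun k => norm_nonneg _) (fun k => ?_) h2
        have h3 := hDb (x - Y k) (sub_mem hx (hYM k))
        have e1 : ENP M A η ((x - Y k) η) = ENP M A η (x η) - Y k η := by
          rw [sub_apply, map_sub, ENP_apply (hY k)]
        rwa [e1] at h3
      have h4 : Tendsto (fun k => ⟪n η, ((x - Y k) * m) η⟫_ℂ) atTop
          (𝓝 (⟪n η, x (m η)⟫_ℂ - ⟪n η, L⟫_ℂ)) := by
        have h5 : Tendsto (fun k => x (m η) - Y k (m η)) atTop (𝓝 (x (m η) - L)) :=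
          tendsto_const_nhds.sub hL
        have h6 : Tendsto (fun k => ⟪n η, x (m η) - Y k (m η)⟫_ℂ) atTop
            (𝓝 ⟪n η, x (m η) - L⟫_ℂ) := Filter.Tendsto.inner tendsto_const_nhds h5
        rw [inner_sub_right] at h6
        exact h6
      exact (sub_eq_zero.1 (tendsto_nhds_unique h4 h1)).symm
  rw [← sub_eq_zero.1 hkey]
  exact hL

lemma ENT_sa {x : H →L[ℂ] H} (hxs : star x = x) : star (ENT M A η x) = ENT M A η x := by
  have h1 : star (ENP M A η) = ENP M A η := ENP_proj.isSelfAdjoint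
  unfold ENT
  rw [star_mul, star_mul, h1, hxs, mul_assoc]

lemma ENT_P {x : H →L[ℂ] H} : ENT M A η x * ENP M A η = ENT M A η x := by
  have h1 : ENP M A η * ENP M A η = ENP M A η := ENP_proj.isIdempotentElem
  unfold ENT
  rw [mul_assoc, h1]

lemma P_ENT {x : H →L[ℂ] H} : ENP M A η * ENT M A η x = ENT M A η x := by
  have h1 : ENP M A η * ENP M A η = ENP M A η := ENP_proj.isIdempotentElem
  unfold ENT
  rw [← mul_assoc, ← mul_assoc, h1]

lemma norm_ENT_le {x : H →L[ℂ] H} : ‖ENT M A η x‖ ≤ ‖x‖ := by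
  have h1 : ‖ENP M A η‖ ≤ 1 := by
    refine ContinuousLinearMap.opNorm_le_bound _ zero_le_one fun ζ => ?_
    have := norm_proj_le (ENP_proj (M := M) (A := A) (η := η)) ζ
    rw [one_mul]
    exact le_of_sq_le_sq this (norm_nonneg _)
  unfold ENT
  calc ‖ENP M A η * x * ENP M A η‖ ≤ ‖ENP M A η‖ * ‖x‖ * ‖ENP M A η‖ := by
        refine (norm_mul_le _ _).trans (mul_le_mul_of_nonneg_right (norm_mul_le _ _) (norm_nonneg _))
    _ ≤ 1 * ‖x‖ * 1 := by gcongr
    _ = ‖x‖ := by ring

/-- finite range approximation with norm bound -/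
theorem NCE.en_kap (h : NCE M A η) {x : H →L[ℂ] H} (hx : x ∈ M) (hxs : star x = x) {κ : ℝ}
    (hκ : 0 < κ) : ∃ y ∈ ENalg0 M A η, IsSelfAdjoint y ∧ ‖y‖ ≤ ‖x‖ ∧ ‖ENP M A η (x η) - y η‖ < κ := by
  have happ : ∀ k : ℕ, ∃ Y ∈ ENalg0 M A η, star Y = Y ∧
      ‖ENP M A η (x η) - Y η‖ ≤ 1 / ((k : ℝ) + 1) := fun k =>
    h.en_approx hx hxs (by positivity)
  choose Y hY hYs hYk using happ
  have hlim : Tendsto (fun k => ENP M A η (x η) - Y k η) atTop (𝓝 0) := by
    rw [tendsto_zero_iff_norm_tendsto_zero]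
    exact squeeze_zero (fun k => norm_nonneg _) hYk tendsto_one_div_add_atTop_nhds_zero_nat
  have hten := fun m (hm : m ∈ ENalg0 M A η) => h.en_tendsto hx hY hYs hlim hm
  set T := ENT M A η x with hT
  have hTs : star T = T := ENT_sa hxs
  have hTP : T * ENP M A η = T := ENT_P
  have hPT : ENP M A η * T = T := P_ENT
  have hPP : ENP M A η * ENP M A η = ENP M A η := ENP_proj.isIdempotentElem
  have hc : ∀ s : H →L[ℂ] H, s * ENP M A η = ENP M A η * s →
      (∀ n ∈ ENalg h, n * ENP M A η * s = s * n * ENP M A η) → T * s = s * T := by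
    intro s hsP hs
    -- on `ENalg0 η`
    have hW : ∀ m ∈ ENalg0 M A η, (T * s) (m η) = (s * T) (m η) := by
      intro m hm
      rw [← sub_eq_zero]
      have a1 : ENP M A η ((T * s) (m η)) = (T * s) (m η) := by
        have : ENP M A η * (T * s) = T * s := by rw [← mul_assoc, hPT]
        exact congrArg (fun R : H →L[ℂ] H => R (m η)) this
      have a2 : ENP M A η ((s * T) (m η)) = (s * T) (m η) := by
        have : ENP M A η * (s * T) = s * T := by
          rw [← mul_assoc, ← hsP, mul_assoc, hPT]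
        exact congrArg (fun R : H →L[ℂ] H => R (m η)) this
      apply ENP_ext
      · rw [map_sub, a1, a2]
      · intro n hn
        rw [inner_sub_right, sub_eq_zero]
        have b1 : Tendsto (fun k => ⟪n η, Y k (s (m η))⟫_ℂ) atTop (𝓝 ⟪n η, (T * s) (m η)⟫_ℂ) := by
          have c1 : ∀ k, ⟪n η, Y k (s (m η))⟫_ℂ = ⟪Y k (n η), s (m η)⟫_ℂ := by
            intro k
            conv_rhs => rw [← hYs k, star_eq_adjoint, adjoint_inner_left]
          have c2 : ⟪n η, (T * s) (m η)⟫_ℂ = ⟪T (n η), s (m η)⟫_ℂ := by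
            conv_rhs => rw [← hTs, star_eq_adjoint, adjoint_inner_left]
            rfl
          rw [c2]
          simp only [c1]
          exact Filter.Tendsto.inner (hten n hn) tendsto_const_nhds
        have b2 : Tendsto (fun k => ⟪n η, Y k (s (m η))⟫_ℂ) atTop (𝓝 ⟪n η, (s * T) (m η)⟫_ℂ) := by
          have c1 : ∀ k, Y k (s (m η)) = s (Y k (m η)) := by
            intro k
            have d1 := hs (Y k) (hY k)
            have d2 : s (m η) = ENP M A η (s (m η)) := by
              have : s (ENP M A η (m η)) = ENP M A η (s (m η)) :=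
                congrArg (fun R : H →L[ℂ] H => R (m η)) hsP
              rw [← this, ENP_apply hm]
            have d3 : (Y k * ENP M A η * s) (m η) = (s * Y k * ENP M A η) (m η) := by rw [d1]
            have d4 : Y k (ENP M A η (s (m η))) = s (Y k (ENP M A η (m η))) := d3
            rw [← d2, ENP_apply hm] at d4
            exact d4
          simp only [c1]
          exact Filter.Tendsto.inner tendsto_const_nhds
            (((s.continuous).tendsto _).comp (hten m hm))
        exact tendsto_nhds_unique b1 b2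
    have hW2 : (T * s - s * T) * ENP M A η = 0 := by
      unfold ENP
      apply mul_cproj_eq_zero
      rintro _ ⟨m, hm, rfl⟩
      change (T * s) (m η) - (s * T) (m η) = 0
      rw [hW m hm, sub_self]
    have e1 : (T * s) * ENP M A η = T * s := by rw [mul_assoc, hsP, ← mul_assoc, hTP]
    have e2 : (s * T) * ENP M A η = s * T := by rw [mul_assoc, hTP]
    rw [sub_mul, e1, e2] at hW2
    exact sub_eq_zero.1 hW2
  obtain ⟨y, hy, hys, hyn, hyd⟩ := kaplansky_rel (ENalg h) (ENP M A η) ENP_proj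
    (fun n hn => h.ENP_comm hn) T hTs hTP hc (m := 1) (fun _ => η)
    (fun _ => by
      have := ENP_apply (M := M) (A := A) (η := η) (m := 1) (h.en_A_le_alg (one_mem A))
      simpa using this) hκ
  refine ⟨y, hy, hys, hyn.trans norm_ENT_le, ?_⟩
  have h1 := hyd 0
  have h2 : T η = ENP M A η (x η) := by
    have := ENT_apply (M := M) (A := A) (η := η) (x := x) (m := 1) (h.en_A_le_alg (one_mem A))
    simpa using this
  rwa [h2] at h1

/-- **the normaliser part** -/
theorem NCE.exists_EN (h : NCE M A η) {x : H →L[ℂ] H} (hx : x ∈ M) (hxs : IsSelfAdjoint x)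
    (hn : ‖x‖ ≤ 1) : ∃ x₁ ∈ M, IsSelfAdjoint x₁ ∧ ‖x₁‖ ≤ 1 ∧
      (∀ m ∈ ENalg0 M A η, ⟪m η, (x - x₁) η⟫_ℂ = 0) ∧
      ∀ κ : ℝ, 0 < κ → ∃ x' ∈ ENalg0 M A η, IsSelfAdjoint x' ∧ ‖x'‖ ≤ 1 ∧ ‖(x₁ - x') η‖ ≤ κ := by
  have happ : ∀ k : ℕ, ∃ y ∈ ENalg0 M A η, IsSelfAdjoint y ∧ ‖y‖ ≤ ‖x‖ ∧
      ‖ENP M A η (x η) - y η‖ < 1 / ((k : ℝ) + 1) := fun k =>
    h.en_kap hx hxs (by positivity)
  choose Y hY hYs hYn hYk using happ
  have hYM : ∀ k, Y k ∈ M := fun k => ENalg0_le h.masa (hY k)
  have hlim : Tendsto (fun k => ENP M A η (x η) - Y k η) atTop (𝓝 0) := by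
    rw [tendsto_zero_iff_norm_tendsto_zero]
    exact squeeze_zero (fun k => norm_nonneg _) (fun k => (hYk k).le)
      tendsto_one_div_add_atTop_nhds_zero_nat
  have hYη : Tendsto (fun k => Y k η) atTop (𝓝 (ENP M A η (x η))) := by
    have := (tendsto_const_nhds (x := ENP M A η (x η))).sub hlim
    simpa using this
  obtain ⟨L, hLM, hLn, hL⟩ := strong_lim M h.sep hYM hYn
    (cauchy_map_iff_exists_tendsto.2 ⟨_, hYη⟩)
  have hLη : L η = ENP M A η (x η) := tendsto_nhds_unique (hL η) hYη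
  refine ⟨L, hLM, ?_, hLn.trans hn, ?_, ?_⟩
  · -- self-adjoint
    rw [isSelfAdjoint_iff]
    ext ζ
    apply ext_inner_left ℂ
    intro ξ
    rw [star_eq_adjoint, adjoint_inner_right]
    have h1 : Tendsto (fun k => ⟪Y k ξ, ζ⟫_ℂ) atTop (𝓝 ⟪L ξ, ζ⟫_ℂ) :=
      Filter.Tendsto.inner (hL ξ) tendsto_const_nhds
    have h2 : Tendsto (fun k => ⟪ξ, Y k ζ⟫_ℂ) atTop (𝓝 ⟪ξ, L ζ⟫_ℂ) :=
      Filter.Tendsto.inner tendsto_const_nhds (hL ζ)
    refine tendsto_nhds_unique h1 (h2.congr fun k => ?_)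
    conv_rhs => rw [← (hYs k).star_eq, star_eq_adjoint, adjoint_inner_left]
  · intro m hm
    rw [sub_apply, inner_sub_right, hLη, ENP_inner_left hm, sub_self]
  · intro κ hκ
    obtain ⟨k, hk⟩ := exists_nat_one_div_lt hκ
    refine ⟨Y k, hY k, hYs k, (hYn k).trans hn, ?_⟩
    rw [sub_apply, hLη]
    exact (hYk k).le.trans hk.le

end

end Crest.Agent.R109
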