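import Crest.Agent.R109.EN4
import Crest.Agent.R109.DecompOf

/-!
# Row 109: the normaliser part, final form `ENProp`
-/

set_option autoImplicit false
set_option linter.unusedSectionVars false

namespace Crest.Agent.R109

open scoped InnerProductSpace
open ContinuousLinearMap

universe u

section
variable {H : Type u} [NormedAddCommGroup H] [InnerProductSpace ℂ H] [CompleteSpace H]
variable {M : VonNeumannAlgebra H} {A : StarSubalgebra ℂ (H →L[ℂ] H)} {η : H}

lemma NCE.en_mem_iff (h : NCE M A η) {m : H →L[ℂ] H} : m ∈ ENalg0 M A η ↔ m ∈ N0 M A η := by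
  constructor
  · intro hm
    unfold ENalg0 ENspan at hm
    induction hm using Submodule.span_induction with
    | mem x hx =>
      obtain ⟨a, ha, u, ⟨hu, C, hC, h1, h2⟩, rfl⟩ := hx
      have hd1 : Dom M η u C := h1
      have hd2 : Dom M η (star u) C := h2
      exact N0.mul_mem' (N0.of_A ha) (N0.of_GN h hu hd1.bdom' hd2.bdom')
    | zero => exact zero_mem _
    | add x y _ _ hx hy => exact add_mem hx hy
    | smul c x _ hx => exact Submodule.smul_mem _ _ hx
  · intro hm
    unfold N0 at hm
    induction hm using Submodule.span_induction with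
    | mem x hx =>
      obtain ⟨a, ha, w, rfl⟩ := hx
      obtain ⟨C, hC⟩ := w.dom
      obtain ⟨D, hD⟩ := (w⁻¹).dom
      rw [UN.op_inv] at hD
      refine ENspan_mul_mem' ha ⟨w.gn, max (|C| + 1) (|D| + 1), by positivity, fun y hy => ?_,
        fun y hy => ?_⟩
      · exact (hC.dom' y hy).trans (mul_le_mul_of_nonneg_right (le_max_left _ _) (norm_nonneg _))
      · exact (hD.dom' y hy).trans (mul_le_mul_of_nonneg_right (le_max_right _ _) (norm_nonneg _))
    | zero => exact zero_mem _
    | add x y _ _ hx hy => exact add_mem hx hy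
    | smul c x _ hx => exact Submodule.smul_mem _ _ hx

end

/-- **projection onto the banded part** -/
theorem en_prop : ENProp.{u} := by
  intro H _ _ _ M A η h x hx hxs hn
  obtain ⟨x₁, h1, h2, h3, h4, h5⟩ := h.exists_EN hx hxs hn
  refine ⟨x₁, h1, h2, h3, fun m hm => h4 m (h.en_mem_iff.2 hm), fun κ hκ => ?_⟩
  obtain ⟨x', g1, g2, g3, g4⟩ := h5 κ hκ
  exact ⟨x', h.en_mem_iff.1 g1, g2, g3, g4⟩

end Crest.Agent.R109
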