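import Mathlib
import Crest.Agent.R109.Defs

/-!
# Row 109, ExistsQ, part 1: spectral cuts and simple function approximation
-/

set_option autoImplicit false
set_option linter.unusedSectionVars false

namespace Crest.Agent.R109

open scoped InnerProductSpace
open ContinuousLinearMap Crest.Agent.R121 Crest.Agent.R124

universe u

variable {H : Type u} [NormedAddCommGroup H] [InnerProductSpace ℂ H] [CompleteSpace H]

lemma rp_commQ {b T : H →L[ℂ] H} (hb : star b = b) (h : T * b = b * T) :
    T * rp b = rp b * T := by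
  have hs : star (rp b) = rp b := (rp_proj b).isSelfAdjoint
  have key : ∀ S : H →L[ℂ] H, S * b = b * S → rp b * S * rp b = S * rp b := by
    intro S hS
    have h0 : (1 - rp b) * S * rp b = 0 := by
      apply mul_rp_eq_zero
      rw [mul_assoc, hS, ← mul_assoc, sub_mul, one_mul, rp_mul_self, sub_self, zero_mul]
    rw [sub_mul, one_mul, sub_mul, sub_eq_zero] at h0
    exact h0.symm
  have h1 := key T h
  have h' : star T * b = b * star T := by
    have := congrArg star h
    rw [star_mul, star_mul, hb] at this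
    exact this.symm
  have h2 := congrArg star (key (star T) h')
  rw [star_mul, star_mul, star_mul, star_star, hs] at h2
  rw [← h1, mul_assoc]
  exact h2

section Tr

variable {a : H →L[ℂ] H} (ha : 0 ≤ a)
include ha

lemma tr_comm {T : H →L[ℂ] H} (h : T * a = a * T) (t : ℝ) : T * tr a t = tr a t * T := by
  have h1 : Commute a T := h.symm
  exact (h1.cfc_real _).symm.eq

lemma tr_diff_le_one (t : ℝ) {δ : ℝ} (hδ : 0 < δ) :
    tr a t - tr a (t + δ) ≤ algebraMap ℝ (H →L[ℂ] H) δ := by
  have hsa : IsSelfAdjoint a := ha.isSelfAdjoint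
  rw [tr_diff ha]
  refine cfc_le_algebraMap _ _ _ ?_ (by fun_prop) hsa
  intro s _
  rcases le_total (s - t) 0 with h | h
  · rw [max_eq_right h, max_eq_right (by linarith)]; linarith
  · rw [max_eq_left h]
    have := le_max_left (s - (t + δ)) 0
    linarith

end Tr

/-- an operator supported by the projection `q` and bounded by `δ` -/
lemma le_smul_of_supp {G q : H →L[ℂ] H} {δ : ℝ} (hq : IsStarProjection q) (hG : G ≤ algebraMap ℝ _ δ)
    (h1 : q * G * q = G) : G ≤ δ • q := by
  have hs : star q = q := hq.isSelfAdjoint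
  have := star_left_conjugate_le_conjugate hG q
  rw [hs, h1, Algebra.algebraMap_eq_smul_one, mul_smul_comm, smul_mul_assoc, mul_one,
    hq.isIdempotentElem.eq] at this
  exact this

lemma smul_le_of_mul {G p : H →L[ℂ] H} {δ : ℝ} (hp : IsStarProjection p) (hG : 0 ≤ G)
    (h1 : G * p = δ • p) : δ • p ≤ G := by
  have hs : star p = p := hp.isSelfAdjoint
  have hGs : star G = G := hG.isSelfAdjoint
  have hpp : p * p = p := hp.isIdempotentElem
  have h2 : p * G = δ • p := by
    have := congrArg star h1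
    rwa [star_mul, hGs, star_smul, hs, star_trivial] at this
  have h3 : G - δ • p = star (1 - p) * G * (1 - p) := by
    rw [star_sub, star_one, hs]
    have : (1 - p) * G * (1 - p) = G - G * p - p * G + p * (G * p) := by noncomm_ring
    rw [this, h1, h2, mul_smul_comm, hpp]
    abel
  rw [← sub_nonneg, h3]
  exact star_left_conjugate_nonneg hG _

/-- simple function approximation of a positive operator by its spectral projections -/
theorem exists_simple {a : H →L[ℂ] H} (ha : 0 ≤ a) {δ : ℝ} (hδ : 0 < δ) :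
    ∃ (n : ℕ) (q : Fin n → H →L[ℂ] H), (∀ k, IsStarProjection (q k)) ∧
      (∀ T, T * a = a * T → ∀ k, T * q k = q k * T) ∧
      (∀ g : H →L[ℂ] H, g * a = 0 → ∀ k, g * q k = 0) ∧
      δ • ∑ k, q k ≤ a ∧ a ≤ δ • ∑ k, q k + algebraMap ℝ _ δ := by
  obtain ⟨n, hn⟩ := exists_nat_ge (‖a‖ / δ)
  have hn' : ‖a‖ ≤ (n + 1 : ℕ) * δ := by
    have h0 : ‖a‖ ≤ n * δ := (div_le_iff₀ hδ).1 hn
    push_cast
    nlinarith
  set b : ℕ → H →L[ℂ] H := fun k => tr a (k * δ) with hb
  have hbs : ∀ k : ℕ, b (k + 1) = tr a (k * δ + δ) := by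
    intro k
    simp only [hb]
    congr 1
    push_cast; ring
  have hb0 : b 0 = a := by simp only [hb]; simpa using tr_zero ha
  have hbn : b (n + 1) = 0 := tr_eq_zero ha hn'
  have hbsa : ∀ k, star (b k) = b k := fun k => tr_sa ha _
  set q : ℕ → H →L[ℂ] H := fun k => rp (b k) with hq
  have hqp : ∀ k, IsStarProjection (q k) := fun k => rp_proj _
  have hqa : ∀ k, ∀ g : H →L[ℂ] H, g * a = 0 → g * q k = 0 := by
    intro k g hg
    apply mul_rp_eq_zero
    induction k with
    | zero => rw [hb0, hg]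
    | succ k ih =>
      obtain ⟨c, hc⟩ := tr_factor ha (t := k * δ) hδ
      rw [hbs, hc, ← mul_assoc]
      change g * b k * c = 0
      rw [ih, zero_mul]
  set G : ℕ → H →L[ℂ] H := fun k => b k - b (k + 1) with hG
  have hGdef : ∀ k, G k = tr a (k * δ) - tr a (k * δ + δ) := fun k => by
    simp only [hG]; rw [hbs]
  have hGs : ∀ k, star (G k) = G k := by
    intro k
    simp only [hG, star_sub, hbsa]
  have hG0 : ∀ k, 0 ≤ G k := fun k => by rw [hGdef]; exact tr_diff_nonneg ha _ hδ
  have hup : ∀ k, G k ≤ δ • q k := by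
    intro k
    have h1 : q k * G k = G k := by
      obtain ⟨c, hc⟩ := tr_factor ha (t := k * δ) hδ
      have e1 : b (k + 1) = b k * c := by rw [hbs, hc]
      have e2 : q k * b k = b k := rp_mul_self _
      simp only [hG]
      rw [mul_sub, e1, ← mul_assoc, e2]
    have h2 : G k * q k = G k := by
      have := congrArg star h1
      rwa [star_mul, hGs, (hqp k).isSelfAdjoint.star_eq] at this
    refine le_smul_of_supp (hqp k) ?_ (by rw [h1, h2])
    rw [hGdef]
    exact tr_diff_le_one ha _ hδ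
  have hlow : ∀ k, δ • q (k + 1) ≤ G k := by
    intro k
    refine smul_le_of_mul (hqp _) (hG0 k) ?_
    have h1 : G k * q (k + 1) = (δ : ℂ) • q (k + 1) := by
      apply mul_rp_of
      rw [hGdef, hbs]
      exact tr_diff_mul ha _ hδ
    rw [h1]
    exact Complex.coe_smul δ _
  have e1 : ∑ k ∈ Finset.range (n + 1), G k = a := by
    rw [Finset.sum_range_sub' b (n + 1), hb0, hbn, sub_zero]
  have hqn : q (n + 1) = 0 := by
    have : q (n + 1) = rp (0 : H →L[ℂ] H) := by simp only [hq, hbn]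
    rw [this]
    have h2 := mul_rp_eq_zero (B := (1 : H →L[ℂ] H)) (b := 0) (by simp)
    rwa [one_mul] at h2
  refine ⟨n + 1, fun k => q (k + 1), fun k => hqp _, ?_, fun g hg k => hqa _ g hg, ?_, ?_⟩
  · intro T hT k
    exact rp_commQ (hbsa _) (tr_comm ha hT _)
  · rw [Finset.smul_sum, Fin.sum_univ_eq_sum_range (fun k => δ • q (k + 1)) (n + 1)]
    conv_rhs => rw [← e1]
    exact Finset.sum_le_sum fun k _ => hlow k
  · rw [Finset.smul_sum, Fin.sum_univ_eq_sum_range (fun k => δ • q (k + 1)) (n + 1)]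
    conv_lhs => rw [← e1]
    calc ∑ k ∈ Finset.range (n + 1), G k ≤ ∑ k ∈ Finset.range (n + 1), δ • q k :=
          Finset.sum_le_sum fun k _ => hup k
      _ = ∑ k ∈ Finset.range n, δ • q (k + 1) + δ • q 0 := by rw [Finset.sum_range_succ']
      _ ≤ ∑ k ∈ Finset.range (n + 1), δ • q (k + 1) + algebraMap ℝ _ δ := by
          rw [Finset.sum_range_succ, hqn, smul_zero, add_zero]
          gcongr
          have h3 : q 0 ≤ 1 := (hqp 0).le_one
          have h4 := smul_le_smul_of_nonneg_left h3 hδ.le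
          rwa [← Algebra.algebraMap_eq_smul_one] at h4

/-- spectral cut -/
noncomputable def cut (a : H →L[ℂ] H) (t : ℝ) : H →L[ℂ] H := rp (tr a t)

lemma cut_proj (a : H →L[ℂ] H) (t : ℝ) : IsStarProjection (cut a t) := rp_proj _

lemma cut_mem {M : VonNeumannAlgebra H} {a : H →L[ℂ] H} (ha : a ∈ M) (t : ℝ) : cut a t ∈ M :=
  rp_mem M (cfc_mem M ha _)

lemma cut_comm {a T : H →L[ℂ] H} (ha : 0 ≤ a) (h : T * a = a * T) (t : ℝ) :
    T * cut a t = cut a t * T := rp_commQ (tr_sa ha _) (tr_comm ha h _)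

lemma cut_supp {a g : H →L[ℂ] H} (ha : 0 ≤ a) {t : ℝ} (ht : 0 < t) (h : g * a = 0) :
    g * cut a t = 0 := by
  apply mul_rp_eq_zero
  obtain ⟨c, hc⟩ := tr_factor ha (t := 0) ht
  rw [zero_add, tr_zero ha] at hc
  rw [hc, ← mul_assoc, h, zero_mul]

/-- `t • cut a t ≤ a` -/
lemma cut_le {a : H →L[ℂ] H} (ha : 0 ≤ a) {t : ℝ} (ht : 0 < t) : t • cut a t ≤ a := by
  have h0 : tr a 0 - tr a (0 + t) ≤ a := by
    rw [tr_zero ha, sub_le_self_iff]
    exact cfc_nonneg fun s _ => le_max_right _ _
  refine le_trans ?_ h0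
  refine smul_le_of_mul (cut_proj a t) (tr_diff_nonneg ha _ ht) ?_
  have h1 : (tr a 0 - tr a (0 + t)) * cut a t = (t : ℂ) • cut a t := by
    apply mul_rp_of
    have := tr_diff_mul ha 0 ht
    rwa [zero_add] at this ⊢
  rw [h1]
  exact Complex.coe_smul t _

/-- `a` is at most `t` off the cut -/
lemma norm_mul_one_sub_cut {a : H →L[ℂ] H} (ha : 0 ≤ a) {t : ℝ} (ht : 0 < t) :
    ‖a * (1 - cut a t)‖ ≤ t := by
  have h1 : tr a t * (1 - cut a t) = 0 := by
    have h2 : tr a t * cut a t = tr a t := by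
      have := congrArg star (rp_mul_self (tr a t))
      rw [star_mul, tr_sa ha] at this
      rw [← (cut_proj a t).isSelfAdjoint.star_eq]
      exact this
    rw [mul_sub, mul_one, h2, sub_self]
  have h3 : a * (1 - cut a t) = (tr a 0 - tr a (0 + t)) * (1 - cut a t) := by
    rw [sub_mul, zero_add, h1, sub_zero, tr_zero ha]
  rw [h3]
  have h4 : ‖tr a 0 - tr a (0 + t)‖ ≤ t := by
    have h5 := CStarAlgebra.norm_le_norm_of_nonneg_of_le (tr_diff_nonneg ha 0 ht)
      (tr_diff_le_one ha 0 ht)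
    refine h5.trans ?_
    rw [Algebra.algebraMap_eq_smul_one, norm_smul, Real.norm_of_nonneg ht.le]
    have : ‖(1 : H →L[ℂ] H)‖ ≤ 1 := ContinuousLinearMap.norm_id_le
    nlinarith
  have h6 : ‖(1 - cut a t : H →L[ℂ] H)‖ ≤ 1 := (cut_proj a t).one_sub.norm_le
  calc _ ≤ ‖tr a 0 - tr a (0 + t)‖ * ‖(1 - cut a t : H →L[ℂ] H)‖ := norm_mul_le _ _
    _ ≤ t * 1 := by gcongr
    _ = t := mul_one _

end Crest.Agent.R109
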