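import Crest.Agent.R109.ExQ1
import Crest.Agent.R109.Supp

/-!
# Row 109, ExistsQ, part 2: the normal part of a representation of a von Neumann algebra

For a representation `π` of `B(H)` on `K` the vectors `u` of `K` such that `y ↦ π y u` is
dominated on `M` by a vector of `H` form a closed subspace, which reduces `π(M)` and its commutant.
-/

set_option autoImplicit false
set_option linter.unusedSectionVars false
set_option linter.style.haveILetI false

namespace Crest.Agent.R109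

open scoped InnerProductSpace
open ContinuousLinearMap Crest.Agent.R121 Crest.Agent.R124

universe u v w

section Ext

variable {E K1 K2 : Type*} [AddCommGroup E] [Module ℂ E]
  [NormedAddCommGroup K1] [InnerProductSpace ℂ K1] [CompleteSpace K1]
  [NormedAddCommGroup K2] [InnerProductSpace ℂ K2] [CompleteSpace K2]

/-- extension of a densely defined operator, with intertwining -/
theorem exists_ext (f1 : E →ₗ[ℂ] K1) (f2 : E →ₗ[ℂ] K2) (C : ℝ) (h : ∀ x, ‖f2 x‖ ≤ C * ‖f1 x‖) :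
    ∃ W : K1 →L[ℂ] K2, (∀ x, W (f1 x) = f2 x) ∧
      ∀ (T1 : K1 →L[ℂ] K1) (T2 : K2 →L[ℂ] K2),
        (∀ x, ∃ y, f1 y = T1 (f1 x) ∧ f2 y = T2 (f2 x)) →
        (∀ x, ∃ y, f1 y = adjoint T1 (f1 x)) → ∀ v, W (T1 v) = T2 (W v) := by
  set V : Submodule ℂ K1 := (LinearMap.range f1).topologicalClosure with hV
  haveI : CompleteSpace V := (Submodule.isClosed_topologicalClosure _).completeSpace_coe
  have hVc : (V : Set K1) = closure (Set.range f1) := by
    rw [hV, Submodule.topologicalClosure_coe]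
    rfl
  have hmem : ∀ x, f1 x ∈ V := fun x =>
    Submodule.le_topologicalClosure _ (LinearMap.mem_range_self f1 x)
  set f1' : E →ₗ[ℂ] V := LinearMap.codRestrict V f1 hmem with hf1'
  have hcoe : ∀ x, ((f1' x : V) : K1) = f1 x := fun x => rfl
  have hdense : DenseRange f1' := by
    intro y
    have hy : (y : K1) ∈ closure (Set.range f1) := hVc ▸ y.2
    rw [mem_closure_iff_seq_limit] at hy ⊢
    obtain ⟨s, hs, hlim⟩ := hy
    choose t ht using hs
    refine ⟨fun n => f1' (t n), fun n => ⟨t n, rfl⟩, ?_⟩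
    rw [tendsto_subtype_rng]
    simpa [hcoe, ht] using! hlim
  have hbd : ∀ x, ‖f2 x‖ ≤ C * ‖f1' x‖ := h
  set U0 : V →L[ℂ] K2 := f2.extendOfNorm f1' with hU0
  have hU0a : ∀ x, U0 (f1' x) = f2 x := fun x =>
    LinearMap.extendOfNorm_eq hdense ⟨C, hbd⟩ x
  set W : K1 →L[ℂ] K2 := U0.comp V.orthogonalProjectionOnto with hW
  have hWV : ∀ y : V, W y = U0 y := by
    intro y
    change U0 (V.orthogonalProjectionOnto (y : K1)) = U0 y
    rw [Submodule.orthogonalProjectionOnto_mem_subspace_eq_self]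
  have hWp : ∀ v, V.starProjection v = 0 → W v = 0 := by
    intro v hv
    change U0 (V.orthogonalProjectionOnto v) = 0
    have : V.orthogonalProjectionOnto v = 0 := by
      apply Subtype.ext
      exact hv
    rw [this, map_zero]
  refine ⟨W, fun x => ?_, ?_⟩
  · rw [← hcoe, hWV, hU0a]
  · intro T1 T2 h1 h2 v
    have hV1 : ∀ y : V, W (T1 (y : K1)) = T2 (W (y : K1)) := by
      intro y
      refine hdense.induction_on (p := fun y : V => W (T1 (y : K1)) = T2 (W (y : K1))) y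
        (isClosed_eq (by fun_prop) (by fun_prop)) ?_
      intro x
      obtain ⟨x', e1, e2⟩ := h1 x
      rw [hWV, hU0a, hcoe, ← e1, ← e2, ← hcoe, hWV, hU0a]
    have hsp : V.starProjection (v - V.starProjection v) = 0 := by
      have h2 : V.starProjection (V.starProjection v) = V.starProjection v :=
        Submodule.starProjection_eq_self_iff.2 (Submodule.starProjection_apply_mem _ _)
      rw [map_sub, h2, sub_self]
    have e1 : W (T1 (v - V.starProjection v)) = 0 := by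
      apply hWp
      rw [Submodule.starProjection_apply_eq_zero_iff, Submodule.mem_orthogonal] at hsp ⊢
      intro y hy
      have hy' : y ∈ closure (Set.range f1) := hVc ▸ hy
      have hcl : IsClosed {z : K1 | ⟪z, T1 (v - V.starProjection v)⟫_ℂ = 0} :=
        isClosed_eq (by fun_prop) continuous_const
      refine closure_minimal ?_ hcl hy'
      rintro _ ⟨x, rfl⟩
      change ⟪f1 x, T1 (v - V.starProjection v)⟫_ℂ = 0
      rw [← adjoint_inner_left]
      obtain ⟨x', e'⟩ := h2 x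
      rw [← e']
      exact hsp _ (hmem x')
    have e2 : W (v - V.starProjection v) = 0 := hWp _ hsp
    have e3 : W (T1 (V.starProjection v)) = T2 (W (V.starProjection v)) :=
      hV1 ⟨V.starProjection v, Submodule.starProjection_apply_mem _ _⟩
    rw [map_sub, map_sub, sub_eq_zero] at e1
    rw [map_sub, sub_eq_zero] at e2
    rw [e1, e3, e2]

end Ext

variable {H : Type u} [NormedAddCommGroup H] [InnerProductSpace ℂ H] [CompleteSpace H]
variable {K : Type v} [NormedAddCommGroup K] [InnerProductSpace ℂ K] [CompleteSpace K]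
variable {L : Type w} [NormedAddCommGroup L] [InnerProductSpace ℂ L] [CompleteSpace L]
variable (M : VonNeumannAlgebra H)

/-- evaluation of a representation at a vector -/
noncomputable def ev (π : (H →L[ℂ] H) →⋆ₐ[ℂ] (K →L[ℂ] K)) (u : K) : ↥M.toStarSubalgebra →ₗ[ℂ] K where
  toFun y := π (y : H →L[ℂ] H) u
  map_add' x y := by simp
  map_smul' c x := by simp

lemma ev_apply (π : (H →L[ℂ] H) →⋆ₐ[ℂ] (K →L[ℂ] K)) (u : K) (y : ↥M.toStarSubalgebra) :
    ev M π u y = π (y : H →L[ℂ] H) u := rfl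

theorem exists_intertwiner (π : (H →L[ℂ] H) →⋆ₐ[ℂ] (K →L[ℂ] K))
    (ρ : (H →L[ℂ] H) →⋆ₐ[ℂ] (L →L[ℂ] L)) (u : K) (u' : L) (C : ℝ)
    (h : ∀ y ∈ M, ‖ρ y u'‖ ≤ C * ‖π y u‖) :
    ∃ W : K →L[ℂ] L, (∀ y ∈ M, W (π y u) = ρ y u') ∧ ∀ y ∈ M, ∀ v, W (π y v) = ρ y (W v) := by
  obtain ⟨W, h1, h2⟩ := exists_ext (ev M π u) (ev M ρ u') C (fun x => h x x.2)
  refine ⟨W, fun y hy => h1 ⟨y, hy⟩, fun y hy v => h2 (π y) (ρ y) ?_ ?_ v⟩
  · intro x
    refine ⟨⟨y * x, mul_mem hy x.2⟩, ?_, ?_⟩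
    · rw [ev_apply, ev_apply]
      simp
    · rw [ev_apply, ev_apply]
      simp
  · intro x
    refine ⟨⟨star y * x, mul_mem (star_mem hy) x.2⟩, ?_⟩
    rw [ev_apply, ev_apply, ← star_eq_adjoint, ← map_star]
    simp

/-- Radon--Nikodym: a dominated vector is equivalent to a vector -/
theorem exists_rn (π : (H →L[ℂ] H) →⋆ₐ[ℂ] (K →L[ℂ] K)) {u : K} {ζ : H}
    (h : ∀ y ∈ M, ‖π y u‖ ≤ ‖y ζ‖) : ∃ ζ' : H, ∀ y ∈ M, ‖π y u‖ = ‖y ζ'‖ := by
  obtain ⟨W, h1, h2⟩ := exists_intertwiner M (StarAlgHom.id ℂ (H →L[ℂ] H)) π ζ u 1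
    (fun y hy => by rw [one_mul]; exact h y hy)
  change ∀ y ∈ M, W (y ζ) = π y u at h1
  change ∀ y ∈ M, ∀ v, W (y v) = π y (W v) at h2
  set g : H →L[ℂ] H := (adjoint W).comp W with hg
  have hg0 : 0 ≤ g := by
    rw [ContinuousLinearMap.nonneg_iff_isPositive]
    exact isPositive_adjoint_comp_self W
  have hin : ∀ a b, ⟪g a, b⟫_ℂ = ⟪W a, W b⟫_ℂ := by
    intro a b
    change ⟪adjoint W (W a), b⟫_ℂ = _
    rw [adjoint_inner_left]
  have hgM : g ∈ M.commutant := by
    rw [VonNeumannAlgebra.mem_commutant_iff]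
    intro y hy
    ext a
    refine ext_inner_right ℂ fun b => ?_
    change ⟪y (g a), b⟫_ℂ = ⟪g (y a), b⟫_ℂ
    rw [hin, h2 y hy, ← adjoint_inner_right, hin, ← star_eq_adjoint, h2 _ (star_mem hy), map_star,
      star_eq_adjoint, adjoint_inner_right]
  set s := CFC.sqrt g with hs
  have hs0 : 0 ≤ s := CFC.sqrt_nonneg g
  have hss : s * s = g := CFC.sqrt_mul_sqrt_self g hg0
  have hsM : s ∈ M.commutant := by
    rw [hs, CFC.sqrt_eq_real_sqrt g hg0, cfcₙ_eq_cfc]
    exact cfc_mem M.commutant hgM _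
  refine ⟨s ζ, fun y hy => ?_⟩
  have e1 : y (s ζ) = s (y ζ) := by
    have := (VonNeumannAlgebra.mem_commutant_iff.1 hsM) y hy
    exact congrArg (fun F : H →L[ℂ] H => F ζ) this
  rw [e1, ← h1 y hy]
  have e2 : ‖s (y ζ)‖ ^ 2 = ‖W (y ζ)‖ ^ 2 := by
    have e3 : ⟪s (y ζ), s (y ζ)⟫_ℂ = ⟪W (y ζ), W (y ζ)⟫_ℂ := by
      have hsa : adjoint s = s := hs0.isSelfAdjoint
      rw [← hin, ← hss]
      conv_lhs => rw [← hsa, adjoint_inner_right, hsa]
      rfl
    rw [← inner_self_eq_norm_sq (𝕜 := ℂ), ← inner_self_eq_norm_sq (𝕜 := ℂ), e3]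
  exact ((pow_left_inj₀ (norm_nonneg _) (norm_nonneg _) two_ne_zero).1 e2).symm

end Crest.Agent.R109
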