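import Crest.Agent.R109.ExQ2

/-!
# Row 109, ExistsQ, part 3: the closed subspace of normal vectors
-/

set_option autoImplicit false
set_option linter.unusedSectionVars false
set_option linter.style.haveILetI false

namespace Crest.Agent.R109

open scoped InnerProductSpace Topology
open ContinuousLinearMap Crest.Agent.R121 Crest.Agent.R124 Filter

universe u v w

variable {H : Type u} [NormedAddCommGroup H] [InnerProductSpace ℂ H] [CompleteSpace H]
variable {K : Type v} [NormedAddCommGroup K] [InnerProductSpace ℂ K] [CompleteSpace K]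
variable {M : VonNeumannAlgebra H}

lemma comm_app {x T : H →L[ℂ] H} (hx : x ∈ M) (hT : T ∈ M.commutant) (v : H) :
    x (T v) = T (x v) := by
  have := congrArg (fun F : H →L[ℂ] H => F v) (commutant_comm M hx hT)
  exact this.symm

/-- infinitely many isometries with orthogonal ranges in the commutant -/
theorem exists_isoms (hA : Amp M) : ∃ J : ℕ → H →L[ℂ] H, (∀ n, J n ∈ M.commutant) ∧
    (∀ n, star (J n) * J n = 1) ∧ ∀ m n, m ≠ n → star (J m) * J n = 0 := by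
  obtain ⟨S, T, hS, hT, hSS, hTT, hST⟩ := hA
  have hTS : star T * S = 0 := by
    have := congrArg star hST
    rwa [star_mul, star_star, star_zero] at this
  have hpow : ∀ n, star (S ^ n) * S ^ n = 1 := by
    intro n
    induction n with
    | zero => simp
    | succ n ih =>
      rw [pow_succ', star_mul]
      calc star (S ^ n) * star S * (S * S ^ n) = star (S ^ n) * (star S * S) * S ^ n := by
            simp only [mul_assoc]
        _ = 1 := by rw [hSS, mul_one, ih]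
  have hlt : ∀ m n, m < n → star (S ^ m * T) * (S ^ n * T) = 0 := by
    intro m n hmn
    obtain ⟨k, rfl⟩ := Nat.exists_eq_add_of_lt hmn
    have e1 : S ^ (m + k + 1) = S ^ m * (S * S ^ k) := by
      rw [← pow_succ', ← pow_add, add_assoc]
    rw [e1, star_mul]
    calc star T * star (S ^ m) * (S ^ m * (S * S ^ k) * T)
        = star T * (star (S ^ m) * S ^ m) * (S * S ^ k * T) := by simp only [mul_assoc]
      _ = (star T * S) * (S ^ k * T) := by rw [hpow, mul_one]; simp only [mul_assoc]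
      _ = 0 := by rw [hTS, zero_mul]
  refine ⟨fun n => S ^ n * T, fun n => mul_mem (pow_mem hS n) hT, ?_, ?_⟩
  · intro n
    rw [star_mul]
    calc star T * star (S ^ n) * (S ^ n * T) = star T * (star (S ^ n) * S ^ n) * T := by
          simp only [mul_assoc]
      _ = 1 := by rw [hpow, mul_one, hTT]
  · intro m n hmn
    rcases lt_or_gt_of_ne hmn with h | h
    · exact hlt m n h
    · have := congrArg star (hlt n m h)
      rwa [star_mul, star_star, star_zero] at this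

lemma norm_star_isom {J : H →L[ℂ] H} (h : star J * J = 1) (v : H) : ‖star J v‖ ≤ ‖v‖ := by
  have h1 : ‖J‖ ≤ 1 := by
    have h2 : ‖star J * J‖ = ‖J‖ * ‖J‖ := CStarRing.norm_star_mul_self
    rw [h] at h2
    have h3 : ‖(1 : H →L[ℂ] H)‖ ≤ 1 := ContinuousLinearMap.norm_id_le
    nlinarith [norm_nonneg J]
  have h2 : ‖star J‖ ≤ 1 := by rwa [norm_star]
  calc ‖star J v‖ ≤ ‖star J‖ * ‖v‖ := le_opNorm _ _
    _ ≤ 1 * ‖v‖ := by gcongr
    _ = _ := one_mul _

/-- the normal vectors of a representation -/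
def Rs (hA : Amp M) (π : (H →L[ℂ] H) →⋆ₐ[ℂ] (K →L[ℂ] K)) : Submodule ℂ K where
  carrier := {u | ∃ ζ : H, ∀ y ∈ M, ‖π y u‖ ≤ ‖y ζ‖}
  add_mem' := by
    rintro u₁ u₂ ⟨ζ₁, h₁⟩ ⟨ζ₂, h₂⟩
    obtain ⟨J, hJ, hJJ, hJo⟩ := exists_isoms hA
    refine ⟨(2 : ℂ) • (J 0 ζ₁ + J 1 ζ₂), fun y hy => ?_⟩
    have e : ∀ n, star (J n) (y (J 0 ζ₁ + J 1 ζ₂)) = y (star (J n) (J 0 ζ₁ + J 1 ζ₂)) :=
      fun n => (comm_app hy (star_mem (hJ n)) _).symm
    have e0 : star (J 0) (J 0 ζ₁ + J 1 ζ₂) = ζ₁ := by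
      have f1 : star (J 0) (J 0 ζ₁) = (star (J 0) * J 0) ζ₁ := rfl
      have f2 : star (J 0) (J 1 ζ₂) = (star (J 0) * J 1) ζ₂ := rfl
      rw [map_add, f1, f2, hJJ, hJo 0 1 (by norm_num)]
      simp
    have e1 : star (J 1) (J 0 ζ₁ + J 1 ζ₂) = ζ₂ := by
      have f1 : star (J 1) (J 0 ζ₁) = (star (J 1) * J 0) ζ₁ := rfl
      have f2 : star (J 1) (J 1 ζ₂) = (star (J 1) * J 1) ζ₂ := rfl
      rw [map_add, f1, f2, hJJ, hJo 1 0 (by norm_num)]
      simp
    have n0 : ‖y ζ₁‖ ≤ ‖y (J 0 ζ₁ + J 1 ζ₂)‖ := by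
      rw [← e0, ← e 0, e0]
      exact norm_star_isom (hJJ 0) _
    have n1 : ‖y ζ₂‖ ≤ ‖y (J 0 ζ₁ + J 1 ζ₂)‖ := by
      rw [← e1, ← e 1, e1]
      exact norm_star_isom (hJJ 1) _
    calc ‖π y (u₁ + u₂)‖ ≤ ‖π y u₁‖ + ‖π y u₂‖ := by rw [map_add]; exact norm_add_le _ _
      _ ≤ ‖y ζ₁‖ + ‖y ζ₂‖ := add_le_add (h₁ y hy) (h₂ y hy)
      _ ≤ ‖y (J 0 ζ₁ + J 1 ζ₂)‖ + ‖y (J 0 ζ₁ + J 1 ζ₂)‖ := add_le_add n0 n1
      _ = _ := by
        rw [map_smul, norm_smul]
        norm_num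
        ring
  zero_mem' := ⟨0, fun y _ => by simp⟩
  smul_mem' := by
    rintro c u ⟨ζ, h⟩
    refine ⟨c • ζ, fun y hy => ?_⟩
    rw [map_smul, map_smul, norm_smul, norm_smul]
    exact mul_le_mul_of_nonneg_left (h y hy) (norm_nonneg _)

variable {hA : Amp M} {π : (H →L[ℂ] H) →⋆ₐ[ℂ] (K →L[ℂ] K)}

lemma mem_Rs {u : K} : u ∈ Rs hA π ↔ ∃ ζ : H, ∀ y ∈ M, ‖π y u‖ ≤ ‖y ζ‖ := Iff.rfl

lemma Rs_of_le {u : K} {ζ : H} (c : ℝ) (h : ∀ y ∈ M, ‖π y u‖ ≤ c * ‖y ζ‖) : u ∈ Rs hA π := by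
  refine ⟨((|c| : ℝ) : ℂ) • ζ, fun y hy => (h y hy).trans ?_⟩
  rw [map_smul, norm_smul, Complex.norm_real, Real.norm_eq_abs, abs_abs]
  exact mul_le_mul_of_nonneg_right (le_abs_self c) (norm_nonneg _)

lemma Rs_pi {b : H →L[ℂ] H} (hb : b ∈ M) {u : K} (hu : u ∈ Rs hA π) : π b u ∈ Rs hA π := by
  obtain ⟨ζ, h⟩ := hu
  refine ⟨b ζ, fun y hy => ?_⟩
  have h1 := h (y * b) (mul_mem hy hb)
  rw [map_mul] at h1
  exact h1

lemma Rs_comm {V : K →L[ℂ] K} (hV : ∀ y ∈ M, π y * V = V * π y) {u : K} (hu : u ∈ Rs hA π) :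
    V u ∈ Rs hA π := by
  obtain ⟨ζ, h⟩ := hu
  refine Rs_of_le (ζ := ζ) ‖V‖ fun y hy => ?_
  have h1 : π y (V u) = V (π y u) := congrArg (fun F : K →L[ℂ] K => F u) (hV y hy)
  rw [h1]
  exact (le_opNorm _ _).trans (mul_le_mul_of_nonneg_left (h y hy) (norm_nonneg _))

theorem Rs_isClosed : IsClosed (Rs hA π : Set K) := by
  refine isClosed_of_closure_subset fun u hu => ?_
  obtain ⟨J, hJ, hJJ, hJo⟩ := exists_isoms hA
  have hex : ∀ k : ℕ, ∃ r ∈ Rs hA π, ‖u - r‖ < (1 / 4 : ℝ) ^ k := by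
    intro k
    obtain ⟨r, hr, h⟩ := Metric.mem_closure_iff.1 hu ((1 / 4 : ℝ) ^ k) (by positivity)
    exact ⟨r, hr, by rwa [dist_eq_norm] at h⟩
  choose r hr hur using hex
  set d : ℕ → K := fun k => Nat.rec (r 0) (fun j _ => r (j + 1) - r j) k with hd
  have hd0 : d 0 = r 0 := rfl
  have hds : ∀ k, d (k + 1) = r (k + 1) - r k := fun k => rfl
  have hdR : ∀ k, d k ∈ Rs hA π := by
    intro k
    cases k with
    | zero => exact hr 0
    | succ k => rw [hds]; exact Submodule.sub_mem _ (hr _) (hr _)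
  have hsum : ∀ n, ∑ k ∈ Finset.range (n + 1), d k = r n := by
    intro n
    induction n with
    | zero => simp [hd0]
    | succ n ih => rw [Finset.sum_range_succ, ih, hds]; abel
  have hdn : ∀ k, ‖d (k + 1)‖ ≤ 2 * (1 / 4 : ℝ) ^ k := by
    intro k
    rw [hds]
    have e1 : r (k + 1) - r k = (u - r k) - (u - r (k + 1)) := by abel
    rw [e1]
    refine (norm_sub_le _ _).trans ?_
    have h1 := (hur k).le
    have h2 := (hur (k + 1)).le
    rw [pow_succ] at h2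
    have h3 : (0 : ℝ) ≤ (1 / 4 : ℝ) ^ k := by positivity
    linarith
  have hrn : ∀ k, ∃ ζ' : H, ∀ y ∈ M, ‖π y (d k)‖ = ‖y ζ'‖ := by
    intro k
    obtain ⟨ζ, h⟩ := hdR k
    exact exists_rn M π h
  choose ζ hζ using hrn
  have hζn : ∀ k, ‖ζ k‖ = ‖d k‖ := by
    intro k
    have := hζ k 1 (one_mem _)
    rw [map_one] at this
    exact this.symm
  have hJn : ∀ k v, ‖J k v‖ = ‖v‖ := by
    intro k v
    have h1 := norm_sq_of_fix (u := J k) (η := v) (by rw [hJJ]; rfl)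
    exact (pow_left_inj₀ (norm_nonneg _) (norm_nonneg _) two_ne_zero).1 h1
  have hsm : Summable fun k => ((2 : ℂ) ^ k) • J k (ζ k) := by
    rw [← summable_nat_add_iff 1]
    refine Summable.of_norm_bounded (g := fun k => 4 * (1 / 2 : ℝ) ^ k)
      ((summable_geometric_of_lt_one (by norm_num) (by norm_num)).mul_left 4) ?_
    intro k
    rw [norm_smul, hJn, hζn, norm_pow]
    have h1 := hdn k
    have h2 : ‖(2 : ℂ)‖ = 2 := by norm_num
    rw [h2]
    have h3 : (0 : ℝ) < 2 ^ (k + 1) := by positivity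
    calc (2 : ℝ) ^ (k + 1) * ‖d (k + 1)‖ ≤ 2 ^ (k + 1) * (2 * (1 / 4 : ℝ) ^ k) := by gcongr
      _ = 4 * (2 ^ k * (1 / 4 : ℝ) ^ k) := by ring
      _ = 4 * (1 / 2 : ℝ) ^ k := by rw [← mul_pow]; norm_num
  set η : H := ∑' k, ((2 : ℂ) ^ k) • J k (ζ k) with hη
  have hJη : ∀ k, star (J k) η = (2 : ℂ) ^ k • ζ k := by
    intro k
    rw [hη, ContinuousLinearMap.map_tsum _ hsm, tsum_eq_single k]
    · rw [map_smul]
      have : star (J k) (J k (ζ k)) = (star (J k) * J k) (ζ k) := rfl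
      rw [this, hJJ]
      rfl
    · intro m hm
      rw [map_smul]
      have : star (J k) (J m (ζ m)) = (star (J k) * J m) (ζ m) := rfl
      rw [this, hJo k m hm.symm]
      simp
  have hbound : ∀ y ∈ M, ∀ k, ‖π y (d k)‖ ≤ (1 / 2 : ℝ) ^ k * ‖y η‖ := by
    intro y hy k
    rw [hζ k y hy]
    have e1 : star (J k) (y η) = y (star (J k) η) := (comm_app hy (star_mem (hJ k)) _).symm
    have e2 : ‖star (J k) (y η)‖ = 2 ^ k * ‖y (ζ k)‖ := by
      rw [e1, hJη, map_smul, norm_smul, norm_pow]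
      norm_num
    have e3 := norm_star_isom (hJJ k) (y η)
    rw [e2] at e3
    have h3 : (0 : ℝ) < 2 ^ k := by positivity
    calc ‖y (ζ k)‖ = (1 / 2 : ℝ) ^ k * (2 ^ k * ‖y (ζ k)‖) := by
          rw [← mul_assoc, ← mul_pow]; norm_num
      _ ≤ _ := by gcongr
  have hlim : Tendsto r atTop (𝓝 u) := by
    rw [tendsto_iff_norm_sub_tendsto_zero]
    refine squeeze_zero (fun _ => norm_nonneg _) (fun n => ?_)
      (tendsto_pow_atTop_nhds_zero_of_lt_one (r := (1 / 4 : ℝ)) (by norm_num) (by norm_num))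
    rw [norm_sub_rev]
    exact (hur n).le
  refine Rs_of_le (ζ := η) 2 fun y hy => ?_
  have hlim2 : Tendsto (fun n => ‖π y (r n)‖) atTop (𝓝 ‖π y u‖) :=
    (((π y).continuous.tendsto u).comp hlim).norm
  refine le_of_tendsto hlim2 (Eventually.of_forall fun n => ?_)
  rw [← hsum n, map_sum]
  calc ‖∑ k ∈ Finset.range (n + 1), π y (d k)‖ ≤ ∑ k ∈ Finset.range (n + 1), ‖π y (d k)‖ :=
        norm_sum_le _ _
    _ ≤ ∑ k ∈ Finset.range (n + 1), (1 / 2 : ℝ) ^ k * ‖y η‖ :=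
        Finset.sum_le_sum fun k _ => hbound y hy k
    _ = (∑ k ∈ Finset.range (n + 1), (1 / 2 : ℝ) ^ k) * ‖y η‖ := by rw [Finset.sum_mul]
    _ ≤ 2 * ‖y η‖ := by
        gcongr
        exact sum_geometric_two_le _

/-- the projection onto the normal vectors -/
lemma cproj_Rs_mem (t : K) : cproj (Rs hA π) t ∈ Rs hA π := by
  have h := cproj_apply_mem (W := Rs hA π) t
  rw [Rs_isClosed.closure_eq] at h
  exact h

lemma cproj_Rs_pi {b : H →L[ℂ] H} (hb : b ∈ M) :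
    π b * cproj (Rs hA π) = cproj (Rs hA π) * π b := by
  refine cproj_comm (fun w hw => Rs_pi hb hw) (fun w hw => ?_)
  rw [← map_star]
  exact Rs_pi (star_mem hb) hw

lemma cproj_Rs_comm {V : K →L[ℂ] K} (hV : ∀ y ∈ M, π y * V = V * π y) :
    V * cproj (Rs hA π) = cproj (Rs hA π) * V := by
  refine cproj_comm (fun w hw => Rs_comm hV hw) (fun w hw => Rs_comm ?_ hw)
  intro y hy
  have := congrArg star (hV (star y) (star_mem hy))
  rw [star_mul, star_mul, map_star, star_star] at this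
  exact this.symm

end Crest.Agent.R109
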