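import Crest.Agent.R109.ExQ3

/-!
# Row 109, ExistsQ, part 4: without central vectors the functional is singular
-/

set_option autoImplicit false
set_option linter.unusedSectionVars false
set_option linter.style.haveILetI false

namespace Crest.Agent.R109

open scoped InnerProductSpace Topology
open ContinuousLinearMap Crest.Agent.R121 Crest.Agent.R124 Filter

universe u v w

variable {H : Type u} [NormedAddCommGroup H] [InnerProductSpace ℂ H] [CompleteSpace H]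
variable {K : Type v} [NormedAddCommGroup K] [InnerProductSpace ℂ K] [CompleteSpace K]
variable {M : VonNeumannAlgebra H} {A : StarSubalgebra ℂ (H →L[ℂ] H)}

section Quad

lemma re_inner_mono {a b : H →L[ℂ] H} (h : a ≤ b) (η : H) :
    (⟪a η, η⟫_ℂ).re ≤ (⟪b η, η⟫_ℂ).re := by
  have h1 := re_inner_nonneg (sub_nonneg.2 h) η
  rw [sub_apply, inner_sub_left, Complex.sub_re] at h1
  linarith

lemma re_inner_rsmul (δ : ℝ) (a : H →L[ℂ] H) (η : H) :
    (⟪(δ • a) η, η⟫_ℂ).re = δ * (⟪a η, η⟫_ℂ).re := by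
  have e : (δ • a) η = (δ : ℂ) • a η := (Complex.coe_smul δ (a η)).symm
  rw [e, inner_smul_left, Complex.conj_ofReal, Complex.re_ofReal_mul]

lemma re_inner_sum {ι : Type*} (s : Finset ι) (a : ι → H →L[ℂ] H) (η : H) :
    (⟪(∑ i ∈ s, a i) η, η⟫_ℂ).re = ∑ i ∈ s, (⟪a i η, η⟫_ℂ).re := by
  rw [sum_apply, sum_inner, Complex.re_sum]

lemma re_inner_one (η : H) : (⟪(1 : H →L[ℂ] H) η, η⟫_ℂ).re = ‖η‖ ^ 2 :=
  inner_self_eq_norm_sq (𝕜 := ℂ) η

lemma re_inner_algebraMap (δ : ℝ) (η : H) :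
    (⟪(algebraMap ℝ (H →L[ℂ] H) δ) η, η⟫_ℂ).re = δ * ‖η‖ ^ 2 := by
  rw [Algebra.algebraMap_eq_smul_one, re_inner_rsmul, re_inner_one]

lemma isStarProjection_map (π : (H →L[ℂ] H) →⋆ₐ[ℂ] (K →L[ℂ] K)) {p : H →L[ℂ] H}
    (hp : IsStarProjection p) : IsStarProjection (π p) := by
  refine ⟨?_, ?_⟩
  · change π p * π p = π p
    rw [← map_mul, hp.isIdempotentElem.eq]
  · change star (π p) = π p
    rw [← map_star, hp.isSelfAdjoint.star_eq]

lemma sum_isProj {ι : Type*} (F : Finset ι) (p : ι → H →L[ℂ] H)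
    (hp : ∀ i ∈ F, IsStarProjection (p i)) (ho : ∀ i ∈ F, ∀ j ∈ F, i ≠ j → p i * p j = 0) :
    IsStarProjection (∑ i ∈ F, p i) := by
  refine ⟨?_, ?_⟩
  · change (∑ i ∈ F, p i) * (∑ i ∈ F, p i) = _
    rw [Finset.sum_mul]
    refine Finset.sum_congr rfl fun i hi => ?_
    rw [Finset.mul_sum, Finset.sum_eq_single i]
    · exact (hp i hi).isIdempotentElem
    · intro j hj hji
      exact ho i hi j hj hji.symm
    · intro h; exact absurd hi h
  · change star (∑ i ∈ F, p i) = _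
    rw [star_sum]
    exact Finset.sum_congr rfl fun i hi => (hp i hi).isSelfAdjoint

end Quad

section Central

variable {π : (H →L[ℂ] H) →⋆ₐ[ℂ] (K →L[ℂ] K)}

/-- equal norms give equal functionals -/
lemma inner_of_norm {ω : K} {η : H} (h : ∀ y ∈ M, ‖π y ω‖ = ‖y η‖) {x : H →L[ℂ] H} (hx : x ∈ M) :
    ⟪ω, π x ω⟫_ℂ = ⟪η, x η⟫_ℂ := by
  have hI : ∀ c : ℂ, ‖ω + c • π x ω‖ = ‖η + c • x η‖ := by
    intro c
    have := h (1 + c • x) (add_mem (one_mem _) (M.toStarSubalgebra.smul_mem hx c))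
    simpa using this
  have h1 := hI 1
  have h2 := hI (-1)
  have h3 := hI (-RCLike.I)
  have h4 := hI RCLike.I
  rw [one_smul, one_smul] at h1
  rw [neg_one_smul, neg_one_smul, ← sub_eq_add_neg, ← sub_eq_add_neg] at h2
  rw [neg_smul, neg_smul, ← sub_eq_add_neg, ← sub_eq_add_neg] at h3
  rw [inner_eq_sum_norm_sq_div_four, inner_eq_sum_norm_sq_div_four, h1, h2, h3, h4]

/-- centrality for the projections gives centrality -/
theorem cvec_of_proj (hM : Masa M A) {η : H}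
    (h : ∀ e ∈ A, IsStarProjection e → ∀ x ∈ M, ⟪η, (e * x) η⟫_ℂ = ⟪η, (x * e) η⟫_ℂ) :
    CVec M A η := by
  set P : (H →L[ℂ] H) → Prop := fun a => ∀ x ∈ M, ⟪η, (a * x) η⟫_ℂ = ⟪η, (x * a) η⟫_ℂ with hP
  have hadd : ∀ a b, P a → P b → P (a + b) := by
    intro a b ha hb x hx
    rw [add_mul, mul_add, add_apply, add_apply, inner_add_right, inner_add_right, ha x hx, hb x hx]
  have hsmul : ∀ (c : ℂ) a, P a → P (c • a) := by
    intro c a ha x hx
    rw [smul_mul_assoc, mul_smul_comm, smul_apply, smul_apply, inner_smul_right, inner_smul_right,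
      ha x hx]
  have hsum : ∀ (n : ℕ) (q : Fin n → H →L[ℂ] H), (∀ k, P (q k)) → P (∑ k, q k) := by
    intro n q hq x hx
    rw [Finset.sum_mul, Finset.mul_sum, sum_apply,
      sum_apply, inner_sum, inner_sum]
    exact Finset.sum_congr rfl fun k _ => hq k x hx
  have h1 : P 1 := fun x hx => by rw [one_mul, mul_one]
  have hpos : ∀ a ∈ A, 0 ≤ a → P a := by
    intro a haA ha x hx
    have key : ∀ δ : ℝ, 0 < δ →
        ‖⟪η, (a * x) η⟫_ℂ - ⟪η, (x * a) η⟫_ℂ‖ ≤ δ * (2 * ‖x‖ * ‖η‖ ^ 2) := by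
      intro δ hδ
      obtain ⟨n, q, hqp, hqc, -, hl, hu⟩ := exists_simple ha hδ
      have hqA : ∀ k, q k ∈ A := by
        intro k
        apply hM.max
        · exact mem_of_commutant M _ fun T hT =>
            hqc T (commutant_comm M (hM.le haA) hT) k
        · intro b hb
          exact hqc b (hM.comm b hb a haA) k
      set s : H →L[ℂ] H := δ • ∑ k, q k with hs
      have hsP : P s := by
        have e : s = (δ : ℂ) • ∑ k, q k := (Complex.coe_smul δ _).symm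
        rw [e]
        exact hsmul _ _ (hsum _ _ fun k => h _ (hqA k) (hqp k))
      have hn : ‖a - s‖ ≤ δ := by
        have h5 := CStarAlgebra.norm_le_norm_of_nonneg_of_le (sub_nonneg.2 hl)
          (sub_le_iff_le_add'.2 hu)
        refine h5.trans ?_
        rw [Algebra.algebraMap_eq_smul_one, norm_smul, Real.norm_of_nonneg hδ.le]
        have : ‖(1 : H →L[ℂ] H)‖ ≤ 1 := ContinuousLinearMap.norm_id_le
        nlinarith
      have e1 : ⟪η, (a * x) η⟫_ℂ - ⟪η, (x * a) η⟫_ℂ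
          = ⟪η, ((a - s) * x - x * (a - s)) η⟫_ℂ := by
        have e2 := hsP x hx
        rw [sub_mul, mul_sub, sub_apply, sub_apply, sub_apply, inner_sub_right, inner_sub_right,
          inner_sub_right, e2]
        ring
      rw [e1]
      refine (norm_inner_le_norm _ _).trans ?_
      have e3 : ‖(a - s) * x - x * (a - s)‖ ≤ δ * (2 * ‖x‖) := by
        refine (norm_sub_le _ _).trans ?_
        have f1 : ‖(a - s) * x‖ ≤ δ * ‖x‖ :=
          (norm_mul_le _ _).trans (mul_le_mul_of_nonneg_right hn (norm_nonneg _))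
        have f2 : ‖x * (a - s)‖ ≤ ‖x‖ * δ :=
          (norm_mul_le _ _).trans (mul_le_mul_of_nonneg_left hn (norm_nonneg _))
        linarith
      calc ‖η‖ * ‖((a - s) * x - x * (a - s)) η‖
          ≤ ‖η‖ * (‖(a - s) * x - x * (a - s)‖ * ‖η‖) := by
            gcongr
            exact le_opNorm _ _
        _ ≤ ‖η‖ * ((δ * (2 * ‖x‖)) * ‖η‖) := by gcongr
        _ = _ := by ring
    rw [← sub_eq_zero, ← norm_eq_zero]
    refine le_antisymm ?_ (norm_nonneg _)
    refine le_of_forall_pos_le_add fun ε hε => ?_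
    rw [zero_add]
    set D : ℝ := 2 * ‖x‖ * ‖η‖ ^ 2 with hD
    have hD0 : 0 ≤ D := by positivity
    refine (key (ε / (D + 1)) (by positivity)).trans ?_
    rw [div_mul_eq_mul_div, div_le_iff₀ (by positivity)]
    nlinarith
  have hsa : ∀ a ∈ A, star a = a → P a := by
    intro a haA ha
    have hle : -(algebraMap ℝ (H →L[ℂ] H) ‖a‖) ≤ a :=
      IsSelfAdjoint.neg_algebraMap_norm_le_self (show IsSelfAdjoint a from ha)
    have h0 : 0 ≤ a + algebraMap ℝ (H →L[ℂ] H) ‖a‖ := by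
      have := sub_nonneg.2 hle
      rwa [sub_neg_eq_add] at this
    have e : algebraMap ℝ (H →L[ℂ] H) ‖a‖ = (‖a‖ : ℂ) • (1 : H →L[ℂ] H) := by
      rw [Algebra.algebraMap_eq_smul_one]
      exact (Complex.coe_smul ‖a‖ _).symm
    rw [e] at h0
    have h2 := hpos _ (add_mem haA (A.smul_mem (one_mem _) _)) h0
    have h3 := hadd _ _ h2 (hsmul (-(‖a‖ : ℂ)) 1 h1)
    have e4 : a + (‖a‖ : ℂ) • (1 : H →L[ℂ] H) + -(‖a‖ : ℂ) • (1 : H →L[ℂ] H) = a := by
      rw [neg_smul]; abel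
    rwa [e4] at h3
  intro a ha
  have e : a = (1 / 2 : ℂ) • (a + star a) + (-(Complex.I) / 2) • (Complex.I • (a - star a)) := by
    rw [smul_smul]
    have : (-(Complex.I) / 2) * Complex.I = 1 / 2 := by
      rw [div_mul_eq_mul_div, neg_mul, Complex.I_mul_I]; norm_num
    rw [this, ← smul_add]
    have : a + star a + (a - star a) = (2 : ℂ) • a := by rw [two_smul]; abel
    rw [this, smul_smul]
    norm_num
  rw [e]
  refine hadd _ _ (hsmul _ _ (hsa _ (add_mem ha (star_mem ha)) ?_))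
    (hsmul _ _ (hsa _ (A.smul_mem (sub_mem ha (star_mem ha)) _) ?_))
  · rw [star_add, star_star, add_comm]
  · rw [star_smul, star_sub, star_star, Complex.star_def, Complex.conj_I, neg_smul, ← smul_neg,
      neg_sub]

variable {hA : Amp M}

/-- without central vectors the normal part vanishes -/
theorem central_zero (hM : Masa M A) {z : H →L[ℂ] H} (hz : z ∈ A) (hNo : NoC M A z) {Ω : K}
    (hV : ∀ e ∈ A, IsStarProjection e → ∃ V : K →L[ℂ] K, star V = V ∧
      (∀ y ∈ M, π y * V = V * π y) ∧ V Ω = π e Ω)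
    (hzΩ : π z Ω = Ω) : cproj (Rs hA π) Ω = 0 := by
  set P := cproj (Rs hA π) with hP
  obtain ⟨ζ, hζ⟩ := cproj_Rs_mem (hA := hA) (π := π) Ω
  obtain ⟨η, hη⟩ := exists_rn M π hζ
  have hC : CVec M A η := by
    apply cvec_of_proj hM
    intro e he hep x hx
    obtain ⟨V, hVs, hVc, hVΩ⟩ := hV e he hep
    have heM : e ∈ M := hM.le he
    rw [← inner_of_norm hη (mul_mem heM hx), ← inner_of_norm hη (mul_mem hx heM), map_mul, map_mul]
    have h1 : π e (P Ω) = V (P Ω) := by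
      have f1 : π e (P Ω) = P (π e Ω) :=
        congrArg (fun F : K →L[ℂ] K => F Ω) (cproj_Rs_pi (hA := hA) (π := π) heM)
      have f2 : V (P Ω) = P (V Ω) :=
        congrArg (fun F : K →L[ℂ] K => F Ω) (cproj_Rs_comm (hA := hA) (π := π) hVc)
      rw [f1, f2, hVΩ]
    have hes : adjoint (π e) = π e := by
      rw [← star_eq_adjoint, ← map_star, hep.isSelfAdjoint.star_eq]
    have hVs' : adjoint V = V := hVs
    calc ⟪P Ω, π e (π x (P Ω))⟫_ℂ = ⟪π e (P Ω), π x (P Ω)⟫_ℂ := by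
          rw [← adjoint_inner_left, hes]
      _ = ⟪V (P Ω), π x (P Ω)⟫_ℂ := by rw [h1]
      _ = ⟪P Ω, V (π x (P Ω))⟫_ℂ := (adjoint_inner_right V _ _).symm.trans (by rw [hVs'])
      _ = ⟪P Ω, π x (V (P Ω))⟫_ℂ := by
          have : π x (V (P Ω)) = V (π x (P Ω)) :=
            congrArg (fun F : K →L[ℂ] K => F (P Ω)) (hVc x hx)
          rw [this]
      _ = ⟪P Ω, π x (π e (P Ω))⟫_ℂ := by rw [h1]
  have h0 : z η = 0 := hNo η hC
  have h1 : π (1 - z) (P Ω) = 0 := by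
    have f1 : π z (P Ω) = P (π z Ω) :=
      congrArg (fun F : K →L[ℂ] K => F Ω) (cproj_Rs_pi (hA := hA) (π := π) (hM.le hz))
    rw [map_sub, map_one, sub_apply, f1, hzΩ]
    simp
  have h2 := hη (1 - z) (sub_mem (one_mem _) (hM.le hz))
  rw [h1, norm_zero] at h2
  have h3 : (1 - z) η = η := by
    change η - z η = η
    rw [h0, sub_zero]
  rw [h3] at h2
  have h4 := hη 1 (one_mem _)
  rw [map_one] at h4
  change ‖P Ω‖ = ‖η‖ at h4
  rw [← h2, norm_eq_zero] at h4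
  exact h4

lemma rs_orth {Ω : K} (h : cproj (Rs hA π) Ω = 0) {u : K} (hu : u ∈ Rs hA π) : ⟪u, Ω⟫_ℂ = 0 := by
  have h1 : cproj (Rs hA π) u = u := cproj_of_mem hu
  have h2 : adjoint (cproj (Rs hA π)) = cproj (Rs hA π) := (cproj_proj _).isSelfAdjoint
  rw [← h1, ← h2, adjoint_inner_left, h, inner_zero_right]

/-- where `π(·)Ω` dominates a vector there is a normal part -/
theorem sing_step {Ω : K} (horth : ∀ u ∈ Rs hA π, ⟪u, Ω⟫_ℂ = 0) {g : H →L[ℂ] H} (hg : g ∈ M)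
    (hgp : IsStarProjection g) {ξ : H} {C : ℝ} (hC : 0 ≤ C)
    (h : ∀ q ∈ M, IsStarProjection q → g * q = q → ‖q ξ‖ ^ 2 ≤ C * ‖π q Ω‖ ^ 2) : g ξ = 0 := by
  have hgs : star g = g := hgp.isSelfAdjoint
  have hgg : g * g = g := hgp.isIdempotentElem
  have key : ∀ y ∈ M, ‖y (g ξ)‖ ^ 2 ≤ C * ‖π y (π g Ω)‖ ^ 2 := by
    intro y hy
    set a : H →L[ℂ] H := star (y * g) * (y * g) with ha
    have ha0 : 0 ≤ a := star_mul_self_nonneg _
    have haM : a ∈ M := mul_mem (star_mem (mul_mem hy hg)) (mul_mem hy hg)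
    have e1 : ‖y (g ξ)‖ ^ 2 = (⟪a ξ, ξ⟫_ℂ).re := (re_star_mul_self (y * g) ξ).symm
    have e2 : ‖π y (π g Ω)‖ ^ 2 = (⟪π a Ω, Ω⟫_ℂ).re := by
      rw [ha, map_mul, map_star, re_star_mul_self, map_mul]
      rfl
    have hδ : ∀ δ : ℝ, 0 < δ → ‖y (g ξ)‖ ^ 2 ≤ C * ‖π y (π g Ω)‖ ^ 2 + δ * ‖ξ‖ ^ 2 := by
      intro δ hδ
      obtain ⟨n, q, hqp, hqc, hqs, hl, hu⟩ := exists_simple ha0 hδ
      have hqM : ∀ k, q k ∈ M := fun k => mem_of_commutant M _ fun T hT =>
        hqc T (commutant_comm M haM hT) k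
      have hqg : ∀ k, g * q k = q k := by
        intro k
        have h0' : g * a = a := by
          rw [ha, star_mul, hgs]
          calc g * (g * star y * (y * g)) = (g * g) * star y * (y * g) := by
                simp only [mul_assoc]
            _ = _ := by rw [hgg]
        have h0 : (1 - g) * a = 0 := by
          rw [sub_mul, one_mul, h0', sub_self]
        have := hqs _ h0 k
        rw [sub_mul, one_mul, sub_eq_zero] at this
        exact this.symm
      have f1 : (⟪a ξ, ξ⟫_ℂ).re ≤ δ * ∑ k, ‖q k ξ‖ ^ 2 + δ * ‖ξ‖ ^ 2 := by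
        refine (re_inner_mono hu ξ).trans ?_
        rw [add_apply, inner_add_left, Complex.add_re, re_inner_rsmul, re_inner_sum,
          re_inner_algebraMap]
        simp only [re_inner_proj (hqp _)]
        exact le_rfl
      have f2 : δ * ∑ k, ‖π (q k) Ω‖ ^ 2 ≤ (⟪π a Ω, Ω⟫_ℂ).re := by
        have h5 : π (δ • ∑ k, q k) ≤ π a := OrderHomClass.mono π hl
        refine le_trans ?_ (re_inner_mono h5 Ω)
        have e5 : π (δ • ∑ k, q k) = δ • ∑ k, π (q k) := by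
          rw [← Complex.coe_smul, ← Complex.coe_smul, map_smul, map_sum]
        rw [e5, re_inner_rsmul, re_inner_sum]
        simp only [re_inner_proj (isStarProjection_map π (hqp _))]
        exact le_rfl
      rw [e1, e2]
      have f3 : ∑ k, ‖q k ξ‖ ^ 2 ≤ C * ∑ k, ‖π (q k) Ω‖ ^ 2 := by
        rw [Finset.mul_sum]
        exact Finset.sum_le_sum fun k _ => h _ (hqM k) (hqp k) (hqg k)
      calc (⟪a ξ, ξ⟫_ℂ).re ≤ δ * ∑ k, ‖q k ξ‖ ^ 2 + δ * ‖ξ‖ ^ 2 := f1
        _ ≤ δ * (C * ∑ k, ‖π (q k) Ω‖ ^ 2) + δ * ‖ξ‖ ^ 2 := by gcongr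
        _ = C * (δ * ∑ k, ‖π (q k) Ω‖ ^ 2) + δ * ‖ξ‖ ^ 2 := by ring
        _ ≤ _ := by gcongr
    refine le_of_forall_pos_le_add fun ε hε => ?_
    refine (hδ (ε / (‖ξ‖ ^ 2 + 1)) (by positivity)).trans ?_
    gcongr
    rw [div_mul_eq_mul_div, div_le_iff₀ (by positivity)]
    nlinarith [sq_nonneg ‖ξ‖]
  have key2 : ∀ y ∈ M, ‖(StarAlgHom.id ℂ (H →L[ℂ] H)) y (g ξ)‖ ≤ √C * ‖π y (π g Ω)‖ := by
    intro y hy
    have h1 := key y hy
    have h2 : (√C * ‖π y (π g Ω)‖) ^ 2 = C * ‖π y (π g Ω)‖ ^ 2 := by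
      rw [mul_pow, Real.sq_sqrt hC]
    rw [← h2] at h1
    exact (pow_le_pow_iff_left₀ (norm_nonneg _) (by positivity) two_ne_zero).1 h1
  obtain ⟨W, hW1, hW2⟩ := exists_intertwiner M π (StarAlgHom.id ℂ (H →L[ℂ] H)) (π g Ω) (g ξ) _ key2
  change ∀ y ∈ M, W (π y (π g Ω)) = y (g ξ) at hW1
  change ∀ y ∈ M, ∀ v, W (π y v) = y (W v) at hW2
  have hWg : W (π g Ω) = g ξ := by
    have := hW1 1 (one_mem _)
    rw [map_one] at this
    exact this
  have hadj : ∀ y ∈ M, ∀ ζ, π y (adjoint W ζ) = adjoint W (y ζ) := by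
    intro y hy ζ
    refine ext_inner_right ℂ fun v => ?_
    have h1 : adjoint (π y) = π (star y) := by rw [← star_eq_adjoint, map_star]
    rw [adjoint_inner_left, ← adjoint_inner_right, h1, adjoint_inner_left, hW2 _ (star_mem hy),
      star_eq_adjoint, adjoint_inner_right]
  have hu : adjoint W (g ξ) ∈ Rs hA π := by
    refine Rs_of_le (ζ := g ξ) ‖adjoint W‖ fun y hy => ?_
    rw [hadj y hy]
    exact le_opNorm _ _
  have h1 := horth _ hu
  rw [adjoint_inner_left] at h1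
  have h2 : ⟪g ξ, W Ω⟫_ℂ = ⟪g ξ, g ξ⟫_ℂ := by
    have h3 : g (g ξ) = g ξ := congrArg (fun F : H →L[ℂ] H => F ξ) hgg
    have hgs' : adjoint g = g := hgs
    conv_lhs => rw [← h3]
    rw [← hWg, hW2 g hg]
    conv_lhs => rw [← hgs', adjoint_inner_left, hgs']
  rw [h2, inner_self_eq_zero] at h1
  exact h1

/-- a large projection on which the functional is small -/
theorem exists_small {Ω : K} (horth : ∀ u ∈ Rs hA π, ⟪u, Ω⟫_ℂ = 0) {z : H →L[ℂ] H} (hz : z ∈ M)
    (hzp : IsStarProjection z) (ξ : H) {ε τ : ℝ} (hε : 0 < ε) (hτ : 0 < τ) :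
    ∃ q ∈ M, IsStarProjection q ∧ z * q = q ∧ ‖(z - q) ξ‖ < τ ∧ ‖π q Ω‖ ^ 2 ≤ ε * ‖ξ‖ ^ 2 := by
  classical
  obtain ⟨S, -, hS1, hS2, hS3⟩ := zorn_pair
    (fun p : H →L[ℂ] H => p ∈ M ∧ IsStarProjection p ∧ z * p = p ∧ ‖π p Ω‖ ^ 2 ≤ ε * ‖p ξ‖ ^ 2)
    (fun p q : H →L[ℂ] H => p * q = 0) ∅ (by simp) (by simp)
  have hOS : OrthSys S := by
    refine ⟨fun w hw => ?_, fun w hw w' hw' hne => ?_, fun w hw w' hw' hne => ?_⟩
    · rw [(hS1 w hw).2.1.isSelfAdjoint.star_eq, (hS1 w hw).2.1.isIdempotentElem.eq,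
        (hS1 w hw).2.1.isIdempotentElem.eq]
    · rw [(hS1 w hw).2.1.isSelfAdjoint.star_eq]
      exact hS2 w hw w' hw' hne
    · rw [(hS1 w' hw').2.1.isSelfAdjoint.star_eq]
      exact hS2 w hw w' hw' hne
  obtain ⟨G, hG⟩ := hOS.exists_sum
  obtain ⟨hGp, hGm⟩ := sum_proj hOS (fun q hq => (hS1 q hq).2.1) hG
  have hGs : star G = G := hGp.isSelfAdjoint
  have hzs : star z = z := hzp.isSelfAdjoint
  have hGM : G ∈ M := by
    apply mem_of_commutant
    intro T hT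
    ext v
    have h1 := (hG v).mapL T
    have h2 := hG (T v)
    have h3 : (fun w : S => T ((w : H →L[ℂ] H) v)) = fun w : S => (w : H →L[ℂ] H) (T v) := by
      funext w
      exact (comm_app (hS1 w w.2).1 hT v).symm
    rw [h3] at h1
    exact h1.unique h2
  have hzG : z * G = G := by
    have := sum_mul_eq_zero hG (z - 1) fun w hw => by
      rw [sub_mul, one_mul, (hS1 w hw).2.2.1, sub_self]
    rwa [sub_mul, one_mul, sub_eq_zero] at this
  have hGz : G * z = G := by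
    have := congrArg star hzG
    rwa [star_mul, hGs, hzs] at this
  have hgp : IsStarProjection (z - G) := by
    refine ⟨?_, ?_⟩
    · change (z - G) * (z - G) = z - G
      rw [sub_mul, mul_sub, mul_sub, hzG, hGz, hGp.isIdempotentElem.eq,
        hzp.isIdempotentElem.eq]
      abel
    · change star (z - G) = z - G
      rw [star_sub, hGs, hzs]
  have hgM : z - G ∈ M := sub_mem hz hGM
  have hgξ : (z - G) ξ = 0 := by
    refine sing_step horth hgM hgp (C := 1 / ε) (by positivity) ?_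
    intro q hq hqp hgq
    by_contra hcon
    push Not at hcon
    have hqs : star q = q := hqp.isSelfAdjoint
    have hzq : z * q = q := by
      rw [← hgq, ← mul_assoc, mul_sub, hzp.isIdempotentElem.eq, hzG]
    have hGq : G * q = 0 := by
      rw [← hgq, ← mul_assoc, mul_sub, hGz, hGp.isIdempotentElem.eq, sub_self, zero_mul]
    have hqG : q * G = 0 := by
      have := congrArg star hGq
      rwa [star_mul, hGs, hqs, star_zero] at this
    have hle : ‖π q Ω‖ ^ 2 ≤ ε * ‖q ξ‖ ^ 2 := by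
      rw [one_div, inv_mul_eq_div, div_lt_iff₀ hε] at hcon
      nlinarith
    have hmem : q ∈ S := by
      refine hS3 q ⟨hq, hqp, hzq, hle⟩ fun w hw => ⟨?_, ?_⟩
      · rw [← (hGm w hw).2, ← mul_assoc, hqG, zero_mul]
      · rw [← (hGm w hw).1, mul_assoc, hGq, mul_zero]
    have h0 : q = 0 := by
      rw [← (hGm q hmem).1, hqG]
    rw [h0] at hcon
    simp at hcon
  have hz' : z ξ = G ξ := by
    change z ξ - G ξ = 0 at hgξ
    exact sub_eq_zero.1 hgξ
  obtain ⟨F, hF⟩ : ∃ F : Finset S, ‖G ξ - ∑ w ∈ F, (w : H →L[ℂ] H) ξ‖ < τ := by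
    have h1 := hG ξ
    rw [HasSum, tendsto_iff_norm_sub_tendsto_zero] at h1
    obtain ⟨F, hF⟩ := (h1.eventually (gt_mem_nhds hτ)).exists
    exact ⟨F, by rwa [norm_sub_rev]⟩
  have hproj : IsStarProjection (∑ w ∈ F, (w : H →L[ℂ] H)) :=
    sum_isProj F _ (fun w _ => (hS1 w w.2).2.1)
      (fun w _ w' _ hne => hS2 w w.2 w' w'.2 fun h => hne (Subtype.ext h))
  refine ⟨∑ w ∈ F, (w : H →L[ℂ] H), sum_mem fun w _ => (hS1 w w.2).1, hproj, ?_, ?_, ?_⟩
  · rw [Finset.mul_sum]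
    exact Finset.sum_congr rfl fun w _ => (hS1 w w.2).2.2.1
  · rw [sub_apply, hz', sum_apply]
    exact hF
  · rw [← re_inner_proj (isStarProjection_map π hproj), map_sum, re_inner_sum]
    calc ∑ w ∈ F, (⟪π (w : H →L[ℂ] H) Ω, Ω⟫_ℂ).re = ∑ w ∈ F, ‖π (w : H →L[ℂ] H) Ω‖ ^ 2 :=
          Finset.sum_congr rfl fun w _ => re_inner_proj (isStarProjection_map π (hS1 w w.2).2.1) _
      _ ≤ ∑ w ∈ F, ε * ‖(w : H →L[ℂ] H) ξ‖ ^ 2 :=
          Finset.sum_le_sum fun w _ => (hS1 w w.2).2.2.2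
      _ = ε * ∑ w ∈ F, ‖(w : H →L[ℂ] H) ξ‖ ^ 2 := by rw [Finset.mul_sum]
      _ ≤ ε * ‖ξ‖ ^ 2 := by
          gcongr
          exact hOS.sum_norm_sq_le F ξ

end Central

end Crest.Agent.R109
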