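import Crest.Agent.R109.RedC

/-!
# Row 109: partitions of the masa, block diagonal norms, conditional expectation on a corner
-/

set_option autoImplicit false
set_option linter.unusedSectionVars false

namespace Crest.Agent.R109

open scoped InnerProductSpace
open ContinuousLinearMap Crest.Agent.R121 Crest.Agent.R124

universe u

variable {H : Type u} [NormedAddCommGroup H] [InnerProductSpace ℂ H] [CompleteSpace H]
variable {M : VonNeumannAlgebra H} {A : StarSubalgebra ℂ (H →L[ℂ] H)}

namespace Part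

variable {z : H →L[ℂ] H} {ι : Type*} [Fintype ι] {p : ι → H →L[ℂ] H}

lemma mul_z (h : Part A z p) (i : ι) : p i * z = p i := by
  classical
  rw [← h.sum, Finset.mul_sum, Finset.sum_eq_single i]
  · exact (h.proj i).isIdempotentElem
  · intro j _ hj
    exact h.orth i j hj.symm
  · intro hi
    exact absurd (Finset.mem_univ i) hi

lemma z_mul (h : Part A z p) (i : ι) : z * p i = p i := by
  classical
  rw [← h.sum, Finset.sum_mul, Finset.sum_eq_single i]
  · exact (h.proj i).isIdempotentElem
  · intro j _ hj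
    exact h.orth j i hj
  · intro hi
    exact absurd (Finset.mem_univ i) hi

lemma star (h : Part A z p) (i : ι) : Star.star (p i) = p i := (h.proj i).isSelfAdjoint

lemma z_mem (h : Part A z p) : z ∈ A := by
  rw [← h.sum]
  exact sum_mem (fun i _ => h.mem i)

/-- gluing two partitions -/
lemma append {z' : H →L[ℂ] H} {m n : ℕ} {p : Fin m → H →L[ℂ] H} {p' : Fin n → H →L[ℂ] H}
    (h : Part A z p) (h' : Part A z' p') (hz : z * z' = 0) (hz' : z' * z = 0) :
    Part A (z + z') (Fin.append p p') where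
  mem := by
    intro i
    refine Fin.addCases (fun j => ?_) (fun j => ?_) i
    · rw [Fin.append_left]; exact h.mem j
    · rw [Fin.append_right]; exact h'.mem j
  proj := by
    intro i
    refine Fin.addCases (fun j => ?_) (fun j => ?_) i
    · rw [Fin.append_left]; exact h.proj j
    · rw [Fin.append_right]; exact h'.proj j
  orth := by
    have e1 : ∀ j k, p j * p' k = 0 := by
      intro j k
      rw [← h.mul_z j, ← h'.z_mul k, mul_assoc, ← mul_assoc z, hz, zero_mul, mul_zero]
    have e2 : ∀ j k, p' k * p j = 0 := by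
      intro j k
      rw [← h'.mul_z k, ← h.z_mul j, mul_assoc, ← mul_assoc z', hz', zero_mul, mul_zero]
    intro i j
    refine Fin.addCases (fun i' => ?_) (fun i' => ?_) i
    · refine Fin.addCases (fun j' => ?_) (fun j' => ?_) j
      · intro hij
        rw [Fin.append_left, Fin.append_left]
        exact h.orth i' j' (fun hh => hij (by rw [hh]))
      · intro _
        rw [Fin.append_left, Fin.append_right]
        exact e1 i' j'
    · refine Fin.addCases (fun j' => ?_) (fun j' => ?_) j
      · intro _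
        rw [Fin.append_right, Fin.append_left]
        exact e2 j' i'
      · intro hij
        rw [Fin.append_right, Fin.append_right]
        exact h'.orth i' j' (fun hh => hij (by rw [hh]))
  sum := by
    rw [Fin.sum_univ_add]
    simp only [Fin.append_left, Fin.append_right]
    rw [h.sum, h'.sum]

/-- the partition with one element -/
lemma single {z : H →L[ℂ] H} (hz : z ∈ A) (hp : IsStarProjection z) :
    Part A z (fun _ : Fin 1 => z) where
  mem := fun _ => hz
  proj := fun _ => hp
  orth := fun i j hij => absurd (Subsingleton.elim i j) hij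
  sum := by simp

/-- padding by zero projections -/
lemma pad {z : H →L[ℂ] H} {m : ℕ} {p : Fin m → H →L[ℂ] H} (h : Part A z p) (n : ℕ) :
    Part A z (Fin.append p (fun _ : Fin n => 0)) := by
  have h0 : Part A (0 : H →L[ℂ] H) (fun _ : Fin n => (0 : H →L[ℂ] H)) :=
    ⟨fun _ => zero_mem _, fun _ => ⟨by simp [IsIdempotentElem], by simp [IsSelfAdjoint]⟩,
      fun _ _ _ => by simp, by simp⟩
  have := h.append h0 (by simp) (by simp)
  rwa [add_zero] at this

end Part

section Block

/-- norm of a block diagonal operator -/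
lemma norm_block {e f S T : H →L[ℂ] H} (he : IsStarProjection e) (hf : IsStarProjection f)
    (hef : e * f = 0) (hS : e * S = S) (hS' : S * e = S) (hT : f * T = T) (hT' : T * f = T)
    {c : ℝ} (hSc : ‖S‖ ≤ c) (hTc : ‖T‖ ≤ c) : ‖S + T‖ ≤ c := by
  have hc : 0 ≤ c := (norm_nonneg _).trans hSc
  have hes : Star.star e = e := he.isSelfAdjoint
  have hfs : Star.star f = f := hf.isSelfAdjoint
  refine opNorm_le_bound _ hc ?_
  intro v
  have horth : ∀ a b : H, ⟪e a, f b⟫_ℂ = 0 := by
    intro a b
    rw [← adjoint_inner_right, ← star_eq_adjoint, hes]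
    have : e (f b) = 0 := by
      have := congrArg (fun F : H →L[ℂ] H => F b) hef
      exact this
    rw [this, inner_zero_right]
  have pyth : ∀ a b : H, ⟪a, b⟫_ℂ = 0 → ‖a + b‖ ^ 2 = ‖a‖ ^ 2 + ‖b‖ ^ 2 := by
    intro a b hab
    have := norm_add_sq_eq_norm_sq_add_norm_sq_of_inner_eq_zero a b hab
    nlinarith [this]
  have h1 : S v = e (S v) := (congrArg (fun F : H →L[ℂ] H => F v) hS).symm
  have h2 : T v = f (T v) := (congrArg (fun F : H →L[ℂ] H => F v) hT).symm
  have h3 : ‖(S + T) v‖ ^ 2 = ‖S v‖ ^ 2 + ‖T v‖ ^ 2 := by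
    change ‖S v + T v‖ ^ 2 = _
    apply pyth
    rw [h1, h2]
    exact horth _ _
  have h4 : S v = S (e v) := (congrArg (fun F : H →L[ℂ] H => F v) hS').symm
  have h5 : T v = T (f v) := (congrArg (fun F : H →L[ℂ] H => F v) hT').symm
  have h6 : ‖e v‖ ^ 2 + ‖f v‖ ^ 2 ≤ ‖v‖ ^ 2 := by
    have h7 : ‖v‖ ^ 2 = ‖e v + f v‖ ^ 2 + ‖v - (e v + f v)‖ ^ 2 := by
      rw [← pyth]
      · congr 2
        abel
      · have hfe : f * e = 0 := by
          have := congrArg Star.star hef
          rwa [star_mul, hes, hfs, star_zero] at this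
        have a1 : ∀ a : H, e (f a) = 0 := fun a => congrArg (fun F : H →L[ℂ] H => F a) hef
        have a2 : ∀ a : H, f (e a) = 0 := fun a => congrArg (fun F : H →L[ℂ] H => F a) hfe
        have a3 : ∀ a : H, e (e a) = e a := fun a =>
          congrArg (fun F : H →L[ℂ] H => F a) he.isIdempotentElem.eq
        have a4 : ∀ a : H, f (f a) = f a := fun a =>
          congrArg (fun F : H →L[ℂ] H => F a) hf.isIdempotentElem.eq
        rw [inner_add_left]
        have b1 : ⟪e v, v - (e v + f v)⟫_ℂ = 0 := by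
          rw [← adjoint_inner_right, ← star_eq_adjoint, hes, map_sub, map_add, a3, a1, add_zero,
            sub_self, inner_zero_right]
        have b2 : ⟪f v, v - (e v + f v)⟫_ℂ = 0 := by
          rw [← adjoint_inner_right, ← star_eq_adjoint, hfs, map_sub, map_add, a4, a2, zero_add,
            sub_self, inner_zero_right]
        rw [b1, b2, add_zero]
    rw [h7, pyth _ _ (horth v v)]
    nlinarith [sq_nonneg ‖v - (e v + f v)‖]
  have h8 : ‖(S + T) v‖ ^ 2 ≤ (c * ‖v‖) ^ 2 := by
    rw [h3, h4, h5]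
    have i1 : ‖S (e v)‖ ≤ c * ‖e v‖ := (le_opNorm _ _).trans (by gcongr)
    have i2 : ‖T (f v)‖ ≤ c * ‖f v‖ := (le_opNorm _ _).trans (by gcongr)
    calc ‖S (e v)‖ ^ 2 + ‖T (f v)‖ ^ 2 ≤ (c * ‖e v‖) ^ 2 + (c * ‖f v‖) ^ 2 := by gcongr
      _ = c ^ 2 * (‖e v‖ ^ 2 + ‖f v‖ ^ 2) := by ring
      _ ≤ c ^ 2 * ‖v‖ ^ 2 := by gcongr
      _ = _ := by ring
  exact (pow_le_pow_iff_left₀ (norm_nonneg _) (by positivity) two_ne_zero).1 h8

lemma proj_norm_le_one {e : H →L[ℂ] H} (he : IsStarProjection e) : ‖e‖ ≤ 1 := he.norm_le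

end Block

/-- existence of the conditional expectation (helper271) -/
def HasE : Prop :=
  ∀ (H : Type u) [NormedAddCommGroup H] [InnerProductSpace ℂ H] [CompleteSpace H]
    (M : VonNeumannAlgebra H) (A : StarSubalgebra ℂ (H →L[ℂ] H)), Masa M A →
    ∀ η : H, CVec M A η → (∀ x ∈ M, x η = 0 → x = 0) →
    ∀ x ∈ M, IsSelfAdjoint x → ∃ a ∈ A, IsSelfAdjoint a ∧ ‖a‖ ≤ ‖x‖ ∧
      ∀ b ∈ A, ⟪η, (b * a) η⟫_ℂ = ⟪η, (b * x) η⟫_ℂ

/-- conditional expectation on the corner of an `A`-central vector -/
theorem exists_E (hE : HasE.{u}) (hM : Masa M A) {η : H} (hη : CVec M A η)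
    {x : H →L[ℂ] H} (hx : x ∈ M) (hsa : IsSelfAdjoint x) :
    ∃ a ∈ A, IsSelfAdjoint a ∧ ‖a‖ ≤ ‖x‖ ∧ vs M η * a = a ∧ a * vs M η = a ∧
      ∀ b ∈ A, ⟪η, (b * (x - a)) η⟫_ℂ = 0 := by
  set e := vs M η with he
  have hep : IsStarProjection e := vs_proj M η
  have heA : e ∈ A := hη.vs_mem hM
  have heM : e ∈ M := hM.le heA
  obtain ⟨K, iK1, iK2, iK3, J, h⟩ := exists_corner hep
  have inn : ∀ T : K →L[ℂ] K, ⟪adjoint J η, T (adjoint J η)⟫_ℂ = ⟪η, up J T η⟫_ℂ := by
    intro T
    rw [adjoint_inner_left]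
    rfl
  have heη : e η = η := vs_self M η
  have hC : CVec (cM J M) (cA J h A heA) (adjoint J η) := by
    intro a ha T hT
    rw [inn, inn, h.up_mul, h.up_mul]
    exact hη _ ha _ ((mem_cM h heM).1 hT)
  have hsep : ∀ T ∈ cM J M, T (adjoint J η) = 0 → T = 0 := by
    intro T hT hT0
    have h1 : up J T η = 0 := by
      rw [up_apply, hT0, map_zero]
    have h2 := mul_vs_eq_zero M ((mem_cM h heM).1 hT) h1
    rw [← he, h.up_e] at h2
    exact h.up_inj (h2.trans up_zero.symm)
  have hxM : dn J x ∈ cM J M := by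
    rw [mem_cM h heM, h.up_dn]
    exact mul_mem (mul_mem heM hx) heM
  have hxsa : IsSelfAdjoint (dn J x) := by
    change Star.star (dn J x) = dn J x
    rw [← dn_star, hsa.star_eq]
  obtain ⟨a, haA, hasa, han, hab⟩ := hE K (cM J M) (cA J h A heA) (cornerMasa h heA hM)
    (adjoint J η) hC hsep (dn J x) hxM hxsa
  refine ⟨up J a, haA, ?_, ?_, h.e_up a, h.up_e a, ?_⟩
  · change Star.star (up J a) = up J a
    rw [← up_star, hasa.star_eq]
  · exact (norm_up_le h.norm_le a).trans (han.trans (norm_dn_le h.norm_le x))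
  · intro b hb
    have hbe : b * e = e * b := hM.comm b hb e heA
    have hb' : dn J b ∈ cA J h A heA := by
      rw [mem_cA h heA, h.up_dn]
      exact mul_mem (mul_mem heA hb) heA
    have h1 := hab (dn J b) hb'
    rw [inn, inn, h.up_mul, h.up_mul, h.up_dn, h.up_dn] at h1
    have e1 : (e * b * e * up J a) η = (b * up J a) η := by
      rw [← hbe, mul_assoc b e e, hep.isIdempotentElem.eq, mul_assoc, h.e_up]
    have e2 : (e * b * e * (e * x * e)) η = (e * (b * x)) η := by
      have : e * b * e * (e * x * e) = e * (b * x) * e := by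
        calc e * b * e * (e * x * e) = e * b * (e * e) * (x * e) := by simp only [mul_assoc]
          _ = e * (b * e) * (x * e) := by rw [hep.isIdempotentElem.eq]; simp only [mul_assoc]
          _ = e * (e * b) * (x * e) := by rw [hbe]
          _ = (e * e) * (b * x) * e := by simp only [mul_assoc]
          _ = _ := by rw [hep.isIdempotentElem.eq]
      rw [this]
      change (e * (b * x)) (e η) = _
      rw [heη]
    rw [e1, e2] at h1
    have e3 : ⟪η, (e * (b * x)) η⟫_ℂ = ⟪η, (b * x) η⟫_ℂ := by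
      change ⟪η, e ((b * x) η)⟫_ℂ = _
      have hes : Star.star e = e := hep.isSelfAdjoint
      rw [← hes, star_eq_adjoint, adjoint_inner_right, heη]
    rw [e3] at h1
    rw [mul_sub, sub_apply, inner_sub_right, h1, sub_self]

end Crest.Agent.R109
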