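import Crest.Agent.R109.ExQ4
import Crest.Agent.R109.PartLib
import Crest.Agent.R121.WLim
import Crest.Agent.R124.GnsMap

/-!
# Row 109, ExistsQ, part 5: the limit functional along finite partitions of the masa
-/

set_option autoImplicit false
set_option linter.unusedSectionVars false
set_option linter.style.haveILetI false

namespace Crest.Agent.R109

open scoped InnerProductSpace Topology ComplexOrder
open ContinuousLinearMap Crest.Agent.R121 Crest.Agent.R124 Filter

universe u v w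

variable {H : Type u} [NormedAddCommGroup H] [InnerProductSpace ℂ H] [CompleteSpace H]
variable {M : VonNeumannAlgebra H} {A : StarSubalgebra ℂ (H →L[ℂ] H)}

section Refine

lemma proj_mul_proj {p q : H →L[ℂ] H} (hp : IsStarProjection p) (hq : IsStarProjection q)
    (h : p * q = q * p) : IsStarProjection (p * q) := by
  refine ⟨?_, ?_⟩
  · change p * q * (p * q) = p * q
    calc p * q * (p * q) = p * (q * p) * q := by simp only [mul_assoc]
      _ = (p * p) * (q * q) := by rw [← h]; simp only [mul_assoc]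
      _ = p * q := by rw [hp.isIdempotentElem.eq, hq.isIdempotentElem.eq]
  · change star (p * q) = p * q
    rw [star_mul, hp.isSelfAdjoint.star_eq, hq.isSelfAdjoint.star_eq, h]

/-- restriction of a partition to a projection of the masa -/
lemma Part.restrict (hM : Masa M A) {z : H →L[ℂ] H} {n : ℕ} {e : Fin n → H →L[ℂ] H}
    (he : Part A z e) {p : H →L[ℂ] H} (hp : p ∈ A) (hpp : IsStarProjection p) :
    Part A (z * p) (fun j => e j * p) where
  mem := fun j => mul_mem (he.mem j) hp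
  proj := fun j => proj_mul_proj (he.proj j) hpp (hM.comm _ (he.mem j) _ hp)
  orth := fun i j hij => by
    calc e i * p * (e j * p) = e i * (p * e j) * p := by simp only [mul_assoc]
      _ = e i * e j * p * p := by rw [← hM.comm _ (he.mem j) _ hp]; simp only [mul_assoc]
      _ = 0 := by rw [he.orth i j hij, zero_mul, zero_mul]
  sum := by rw [← Finset.sum_mul, he.sum]

lemma exists_refine (hM : Masa M A) {z : H →L[ℂ] H} {n : ℕ} {e : Fin n → H →L[ℂ] H}
    (he : Part A z e) {p : H →L[ℂ] H} (hp : p ∈ A) (hpp : IsStarProjection p) :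
    ∃ (n' : ℕ) (e' : Fin n' → H →L[ℂ] H), Part A z e' ∧ (∀ j, e' j * p = e' j ∨ e' j * p = 0) ∧
      ∀ r ∈ A, (∀ j, e j * r = e j ∨ e j * r = 0) → ∀ j, e' j * r = e' j ∨ e' j * r = 0 := by
  have hp1 : 1 - p ∈ A := sub_mem (one_mem _) hp
  have h1 := he.restrict hM hp hpp
  have h2 := he.restrict hM hp1 hpp.one_sub
  have hzA : z ∈ A := he.z_mem
  have hpz : p * z = z * p := hM.comm _ hp _ hzA
  have o1 : z * p * (z * (1 - p)) = 0 := by
    rw [mul_sub, mul_one, mul_sub]
    have e1 : z * p * (z * p) = z * p * z := by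
      calc z * p * (z * p) = z * (p * z) * p := by simp only [mul_assoc]
        _ = z * z * (p * p) := by rw [hpz]; simp only [mul_assoc]
        _ = z * (z * p) := by rw [hpp.isIdempotentElem.eq, mul_assoc]
        _ = z * p * z := by rw [mul_assoc z p z, hpz]
    rw [e1, sub_self]
  have o2 : z * (1 - p) * (z * p) = 0 := by
    have h3 : z * p * (z * (1 - p)) = z * (1 - p) * (z * p) :=
      hM.comm _ (mul_mem hzA hp) _ (mul_mem hzA hp1)
    rw [← h3, o1]
  have h3 := h1.append h2 o1 o2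
  have e3 : z * p + z * (1 - p) = z := by rw [mul_sub, mul_one]; abel
  rw [e3] at h3
  refine ⟨n + n, _, h3, ?_, ?_⟩
  · intro j
    refine Fin.addCases (fun i => ?_) (fun i => ?_) j
    · rw [Fin.append_left]
      left
      rw [mul_assoc, hpp.isIdempotentElem.eq]
    · rw [Fin.append_right]
      right
      rw [mul_assoc, sub_mul, one_mul, hpp.isIdempotentElem.eq, sub_self, mul_zero]
  · intro r hr h j
    refine Fin.addCases (fun i => ?_) (fun i => ?_) j
    · rw [Fin.append_left, mul_assoc, hM.comm _ hp _ hr, ← mul_assoc]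
      rcases h i with h | h
      · left; rw [h]
      · right; rw [h, zero_mul]
    · rw [Fin.append_right, mul_assoc, hM.comm _ hp1 _ hr, ← mul_assoc]
      rcases h i with h | h
      · left; rw [h]
      · right; rw [h, zero_mul]

lemma exists_part (hM : Masa M A) {z : H →L[ℂ] H} (hz : z ∈ A) (hzp : IsStarProjection z)
    (F : Finset {p : H →L[ℂ] H // p ∈ A ∧ IsStarProjection p}) :
    ∃ (n : ℕ) (e : Fin n → H →L[ℂ] H), Part A z e ∧
      ∀ p ∈ F, ∀ j, e j * (p : H →L[ℂ] H) = e j ∨ e j * (p : H →L[ℂ] H) = 0 := by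
  classical
  induction F using Finset.induction_on with
  | empty => exact ⟨1, _, Part.single hz hzp, by simp⟩
  | insert p F _ ih =>
    obtain ⟨n, e, he, h⟩ := ih
    obtain ⟨n', e', he', h1, h2⟩ := exists_refine hM he p.2.1 p.2.2
    refine ⟨n', e', he', ?_⟩
    intro q hq
    rcases Finset.mem_insert.1 hq with rfl | hq
    · exact h1
    · exact h2 q q.2.1 (h q hq)

end Refine

section Functional

lemma part_norm_le {z : H →L[ℂ] H} (hzp : IsStarProjection z) {n : ℕ} {e : Fin n → H →L[ℂ] H}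
    (he : Part A z e) (v : H) : ∑ j, ‖e j v‖ ^ 2 ≤ ‖v‖ ^ 2 := by
  have h1 : ∑ j, ‖e j v‖ ^ 2 = (⟪z v, v⟫_ℂ).re := by
    rw [← he.sum, re_inner_sum]
    exact Finset.sum_congr rfl fun j _ => (re_inner_proj (he.proj j) v).symm
  rw [h1, re_inner_proj hzp]
  exact norm_proj_le hzp v

lemma inner_block {e : H →L[ℂ] H} (he : IsStarProjection e) (y : H →L[ℂ] H) (v : H) :
    ⟪v, (e * y * e) v⟫_ℂ = ⟪e v, y (e v)⟫_ℂ := by
  have h1 : adjoint e = e := he.isSelfAdjoint
  conv_rhs => rw [← h1, adjoint_inner_left, h1]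
  rfl

lemma inner_blocks {n : ℕ} {e : Fin n → H →L[ℂ] H} (he : ∀ j, IsStarProjection (e j))
    (y : H →L[ℂ] H) (v : H) :
    ⟪v, (∑ j, e j * y * e j) v⟫_ℂ = ∑ j, ⟪e j v, y (e j v)⟫_ℂ := by
  rw [sum_apply, inner_sum]
  exact Finset.sum_congr rfl fun j _ => inner_block (he j) y v

lemma norm_inner_blocks {z : H →L[ℂ] H} (hzp : IsStarProjection z) {n : ℕ}
    {e : Fin n → H →L[ℂ] H} (he : Part A z e) (y : H →L[ℂ] H) (v : H) :
    ‖⟪v, (∑ j, e j * y * e j) v⟫_ℂ‖ ≤ ‖y‖ * ‖v‖ ^ 2 := by
  rw [inner_blocks he.proj]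
  calc ‖∑ j, ⟪e j v, y (e j v)⟫_ℂ‖ ≤ ∑ j, ‖⟪e j v, y (e j v)⟫_ℂ‖ := norm_sum_le _ _
    _ ≤ ∑ j, ‖y‖ * ‖e j v‖ ^ 2 := by
        refine Finset.sum_le_sum fun j _ => ?_
        refine (norm_inner_le_norm _ _).trans ?_
        have := y.le_opNorm (e j v)
        calc ‖e j v‖ * ‖y (e j v)‖ ≤ ‖e j v‖ * (‖y‖ * ‖e j v‖) := by gcongr
          _ = _ := by ring
    _ = ‖y‖ * ∑ j, ‖e j v‖ ^ 2 := by rw [Finset.mul_sum]
    _ ≤ _ := by
        gcongr
        exact part_norm_le hzp he v

theorem exists_functional (hM : Masa M A) {z : H →L[ℂ] H} (hz : z ∈ A) (hzp : IsStarProjection z)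
    (v : H) : ∃ φ : (H →L[ℂ] H) →ₚ[ℂ] ℂ,
      (∀ p ∈ A, IsStarProjection p → ∀ y, φ (p * y) = φ (y * p)) ∧
      ∀ y, ∀ ε : ℝ, 0 < ε → ∃ (n : ℕ) (e : Fin n → H →L[ℂ] H), Part A z e ∧
        ‖⟪v, (∑ j, e j * y * e j) v⟫_ℂ - φ y‖ < ε := by
  classical
  choose n e he hd using exists_part hM hz hzp
  set 𝒰 : Ultrafilter (Finset {p : H →L[ℂ] H // p ∈ A ∧ IsStarProjection p}) :=
    Ultrafilter.of atTop with h𝒰
  set f : (H →L[ℂ] H) → Finset {p : H →L[ℂ] H // p ∈ A ∧ IsStarProjection p} → ℂ :=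
    fun y F => ⟪v, (∑ j, e F j * y * e F j) v⟫_ℂ with hf
  have hb : ∀ y F, ‖f y F‖ ≤ ‖y‖ * ‖v‖ ^ 2 := fun y F => norm_inner_blocks hzp (he F) y v
  choose c hc _ using fun y => exists_lim_of_bdd 𝒰 (hb y)
  have hadd : ∀ y y', c (y + y') = c y + c y' := by
    intro y y'
    refine tendsto_nhds_unique (hc (y + y')) ?_
    refine ((hc y).add (hc y')).congr fun F => ?_
    simp only [hf, mul_add, add_mul, Finset.sum_add_distrib, add_apply, inner_add_right]
  have hsmul : ∀ (a : ℂ) y, c (a • y) = a • c y := by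
    intro a y
    refine tendsto_nhds_unique (hc (a • y)) ?_
    refine ((hc y).const_mul a).congr fun F => ?_
    simp only [hf, mul_smul_comm, smul_mul_assoc, ← Finset.smul_sum, smul_apply, inner_smul_right]
  have hpos : ∀ y, 0 ≤ y → 0 ≤ c y := by
    intro y hy
    have h1 : ∀ F, 0 ≤ f y F := by
      intro F
      simp only [hf]
      rw [inner_blocks (he F).proj]
      refine Finset.sum_nonneg fun j _ => ?_
      exact ((ContinuousLinearMap.nonneg_iff_isPositive y).1 hy).inner_nonneg_right _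
    rw [Complex.nonneg_iff]
    constructor
    · exact ge_of_tendsto' ((Complex.continuous_re.tendsto _).comp (hc y))
        fun F => (Complex.nonneg_iff.1 (h1 F)).1
    · refine (tendsto_nhds_unique ((Complex.continuous_im.tendsto _).comp (hc y))
        (tendsto_const_nhds.congr fun F => ?_)).symm
      exact (Complex.nonneg_iff.1 (h1 F)).2
  refine ⟨PositiveLinearMap.mk₀
    { toFun := c, map_add' := hadd, map_smul' := hsmul } hpos, ?_, ?_⟩
  · intro p hp hpp y
    change c (p * y) = c (y * p)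
    refine tendsto_nhds_unique_of_eventuallyEq (hc (p * y)) (hc (y * p)) ?_
    set p' : {p : H →L[ℂ] H // p ∈ A ∧ IsStarProjection p} := ⟨p, hp, hpp⟩ with hp'
    have h1 : ∀ᶠ F in (𝒰 : Filter (Finset {p : H →L[ℂ] H // p ∈ A ∧ IsStarProjection p})),
        {p'} ≤ F :=
      (Ultrafilter.of_le atTop) (eventually_ge_atTop ({p'} : Finset _))
    filter_upwards [h1] with F hF
    have h2 := hd F p' (Finset.singleton_subset_iff.1 hF)
    simp only [hf]
    congr 2
    refine Finset.sum_congr rfl fun j _ => ?_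
    have h3 : p * e F j = e F j * p := hM.comm _ hp _ ((he F).mem j)
    rcases h2 j with h | h
    · calc e F j * (p * y) * e F j = (e F j * p) * y * e F j := by simp only [mul_assoc]
        _ = e F j * y * (p * e F j) := by rw [h3, h]
        _ = _ := by simp only [mul_assoc]
    · calc e F j * (p * y) * e F j = (e F j * p) * y * e F j := by simp only [mul_assoc]
        _ = e F j * y * (p * e F j) := by rw [h3, h, zero_mul, zero_mul, mul_zero]
        _ = _ := by simp only [mul_assoc]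
  · intro y ε hε
    have h1 := hc y
    rw [tendsto_iff_norm_sub_tendsto_zero] at h1
    obtain ⟨F, hF⟩ := (h1.eventually (gt_mem_nhds hε)).exists
    exact ⟨n F, e F, he F, hF⟩

end Functional

section Gns

variable (φ : (H →L[ℂ] H) →ₚ[ℂ] ℂ)

lemma gns_coe (x : H →L[ℂ] H) (w : φ.PreGNS) :
    φ.gnsStarAlgHom x (w : φ.GNS) = ((φ.toPreGNS (x * φ.ofPreGNS w) : φ.PreGNS) : φ.GNS) :=
  φ.gnsNonUnitalStarAlgHom_apply_coe

lemma gns_vec (x : H →L[ℂ] H) :
    φ.gnsStarAlgHom x (gnsVec φ) = ((φ.toPreGNS x : φ.PreGNS) : φ.GNS) := by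
  rw [gnsVec, gns_coe, φ.ofPreGNS_toPreGNS, mul_one]

lemma norm_gns_proj {q : H →L[ℂ] H} (hq : IsStarProjection q) :
    ‖φ.gnsStarAlgHom q (gnsVec φ)‖ ^ 2 = (φ q).re := by
  rw [gns_vec, UniformSpace.Completion.norm_coe]
  have := φ.preGNS_norm_sq (φ.toPreGNS q)
  rw [φ.ofPreGNS_toPreGNS, hq.isSelfAdjoint.star_eq, hq.isIdempotentElem.eq] at this
  rw [← this]
  norm_cast

/-- right multiplication by a symmetry in the centralizer -/
noncomputable def preV (u : H →L[ℂ] H) (huu : u * u = 1) (hus : star u = u)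
    (hc : ∀ y, φ (u * y) = φ (y * u)) : φ.PreGNS →L[ℂ] φ.PreGNS :=
  LinearMap.mkContinuous
    { toFun := fun x => φ.toPreGNS (φ.ofPreGNS x * u)
      map_add' := fun x y => by simp [add_mul]
      map_smul' := fun c x => by simp } 1 (fun x => by
        rw [one_mul, ← sq_le_sq₀ (norm_nonneg _) (norm_nonneg _), ← Complex.real_le_real]
        push_cast
        rw [φ.preGNS_norm_sq, φ.preGNS_norm_sq]
        change φ (star (φ.ofPreGNS x * u) * (φ.ofPreGNS x * u)) ≤ _
        rw [star_mul, hus, mul_assoc, hc, mul_assoc, mul_assoc, huu, mul_one])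

lemma preV_apply (u : H →L[ℂ] H) (huu : u * u = 1) (hus : star u = u)
    (hc : ∀ y, φ (u * y) = φ (y * u)) (x : φ.PreGNS) :
    preV φ u huu hus hc x = φ.toPreGNS (φ.ofPreGNS x * u) := rfl

theorem exists_V {p : H →L[ℂ] H} (hp : IsStarProjection p) (hc : ∀ y, φ (p * y) = φ (y * p)) :
    ∃ V : φ.GNS →L[ℂ] φ.GNS, star V = V ∧
      (∀ y : H →L[ℂ] H, φ.gnsStarAlgHom y * V = V * φ.gnsStarAlgHom y) ∧
      V (gnsVec φ) = φ.gnsStarAlgHom p (gnsVec φ) := by
  set u : H →L[ℂ] H := 1 - (2 : ℂ) • p with hu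
  have hpp : p * p = p := hp.isIdempotentElem
  have huu : u * u = 1 := by
    rw [hu, sub_mul, mul_sub, mul_sub, one_mul, mul_one, one_mul, smul_mul_smul_comm, hpp]
    have : (2 : ℂ) * 2 = 4 := by norm_num
    rw [this]
    module
  have hus : star u = u := by
    rw [hu, star_sub, star_one, star_smul, hp.isSelfAdjoint.star_eq]
    congr 2
    simp
  have hcu : ∀ y, φ (u * y) = φ (y * u) := by
    intro y
    rw [hu, sub_mul, mul_sub, one_mul, mul_one, smul_mul_assoc, mul_smul_comm, map_sub, map_sub,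
      map_smul, map_smul, hc]
  set V0 := (preV φ u huu hus hcu).completion with hV0
  have hV0c : ∀ w : φ.PreGNS, V0 (w : φ.GNS) =
      ((φ.toPreGNS (φ.ofPreGNS w * u) : φ.PreGNS) : φ.GNS) := by
    intro w
    rw [hV0, ContinuousLinearMap.completion_apply_coe]
    rfl
  have hV0s : star V0 = V0 := by
    rw [star_eq_adjoint]
    refine ((eq_adjoint_iff V0 V0).mpr ?_).symm
    intro x y
    induction x, y using UniformSpace.Completion.induction_on₂ with
    | hp => apply isClosed_eq <;> fun_prop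
    | ih x y =>
      rw [hV0c, hV0c, UniformSpace.Completion.inner_coe, UniformSpace.Completion.inner_coe,
        φ.preGNS_inner_def, φ.preGNS_inner_def]
      simp only [φ.ofPreGNS_toPreGNS]
      rw [star_mul, hus, mul_assoc, hcu, mul_assoc]
  have hV0π : ∀ (y : H →L[ℂ] H) (w : φ.GNS), φ.gnsStarAlgHom y (V0 w)
      = V0 (φ.gnsStarAlgHom y w) := by
    intro y w
    induction w using UniformSpace.Completion.induction_on with
    | hp => apply isClosed_eq <;> fun_prop
    | ih w => rw [hV0c, gns_coe, gns_coe, hV0c]; simp [mul_assoc]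
  refine ⟨(1 / 2 : ℂ) • (1 - V0), ?_, ?_, ?_⟩
  · rw [star_smul, star_sub, star_one, hV0s]
    congr 1
    simp
  · intro y
    rw [mul_smul_comm, smul_mul_assoc, mul_sub, sub_mul, mul_one, one_mul]
    congr 2
    ext w
    exact hV0π y w
  · have e1 : V0 (gnsVec φ) = φ.gnsStarAlgHom u (gnsVec φ) := by
      rw [gns_vec, gnsVec, hV0c, φ.ofPreGNS_toPreGNS, one_mul]
    change (1 / 2 : ℂ) • (gnsVec φ - V0 (gnsVec φ)) = _
    have e2 : φ.gnsStarAlgHom u (gnsVec φ)
        = gnsVec φ - (2 : ℂ) • φ.gnsStarAlgHom p (gnsVec φ) := by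
      rw [hu, map_sub, map_one, map_smul]
      rfl
    rw [e1, e2, sub_sub_cancel, smul_smul]
    norm_num

end Gns

end Crest.Agent.R109
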