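import Crest.Agent.R109.ExQ5

/-!
# Row 109, ExistsQ, part 6: final assembly
-/

set_option autoImplicit false
set_option linter.unusedSectionVars false
set_option linter.style.haveILetI false

namespace Crest.Agent.R109

open scoped InnerProductSpace Topology ComplexOrder
open ContinuousLinearMap Crest.Agent.R121 Crest.Agent.R124 Filter

universe u

/-- cutting down: from a large projection with small quadratic form of its block diagonal to one
whose block diagonal is small in norm -/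
theorem cut_down {H : Type u} [NormedAddCommGroup H] [InnerProductSpace ℂ H] [CompleteSpace H]
    {M : VonNeumannAlgebra H} {A : StarSubalgebra ℂ (H →L[ℂ] H)} (hM : Masa M A)
    {z : H →L[ℂ] H} (hzp : IsStarProjection z) {ξ : H} {κ : ℝ} (hκ : 0 < κ)
    {q₀ : H →L[ℂ] H} (hq₀M : q₀ ∈ M) (hq₀ : IsStarProjection q₀) (hzq₀ : z * q₀ = q₀)
    (hτ : ‖(z - q₀) ξ‖ < κ / 4) {n : ℕ} {e : Fin n → H →L[ℂ] H} (he : Part A z e)
    (hsm : (⟪ξ, (∑ j, e j * q₀ * e j) ξ⟫_ℂ).re < κ ^ 3 / 128) :
    ∃ q ∈ M, IsStarProjection q ∧ z * q = q ∧ ‖(z - q) ξ‖ < κ ∧ ‖∑ j, e j * q * e j‖ ≤ κ := by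
  have hzM : z ∈ M := hM.le he.z_mem
  have hzs : star z = z := hzp.isSelfAdjoint
  have hzz : z * z = z := hzp.isIdempotentElem
  have heM : ∀ j, e j ∈ M := fun j => hM.le (he.mem j)
  have hes : ∀ j, star (e j) = e j := fun j => (he.proj j).isSelfAdjoint
  have hee : ∀ j, e j * e j = e j := fun j => (he.proj j).isIdempotentElem
  have hblock : ∀ y : H →L[ℂ] H, 0 ≤ y → 0 ≤ ∑ j, e j * y * e j := by
    intro y hy
    refine Finset.sum_nonneg fun j _ => ?_
    have := star_left_conjugate_nonneg hy (e j)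
    rwa [hes] at this
  have hblockc : ∀ (y : H →L[ℂ] H) (i : Fin n), e i * (∑ j, e j * y * e j) = e i * y * e i ∧
      (∑ j, e j * y * e j) * e i = e i * y * e i := by
    intro y i
    constructor
    · rw [Finset.mul_sum, Finset.sum_eq_single i]
      · rw [← mul_assoc, ← mul_assoc, hee]
      · intro j _ hj
        rw [← mul_assoc, ← mul_assoc, he.orth i j hj.symm, zero_mul, zero_mul]
      · intro h; exact absurd (Finset.mem_univ i) h
    · rw [Finset.sum_mul, Finset.sum_eq_single i]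
      · rw [mul_assoc, hee]
      · intro j _ hj
        rw [mul_assoc, he.orth j i hj, mul_zero]
      · intro h; exact absurd (Finset.mem_univ i) h
  set h : H →L[ℂ] H := ∑ j, e j * q₀ * e j with hh
  have hh0 : 0 ≤ h := hblock _ hq₀.nonneg
  have hhM : h ∈ M := sum_mem fun j _ => mul_mem (mul_mem (heM j) hq₀M) (heM j)
  have hhs : star h = h := hh0.isSelfAdjoint
  have hhc : ∀ j, e j * h = h * e j := fun j => (hblockc q₀ j).1.trans (hblockc q₀ j).2.symm
  have hzh : z * h = h := by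
    rw [hh, Finset.mul_sum]
    refine Finset.sum_congr rfl fun j _ => ?_
    rw [← mul_assoc, ← mul_assoc, he.z_mul]
  have hhz : h * z = h := by
    have := congrArg star hzh
    rwa [star_mul, hhs, hzs] at this
  have hκ2 : 0 < κ / 2 := by positivity
  set c : H →L[ℂ] H := cut h (κ / 2) with hc
  have hcp : IsStarProjection c := cut_proj _ _
  have hcs : star c = c := hcp.isSelfAdjoint
  have hcc : c * c = c := hcp.isIdempotentElem
  have hcM : c ∈ M := cut_mem hhM _
  have hzc : z * c = c := by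
    have := cut_supp (g := 1 - z) hh0 hκ2 (by rw [sub_mul, one_mul, hzh, sub_self])
    rw [sub_mul, one_mul, sub_eq_zero] at this
    exact this.symm
  have hcz : c * z = c := by
    have := congrArg star hzc
    rwa [star_mul, hcs, hzs] at this
  have hec : ∀ j, e j * c = c * e j := fun j => cut_comm hh0 (hhc j) _
  -- size of the cut
  have hcξ : ‖c ξ‖ < κ / 8 := by
    have h1 := re_inner_mono (cut_le hh0 hκ2) ξ
    rw [re_inner_rsmul, re_inner_proj hcp] at h1
    have h2 : (⟪h ξ, ξ⟫_ℂ).re < κ ^ 3 / 128 := by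
      rw [← inner_conj_symm, Complex.conj_re]
      exact hsm
    have h3 : ‖c ξ‖ ^ 2 < (κ / 8) ^ 2 := by
      have h4 : κ / 2 * ‖c ξ‖ ^ 2 < κ / 2 * (κ / 8) ^ 2 := by
        calc κ / 2 * ‖c ξ‖ ^ 2 ≤ _ := h1
          _ < κ ^ 3 / 128 := h2
          _ = _ := by ring
      exact lt_of_mul_lt_mul_left h4 hκ2.le
    exact (pow_lt_pow_iff_left₀ (norm_nonneg _) (by positivity) two_ne_zero).1 h3
  set s : H →L[ℂ] H := z - c with hs
  have hsp : IsStarProjection s := by
    refine ⟨?_, ?_⟩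
    · change (z - c) * (z - c) = z - c
      rw [sub_mul, mul_sub, mul_sub, hzz, hzc, hcz, hcc]; abel
    · change star (z - c) = z - c
      rw [star_sub, hzs, hcs]
  have hss : star s = s := hsp.isSelfAdjoint
  have hsM : s ∈ M := sub_mem hzM hcM
  have hsz : s * z = s := by rw [hs, sub_mul, hzz, hcz]
  have hzs' : z * s = s := by rw [hs, mul_sub, hzz, hzc]
  have hes' : ∀ j, e j * s = s * e j := fun j => by
    rw [hs, mul_sub, sub_mul, hec, he.mul_z, he.z_mul]
  have hs1 : ‖s‖ ≤ 1 := hsp.norm_le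
  -- the cut down operator
  set k : H →L[ℂ] H := s * q₀ * s with hk
  have hk0 : 0 ≤ k := by
    have := star_left_conjugate_nonneg hq₀.nonneg s
    rwa [hss] at this
  have hkM : k ∈ M := mul_mem (mul_mem hsM hq₀M) hsM
  have hks : star k = k := hk0.isSelfAdjoint
  have hzk : z * k = k := by rw [hk, ← mul_assoc, ← mul_assoc, hzs']
  have hkz : k * z = k := by
    have := congrArg star hzk
    rwa [star_mul, hks, hzs] at this
  have h12 : (0 : ℝ) < 1 / 2 := by norm_num
  set q : H →L[ℂ] H := cut k (1 / 2) with hq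
  have hqp : IsStarProjection q := cut_proj _ _
  have hqs : star q = q := hqp.isSelfAdjoint
  have hqq : q * q = q := hqp.isIdempotentElem
  have hqM : q ∈ M := cut_mem hkM _
  have hzq : z * q = q := by
    have := cut_supp (g := 1 - z) hk0 h12 (by rw [sub_mul, one_mul, hzk, sub_self])
    rw [sub_mul, one_mul, sub_eq_zero] at this
    exact this.symm
  have hqz : q * z = q := by
    have := congrArg star hzq
    rwa [star_mul, hqs, hzs] at this
  have hkq : k * q = q * k := cut_comm hk0 rfl _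
  refine ⟨q, hqM, hqp, hzq, ?_, ?_⟩
  · -- strong closeness
    have hz1 : ‖z - q‖ ≤ 1 := by
      have : IsStarProjection (z - q) := by
        refine ⟨?_, ?_⟩
        · change (z - q) * (z - q) = z - q
          rw [sub_mul, mul_sub, mul_sub, hzz, hzq, hqz, hqq]; abel
        · change star (z - q) = z - q
          rw [star_sub, hzs, hqs]
      exact this.norm_le
    have e1 : (z - q) * k = (k * (1 - q)) * (z - q) := by
      have : (1 - q) * (z - q) = z - q := by
        rw [sub_mul, one_mul, mul_sub, hqz, hqq, sub_self, sub_zero]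
      rw [mul_assoc, this, sub_mul, mul_sub, hzk, hkz, hkq]
    have e2 : ‖(z - q) (k ξ)‖ ≤ 1 / 2 * ‖(z - q) ξ‖ := by
      have : (z - q) (k ξ) = (k * (1 - q)) ((z - q) ξ) :=
        congrArg (fun F : H →L[ℂ] H => F ξ) e1
      rw [this]
      exact (le_opNorm _ _).trans
        (mul_le_mul_of_nonneg_right (norm_mul_one_sub_cut hk0 h12) (norm_nonneg _))
    have e3 : (z - q) ξ = (z - q) (z ξ - k ξ) + (z - q) (k ξ) := by
      rw [← map_add, sub_add_cancel]
      have : (z - q) * z = z - q := by rw [sub_mul, hzz, hqz]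
      exact (congrArg (fun F : H →L[ℂ] H => F ξ) this).symm
    have e4 : ‖(z - q) (z ξ - k ξ)‖ ≤ ‖z ξ - k ξ‖ := by
      calc _ ≤ ‖z - q‖ * ‖z ξ - k ξ‖ := le_opNorm _ _
        _ ≤ 1 * ‖z ξ - k ξ‖ := by gcongr
        _ = _ := one_mul _
    have e5 : ‖(z - q) ξ‖ ≤ ‖z ξ - k ξ‖ + 1 / 2 * ‖(z - q) ξ‖ := by
      conv_lhs => rw [e3]
      exact (norm_add_le _ _).trans (add_le_add e4 e2)
    have e6 : z ξ - k ξ = c ξ + s ((z - q₀) ξ + q₀ (c ξ)) := by
      have hq₀z : q₀ * z = q₀ := by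
        have := congrArg star hzq₀
        rwa [star_mul, hzs, hq₀.isSelfAdjoint.star_eq] at this
      have : z - k = c + s * ((z - q₀) + q₀ * c) := by
        have f1 : q₀ * c = q₀ - q₀ * s := by rw [hs, mul_sub, hq₀z]; abel
        have f2 : z - q₀ + (q₀ - q₀ * s) = z - q₀ * s := by abel
        have f3 : c + s = z := by rw [hs]; abel
        rw [f1, f2, mul_sub s z (q₀ * s), hsz, ← mul_assoc, ← add_sub_assoc, f3]
      exact congrArg (fun F : H →L[ℂ] H => F ξ) this
    have e7 : ‖z ξ - k ξ‖ < κ / 2 := by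
      rw [e6]
      have g1 : ‖q₀ (c ξ)‖ ≤ ‖c ξ‖ := by
        calc _ ≤ ‖q₀‖ * ‖c ξ‖ := le_opNorm _ _
          _ ≤ 1 * ‖c ξ‖ := by gcongr; exact hq₀.norm_le
          _ = _ := one_mul _
      have g2 : ‖s ((z - q₀) ξ + q₀ (c ξ))‖ ≤ ‖(z - q₀) ξ + q₀ (c ξ)‖ := by
        calc _ ≤ ‖s‖ * ‖(z - q₀) ξ + q₀ (c ξ)‖ := le_opNorm _ _
          _ ≤ 1 * ‖(z - q₀) ξ + q₀ (c ξ)‖ := by gcongr
          _ = _ := one_mul _
      have g3 := norm_add_le ((z - q₀) ξ) (q₀ (c ξ))
      have g4 := norm_add_le (c ξ) (s ((z - q₀) ξ + q₀ (c ξ)))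
      linarith
    linarith
  · -- norm of the block diagonal
    have e1 : (∑ j, e j * q * e j) ≤ (2 : ℝ) • ∑ j, e j * k * e j := by
      have f1 : q ≤ (2 : ℝ) • k := by
        have := smul_le_smul_of_nonneg_left (cut_le hk0 h12) (show (0 : ℝ) ≤ 2 by norm_num)
        rw [smul_smul] at this
        norm_num at this
        exact this
      rw [Finset.smul_sum]
      refine Finset.sum_le_sum fun j _ => ?_
      have := star_left_conjugate_le_conjugate f1 (e j)
      rw [hes, mul_smul_comm, smul_mul_assoc] at this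
      exact this
    have e2 : ∑ j, e j * k * e j = s * (h * s) := by
      rw [hh, Finset.sum_mul, Finset.mul_sum]
      refine Finset.sum_congr rfl fun j _ => ?_
      rw [hk]
      calc e j * (s * q₀ * s) * e j = (e j * s) * q₀ * (s * e j) := by simp only [mul_assoc]
        _ = (s * e j) * q₀ * (e j * s) := by rw [hes' j]
        _ = _ := by simp only [mul_assoc]
    have e3 : h * s = h * (1 - c) := by rw [hs, mul_sub, mul_sub, mul_one, hhz]
    have e4 : ‖s * (h * s)‖ ≤ κ / 2 := by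
      rw [e3]
      calc _ ≤ ‖s‖ * ‖h * (1 - c)‖ := norm_mul_le _ _
        _ ≤ 1 * (κ / 2) := by
            gcongr
            exact norm_mul_one_sub_cut hh0 hκ2
        _ = _ := one_mul _
    refine (CStarAlgebra.norm_le_norm_of_nonneg_of_le (hblock _ hqp.nonneg) e1).trans ?_
    rw [e2, norm_smul]
    norm_num
    linarith

/-- **ExistsQ** -/
theorem existsQ : ExistsQ.{u} := by
  intro H _ _ _ M A hM hA z hz hzp hNo ξ κ hκ
  obtain ⟨φ, hφ1, hφ2⟩ := exists_functional hM hz hzp ξ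
  set Ω := gnsVec φ with hΩ
  have hφz : φ (1 - z) = 0 := by
    rw [← norm_eq_zero]
    refine le_antisymm ?_ (norm_nonneg _)
    refine le_of_forall_pos_le_add fun ε hε => ?_
    obtain ⟨n, e, he, h⟩ := hφ2 (1 - z) ε hε
    have h0 : ∑ j, e j * (1 - z) * e j = 0 := by
      refine Finset.sum_eq_zero fun j _ => ?_
      rw [mul_sub, mul_one, he.mul_z, sub_self, zero_mul]
    rw [h0] at h
    simp only [zero_apply, inner_zero_right, zero_sub, norm_neg] at h
    linarith
  have hzΩ : φ.gnsStarAlgHom z Ω = Ω := by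
    have h1 := norm_gns_proj φ hzp.one_sub
    rw [hφz] at h1
    simp only [Complex.zero_re] at h1
    have h2 : ‖φ.gnsStarAlgHom (1 - z) Ω‖ = 0 := by
      exact pow_eq_zero_iff (two_ne_zero) |>.1 h1
    rw [norm_eq_zero, map_sub, map_one, sub_apply] at h2
    exact (sub_eq_zero.1 h2).symm
  have h0 : cproj (Rs hA φ.gnsStarAlgHom) Ω = 0 := by
    refine central_zero hM hz hNo ?_ hzΩ
    intro e he hep
    obtain ⟨V, h1, h2, h3⟩ := exists_V φ hep (hφ1 e he hep)
    exact ⟨V, h1, fun y _ => h2 y, h3⟩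
  set N : ℝ := ‖ξ‖ ^ 2 + 1 with hN
  have hN0 : 0 < N := by positivity
  obtain ⟨q₀, hq₀M, hq₀, hzq₀, hτ, hsm⟩ := exists_small (Ω := Ω)
    (fun u hu => rs_orth (hA := hA) h0 hu) (hM.le hz) hzp ξ
    (ε := κ ^ 3 / (256 * N)) (τ := κ / 4) (by positivity) (by positivity)
  rw [hΩ, norm_gns_proj φ hq₀] at hsm
  obtain ⟨n, e, he, h⟩ := hφ2 q₀ (κ ^ 3 / 256) (by positivity)
  have h1 : (⟪ξ, (∑ j, e j * q₀ * e j) ξ⟫_ℂ).re < κ ^ 3 / 128 := by
    have h2 : (⟪ξ, (∑ j, e j * q₀ * e j) ξ⟫_ℂ).re - (φ q₀).re < κ ^ 3 / 256 := by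
      rw [← Complex.sub_re]
      exact (Complex.re_le_norm _).trans_lt h
    have h3 : κ ^ 3 / (256 * N) * ‖ξ‖ ^ 2 ≤ κ ^ 3 / 256 := by
      rw [div_mul_eq_mul_div, div_le_div_iff₀ (by positivity) (by norm_num)]
      have h4 : ‖ξ‖ ^ 2 ≤ N := by rw [hN]; linarith
      have h5 : 0 < κ ^ 3 := by positivity
      nlinarith [mul_le_mul_of_nonneg_left h4 h5.le]
    have h6 : κ ^ 3 / 256 + κ ^ 3 / 256 = κ ^ 3 / 128 := by ring
    linarith
  obtain ⟨q, hq1, hq2, hq3, hq4, hq5⟩ := cut_down hM hzp hκ hq₀M hq₀ hzq₀ hτ he h1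
  exact ⟨q, hq1, hq2, hq3, hq4, n, e, he, hq5⟩

end Crest.Agent.R109
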