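import Crest.Agent.R109.Color

/-!
# Row 109, part without normal expectation, S0143
-/

set_option autoImplicit false
set_option linter.unusedSectionVars false

namespace Crest.Agent.R109

open scoped InnerProductSpace
open ContinuousLinearMap Crest.Agent.R124 Crest.Agent.R121

universe u

section Ref

variable {H : Type u} [NormedAddCommGroup H] [InnerProductSpace ℂ H] [CompleteSpace H]
variable {M : VonNeumannAlgebra H} {A : StarSubalgebra ℂ (H →L[ℂ] H)}

/-- refining every cell of a partition by its own partition -/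
lemma Part.refineBy (hM : Masa M A) {z : H →L[ℂ] H} {n : ℕ} {e : Fin n → H →L[ℂ] H}
    (he : Part A z e) (P : Fin n → FP A) :
    Part A z (fun a : (j : Fin n) × Fin (P j).n => e a.1 * (P a.1).e a.2) where
  mem a := mul_mem (he.mem _) ((P a.1).part.mem _)
  proj a := by
    have h1 := (he.proj a.1).isIdempotentElem.eq
    have h2 := (P a.1).e_mul_e a.2
    have hc := hM.comm _ (he.mem a.1) _ ((P a.1).part.mem a.2)
    refine ⟨?_, ?_⟩
    · change (e a.1 * (P a.1).e a.2) * (e a.1 * (P a.1).e a.2) = _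
      calc (e a.1 * (P a.1).e a.2) * (e a.1 * (P a.1).e a.2)
          = e a.1 * ((P a.1).e a.2 * e a.1) * (P a.1).e a.2 := by simp only [mul_assoc]
        _ = (e a.1 * e a.1) * ((P a.1).e a.2 * (P a.1).e a.2) := by
            rw [← hc]; simp only [mul_assoc]
        _ = _ := by rw [h1, h2]
    · change Star.star (e a.1 * (P a.1).e a.2) = _
      rw [star_mul, (P a.1).star_e, (he.proj a.1).isSelfAdjoint.star_eq, hc]
  orth a b hab := by
    obtain ⟨j, k⟩ := a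
    obtain ⟨j', k'⟩ := b
    have hc := hM.comm _ (he.mem j') _ ((P j).part.mem k)
    change e j * (P j).e k * (e j' * (P j').e k') = 0
    have h0 : e j * (P j).e k * (e j' * (P j').e k')
        = (e j * e j') * ((P j).e k * (P j').e k') := by
      calc _ = e j * ((P j).e k * e j') * (P j').e k' := by simp only [mul_assoc]
        _ = _ := by rw [← hc]; simp only [mul_assoc]
    rw [h0]
    by_cases h : j = j'
    · subst h
      have hk : k ≠ k' := fun h => hab (by rw [h])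
      rw [(P j).part.orth _ _ hk, mul_zero]
    · rw [he.orth _ _ h, zero_mul]
  sum := by
    rw [Fintype.sum_sigma]
    simp only [← Finset.mul_sum, (P _).part.sum, mul_one]
    exact he.sum

lemma Part.refineBy_pinch (hM : Masa M A) {z : H →L[ℂ] H} {n : ℕ} {e : Fin n → H →L[ℂ] H}
    (he : Part A z e) (P : Fin n → FP A) (x : H →L[ℂ] H) :
    ∑ a : (j : Fin n) × Fin (P j).n, (e a.1 * (P a.1).e a.2) * x * (e a.1 * (P a.1).e a.2)
      = ∑ j, e j * D (P j) x * e j := by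
  rw [Fintype.sum_sigma]
  refine Finset.sum_congr rfl fun j _ => ?_
  rw [D, Finset.mul_sum, Finset.sum_mul]
  refine Finset.sum_congr rfl fun k _ => ?_
  have hc := hM.comm _ (he.mem j) _ ((P j).part.mem k)
  calc e j * (P j).e k * x * (e j * (P j).e k) = e j * (P j).e k * x * ((P j).e k * e j) := by
        rw [hc]
    _ = _ := by simp only [mul_assoc]

end Ref

/-- the part without normal expectation, S0143 -/
theorem noNCE143 (hQ : ExistsQ.{u}) : NoNCE143.{u} := by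
  intro H _ _ _ M A hM hA z hz hzp hN x hx hxs ξ R hR κ hκ
  classical
  have hRR : (0 : ℝ) < R := by exact_mod_cast hR
  have hR1 : (1 : ℝ) ≤ R := by exact_mod_cast hR
  have hR2 : (1 : ℝ) / R ≤ 1 := by rw [div_le_one hRR]; exact hR1
  have hR3 : 0 ≤ (1 : ℝ) / R := by positivity
  set B : ℝ := ‖x‖ ^ 2 * ‖ξ‖ ^ 2 with hB
  have hB0 : 0 ≤ B := by positivity
  set κ₀ : ℝ := min (κ / 2) (κ ^ 4 / (32 * 12 * (B + 1))) with hκ₀
  have hκ₀p : 0 < κ₀ := by positivity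
  obtain ⟨q, hqM, hq, hzq, hqξ, n, e, he, hηe⟩ := hQ H M A hM hA z hz hzp hN ξ κ₀ hκ₀p
  have hη : 12 * κ₀ * B ≤ κ ^ 4 / 32 := by
    have h1 : κ₀ ≤ κ ^ 4 / (32 * 12 * (B + 1)) := min_le_right _ _
    have h2 : 12 * κ₀ * B ≤ 12 * (κ ^ 4 / (32 * 12 * (B + 1))) * (B + 1) := by
      gcongr
      linarith
    refine h2.trans (le_of_eq ?_)
    field_simp
  obtain ⟨a₀, ha₀, ha₀s, ha₀n, hlim⟩ := exists_ED hM hx hxs
  obtain ⟨P, hP⟩ := exists_levels ha₀n hlim hzp he hq hηe (q ξ)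
    (show 0 < κ ^ 4 / 64 by positivity)
  have hE := he.refineBy hM P
  have hqe : ∀ (a : (j : Fin n) × Fin (P j).n) (w : H),
      ‖q ((e a.1 * (P a.1).e a.2) w)‖ ^ 2 ≤ κ₀ * ‖(e a.1 * (P a.1).e a.2) w‖ ^ 2 :=
    fun a w => he.norm_q_e_sq hq hηe a.1 ((P a.1).e a.2 w)
  obtain ⟨c, hc⟩ := exists_color hzp hE hR hκ₀p.le hqe x (q ξ)
  have hpart := hE.group c
  set p : Fin R → H →L[ℂ] H := fun i => ∑ a : (j : Fin n) × Fin (P j).n,
    if c a = i then e a.1 * (P a.1).e a.2 else 0 with hp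
  have hzs : star z = z := hzp.isSelfAdjoint
  have hqs : star q = q := hq.isSelfAdjoint
  have hqq : q * q = q := hq.isIdempotentElem.eq
  have hzz : z * z = z := hzp.isIdempotentElem.eq
  have hza : z * a₀ = a₀ * z := hM.comm _ hz _ ha₀
  -- the centre
  set ρ : ℂ := ((1 - 1 / R : ℝ) : ℂ) with hρ
  have hρn : ‖ρ‖ ≤ 1 := by
    rw [hρ, Complex.norm_real, Real.norm_eq_abs, abs_of_nonneg (by linarith)]
    linarith
  set a : H →L[ℂ] H := ρ • (z * a₀) with ha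
  have haA : a ∈ A := by
    rw [ha]
    exact A.smul_mem (mul_mem hz ha₀) _
  set T : H →L[ℂ] H := ∑ i, p i * x * p i with hT
  set V : H →L[ℂ] H := ∑ j, e j * (D (P j) x - a₀) * e j with hV
  have hVe : V = ∑ j, e j * D (P j) x * e j - z * a₀ := by
    rw [hV]
    have h1 : ∀ j, e j * (D (P j) x - a₀) * e j = e j * D (P j) x * e j - e j * a₀ := by
      intro j
      rw [mul_sub, sub_mul]
      congr 1
      rw [mul_assoc, ← hM.comm _ (he.mem j) _ ha₀, ← mul_assoc,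
        (he.proj j).isIdempotentElem.eq]
    simp only [h1, Finset.sum_sub_distrib, ← Finset.sum_mul, he.sum]
  set r : ℂ := ((1 / R : ℝ) : ℂ) with hr
  set W : H →L[ℂ] H := T - r • (z * x * z) - ρ • ∑ j, e j * D (P j) x * e j with hW
  rw [he.refineBy_pinch hM P x] at hc
  have hc' : ‖q (W (q ξ))‖ ^ 2 ≤ 2 / R * (κ₀ * (‖x‖ ^ 2 * ‖q ξ‖ ^ 2)) := hc
  set Δ : H →L[ℂ] H := T - r • (z * x * z) - a with hΔ
  have hΔe : Δ = W + ρ • V := by
    rw [hVe, hW, hΔ, ha, smul_sub]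
    abel
  have hpM : ∀ i, p i ∈ M := fun i => hM.memM (hpart.mem i)
  have hTM : T ∈ M := sum_mem fun i _ => mul_mem (mul_mem (hpM i) hx) (hpM i)
  have hzM : z ∈ M := hM.memM hz
  have hΔM : Δ ∈ M := by
    refine sub_mem (sub_mem hTM ?_) (hM.memM haA)
    exact M.smul_mem (mul_mem (mul_mem hzM hx) hzM) _
  have hTs : star T = T := by
    rw [hT, star_sum]
    refine Finset.sum_congr rfl fun i _ => ?_
    rw [star_mul, star_mul, hxs.star_eq, (hpart.proj i).isSelfAdjoint.star_eq, mul_assoc]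
  have has : star a = a := by
    rw [ha, star_smul, star_mul, hzs, ha₀s.star_eq, ← hza]
    congr 1
    rw [hρ]
    exact Complex.conj_ofReal _
  have hΔs : star Δ = Δ := by
    rw [hΔ, star_sub, star_sub, hTs, has, star_smul, star_mul, star_mul, hzs, hxs.star_eq,
      ← mul_assoc]
    congr 3
    rw [hr]
    exact Complex.conj_ofReal _
  -- the compressed difference
  set S : H →L[ℂ] H := q * Δ * q with hS
  have hSM : S ∈ M := mul_mem (mul_mem hqM hΔM) hqM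
  have hSs : star S = S := by
    rw [hS, star_mul, star_mul, hqs, hΔs, mul_assoc]
  have hqS : q * S = S := by rw [hS, ← mul_assoc, ← mul_assoc, hqq]
  have hKpos : 0 ≤ S * S := by
    have := star_mul_self_nonneg S
    rwa [hSs] at this
  have hKin : ∀ ζ, (⟪(S * S) ζ, ζ⟫_ℂ).re = ‖S ζ‖ ^ 2 := by
    intro ζ
    rw [← re_inner_self']
    congr 1
    have e3 : adjoint S = S := hSs
    conv_rhs => rw [← adjoint_inner_left, e3]
    rfl
  obtain ⟨s, hsM, hs, hqs', hs1, hs2, -⟩ := exists_cut M hKpos (mul_mem hSM hSM) hq hqM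
    (by rw [← mul_assoc, hqS]) (show 0 ≤ κ ^ 2 by positivity)
  -- the size of `S ξ`
  have hqn : ‖q ξ‖ ≤ ‖ξ‖ := norm_proj_le' hq ξ
  have hSξ : ‖S ξ‖ ^ 2 ≤ κ ^ 4 / 16 := by
    have h1 : S ξ = q (W (q ξ)) + ρ • q (V (q ξ)) := by
      have : S ξ = q (Δ (q ξ)) := rfl
      rw [this, hΔe, add_apply, map_add, smul_apply, map_smul]
    have h2 : ‖S ξ‖ ≤ ‖q (W (q ξ))‖ + ‖q (V (q ξ))‖ := by
      rw [h1]
      refine (norm_add_le _ _).trans ?_
      gcongr
      rw [norm_smul]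
      exact mul_le_of_le_one_left (norm_nonneg _) hρn
    have h3 : ‖q (W (q ξ))‖ ^ 2 ≤ 2 * κ₀ * B := by
      refine hc'.trans ?_
      have h4 : (2 : ℝ) / R ≤ 2 := by rw [div_le_iff₀ hRR]; linarith
      calc 2 / R * (κ₀ * (‖x‖ ^ 2 * ‖q ξ‖ ^ 2)) ≤ 2 * (κ₀ * (‖x‖ ^ 2 * ‖ξ‖ ^ 2)) := by gcongr
        _ = 2 * κ₀ * B := by rw [hB]; ring
    have h5 : ‖q (V (q ξ))‖ ^ 2 ≤ 4 * κ₀ * B + κ ^ 4 / 64 := by
      refine hP.trans ?_
      have h7 : κ₀ * (2 * ‖x‖) ^ 2 * ‖q ξ‖ ^ 2 ≤ 4 * κ₀ * B := by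
        calc κ₀ * (2 * ‖x‖) ^ 2 * ‖q ξ‖ ^ 2 ≤ κ₀ * (2 * ‖x‖) ^ 2 * ‖ξ‖ ^ 2 := by gcongr
          _ = 4 * κ₀ * B := by rw [hB]; ring
      linarith
    have h6 : ‖S ξ‖ ^ 2 ≤ 2 * ‖q (W (q ξ))‖ ^ 2 + 2 * ‖q (V (q ξ))‖ ^ 2 := by
      calc ‖S ξ‖ ^ 2 ≤ (‖q (W (q ξ))‖ + ‖q (V (q ξ))‖) ^ 2 := by gcongr
        _ ≤ _ := by nlinarith [sq_nonneg (‖q (W (q ξ))‖ - ‖q (V (q ξ))‖)]
    linarith
  refine ⟨p, hpart, a, haA, has, ?_, ?_, s, hsM, hs, ?_, ?_, ?_⟩
  · rw [ha, mul_smul_comm, ← mul_assoc, hzz]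
  · rw [ha, norm_smul]
    calc ‖ρ‖ * ‖z * a₀‖ ≤ 1 * (‖z‖ * ‖a₀‖) := by gcongr; exact norm_mul_le _ _
      _ ≤ 1 * (1 * ‖x‖) := by gcongr; exact hzp.norm_le
      _ = ‖x‖ := by ring
  · rw [← hqs', ← mul_assoc, hzq]
  · have h1 : (z - s) ξ = (z - q) ξ + (q - s) ξ := by
      simp only [sub_apply]; abel
    rw [h1]
    have h2 : ‖(q - s) ξ‖ ≤ κ / 4 := by
      have h3 := hs1 ξ
      rw [hKin] at h3
      have h4 : κ ^ 2 * ‖(q - s) ξ‖ ^ 2 ≤ κ ^ 2 * (κ / 4) ^ 2 := by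
        calc _ ≤ κ ^ 4 / 16 := h3.trans hSξ
          _ = _ := by ring
      have h5 : ‖(q - s) ξ‖ ^ 2 ≤ (κ / 4) ^ 2 := le_of_mul_le_mul_left h4 (by positivity)
      exact (sq_le_sq₀ (norm_nonneg _) (by positivity)).1 h5
    have h3 : κ₀ ≤ κ / 2 := min_le_left _ _
    calc ‖(z - q) ξ + (q - s) ξ‖ ≤ ‖(z - q) ξ‖ + ‖(q - s) ξ‖ := norm_add_le _ _
      _ < κ := by linarith
  · -- the norm bound
    have hsq : s * q = s := by
      have := congrArg star hqs'
      rwa [star_mul, hqs, hs.isSelfAdjoint.star_eq] at this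
    have h1 : s * (T - a) * s = r • (s * (z * x * z) * s) + s * S * s := by
      have e1 : T - a = r • (z * x * z) + Δ := by rw [hΔ]; abel
      have e2 : s * S * s = s * Δ * s := by
        rw [hS]
        calc s * (q * Δ * q) * s = (s * q) * Δ * (q * s) := by simp only [mul_assoc]
          _ = _ := by rw [hsq, hqs']
      rw [e2, e1, mul_add, add_mul, mul_smul_comm, smul_mul_assoc]
    have hsn : ‖s‖ ≤ 1 := hs.norm_le
    have hzn : ‖z‖ ≤ 1 := hzp.norm_le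
    have h2 : ‖r • (s * (z * x * z) * s)‖ ≤ 1 / R * ‖x‖ := by
      rw [norm_smul, hr, Complex.norm_real, Real.norm_eq_abs, abs_of_nonneg hR3]
      gcongr
      calc ‖s * (z * x * z) * s‖ ≤ ‖s‖ * (‖z‖ * ‖x‖ * ‖z‖) * ‖s‖ := by
            refine (norm_mul_le _ _).trans ?_
            gcongr
            refine (norm_mul_le _ _).trans ?_
            gcongr
            refine (norm_mul_le _ _).trans ?_
            gcongr
            exact norm_mul_le _ _
        _ ≤ 1 * (1 * ‖x‖ * 1) * 1 := by gcongr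
        _ = ‖x‖ := by ring
    have h3 : ‖s * S * s‖ ≤ κ := by
      refine ContinuousLinearMap.opNorm_le_bound _ hκ.le fun ζ => ?_
      have h4 : ‖S (s ζ)‖ ^ 2 ≤ κ ^ 2 * ‖s ζ‖ ^ 2 := by
        have := hs2 ζ
        rwa [hKin] at this
      have h5 : ‖S (s ζ)‖ ≤ κ * ‖s ζ‖ := by
        rw [← mul_pow] at h4
        exact (sq_le_sq₀ (norm_nonneg _) (by positivity)).1 h4
      calc ‖(s * S * s) ζ‖ = ‖s (S (s ζ))‖ := rfl
        _ ≤ ‖S (s ζ)‖ := norm_proj_le' hs _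
        _ ≤ κ * ‖s ζ‖ := h5
        _ ≤ κ * ‖ζ‖ := by gcongr; exact norm_proj_le' hs _
    change ‖s * (T - a) * s‖ ≤ _
    rw [h1]
    refine (norm_add_le _ _).trans ?_
    have h6 : 1 / (R : ℝ) * ‖x‖ ≤ 2 / R * ‖x‖ := by gcongr; norm_num
    linarith

end Crest.Agent.R109
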