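import Crest.Agent.R109.Red144
import Crest.Agent.R109.Ampl

/-!
# Row 109: S0144 from `NCE_q`, `HasE`, `HasG`, `NoNCE144`
-/

set_option autoImplicit false
set_option linter.unusedSectionVars false

namespace Crest.Agent.R109

open scoped InnerProductSpace
open ContinuousLinearMap Crest.Agent.R121 Crest.Agent.R124

universe u

lemma R144_le {ε : ℝ} (hε : 0 < ε) (hε1 : ε < 1) :
    ((Nat.ceil (100000000 / (ε / 16) ^ 2) + Nat.ceil (16 / ε) + 1 : ℕ) : ℝ) ≤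
      30000000000 / ε ^ 6 := by
  have h1 : ((Nat.ceil (100000000 / (ε / 16) ^ 2) : ℕ) : ℝ) ≤ 100000000 / (ε / 16) ^ 2 + 1 :=
    (Nat.ceil_lt_add_one (by positivity)).le
  have h2 : ((Nat.ceil (16 / ε) : ℕ) : ℝ) ≤ 16 / ε + 1 :=
    (Nat.ceil_lt_add_one (by positivity)).le
  have h6 : 0 < ε ^ 6 := by positivity
  have e1 : ε ^ 6 ≤ 1 := pow_le_one₀ hε.le hε1.le
  have e2 : ε ^ 6 ≤ ε ^ 2 := pow_le_pow_of_le_one hε.le hε1.le (by norm_num)
  have e3 : ε ^ 6 ≤ ε := by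
    calc ε ^ 6 ≤ ε ^ 1 := pow_le_pow_of_le_one hε.le hε1.le (by norm_num)
      _ = ε := pow_one ε
  have h3 : 100000000 / (ε / 16) ^ 2 ≤ 25600000000 / ε ^ 6 := by
    have : 100000000 / (ε / 16) ^ 2 = 25600000000 / ε ^ 2 := by
      field_simp
      norm_num
    rw [this]
    gcongr
  have h4 : 16 / ε ≤ 16 / ε ^ 6 := by gcongr
  have h5 : (1 : ℝ) ≤ 1 / ε ^ 6 := by
    rw [le_div_iff₀ h6]
    linarith
  have h7 : ((Nat.ceil (100000000 / (ε / 16) ^ 2) + Nat.ceil (16 / ε) + 1 : ℕ) : ℝ) =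
      ((Nat.ceil (100000000 / (ε / 16) ^ 2) : ℕ) : ℝ) +
      ((Nat.ceil (16 / ε) : ℕ) : ℝ) + 1 := by
    push_cast
    ring
  rw [h7]
  calc ((Nat.ceil (100000000 / (ε / 16) ^ 2) : ℕ) : ℝ) + ((Nat.ceil (16 / ε) : ℕ) : ℝ) + 1
      ≤ (25600000000 / ε ^ 6 + 1 / ε ^ 6) + (16 / ε ^ 6 + 1 / ε ^ 6) + 1 / ε ^ 6 := by
        linarith
    _ = 25600000019 / ε ^ 6 := by ring
    _ ≤ 30000000000 / ε ^ 6 := by
        gcongr
        norm_num

/-- **S0144** -/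
theorem s0144_of (hN : NCE_q.{u}) (hE : HasE.{u}) (hG : HasG.{u}) (h0 : NoNCE144.{u}) :
    ∃ C : ℝ, 0 < C ∧ ∀ ε : ℝ, 0 < ε → ε < 1 → ∃ R : ℕ, (R : ℝ) ≤ C / ε ^ 6 ∧
      ∀ (H : Type u) [NormedAddCommGroup H] [InnerProductSpace ℂ H] [CompleteSpace H]
        (M : VonNeumannAlgebra H) (A : StarSubalgebra ℂ (H →L[ℂ] H)),
        A ≤ M.toStarSubalgebra → (∀ a ∈ A, ∀ b ∈ A, a * b = b * a) →
        (∀ y ∈ M, (∀ a ∈ A, a * y = y * a) → y ∈ A) →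
        ∀ x ∈ M, IsSelfAdjoint x → ∀ (F : Finset H) (δ : ℝ), 0 < δ →
          ∃ y ∈ M, IsSelfAdjoint y ∧ ‖y‖ ≤ 3 * ‖x‖ ∧ (∀ ξ ∈ F, ‖(y - x) ξ‖ < δ) ∧
            ∃ p : Fin R → (H →L[ℂ] H),
              (∀ i, p i ∈ A ∧ IsStarProjection (p i)) ∧ (∀ i j, i ≠ j → p i * p j = 0) ∧
              ∑ i, p i = 1 ∧
              ∃ a ∈ A, IsSelfAdjoint a ∧ ‖a‖ ≤ ‖y‖ ∧ ‖∑ i, p i * y * p i - a‖ ≤ ε * ‖y‖ := by
  refine ⟨30000000000, by norm_num, ?_⟩
  intro ε hε hε1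
  refine ⟨Nat.ceil (100000000 / (ε / 16) ^ 2) + Nat.ceil (16 / ε) + 1, R144_le hε hε1, ?_⟩
  intro H _ _ _ M A hAM hA hAmax x hxM hx F δ hδ
  have hM : Masa M A := ⟨hAM, hA, hAmax⟩
  by_cases hx0 : x = 0
  · -- trivial case
    classical
    refine ⟨0, zero_mem _, by simp [IsSelfAdjoint], by simp, ?_,
      fun i => if i = Fin.last _ then 1 else 0, ?_, ?_, ?_, 0, zero_mem _, by simp [IsSelfAdjoint],
      by simp, by simp⟩
    · intro ξ _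
      rw [hx0]
      simpa using hδ
    · intro i
      by_cases hi : i = Fin.last _
      · simp only [hi, if_true]
        exact ⟨one_mem _, IsStarProjection.one _⟩
      · simp only [hi, if_false]
        exact ⟨zero_mem _, IsStarProjection.zero _⟩
    · intro i j hij
      by_cases hi : i = Fin.last _
      · have hj : j ≠ Fin.last _ := fun hj => hij (hi.trans hj.symm)
        simp [hj]
      · simp [hi]
    · rw [Finset.sum_ite_eq' Finset.univ (Fin.last _) (fun _ => (1 : H →L[ℂ] H))]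
      simp
  obtain ⟨K, iK1, iK2, iK3, Φ, Mt, At, hΦ, hMt, hAt, hMasa, hAmp, hF⟩ := exists_ampl M A hM
  have hinj : ∀ {y y' : H →L[ℂ] H}, Φ y = Φ y' → y = y' := by
    intro y y' h
    have h1 : ‖y - y'‖ = 0 := by rw [← hΦ, map_sub, h, sub_self, norm_zero]
    exact sub_eq_zero.1 (norm_eq_zero.1 h1)
  obtain ⟨ξ, hξ⟩ := hF F
  have hproj : ∀ {y : H →L[ℂ] H}, IsStarProjection (Φ y) → IsStarProjection y := by
    intro y h
    refine ⟨hinj ?_, hinj ?_⟩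
    · rw [map_mul]; exact h.isIdempotentElem
    · rw [map_star]; exact h.isSelfAdjoint
  have hΦx : Φ x ≠ 0 := by
    intro h
    exact hx0 (hinj (h.trans (map_zero Φ).symm))
  obtain ⟨y, hyM, hysa, hyn, hyξ, p, hp, a, haA, hasa, han, hq⟩ := red144_amp hN hE hG h0 hMasa
    hAmp hε hε1 (x := Φ x) ((hMt _).2 ⟨x, hxM, rfl⟩) (hx.map Φ) hΦx ξ hδ
  choose p' hp'A hp' using fun i => (hAt (p i)).1 (hp.mem i)
  obtain ⟨a', ha'A, rfl⟩ := (hAt a).1 haA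
  obtain ⟨y', hy'M, rfl⟩ := (hMt y).1 hyM
  refine ⟨y', hy'M, ?_, ?_, ?_, p', fun i => ⟨hp'A i, hproj (by rw [hp' i]; exact hp.proj i)⟩,
    ?_, ?_, a', ha'A, ?_, ?_, ?_⟩
  · apply hinj
    rw [map_star]
    exact hysa
  · rwa [hΦ, hΦ] at hyn
  · intro ζ hζ
    refine lt_of_le_of_lt (hξ (y' - x) ζ hζ) ?_
    rw [map_sub]
    exact hyξ
  · intro i j hij
    apply hinj
    rw [map_mul, hp', hp', hp.orth i j hij, map_zero]
  · apply hinj
    rw [map_sum, map_one, ← hp.sum]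
    exact Finset.sum_congr rfl (fun i _ => hp' i)
  · apply hinj
    rw [map_star]
    exact hasa
  · rwa [hΦ, hΦ] at han
  · have h1 : Φ (∑ i, p' i * y' * p' i - a') = ∑ i, p i * Φ y' * p i - Φ a' := by
      rw [map_sub, map_sum]
      simp only [map_mul, hp']
    rw [← hΦ, h1, ← hΦ y']
    exact hq

end Crest.Agent.R109
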