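import Crest.Agent.R109.PartLib

/-!
# Row 109: the gauge operator `g`, commuting with the paving, from the projection `q`
-/

set_option autoImplicit false
set_option linter.unusedSectionVars false

namespace Crest.Agent.R109

open scoped InnerProductSpace
open ContinuousLinearMap Crest.Agent.R121 Crest.Agent.R124

universe u

namespace Gauge

variable {H : Type u} [NormedAddCommGroup H] [InnerProductSpace ℂ H] [CompleteSpace H]

/-- norm of a self-adjoint operator from its quadratic form -/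
lemma norm_le_of_form {S : H →L[ℂ] H} (hS : IsSelfAdjoint S) {c : ℝ} (hc : 0 ≤ c)
    (h : ∀ v, |(⟪S v, v⟫_ℂ).re| ≤ c * ‖v‖ ^ 2) : ‖S‖ ≤ c := by
  rw [norm_eq_iSup_rayleighQuotient S hS.isSymmetric]
  refine ciSup_le (fun v => ?_)
  rw [rayleighQuotient, reApplyInnerSelf_apply, abs_div, abs_of_nonneg (by positivity : (0 : ℝ) ≤ ‖v‖ ^ 2)]
  by_cases hv : ‖v‖ = 0
  · rw [hv]; simp [hc]
  · rw [div_le_iff₀ (by positivity)]
    exact h v

lemma proj_inner {e : H →L[ℂ] H} (he : IsStarProjection e) (v w : H) :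
    ⟪e v, w⟫_ℂ = ⟪v, e w⟫_ℂ := by
  have : star e = e := he.isSelfAdjoint
  conv_lhs => rw [← this, star_eq_adjoint, adjoint_inner_left]

lemma proj_idem {e : H →L[ℂ] H} (he : IsStarProjection e) (v : H) : e (e v) = e v :=
  congrArg (fun F : H →L[ℂ] H => F v) he.isIdempotentElem

variable {e q T : H →L[ℂ] H} {c κ : ℝ}

/-- the form bound -/
lemma form_bound (he : IsStarProjection e) (hq : IsStarProjection q) (heq : e * q = q)
    (hT : IsSelfAdjoint T) (heT : e * T = T) (hT2 : ‖T‖ ≤ 2) (hκ : 0 < κ) (hc : 0 < c)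
    (hqT : ‖q * T * q‖ ≤ c) (v : H) :
    |(⟪T v, v⟫_ℂ).re| ≤ (c + κ) * ‖e v‖ ^ 2 + (4 / κ + 2) * ‖(e - q) v‖ ^ 2 := by
  have hqe : q * e = q := by
    have := congrArg star heq
    rwa [star_mul, hq.isSelfAdjoint.star_eq, he.isSelfAdjoint.star_eq] at this
  have hTe : T * e = T := by
    have := congrArg star heT
    rwa [star_mul, hT.star_eq, he.isSelfAdjoint.star_eq] at this
  have hTi : ∀ a b : H, ⟪T a, b⟫_ℂ = ⟪a, T b⟫_ℂ := by
    intro a b
    conv_lhs => rw [← hT.star_eq, star_eq_adjoint, adjoint_inner_left]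
  set a := q v with ha
  set b := (e - q) v with hb
  have hab : e v = a + b := by
    rw [ha, hb]; change e v = q v + (e v - q v); abel
  have h1 : ⟪T v, v⟫_ℂ = ⟪T (a + b), a + b⟫_ℂ := by
    rw [← hab, ← proj_inner he]
    have h2 : T (e v) = T v := congrArg (fun F : H →L[ℂ] H => F v) hTe
    have h3 : e (T v) = T v := congrArg (fun F : H →L[ℂ] H => F v) heT
    rw [h2, h3]
  have hqa : q a = a := proj_idem hq v
  have h4 : ⟪T a, a⟫_ℂ = ⟪(q * T * q) a, a⟫_ℂ := by
    change _ = ⟪q (T (q a)), a⟫_ℂ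
    rw [proj_inner hq, hqa]
  have h5 : |(⟪T a, a⟫_ℂ).re| ≤ c * ‖a‖ ^ 2 := by
    rw [h4]
    calc |(⟪(q * T * q) a, a⟫_ℂ).re| ≤ ‖⟪(q * T * q) a, a⟫_ℂ‖ := Complex.abs_re_le_norm _
      _ ≤ ‖(q * T * q) a‖ * ‖a‖ := norm_inner_le_norm _ _
      _ ≤ (‖q * T * q‖ * ‖a‖) * ‖a‖ := by gcongr; exact le_opNorm _ _
      _ ≤ (c * ‖a‖) * ‖a‖ := by gcongr
      _ = c * ‖a‖ ^ 2 := by ring
  have h6 : ∀ x y : H, |(⟪T x, y⟫_ℂ).re| ≤ 2 * (‖x‖ * ‖y‖) := by
    intro x y
    calc |(⟪T x, y⟫_ℂ).re| ≤ ‖⟪T x, y⟫_ℂ‖ := Complex.abs_re_le_norm _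
      _ ≤ ‖T x‖ * ‖y‖ := norm_inner_le_norm _ _
      _ ≤ (‖T‖ * ‖x‖) * ‖y‖ := by gcongr; exact le_opNorm _ _
      _ ≤ (2 * ‖x‖) * ‖y‖ := by gcongr
      _ = _ := by ring
  have h7 : (⟪T v, v⟫_ℂ).re = (⟪T a, a⟫_ℂ).re + (⟪T a, b⟫_ℂ).re + (⟪T b, a⟫_ℂ).re +
      (⟪T b, b⟫_ℂ).re := by
    rw [h1, map_add, inner_add_left, inner_add_right, inner_add_right]
    simp only [Complex.add_re]; ring
  have h8 := h6 a b
  have h9 := h6 b a
  have h10 := h6 b b
  have h11 : ‖a‖ ^ 2 ≤ ‖e v‖ ^ 2 := by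
    have : a = q (e v) := (congrArg (fun F : H →L[ℂ] H => F v) hqe).symm
    rw [this]
    exact norm_proj_le hq _
  have h12 : 4 * (‖a‖ * ‖b‖) ≤ κ * ‖a‖ ^ 2 + 4 / κ * ‖b‖ ^ 2 := by
    have h13 : 0 ≤ κ * (‖a‖ - 2 / κ * ‖b‖) ^ 2 := by positivity
    have h14 : κ * (‖a‖ - 2 / κ * ‖b‖) ^ 2 = κ * ‖a‖ ^ 2 - 4 * (‖a‖ * ‖b‖) + 4 / κ * ‖b‖ ^ 2 := by
      field_simp; ring
    linarith
  rw [h7]
  have h15 : (c + κ) * ‖a‖ ^ 2 ≤ (c + κ) * ‖e v‖ ^ 2 := by gcongr
  rw [abs_le] at h5 h8 h9 h10 ⊢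
  constructor <;> nlinarith

/-- the gauge function of a positive operator -/
lemma exists_G {k : H →L[ℂ] H} (hk : 0 ≤ k) {a b : ℝ} (ha : 0 < a) (hb : 0 < b) :
    ∃ G : H →L[ℂ] H, (∃ f : ℝ → ℝ, G = cfc f k) ∧ IsSelfAdjoint G ∧ ‖G‖ ≤ 1 ∧
      G * G * (a • 1 + b • k) = a • 1 ∧ (1 - G) * (1 - G) ≤ (b / a) • k := by
  have hksa : IsSelfAdjoint k := hk.isSelfAdjoint
  set f : ℝ → ℝ := fun t => Real.sqrt (a / (a + b * max t 0)) with hf
  have hpos : ∀ t : ℝ, 0 < a + b * max t 0 := fun t => by positivity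
  have hfc : Continuous f := by
    refine Real.continuous_sqrt.comp ?_
    exact continuous_const.div (by fun_prop) (fun t => (hpos t).ne')
  have hf0 : ∀ t, 0 ≤ f t := fun t => Real.sqrt_nonneg _
  have hf1 : ∀ t, f t ≤ 1 := by
    intro t
    rw [hf]
    refine Real.sqrt_le_one.2 ?_
    rw [div_le_one (hpos t)]
    have : 0 ≤ b * max t 0 := by positivity
    linarith
  have hfsq : ∀ t, f t * f t = a / (a + b * max t 0) := fun t =>
    Real.mul_self_sqrt (by have := hpos t; positivity)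
  clear_value f
  have hc1 : Continuous (fun t : ℝ => 1 - f t) := continuous_const.sub hfc
  have hc2 : Continuous (fun t : ℝ => a + b * t) := by fun_prop
  have hc3 : Continuous (fun t : ℝ => f t * f t) := hfc.mul hfc
  have hc4 : Continuous (fun t : ℝ => b * t) := by fun_prop
  have hc5 : Continuous (fun t : ℝ => b / a * t) := by fun_prop
  refine ⟨cfc f k, ⟨f, rfl⟩, cfc_predicate f k, ?_, ?_, ?_⟩
  · refine norm_cfc_le zero_le_one (fun t _ => ?_)
    rw [Real.norm_eq_abs, abs_of_nonneg (hf0 t)]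
    exact hf1 t
  · have h1 : (a • 1 + b • k : H →L[ℂ] H) = cfc (fun t : ℝ => a + b * t) k := by
      rw [cfc_add (a := k) (fun _ : ℝ => a) (fun t => b * t) continuousOn_const hc4.continuousOn,
        cfc_const a k, cfc_const_mul b (fun t => t) k continuousOn_id,
        cfc_id' ℝ k, Algebra.algebraMap_eq_smul_one]
    have h2 : (a • 1 : H →L[ℂ] H) = cfc (fun _ : ℝ => a) k := by
      rw [cfc_const a k, Algebra.algebraMap_eq_smul_one]
    rw [h1, ← cfc_mul f f k hfc.continuousOn hfc.continuousOn,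
      ← cfc_mul (fun t => f t * f t) (fun t => a + b * t) k hc3.continuousOn hc2.continuousOn, h2]
    refine cfc_congr (fun t ht => ?_)
    have ht0 : 0 ≤ t := spectrum_nonneg_of_nonneg hk ht
    have h3 := hpos t
    change f t * f t * (a + b * t) = a
    rw [hfsq t]
    rw [max_eq_left ht0] at h3 ⊢
    field_simp
  · have h1 : (1 - cfc f k : H →L[ℂ] H) = cfc (fun t : ℝ => 1 - f t) k := by
      rw [cfc_sub (a := k) (fun _ => (1 : ℝ)) f continuousOn_const hfc.continuousOn,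
        cfc_const_one ℝ k]
    have h2 : ((b / a) • k : H →L[ℂ] H) = cfc (fun t : ℝ => b / a * t) k := by
      rw [cfc_const_mul (b / a) (fun t => t) k continuousOn_id, cfc_id' ℝ k]
    rw [h1, h2, ← cfc_mul (fun t => 1 - f t) (fun t => 1 - f t) k hc1.continuousOn
      hc1.continuousOn]
    refine cfc_mono (fun t ht => ?_) (hc1.mul hc1).continuousOn hc5.continuousOn
    have ht0 : 0 ≤ t := spectrum_nonneg_of_nonneg hk ht
    have h3 := hf0 t
    have h4 := hf1 t
    have h5 : 1 - f t * f t ≤ b / a * t := by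
      rw [hfsq t, max_eq_left ht0]
      have h6 : 0 < a + b * t := by positivity
      rw [sub_le_iff_le_add, ← sub_nonneg]
      have h7 : b / a * t + a / (a + b * t) - 1 = (b * t) ^ 2 / (a * (a + b * t)) := by
        field_simp; ring
      rw [h7]; positivity
    nlinarith

section Main

variable {A : StarSubalgebra ℂ (H →L[ℂ] H)} {n : ℕ} {p : Fin n → H →L[ℂ] H}

/-- the averaged defect -/
noncomputable def kk (e q : H →L[ℂ] H) (p : Fin n → H →L[ℂ] H) : H →L[ℂ] H :=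
  ∑ i, p i * (e - q) * p i

lemma e_sub_proj (he : IsStarProjection e) (hq : IsStarProjection q) (heq : e * q = q) :
    IsStarProjection (e - q) := by
  have hqe : q * e = q := by
    have := congrArg star heq
    rwa [star_mul, hq.isSelfAdjoint.star_eq, he.isSelfAdjoint.star_eq] at this
  refine ⟨?_, he.isSelfAdjoint.sub hq.isSelfAdjoint⟩
  change (e - q) * (e - q) = e - q
  have h1 : e * e = e := he.isIdempotentElem
  have h2 : q * q = q := hq.isIdempotentElem
  rw [sub_mul, mul_sub, mul_sub, h1, heq, hqe, h2, sub_self, sub_zero]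

lemma kk_nonneg (hP : Part A e p) (he : IsStarProjection e) (hq : IsStarProjection q)
    (heq : e * q = q) : 0 ≤ kk e q p := by
  refine Finset.sum_nonneg (fun i _ => ?_)
  have h1 := star_left_conjugate_nonneg (e_sub_proj he hq heq).nonneg (p i)
  rwa [hP.star i] at h1

lemma p_mul_kk (hP : Part A e p) (i : Fin n) : p i * kk e q p = p i * (e - q) * p i := by
  rw [kk, Finset.mul_sum, Finset.sum_eq_single i]
  · rw [← mul_assoc, ← mul_assoc, (hP.proj i).isIdempotentElem.eq]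
  · intro j _ hj
    rw [← mul_assoc, ← mul_assoc, hP.orth i j hj.symm, zero_mul, zero_mul]
  · intro h; exact absurd (Finset.mem_univ i) h

lemma kk_mul_p (hP : Part A e p) (i : Fin n) : kk e q p * p i = p i * (e - q) * p i := by
  rw [kk, Finset.sum_mul, Finset.sum_eq_single i]
  · rw [mul_assoc, (hP.proj i).isIdempotentElem.eq]
  · intro j _ hj
    rw [mul_assoc, hP.orth j i hj, mul_zero]
  · intro h; exact absurd (Finset.mem_univ i) h

lemma e_mul_kk (hP : Part A e p) : e * kk e q p = kk e q p := by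
  rw [kk, Finset.mul_sum]
  refine Finset.sum_congr rfl (fun i _ => ?_)
  rw [← mul_assoc, ← mul_assoc, hP.z_mul i]

lemma kk_mul_e (hP : Part A e p) : kk e q p * e = kk e q p := by
  rw [kk, Finset.sum_mul]
  refine Finset.sum_congr rfl (fun i _ => ?_)
  rw [mul_assoc, hP.mul_z i]

lemma sum_p_apply (hP : Part A e p) (v : H) : ∑ i, p i v = e v := by
  rw [← hP.sum, sum_apply]

lemma re_kk (hP : Part A e p) (he : IsStarProjection e) (hq : IsStarProjection q)
    (heq : e * q = q) (v : H) :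
    (⟪kk e q p v, v⟫_ℂ).re = ∑ i, ‖(e - q) (p i v)‖ ^ 2 := by
  rw [kk, sum_apply, sum_inner, Complex.re_sum]
  refine Finset.sum_congr rfl (fun i _ => ?_)
  change (⟪p i ((e - q) (p i v)), v⟫_ℂ).re = _
  rw [proj_inner (hP.proj i)]
  exact re_inner_proj (e_sub_proj he hq heq) _

lemma re_e (hP : Part A e p) (he : IsStarProjection e) (v : H) :
    ∑ i, ‖p i v‖ ^ 2 = ‖e v‖ ^ 2 := by
  rw [← re_inner_proj he, ← sum_p_apply hP v, sum_inner, Complex.re_sum]
  exact Finset.sum_congr rfl (fun i _ => (re_inner_proj (hP.proj i) v).symm)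

/-- the averaged form bound -/
lemma form_bound' (hP : Part A e p) (he : IsStarProjection e) (hq : IsStarProjection q)
    (heq : e * q = q) (hT : IsSelfAdjoint T) (heT : e * T = T) (hT2 : ‖T‖ ≤ 2)
    (hpT : ∀ i, p i * T = T * p i) (hκ : 0 < κ) (hc : 0 < c)
    (hqT : ‖q * T * q‖ ≤ c) (v : H) :
    |(⟪T v, v⟫_ℂ).re| ≤
      (⟪((c + κ) • e + (4 / κ + 2) • kk e q p : H →L[ℂ] H) v, v⟫_ℂ).re := by
  have hTe : T * e = T := by
    have := congrArg star heT
    rwa [star_mul, hT.star_eq, he.isSelfAdjoint.star_eq] at this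
  have h1 : (⟪T v, v⟫_ℂ).re = ∑ i, (⟪T (p i v), p i v⟫_ℂ).re := by
    have h2 : T v = ∑ i, T (p i v) := by
      rw [← map_sum, sum_p_apply hP v]
      exact (congrArg (fun F : H →L[ℂ] H => F v) hTe).symm
    rw [h2, sum_inner, Complex.re_sum]
    refine Finset.sum_congr rfl (fun i _ => ?_)
    rw [← proj_inner (hP.proj i)]
    have h3 : p i (T (p i v)) = T (p i v) := by
      have h4 : p i * (T * p i) = T * p i := by
        rw [← hpT i, ← mul_assoc, (hP.proj i).isIdempotentElem.eq]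
      exact congrArg (fun F : H →L[ℂ] H => F v) h4
    rw [h3]
  have h5 : (⟪((c + κ) • e + (4 / κ + 2) • kk e q p : H →L[ℂ] H) v, v⟫_ℂ).re =
      (c + κ) * ‖e v‖ ^ 2 + (4 / κ + 2) * ∑ i, ‖(e - q) (p i v)‖ ^ 2 := by
    rw [add_apply, inner_add_left, Complex.add_re]
    change (⟪(c + κ) • e v, v⟫_ℂ).re + (⟪(4 / κ + 2) • kk e q p v, v⟫_ℂ).re = _
    rw [inner_smul_left_eq_smul, inner_smul_left_eq_smul, Complex.smul_re, Complex.smul_re,
      re_inner_proj he, re_kk hP he hq heq, smul_eq_mul, smul_eq_mul]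
  rw [h1, h5, ← re_e hP he v, Finset.mul_sum, Finset.mul_sum, ← Finset.sum_add_distrib]
  refine (Finset.abs_sum_le_sum_abs _ _).trans (Finset.sum_le_sum (fun i _ => ?_))
  have h6 := form_bound he hq heq hT heT hT2 hκ hc hqT (p i v)
  have h7 : e (p i v) = p i v := congrArg (fun F : H →L[ℂ] H => F v) (hP.z_mul i)
  rwa [h7] at h6

end Main

end Gauge

open Gauge in
/-- **the gauge operator** -/
theorem exists_g {c κ : ℝ} (hc : 0 < c) (hκ : 0 < κ) : ∃ C : ℝ, 0 < C ∧
    ∀ (H : Type u) [NormedAddCommGroup H] [InnerProductSpace ℂ H] [CompleteSpace H]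
      (M : VonNeumannAlgebra H) (A : StarSubalgebra ℂ (H →L[ℂ] H)), Masa M A →
      ∀ η : H, CVec M A η → ∀ (n : ℕ) (p : Fin n → H →L[ℂ] H), Part A (vs M η) p →
      ∀ T ∈ M, IsSelfAdjoint T → vs M η * T = T → ‖T‖ ≤ 2 → (∀ i, p i * T = T * p i) →
      ∀ q ∈ M, IsStarProjection q → vs M η * q = q → ‖q * T * q‖ ≤ c →
      ∃ g ∈ M, IsSelfAdjoint g ∧ ‖g‖ ≤ 1 ∧ vs M η * g = g ∧ (∀ i, p i * g = g * p i) ∧
        ‖g * T * g‖ ≤ c + κ ∧ ‖(vs M η - g) η‖ ^ 2 ≤ C * ‖(vs M η - q) η‖ ^ 2 := by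
  refine ⟨(4 / κ + 2) / (c + κ), by positivity, ?_⟩
  intro H _ _ _ M A hM η hη n p hP T hTM hT heT hT2 hpT q hqM hq heq hqT
  set e := vs M η with he'
  have he : IsStarProjection e := vs_proj M η
  have heM : e ∈ M := R121.vs_mem M η
  have hee : e * e = e := he.isIdempotentElem
  have hk0 : 0 ≤ kk e q p := kk_nonneg hP he hq heq
  have hpM : ∀ i, p i ∈ M := fun i => hM.le (hP.mem i)
  have hkM : kk e q p ∈ M :=
    sum_mem (fun i _ => mul_mem (mul_mem (hpM i) (sub_mem heM hqM)) (hpM i))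
  obtain ⟨G, ⟨f, hf⟩, hGsa, hG1, hGk, hGle⟩ := exists_G hk0 (by positivity : 0 < c + κ)
    (by positivity : 0 < 4 / κ + 2)
  have hGM : G ∈ M := by rw [hf]; exact cfc_mem M hkM f
  have hGcomm : ∀ y : H →L[ℂ] H, kk e q p * y = y * kk e q p → G * y = y * G := by
    intro y hy
    rw [hf]
    exact (Commute.cfc_real (show Commute (kk e q p) y from hy) f).eq
  have hGe : G * e = e * G := hGcomm e (by rw [kk_mul_e hP, e_mul_kk hP])
  have hGp : ∀ i, G * p i = p i * G := fun i => hGcomm (p i) (by rw [kk_mul_p hP, p_mul_kk hP])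
  have hGk' : G * kk e q p = kk e q p * G := hGcomm _ rfl
  have hgsa : IsSelfAdjoint (e * G) := by
    change star (e * G) = e * G
    rw [star_mul, hGsa.star_eq, he.isSelfAdjoint.star_eq, hGe]
  refine ⟨e * G, mul_mem heM hGM, hgsa, ?_, ?_, ?_, ?_, ?_⟩
  · calc ‖e * G‖ ≤ ‖e‖ * ‖G‖ := norm_mul_le _ _
      _ ≤ 1 * 1 := by
        gcongr
        exact he.norm_le
      _ = 1 := one_mul 1
  · rw [← mul_assoc, hee]
  · intro i
    rw [← mul_assoc, hP.mul_z i, mul_assoc, hGp i, ← mul_assoc, hP.z_mul i]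
  · have hsa : IsSelfAdjoint (e * G * T * (e * G)) := by
      have h := hT.conjugate (e * G)
      rwa [hgsa.star_eq] at h
    refine norm_le_of_form hsa (by positivity) (fun v => ?_)
    have hgi : ∀ a b : H, ⟪(e * G) a, b⟫_ℂ = ⟪a, (e * G) b⟫_ℂ := by
      intro a b
      conv_lhs => rw [← hgsa.star_eq, star_eq_adjoint, adjoint_inner_left]
    have h1 : ⟪(e * G * T * (e * G)) v, v⟫_ℂ = ⟪T ((e * G) v), (e * G) v⟫_ℂ := by
      rw [← hgi]; rfl
    rw [h1]
    refine (form_bound' hP he hq heq hT heT hT2 hpT hκ hc hqT ((e * G) v)).trans ?_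
    have h2 : ⟪((c + κ) • e + (4 / κ + 2) • kk e q p : H →L[ℂ] H) ((e * G) v), (e * G) v⟫_ℂ =
        ⟪((e * G) * ((c + κ) • e + (4 / κ + 2) • kk e q p) * (e * G)) v, v⟫_ℂ := by
      rw [← hgi]; rfl
    have h3 : (e * G) * ((c + κ) • e + (4 / κ + 2) • kk e q p) * (e * G) =
        (c + κ) • e := by
      have h4 : ((c + κ) • e + (4 / κ + 2) • kk e q p : H →L[ℂ] H) =
          e * ((c + κ) • 1 + (4 / κ + 2) • kk e q p) := by
        rw [mul_add, mul_smul_comm, mul_smul_comm, mul_one, e_mul_kk hP]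
      set B : H →L[ℂ] H := (c + κ) • 1 + (4 / κ + 2) • kk e q p with hB
      have h5 : G * B = B * G := by
        rw [hB, mul_add, add_mul, mul_smul_comm, mul_smul_comm, smul_mul_assoc, smul_mul_assoc,
          mul_one, one_mul, hGk']
      have h6 : e * B = B * e := by
        rw [hB, mul_add, add_mul, mul_smul_comm, mul_smul_comm, smul_mul_assoc, smul_mul_assoc,
          mul_one, one_mul, e_mul_kk hP, kk_mul_e hP]
      rw [h4]
      calc e * G * (e * B) * (e * G) = e * (G * e) * B * e * G := by simp only [mul_assoc]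
        _ = e * (e * G) * B * e * G := by rw [hGe]
        _ = (e * e) * G * (B * e) * G := by simp only [mul_assoc]
        _ = e * G * (e * B) * G := by rw [hee, h6]
        _ = e * (G * e) * (B * G) := by simp only [mul_assoc]
        _ = e * (e * G) * (G * B) := by rw [hGe, h5]
        _ = (e * e) * (G * G * B) := by simp only [mul_assoc]
        _ = (c + κ) • e := by rw [hee, hGk, mul_smul_comm, mul_one]
    rw [h2, h3]
    change (⟪(c + κ) • e v, v⟫_ℂ).re ≤ _
    rw [inner_smul_left_eq_smul, Complex.smul_re, re_inner_proj he, smul_eq_mul]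
    have := norm_proj_le he v
    gcongr
  · have h1 : ‖(e - e * G) η‖ ^ 2 ≤ ‖(1 - G) η‖ ^ 2 := by
      have h2 : (e - e * G) η = e ((1 - G) η) := by
        have : e - e * G = e * (1 - G) := by rw [mul_sub, mul_one]
        rw [this]; rfl
      rw [h2]
      exact norm_proj_le he _
    refine h1.trans ?_
    have hGsa1 : star (1 - G) = 1 - G := by rw [star_sub, star_one, hGsa.star_eq]
    have h3 : ‖(1 - G) η‖ ^ 2 = (⟪((1 - G) * (1 - G)) η, η⟫_ℂ).re := by
      rw [← re_star_mul_self, hGsa1]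
    have h4 : (⟪((1 - G) * (1 - G)) η, η⟫_ℂ).re ≤
        (⟪(((4 / κ + 2) / (c + κ)) • kk e q p : H →L[ℂ] H) η, η⟫_ℂ).re := by
      have h5 := re_inner_nonneg (sub_nonneg.2 hGle) η
      rw [sub_apply, inner_sub_left, Complex.sub_re] at h5
      linarith
    rw [h3]
    refine h4.trans ?_
    change (⟪((4 / κ + 2) / (c + κ)) • kk e q p η, η⟫_ℂ).re ≤ _
    rw [inner_smul_left_eq_smul, Complex.smul_re, smul_eq_mul]
    refine mul_le_mul_of_nonneg_left (le_of_eq ?_) (by positivity)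
    -- centrality
    have h6 : ∀ i, (⟪(p i * (e - q) * p i) η, η⟫_ℂ) = ⟪((e - q) * p i) η, η⟫_ℂ := by
      intro i
      have h7 := hη (p i) (hP.mem i) ((e - q) * p i) (mul_mem (sub_mem heM hqM) (hpM i))
      rw [← inner_conj_symm, mul_assoc, h7, inner_conj_symm, mul_assoc,
        (hP.proj i).isIdempotentElem.eq]
    rw [kk, sum_apply, sum_inner]
    simp only [h6]
    rw [← sum_inner]
    have h8 : ∑ i, ((e - q) * p i) η = (e - q) η := by
      have h9 : ∑ i, ((e - q) * p i) η = (e - q) (∑ i, p i η) := by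
        rw [map_sum]; rfl
      rw [h9, sum_p_apply hP, vs_self]
    rw [h8]
    exact re_inner_proj (e_sub_proj he hq heq) η

end Crest.Agent.R109
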