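import Crest.Agent.R109.Final143
import Crest.Agent.R109.Final144
import Crest.Agent.R109.Gauge
import Crest.Agent.R109.CE

/-!
# Row 109: `HasE` from the conditional expectation of `CE.lean`, `HasG` from `Gauge.lean`,
and the two statements from `NCE_q`, `NoNCE143`, `NoNCE144` alone
-/

set_option autoImplicit false

namespace Crest.Agent.R109

universe u

theorem hasE : HasE.{u} := by
  intro H _ _ _ M A hM η hη hsep x hx hsa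
  have h : NCE M A η := ⟨hM, hη, hsep⟩
  refine ⟨CE A η x, h.CE_mem hx, ?_, h.norm_CE_le hx, fun b hb => h.inner_CE hx hb⟩
  change star (CE A η x) = CE A η x
  rw [← h.CE_star hx, hsa.star_eq]

theorem hasG : HasG.{u} := fun _ _ hc hκ => exists_g hc hκ

/-- **S0143** from `NCE_q` and `NoNCE143` -/
theorem s0143_of' (hN : NCE_q.{u}) (h0 : NoNCE143.{u})
    (ε : ℝ) (hε : 0 < ε) (hε1 : ε < 1)
    (H : Type u) [NormedAddCommGroup H] [InnerProductSpace ℂ H] [CompleteSpace H]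
    (M : VonNeumannAlgebra H) (A : StarSubalgebra ℂ (H →L[ℂ] H))
    (hAM : A ≤ M.toStarSubalgebra) (hA : ∀ a ∈ A, ∀ b ∈ A, a * b = b * a)
    (hAmax : ∀ y ∈ M, (∀ a ∈ A, a * y = y * a) → y ∈ A)
    (x : H →L[ℂ] H) (hxM : x ∈ M) (hx : IsSelfAdjoint x) (F : Finset H) (δ : ℝ) (hδ : 0 < δ) :
    ∃ p : Fin (Nat.ceil (400000000 / ε ^ 2) + Nat.ceil (4 / ε) + 1) → (H →L[ℂ] H),
      (∀ i, p i ∈ A ∧ IsStarProjection (p i)) ∧ (∀ i j, i ≠ j → p i * p j = 0) ∧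
      ∑ i, p i = 1 ∧
      ∃ a ∈ A, IsSelfAdjoint a ∧ ‖a‖ ≤ ‖x‖ ∧
        ∃ q ∈ M, IsStarProjection q ∧ (∀ ξ ∈ F, ‖(1 - q) ξ‖ < δ) ∧
          ‖q * (∑ i, p i * x * p i - a) * q‖ ≤ ε * ‖x‖ :=
  s0143_of hN hasE h0 ε hε hε1 H M A hAM hA hAmax x hxM hx F δ hδ

/-- **S0144** from `NCE_q` and `NoNCE144` -/
theorem s0144_of' (hN : NCE_q.{u}) (h0 : NoNCE144.{u}) :
    ∃ C : ℝ, 0 < C ∧ ∀ ε : ℝ, 0 < ε → ε < 1 → ∃ R : ℕ, (R : ℝ) ≤ C / ε ^ 6 ∧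
      ∀ (H : Type u) [NormedAddCommGroup H] [InnerProductSpace ℂ H] [CompleteSpace H]
        (M : VonNeumannAlgebra H) (A : StarSubalgebra ℂ (H →L[ℂ] H)),
        A ≤ M.toStarSubalgebra → (∀ a ∈ A, ∀ b ∈ A, a * b = b * a) →
        (∀ y ∈ M, (∀ a ∈ A, a * y = y * a) → y ∈ A) →
        ∀ x ∈ M, IsSelfAdjoint x → ∀ (F : Finset H) (δ : ℝ), 0 < δ →
          ∃ y ∈ M, IsSelfAdjoint y ∧ ‖y‖ ≤ 3 * ‖x‖ ∧ (∀ ξ ∈ F, ‖(y - x) ξ‖ < δ) ∧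
            ∃ p : Fin R → (H →L[ℂ] H),
              (∀ i, p i ∈ A ∧ IsStarProjection (p i)) ∧ (∀ i j, i ≠ j → p i * p j = 0) ∧
              ∑ i, p i = 1 ∧
              ∃ a ∈ A, IsSelfAdjoint a ∧ ‖a‖ ≤ ‖y‖ ∧ ‖∑ i, p i * y * p i - a‖ ≤ ε * ‖y‖ :=
  s0144_of hN hasE hasG h0

end Crest.Agent.R109
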