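import Crest.Agent.R109.CE

/-!
# Row 109: cutting a diffuse element to small blocks
-/

set_option autoImplicit false
set_option linter.unusedSectionVars false

namespace Crest.Agent.R109

open Crest.Agent.R124 Crest.Agent.R121 Filter Topology
open scoped InnerProductSpace

universe u

variable {H : Type u} [NormedAddCommGroup H] [InnerProductSpace ℂ H] [CompleteSpace H]
variable {M : VonNeumannAlgebra H} {A : StarSubalgebra ℂ (H →L[ℂ] H)} {η : H}

namespace SB

theorem vspan_bound (M : VonNeumannAlgebra H) (η : H) {w : H} (hw : w ∈ vspan M η) :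
    ∃ K : ℝ, 0 ≤ K ∧ ∀ c ∈ M, ‖c w‖ ≤ K * ‖c η‖ := by
  refine Submodule.span_induction
    (p := fun w _ => ∃ K : ℝ, 0 ≤ K ∧ ∀ c ∈ M, ‖c w‖ ≤ K * ‖c η‖) ?_ ?_ ?_ ?_ hw
  · rintro _ ⟨T, hT, rfl⟩
    refine ⟨‖T‖, norm_nonneg _, fun c hc => ?_⟩
    have h1 : c (T η) = T (c η) :=
      congrArg (fun X : H →L[ℂ] H => X η) (commutant_comm M hc hT).symm
    rw [h1]
    exact T.le_opNorm _
  · exact ⟨0, le_rfl, fun c _ => by simp⟩
  · rintro x y _ _ ⟨K, hK, hx⟩ ⟨L, hL, hy⟩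
    refine ⟨K + L, add_nonneg hK hL, fun c hc => ?_⟩
    rw [map_add]
    calc ‖c x + c y‖ ≤ ‖c x‖ + ‖c y‖ := norm_add_le _ _
      _ ≤ K * ‖c η‖ + L * ‖c η‖ := add_le_add (hx c hc) (hy c hc)
      _ = (K + L) * ‖c η‖ := by ring
  · rintro a x _ ⟨K, hK, hx⟩
    refine ⟨‖a‖ * K, by positivity, fun c hc => ?_⟩
    rw [map_smul, norm_smul, mul_assoc]
    exact mul_le_mul_of_nonneg_left (hx c hc) (norm_nonneg _)

/-- absolute continuity at a fixed vector: contractions of `M` small at the separating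
vector are small at `ζ` -/
theorem small_at (h : NCE M A η) (ζ : H) {κ : ℝ} (hκ : 0 < κ) :
    ∃ δ > 0, ∀ c ∈ M, ‖c‖ ≤ 1 → ‖c η‖ ≤ δ → ‖c ζ‖ ≤ κ := by
  obtain ⟨w, hw, hwζ⟩ := Metric.mem_closure_iff.1 (mem_closure_vspan M h.sep ζ) (κ / 2)
    (by positivity)
  obtain ⟨K, hK, hKw⟩ := vspan_bound M η hw
  refine ⟨κ / (2 * (K + 1)), by positivity, fun c hc hc1 hcη => ?_⟩
  have h1 : c ζ = c (ζ - w) + c w := by rw [← map_add, sub_add_cancel]
  have h2 : ‖c (ζ - w)‖ ≤ κ / 2 := by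
    refine (c.le_opNorm _).trans ?_
    rw [dist_eq_norm] at hwζ
    calc ‖c‖ * ‖ζ - w‖ ≤ 1 * ‖ζ - w‖ := mul_le_mul_of_nonneg_right hc1 (norm_nonneg _)
      _ ≤ κ / 2 := by rw [one_mul]; exact hwζ.le
  have h3 : ‖c w‖ ≤ κ / 2 := by
    refine (hKw c hc).trans ?_
    calc K * ‖c η‖ ≤ (K + 1) * (κ / (2 * (K + 1))) :=
          mul_le_mul (by linarith) hcη (norm_nonneg _) (by linarith)
      _ = κ / 2 := by field_simp
  rw [h1]
  calc ‖c (ζ - w) + c w‖ ≤ ‖c (ζ - w)‖ + ‖c w‖ := norm_add_le _ _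
    _ ≤ κ := by linarith

/-- the soft cut `g = (1 + a / s)⁻¹` -/
theorem exists_cut {a : H →L[ℂ] H} (ha : a ∈ M) (h0 : 0 ≤ a) {s : ℝ} (hs : 0 < s) :
    ∃ g ∈ M, IsSelfAdjoint g ∧ ‖g‖ ≤ 1 ∧ ‖1 - g‖ ≤ 1 ∧ (∀ b, a * b = b * a → g * b = b * g) ∧
      ‖g * a * g‖ ≤ s ∧ (∀ ζ : H, ‖(1 - g) ζ‖ ^ 2 ≤ (⟪ζ, a ζ⟫_ℂ).re / s) := by
  have hsa : IsSelfAdjoint a := IsSelfAdjoint.of_nonneg h0
  have hspec : ∀ t ∈ spectrum ℝ a, 0 ≤ t := fun t ht => spectrum_nonneg_of_nonneg h0 ht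
  set f : ℝ → ℝ := fun t => (1 + t / s)⁻¹ with hf
  have hfc : ContinuousOn f (spectrum ℝ a) := by
    refine ContinuousOn.inv₀ (by fun_prop) fun t ht => ?_
    have := hspec t ht
    positivity
  have h1c : ContinuousOn (fun t => 1 - f t) (spectrum ℝ a) := continuousOn_const.sub hfc
  have h1g : 1 - cfc f a = cfc (fun t => 1 - f t) a := by
    rw [cfc_sub (fun _ => (1 : ℝ)) f a continuousOn_const hfc, cfc_const_one ℝ a]
  have hfr : ∀ t ∈ spectrum ℝ a, 0 ≤ f t ∧ f t ≤ 1 := by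
    intro t ht
    have h1 := hspec t ht
    have h2 : 0 ≤ t / s := by positivity
    exact ⟨by rw [hf]; positivity, inv_le_one_of_one_le₀ (by linarith)⟩
  refine ⟨cfc f a, cfc_mem M ha f, cfc_predicate f a, ?_, ?_, ?_, ?_, ?_⟩
  · refine norm_cfc_le zero_le_one fun t ht => ?_
    have h1 := hspec t ht
    have h2 : 1 ≤ 1 + t / s := by
      have : 0 ≤ t / s := by positivity
      linarith
    rw [Real.norm_eq_abs, abs_of_nonneg (by positivity)]
    exact inv_le_one_of_one_le₀ h2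
  · rw [h1g]
    refine norm_cfc_le zero_le_one fun t ht => ?_
    obtain ⟨h1, h2⟩ := hfr t ht
    rw [Real.norm_eq_abs, abs_le]
    constructor <;> linarith
  · intro b hb
    exact (Commute.cfc_real (show Commute a b from hb) f).eq
  · have h2 : cfc f a * a * cfc f a = cfc (fun t => f t * t * f t) a := by
      rw [cfc_mul (fun t => f t * t) f a (hfc.mul continuousOn_id) hfc,
        cfc_mul f (fun t => t) a hfc continuousOn_id, cfc_id' ℝ a]
    rw [h2]
    refine norm_cfc_le hs.le fun t ht => ?_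
    have h3 := hspec t ht
    have h4 : 0 ≤ t / s := by positivity
    have h5 : f t * t * f t = s * ((t / s) / (1 + t / s) ^ 2) := by
      rw [hf]
      have : (1 + t / s) ≠ 0 := by positivity
      field_simp
    rw [h5, Real.norm_eq_abs, abs_of_nonneg (by positivity)]
    have h6 : (t / s) / (1 + t / s) ^ 2 ≤ 1 := by
      rw [div_le_one (by positivity)]
      nlinarith
    nlinarith
  · intro ζ
    have hsq : (1 - cfc f a) * (1 - cfc f a) ≤ s⁻¹ • a := by
      rw [h1g, ← cfc_mul _ _ a h1c h1c]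
      have h2 : s⁻¹ • a = cfc (fun t : ℝ => s⁻¹ • t) a := by
        rw [cfc_smul (s⁻¹) (fun t : ℝ => t) a continuousOn_id, cfc_id' ℝ a]
      rw [h2]
      refine cfc_mono (fun t ht => ?_) (h1c.mul h1c) (by fun_prop)
      obtain ⟨h3, h4⟩ := hfr t ht
      have h5 := hspec t ht
      have h6 : 0 ≤ t / s := by positivity
      have h7 : 1 - f t ≤ t / s := by
        rw [hf]
        have h8 : (1 : ℝ) - (1 + t / s)⁻¹ = (t / s) * (1 + t / s)⁻¹ := by
          have : (1 + t / s) ≠ 0 := by positivity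
          field_simp
          ring
        simp only
        rw [h8]
        have h9 : (1 + t / s)⁻¹ ≤ 1 := inv_le_one_of_one_le₀ (by linarith)
        nlinarith
      rw [smul_eq_mul, inv_mul_eq_div]
      nlinarith
    have hsa1 : IsSelfAdjoint (1 - cfc f a) := (IsSelfAdjoint.one _).sub (cfc_predicate f a)
    have h2 : ((‖(1 - cfc f a) ζ‖ ^ 2 : ℝ) : ℂ)
        = ⟪((1 - cfc f a) * (1 - cfc f a)) ζ, ζ⟫_ℂ := by
      change _ = ⟪(1 - cfc f a) ((1 - cfc f a) ζ), ζ⟫_ℂ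
      conv_rhs => rw [← hsa1.star_eq, ContinuousLinearMap.star_eq_adjoint]
      rw [ContinuousLinearMap.adjoint_inner_left, ← ContinuousLinearMap.star_eq_adjoint,
        hsa1.star_eq, inner_self_eq_norm_sq_to_K]
      push_cast
      rfl
    have h2' : ‖(1 - cfc f a) ζ‖ ^ 2 = (⟪((1 - cfc f a) * (1 - cfc f a)) ζ, ζ⟫_ℂ).re := by
      rw [← h2, Complex.ofReal_re]
    rw [h2']
    have h3 := (op_le_iff (by rw [star_mul, hsa1.star_eq]) (by
      rw [star_smul, hsa.star_eq]; simp)).1 hsq ζ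
    refine h3.trans (le_of_eq ?_)
    have h4 : (s⁻¹ • a) ζ = ((s⁻¹ : ℝ) : ℂ) • a ζ := by
      rw [smul_apply]
      exact (RCLike.real_smul_eq_coe_smul (K := ℂ) _ _)
    rw [h4, inner_smul_left, Complex.conj_ofReal, Complex.re_ofReal_mul, ← inner_conj_symm,
      Complex.conj_re, inv_mul_eq_div]

/-- **cut to small blocks** -/
theorem small_blocks (h : NCE M A η) {z : H →L[ℂ] H} (hz : z ∈ M) (hzs : IsSelfAdjoint z)
    (hD : ∀ κ : ℝ, 0 < κ → ∃ P : FP A, ∑ i, ‖CE A η (z * P.e i * z) η‖ ^ 2 < κ)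
    {ε κ : ℝ} (hε : 0 < ε) (hκ : 0 < κ) :
    ∃ P₁ : FP A, ∀ P : FP A, P₁ ≤ P → ∃ z₂ ∈ M, IsSelfAdjoint z₂ ∧ ‖z₂‖ ≤ ‖z‖ ∧
      ‖(z - z₂) η‖ ≤ κ ∧ ∀ k l, ‖P.e k * z₂ * P.e l‖ ≤ ε := by
  classical
  obtain ⟨δ, hδ, hδz⟩ := small_at h (z η) (half_pos hκ)
  -- smallness parameter
  set δ' : ℝ := min δ (κ / (2 * (‖z‖ + 1))) with hδ'
  have hδ'0 : 0 < δ' := lt_min hδ (by positivity)
  obtain ⟨P₀, hP₀⟩ := hD (δ' ^ 2 * ε ^ 4) (by positivity)
  have := FP.directed h.masa.comm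
  have hmem : ∀ i, z * P₀.e i * z ∈ M := fun i =>
    mul_mem (mul_mem hz (h.masa.memM (P₀.part.mem i))) hz
  have hev : ∀ᶠ P : FP A in atTop, ∑ i, ‖D P (z * P₀.e i * z) η‖ ^ 2 < δ' ^ 2 * ε ^ 4 := by
    have ht : Tendsto (fun P : FP A => ∑ i, ‖D P (z * P₀.e i * z) η‖ ^ 2) atTop
        (𝓝 (∑ i, ‖CE A η (z * P₀.e i * z) η‖ ^ 2)) :=
      tendsto_finsetSum _ fun i _ => ((h.tendsto_D (hmem i) η).norm.pow 2)
    exact ht.eventually (gt_mem_nhds hP₀)
  obtain ⟨P₁, hP₁⟩ := Filter.eventually_atTop.1 (hev.and (eventually_ge_atTop P₀))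
  refine ⟨P₁, fun P hP => ?_⟩
  obtain ⟨hsum, hP₀P⟩ := hP₁ P hP
  obtain ⟨f, hf⟩ := hP₀P
  set b : Fin P₀.n → H →L[ℂ] H := fun i => D P (z * P₀.e i * z) with hb
  have hbsa : ∀ i, star (b i) = b i := by
    intro i
    rw [hb]
    simp only
    rw [← D_star, star_mul, star_mul, P₀.star_e, hzs.star_eq, mul_assoc]
  have hbM : ∀ i, b i ∈ M := fun i => D_mem P _ h.masa (hmem i)
  set a : H →L[ℂ] H := ∑ i, b i * b i with ha
  have haM : a ∈ M := sum_mem fun i _ => mul_mem (hbM i) (hbM i)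
  have hbb : ∀ i, 0 ≤ b i * b i := fun i => by
    have := star_mul_self_nonneg (b i)
    rwa [hbsa] at this
  have ha0 : 0 ≤ a := Finset.sum_nonneg fun i _ => hbb i
  obtain ⟨g, hgM, hgs, hg1, hg1', hgc, hgag, hgn⟩ := exists_cut haM ha0 (s := ε ^ 4)
    (by positivity)
  -- `a` is small at `η`
  have haη : (⟪η, a η⟫_ℂ).re = ∑ i, ‖b i η‖ ^ 2 := by
    rw [ha, _root_.sum_apply, inner_sum, Complex.re_sum]
    refine Finset.sum_congr rfl fun i _ => ?_
    change (⟪η, b i (b i η)⟫_ℂ).re = _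
    have h1 : ⟪η, b i (b i η)⟫_ℂ = ⟪b i η, b i η⟫_ℂ := by
      conv_lhs => rw [← hbsa i, ContinuousLinearMap.star_eq_adjoint]
      rw [ContinuousLinearMap.adjoint_inner_right, ← ContinuousLinearMap.star_eq_adjoint, hbsa]
    rw [h1, inner_self_eq_norm_sq_to_K]
    norm_cast
  have hgη : ‖(1 - g) η‖ ≤ δ' := by
    have h1 := hgn η
    rw [haη] at h1
    have h2 : (∑ i, ‖b i η‖ ^ 2) / ε ^ 4 ≤ δ' ^ 2 := by
      rw [div_le_iff₀ (by positivity)]
      exact hsum.le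
    exact (pow_le_pow_iff_left₀ (norm_nonneg _) hδ'0.le two_ne_zero).1 (h1.trans h2)
  refine ⟨g * z * g, mul_mem (mul_mem hgM hz) hgM, ?_, ?_, ?_, ?_⟩
  · rw [isSelfAdjoint_iff, star_mul, star_mul, hgs.star_eq, hzs.star_eq, mul_assoc]
  · calc ‖g * z * g‖ ≤ ‖g * z‖ * ‖g‖ := norm_mul_le _ _
      _ ≤ (‖g‖ * ‖z‖) * ‖g‖ := mul_le_mul_of_nonneg_right (norm_mul_le _ _) (norm_nonneg _)
      _ ≤ (1 * ‖z‖) * 1 := by
          refine mul_le_mul (mul_le_mul_of_nonneg_right hg1 (norm_nonneg _)) hg1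
            (norm_nonneg _) (by positivity)
      _ = ‖z‖ := by ring
  · have h1 : (z - g * z * g) η = (1 - g) (z η) + g (z ((1 - g) η)) := by
      change z η - g (z (g η)) = (z η - g (z η)) + g (z (η - g η))
      rw [map_sub, map_sub]
      abel
    rw [h1]
    have h2 : ‖(1 - g) (z η)‖ ≤ κ / 2 :=
      hδz _ (sub_mem (one_mem _) hgM) hg1' (hgη.trans (min_le_left _ _))
    have h3 : ‖g (z ((1 - g) η))‖ ≤ κ / 2 := by
      calc ‖g (z ((1 - g) η))‖ ≤ ‖g‖ * ‖z ((1 - g) η)‖ := g.le_opNorm _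
        _ ≤ 1 * (‖z‖ * ‖(1 - g) η‖) :=
            mul_le_mul hg1 (z.le_opNorm _) (norm_nonneg _) zero_le_one
        _ ≤ (‖z‖ + 1) * (κ / (2 * (‖z‖ + 1))) := by
            rw [one_mul]
            exact mul_le_mul (by linarith) (hgη.trans (min_le_right _ _)) (norm_nonneg _)
              (by positivity)
        _ = κ / 2 := by
            have : ‖z‖ + 1 ≠ 0 := by positivity
            field_simp
    calc ‖(1 - g) (z η) + g (z ((1 - g) η))‖ ≤ _ := norm_add_le _ _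
      _ ≤ κ := by linarith
  · intro k l
    -- `g` commutes with the cells of `P`
    have hbe : ∀ i (m : Fin P.n), P.e m * b i = b i * P.e m := fun i m => D_comm_e P _ m
    have hae : ∀ m : Fin P.n, a * P.e m = P.e m * a := by
      intro m
      rw [ha, Finset.sum_mul, Finset.mul_sum]
      refine Finset.sum_congr rfl fun i _ => ?_
      rw [mul_assoc, ← hbe, ← mul_assoc, ← hbe, mul_assoc]
    have hge : ∀ m : Fin P.n, g * P.e m = P.e m * g := fun m => hgc _ (hae m)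
    set j := f k with hj
    -- norm of `b j * g`
    have hbg : ‖b j * g‖ ≤ ε ^ 2 := by
      have h1 : ‖b j * g‖ * ‖b j * g‖ = ‖g * (b j * b j) * g‖ := by
        rw [← CStarRing.norm_star_mul_self, star_mul, hgs.star_eq, hbsa]
        simp only [mul_assoc]
      have h2 : g * (b j * b j) * g ≤ g * a * g := by
        have h3 : b j * b j ≤ a := Finset.single_le_sum (fun i _ => hbb i) (Finset.mem_univ j)
        have := star_left_conjugate_le_conjugate h3 g
        rwa [hgs.star_eq] at this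
      have h3 : 0 ≤ g * (b j * b j) * g := by
        have := star_left_conjugate_nonneg (hbb j) g
        rwa [hgs.star_eq] at this
      have h4 : ‖g * (b j * b j) * g‖ ≤ ‖g * a * g‖ := CStarAlgebra.norm_le_norm_of_nonneg_of_le h3 h2
      have h5 : ‖b j * g‖ * ‖b j * g‖ ≤ ε ^ 4 := by rw [h1]; exact h4.trans hgag
      nlinarith [norm_nonneg (b j * g), sq_nonneg ε]
    have he1 : ∀ m : Fin P.n, ‖P.e m‖ ≤ 1 := fun m => (P.part.proj m).norm_le
    -- the block
    have hk : P.e k = P.e k * P₀.e j := by rw [FP.le_mul' f hf, if_pos rfl]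
    have h1 : P.e k * (g * z * g) * P.e l = g * P.e k * (P₀.e j * z * P.e l * g) := by
      calc P.e k * (g * z * g) * P.e l = (P.e k * g) * z * (g * P.e l) := by
            simp only [mul_assoc]
        _ = (g * P.e k) * z * (P.e l * g) := by rw [hge l, hge k]
        _ = (g * (P.e k * P₀.e j)) * z * (P.e l * g) := by rw [← hk]
        _ = g * P.e k * (P₀.e j * z * P.e l * g) := by simp only [mul_assoc]
    have h2 : ‖P₀.e j * z * P.e l * g‖ ≤ ε := by
      have h3 : ‖P₀.e j * z * P.e l * g‖ * ‖P₀.e j * z * P.e l * g‖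
          = ‖g * (P.e l * (b j * g))‖ := by
        rw [← CStarRing.norm_star_mul_self]
        congr 1
        simp only [star_mul, hgs.star_eq, hzs.star_eq, P.star_e, P₀.star_e]
        have h4 : P.e l * b j = P.e l * (z * P₀.e j * z) * P.e l := e_mul_D P _ l
        calc g * (P.e l * (z * P₀.e j)) * (P₀.e j * z * P.e l * g)
            = g * (P.e l * (z * (P₀.e j * P₀.e j) * z) * P.e l) * g := by
              simp only [mul_assoc]
          _ = g * (P.e l * b j) * g := by rw [P₀.e_mul_e, h4]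
          _ = g * (P.e l * (b j * g)) := by simp only [mul_assoc]
      have h5 : ‖g * (P.e l * (b j * g))‖ ≤ ε ^ 2 := by
        calc ‖g * (P.e l * (b j * g))‖ ≤ ‖g‖ * ‖P.e l * (b j * g)‖ := norm_mul_le _ _
          _ ≤ 1 * (1 * ε ^ 2) := by
              refine mul_le_mul hg1 ((norm_mul_le _ _).trans ?_) (norm_nonneg _) zero_le_one
              exact mul_le_mul (he1 l) hbg (norm_nonneg _) zero_le_one
          _ = ε ^ 2 := by ring
      nlinarith [norm_nonneg (P₀.e j * z * P.e l * g)]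
    rw [h1]
    calc ‖g * P.e k * (P₀.e j * z * P.e l * g)‖
        ≤ ‖g * P.e k‖ * ‖P₀.e j * z * P.e l * g‖ := norm_mul_le _ _
      _ ≤ 1 * ε := by
          refine mul_le_mul ((norm_mul_le _ _).trans ?_) h2 (norm_nonneg _) zero_le_one
          nlinarith [norm_nonneg g, norm_nonneg (P.e k), he1 k]
      _ = ε := one_mul _

end SB

end Crest.Agent.R109
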