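import Crest.Agent.R109.X2Fin
import Crest.Agent.R109.SmallBlock3

/-!
# Row 109, module T2: `X2Prop`
-/

set_option autoImplicit false
set_option linter.unusedSectionVars false

namespace Crest.Agent.R109

universe u

theorem smallBlock : SmallBlockProp.{u} := by
  intro H _ _ _ M A η h _ z hz hzs hD κ hκ ε₁ hε₁
  refine SB.small_blocks h hz hzs (fun δ hδ => ?_) hε₁ hκ
  obtain ⟨P, hP⟩ := hD (δ / 2) (by positivity)
  exact ⟨P, lt_of_le_of_lt hP (by linarith)⟩

/-- module T2 of row 109 -/
theorem x2 : X2Prop.{u} := x2_of_smallBlock smallBlock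

end Crest.Agent.R109
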