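import Mathlib
import Crest.Agent.R109.FinStart1

/-!
# R109 / FinStart2 (helper585)

Multilinear determinants on the sites `V × Fin r`, groups processed one by one, stability.
-/

set_option autoImplicit false

namespace Crest.Agent.R109.Start

open Polynomial Finset Filter Topology Function

/-! ### one group -/

section group

variable {r : ℕ}

/-- the polynomial of a multilinear map on the line `y ↦ (y,1)` -/
noncomputable def pol (G : MultilinearMap ℂ (fun _ : Fin r => ℂ × ℂ) ℂ) : ℂ[X] :=
  ∑ K : Finset (Fin r),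
    C (G (K.piecewise (fun _ => ((1 : ℂ), (0 : ℂ))) (fun _ => ((0 : ℂ), (1 : ℂ))))) * X ^ K.card

theorem pol_eval (G : MultilinearMap ℂ (fun _ : Fin r => ℂ × ℂ) ℂ) (y : ℂ) :
    (pol G).eval y = G (fun _ => (y, 1)) := by
  have h1 : (fun _ : Fin r => ((y : ℂ), (1 : ℂ))) =
      (fun _ : Fin r => y • ((1 : ℂ), (0 : ℂ))) + (fun _ : Fin r => ((0 : ℂ), (1 : ℂ))) := by
    funext i
    simp
  rw [h1, MultilinearMap.map_add_univ, pol, eval_finsetSum]
  apply Finset.sum_congr rfl
  intro K _
  rw [eval_mul, eval_C, eval_pow, eval_X]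
  have h2 := MultilinearMap.map_piecewise_smul G (fun _ : Fin r => y)
    (K.piecewise (fun _ => ((1 : ℂ), (0 : ℂ))) (fun _ => ((0 : ℂ), (1 : ℂ)))) K
  have h3 : K.piecewise (fun i : Fin r => (fun _ : Fin r => y) i •
      (K.piecewise (fun _ => ((1 : ℂ), (0 : ℂ))) (fun _ => ((0 : ℂ), (1 : ℂ)))) i)
      (K.piecewise (fun _ => ((1 : ℂ), (0 : ℂ))) (fun _ => ((0 : ℂ), (1 : ℂ)))) =
      K.piecewise (fun _ : Fin r => y • ((1 : ℂ), (0 : ℂ))) (fun _ => ((0 : ℂ), (1 : ℂ))) := by
    funext i
    by_cases hi : i ∈ K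
    · simp [Finset.piecewise_eq_of_mem _ _ _ hi]
    · simp [Finset.piecewise_eq_of_notMem _ _ _ hi]
  rw [h3] at h2
  rw [h2]
  simp only [Finset.prod_const, smul_eq_mul]
  ring

theorem pol_natDegree_le (G : MultilinearMap ℂ (fun _ : Fin r => ℂ × ℂ) ℂ) :
    (pol G).natDegree ≤ r := by
  rw [pol]
  apply natDegree_sum_le_of_forall_le
  intro K _
  refine (natDegree_C_mul_X_pow_le _ _).trans ?_
  simpa using Finset.card_le_univ K

theorem pol_coeff_top (G : MultilinearMap ℂ (fun _ : Fin r => ℂ × ℂ) ℂ) :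
    (pol G).coeff r = G (fun _ => (1, 0)) := by
  rw [pol, finsetSum_coeff]
  rw [Finset.sum_eq_single_of_mem (Finset.univ : Finset (Fin r)) (Finset.mem_univ _)]
  · rw [coeff_C_mul_X_pow]
    simp
  · intro K _ hK
    rw [coeff_C_mul_X_pow]
    have : ¬ r = K.card := by
      intro h
      apply hK
      rw [← Finset.card_eq_iff_eq_univ]
      simp [← h]
    rw [if_neg this]

theorem pol_coeff_pred (hr : 0 < r) (G : MultilinearMap ℂ (fun _ : Fin r => ℂ × ℂ) ℂ) :
    (pol G).coeff (r - 1) = ∑ i, G (fun j => if j = i then (0, 1) else (1, 0)) := by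
  rw [pol, finsetSum_coeff]
  have h1 : ∀ K : Finset (Fin r),
      (C (G (K.piecewise (fun _ => ((1 : ℂ), (0 : ℂ))) (fun _ => ((0 : ℂ), (1 : ℂ))))) *
        X ^ K.card : ℂ[X]).coeff (r - 1) =
      if K.card = r - 1 then
        G (K.piecewise (fun _ => ((1 : ℂ), (0 : ℂ))) (fun _ => ((0 : ℂ), (1 : ℂ)))) else 0 := by
    intro K
    rw [coeff_C_mul_X_pow]
    simp only [eq_comm]
  rw [Finset.sum_congr rfl (fun K _ => h1 K)]
  rw [← Finset.sum_filter]
  refine (Finset.sum_bij (fun (i : Fin r) _ => Finset.univ.erase i) ?_ ?_ ?_ ?_).symm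
  · intro i _
    rw [Finset.mem_filter]
    refine ⟨Finset.mem_univ _, ?_⟩
    rw [Finset.card_erase_of_mem (Finset.mem_univ i)]
    simp
  · intro i _ j _ h
    by_contra hne
    have : i ∈ Finset.univ.erase j := Finset.mem_erase.mpr ⟨hne, Finset.mem_univ _⟩
    have h' : Finset.univ.erase i = Finset.univ.erase j := h
    rw [← h'] at this
    simp at this
  · intro K hK
    have hK' := (Finset.mem_filter.mp hK).2
    have hc : (Finset.univ \ K).card = 1 := by
      rw [Finset.card_sdiff_of_subset (Finset.subset_univ K)]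
      simp only [Finset.card_univ, Fintype.card_fin, hK']
      omega
    obtain ⟨i, hi⟩ := Finset.card_eq_one.mp hc
    refine ⟨i, Finset.mem_univ _, ?_⟩
    ext j
    have hj : j ∈ Finset.univ \ K ↔ j = i := by rw [hi]; simp
    simp only [Finset.mem_sdiff, Finset.mem_univ, true_and] at hj
    simp only [Finset.mem_erase, Finset.mem_univ, and_true]
    tauto
  · intro i _
    congr 1
    funext j
    by_cases hj : j = i
    · subst hj
      rw [if_pos rfl, Finset.piecewise_eq_of_notMem]
      simp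
    · rw [if_neg hj, Finset.piecewise_eq_of_mem]
      simp [hj]

/-- affine lower line -/
theorem sum_single_eval (hr : 0 < r) (G : MultilinearMap ℂ (fun _ : Fin r => ℂ × ℂ) ℂ) (y : ℂ) :
    ∑ i, G (fun j => if j = i then (y, 1) else (1, 0)) =
      r * y * (pol G).coeff r + (pol G).coeff (r - 1) := by
  rw [pol_coeff_top, pol_coeff_pred hr]
  have h : ∀ i : Fin r, G (fun j => if j = i then (y, 1) else (1, 0)) =
      y * G (fun _ => (1, 0)) + G (fun j => if j = i then (0, 1) else (1, 0)) := by
    intro i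
    have e1 : (fun j : Fin r => if j = i then ((y : ℂ), (1 : ℂ)) else (1, 0)) =
        update (fun _ : Fin r => ((1 : ℂ), (0 : ℂ))) i (y • ((1 : ℂ), (0 : ℂ)) + (0, 1)) := by
      funext j
      by_cases hj : j = i
      · subst hj; simp
      · simp [hj]
    have e2 : (fun j : Fin r => if j = i then ((0 : ℂ), (1 : ℂ)) else (1, 0)) =
        update (fun _ : Fin r => ((1 : ℂ), (0 : ℂ))) i (0, 1) := by
      funext j
      by_cases hj : j = i
      · subst hj; simp
      · simp [hj]
    rw [e1, e2, G.map_update_add, G.map_update_smul]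
    congr 2
    rw [update_eq_self_iff.mpr rfl]
  rw [Finset.sum_congr rfl (fun i _ => h i), Finset.sum_add_distrib]
  simp
  ring

/-- factorisation over `ℂ` -/
theorem exists_roots (hr : 0 < r) (G : MultilinearMap ℂ (fun _ : Fin r => ℂ × ℂ) ℂ)
    (hA : G (fun _ => (1, 0)) ≠ 0) :
    ∃ ζ : Fin r → ℂ, (∀ y : ℂ, G (fun _ => (y, 1)) = G (fun _ => (1, 0)) * ∏ k, (y - ζ k)) ∧
      (∀ y : ℂ, ∑ i, G (fun j => if j = i then (y, 1) else (1, 0)) =
        G (fun _ => (1, 0)) * (r * y - ∑ k, ζ k)) := by
  have hdeg : (pol G).natDegree = r := by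
    apply le_antisymm (pol_natDegree_le G)
    apply le_natDegree_of_ne_zero
    rw [pol_coeff_top]
    exact hA
  have hlead : (pol G).leadingCoeff = G (fun _ => (1, 0)) := by
    rw [leadingCoeff, hdeg, pol_coeff_top]
  have hsplit : (pol G).Splits := IsAlgClosed.splits _
  have hcard : (pol G).roots.card = r :=
    (splits_iff_card_roots.mp hsplit).trans hdeg
  set l := (pol G).roots.toList with hl
  have hlen : l.length = r := by rw [hl, Multiset.length_toList, hcard]
  set ζ : Fin r → ℂ := fun k => l.get (Fin.cast hlen.symm k) with hζ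
  have hmap : (Finset.univ : Finset (Fin r)).val.map ζ = (pol G).roots := by
    rw [Fin.univ_val_map]
    have : List.ofFn ζ = l := by
      apply List.ext_get
      · simp [hlen]
      · intro n h1 h2
        simp [hζ]
    rw [this, hl, Multiset.coe_toList]
  have hfac : pol G = C (G (fun _ => (1, 0))) * ∏ k, (X - C (ζ k)) := by
    have h1 := hsplit.eq_prod_roots
    rw [hlead, ← hmap, Multiset.map_map] at h1
    exact h1
  refine ⟨ζ, ?_, ?_⟩
  · intro y
    rw [← pol_eval, hfac, eval_mul, eval_C, eval_prod]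
    simp
  · intro y
    rw [sum_single_eval hr, pol_coeff_top]
    have h2 : (pol G).coeff (r - 1) = G (fun _ => (1, 0)) * (- ∑ k, ζ k) := by
      rw [hfac, coeff_C_mul]
      congr 1
      have := Polynomial.prod_X_sub_C_coeff_card_pred (Finset.univ : Finset (Fin r)) ζ
        (by simp [hr])
      simpa using this
    rw [h2]
    ring

end group

/-! ### sites -/

section sites

set_option linter.unusedSectionVars false

variable {V : Type*} [Fintype V] [DecidableEq V] {r : ℕ}

/-- the row of the site `s` with parameters `p = (a,b)`: `a e_s - b X_s` -/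
noncomputable def rowMap (X : Matrix (V × Fin r) (V × Fin r) ℂ) (s : V × Fin r) :
    ℂ × ℂ →ₗ[ℂ] (V × Fin r → ℂ) where
  toFun p := p.1 • Pi.single s 1 - p.2 • X s
  map_add' p q := by
    funext t
    simp only [Prod.fst_add, Prod.snd_add, Pi.sub_apply, Pi.smul_apply, Pi.add_apply, smul_eq_mul]
    ring
  map_smul' c p := by
    funext t
    simp only [Prod.smul_fst, Prod.smul_snd, Pi.sub_apply, Pi.smul_apply, smul_eq_mul,
      RingHom.id_apply]
    ring

/-- the multilinear determinant -/
noncomputable def D (X : Matrix (V × Fin r) (V × Fin r) ℂ) :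
    MultilinearMap ℂ (fun _ : V × Fin r => ℂ × ℂ) ℂ :=
  (Matrix.detRowAlternating (n := V × Fin r) (R := ℂ)).toMultilinearMap.compLinearMap (rowMap X)

theorem D_apply (X : Matrix (V × Fin r) (V × Fin r) ℂ) (u : V × Fin r → ℂ × ℂ) :
    D X u = Matrix.det (Matrix.of fun s => (u s).1 • Pi.single s (1 : ℂ) - (u s).2 • X s) := by
  rfl

/-- mask of the processed groups -/
def mask (S : Finset V) (c : V → Fin r) (u : V × Fin r → ℂ × ℂ) : V × Fin r → ℂ × ℂ :=
  fun s => if s.1 ∈ S ∧ s.2 ≠ c s.1 then (1, 0) else u s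

/-- the (unnormalised) averaged polynomial -/
noncomputable def F (X : Matrix (V × Fin r) (V × Fin r) ℂ) (S : Finset V)
    (u : V × Fin r → ℂ × ℂ) : ℂ :=
  ∑ c : V → Fin r, D X (mask S c u)

/-- change the data of the group `v` -/
def setG (u : V × Fin r → ℂ × ℂ) (v : V) (w : Fin r → ℂ × ℂ) : V × Fin r → ℂ × ℂ :=
  fun s => if s.1 = v then w s.2 else u s

theorem mask_empty (c : V → Fin r) (u : V × Fin r → ℂ × ℂ) : mask ∅ c u = u := by
  funext s
  simp [mask]

theorem mask_update {S : Finset V} (c : V → Fin r) (u : V × Fin r → ℂ × ℂ) (s : V × Fin r)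
    (hs : s.1 ∉ S) (x : ℂ × ℂ) : mask S c (update u s x) = update (mask S c u) s x := by
  funext t
  by_cases ht : t = s
  · subst ht
    simp [mask, hs]
  · simp only [mask, update_of_ne ht]

theorem setG_update (u : V × Fin r → ℂ × ℂ) (v : V) (w : Fin r → ℂ × ℂ) (i : Fin r) (x : ℂ × ℂ) :
    setG u v (update w i x) = update (setG u v w) (v, i) x := by
  funext t
  rcases t with ⟨a, j⟩
  by_cases ha : a = v
  · subst ha
    by_cases hj : j = i
    · subst hj; simp [setG]
    · have : (a, j) ≠ (a, i) := fun h => hj (Prod.ext_iff.mp h).2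
      simp [setG, update_of_ne hj, update_of_ne this]
  · have : (a, j) ≠ (v, i) := fun h => ha (Prod.ext_iff.mp h).1
    simp [setG, ha, update_of_ne this]

theorem F_update_add (X : Matrix (V × Fin r) (V × Fin r) ℂ) {S : Finset V}
    (u : V × Fin r → ℂ × ℂ) (s : V × Fin r) (hs : s.1 ∉ S) (x y : ℂ × ℂ) :
    F X S (update u s (x + y)) = F X S (update u s x) + F X S (update u s y) := by
  simp only [F]
  rw [← Finset.sum_add_distrib]
  apply Finset.sum_congr rfl
  intro c _
  rw [mask_update c u s hs, mask_update c u s hs, mask_update c u s hs, (D X).map_update_add]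

theorem F_update_smul (X : Matrix (V × Fin r) (V × Fin r) ℂ) {S : Finset V}
    (u : V × Fin r → ℂ × ℂ) (s : V × Fin r) (hs : s.1 ∉ S) (a : ℂ) (x : ℂ × ℂ) :
    F X S (update u s (a • x)) = a * F X S (update u s x) := by
  simp only [F]
  rw [Finset.mul_sum]
  apply Finset.sum_congr rfl
  intro c _
  rw [mask_update c u s hs, mask_update c u s hs, (D X).map_update_smul, smul_eq_mul]

/-- the group `v` as a multilinear map -/
noncomputable def GG (X : Matrix (V × Fin r) (V × Fin r) ℂ) (S : Finset V)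
    (u : V × Fin r → ℂ × ℂ) (v : V) (hv : v ∉ S) :
    MultilinearMap ℂ (fun _ : Fin r => ℂ × ℂ) ℂ where
  toFun w := F X S (setG u v w)
  map_update_add' := by
    intro inst w i x y
    have hinst : inst = instDecidableEqFin r := Subsingleton.elim _ _
    subst hinst
    rw [setG_update, setG_update, setG_update]
    exact F_update_add X _ _ hv x y
  map_update_smul' := by
    intro inst w i a x
    have hinst : inst = instDecidableEqFin r := Subsingleton.elim _ _
    subst hinst
    rw [setG_update, setG_update]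
    exact F_update_smul X _ _ hv a x

theorem GG_apply (X : Matrix (V × Fin r) (V × Fin r) ℂ) (S : Finset V)
    (u : V × Fin r → ℂ × ℂ) (v : V) (hv : v ∉ S) (w : Fin r → ℂ × ℂ) :
    GG X S u v hv w = F X S (setG u v w) := rfl

/-- the involution `(i,c) ↦ (c v, update c v i)` -/
def swapEquiv (v : V) : (Fin r × (V → Fin r)) ≃ (Fin r × (V → Fin r)) where
  toFun p := (p.2 v, update p.2 v p.1)
  invFun p := (p.2 v, update p.2 v p.1)
  left_inv p := by simp
  right_inv p := by simp

theorem sum_update (v : V) (H : (V → Fin r) → ℂ) :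
    ∑ i : Fin r, ∑ c : V → Fin r, H (update c v i) = r * ∑ c : V → Fin r, H c := by
  rw [← Fintype.sum_prod_type' (f := fun (i : Fin r) (c : V → Fin r) => H (update c v i))]
  have h := Equiv.sum_comp (swapEquiv (r := r) v) (fun p : Fin r × (V → Fin r) => H p.2)
  have h2 : ∑ p : Fin r × (V → Fin r), H (update p.2 v p.1) =
      ∑ p : Fin r × (V → Fin r), H p.2 := by
    rw [← h]
    rfl
  rw [h2, Fintype.sum_prod_type]
  simp

theorem F_insert (X : Matrix (V × Fin r) (V × Fin r) ℂ) {S : Finset V}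
    (u : V × Fin r → ℂ × ℂ) (v : V) (hv : v ∉ S) (w : ℂ × ℂ) :
    ∑ i, F X S (setG u v (fun j => if j = i then w else (1, 0))) =
      r * F X (insert v S) (setG u v (fun _ => w)) := by
  simp only [F]
  rw [← sum_update v]
  apply Finset.sum_congr rfl
  intro i _
  apply Finset.sum_congr rfl
  intro c _
  congr 1
  funext s
  rcases s with ⟨a, j⟩
  by_cases ha : a = v
  · subst ha
    by_cases hj : j = i
    · subst hj; simp [mask, setG, hv]
    · simp [mask, setG, hv, hj]
  · by_cases haS : a ∈ S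
    · simp [mask, setG, ha, haS]
    · simp [mask, setG, ha, haS]

/-- kernel argument -/
theorem D_ne_zero (X : Matrix (V × Fin r) (V × Fin r) ℂ) (hX : X.IsHermitian) (σ : ℝ)
    (u : V × Fin r → ℂ × ℂ)
    (hu : ∀ s, u s = (1, 0) ∨ ∃ z : ℂ, 0 < σ * z.im ∧ u s = (z, 1)) : D X u ≠ 0 := by
  rw [D_apply]
  intro h0
  obtain ⟨ξ, hξ, hker⟩ := Matrix.exists_mulVec_eq_zero_iff.mpr h0
  have hrow : ∀ s, (u s).1 * ξ s = (u s).2 * (X.mulVec ξ) s := by
    intro s
    have := congrFun hker s
    simp only [Matrix.mulVec, dotProduct, Matrix.of_apply, Pi.sub_apply, Pi.smul_apply,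
      smul_eq_mul, Pi.zero_apply, sub_mul, Finset.sum_sub_distrib] at this
    rw [Finset.sum_eq_single_of_mem s (Finset.mem_univ _)] at this
    · rw [Pi.single_eq_same] at this
      have h2 : ∑ x, (u s).2 * X s x * ξ x = (u s).2 * ∑ x, X s x * ξ x := by
        rw [Finset.mul_sum]
        apply Finset.sum_congr rfl
        intro x _
        ring
      rw [h2] at this
      have h3 : (X.mulVec ξ) s = ∑ x, X s x * ξ x := rfl
      rw [h3]
      linear_combination this
    · intro t _ hts
      rw [Pi.single_eq_of_ne hts]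
      ring
  have hreal : (∑ s, star (ξ s) * (X.mulVec ξ) s).im = 0 := by
    have h1 : star (∑ s, star (ξ s) * (X.mulVec ξ) s) = ∑ s, star (ξ s) * (X.mulVec ξ) s := by
      rw [star_sum]
      have e : ∀ s, (X.mulVec ξ) s = ∑ t, X s t * ξ t := fun s => rfl
      simp only [e, Finset.mul_sum, star_sum, star_mul', star_star]
      rw [Finset.sum_comm]
      apply Finset.sum_congr rfl
      intro s _
      apply Finset.sum_congr rfl
      intro t _
      have := hX.apply s t
      rw [← this]
      ring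
    generalize (∑ s, star (ξ s) * (X.mulVec ξ) s) = Q at h1 ⊢
    have h2 := congrArg Complex.im h1
    simp only [Complex.star_def, Complex.conj_im] at h2
    linarith
  have hterm : ∀ s, 0 ≤ σ * (star (ξ s) * (X.mulVec ξ) s).im ∧
      (σ * (star (ξ s) * (X.mulVec ξ) s).im = 0 → ξ s = 0) := by
    intro s
    rcases hu s with h | ⟨z, hz, h⟩
    · have := hrow s
      rw [h] at this
      simp only [one_mul, zero_mul] at this
      rw [this]
      simp
    · have := hrow s
      rw [h] at this
      simp only [one_mul] at this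
      rw [← this]
      have e : star (ξ s) * (z * ξ s) = z * ((Complex.normSq (ξ s) : ℝ) : ℂ) := by
        rw [Complex.normSq_eq_conj_mul_self, Complex.star_def]
        ring
      rw [e, mul_comm z, Complex.im_ofReal_mul]
      constructor
      · have := Complex.normSq_nonneg (ξ s)
        have h5 : σ * (Complex.normSq (ξ s) * z.im) = (σ * z.im) * Complex.normSq (ξ s) := by ring
        rw [h5]
        positivity
      · intro h6
        have h5 : σ * (Complex.normSq (ξ s) * z.im) = (σ * z.im) * Complex.normSq (ξ s) := by ring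
        rw [h5] at h6
        rcases mul_eq_zero.mp h6 with h7 | h7
        · exact absurd h7 hz.ne'
        · exact Complex.normSq_eq_zero.mp h7
  have hsum : ∑ s, σ * (star (ξ s) * (X.mulVec ξ) s).im = 0 := by
    rw [← Finset.mul_sum, ← Complex.im_sum, hreal, mul_zero]
  have hall := (Finset.sum_eq_zero_iff_of_nonneg (fun s _ => (hterm s).1)).mp hsum
  apply hξ
  funext s
  exact (hterm s).2 (hall s (Finset.mem_univ s))

/-- admissible data in the half plane `σ Im > 0` -/
def Adm (σ : ℝ) (S : Finset V) (u : V × Fin r → ℂ × ℂ) : Prop :=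
  (∀ v ∈ S, ∃ z : ℂ, 0 < σ * z.im ∧ ∀ i, u (v, i) = (z, 1)) ∧
  (∀ v, v ∉ S → ∀ i, u (v, i) = (1, 0) ∨ ∃ z : ℂ, 0 < σ * z.im ∧ u (v, i) = (z, 1))

theorem setG_self (u : V × Fin r → ℂ × ℂ) (v : V) (w : ℂ × ℂ) (h : ∀ i, u (v, i) = w) :
    setG u v (fun _ => w) = u := by
  funext s
  rcases s with ⟨a, j⟩
  by_cases ha : a = v
  · subst ha; simp [setG, h]
  · simp [setG, ha]

theorem Adm.setG {σ : ℝ} {S : Finset V} {u : V × Fin r → ℂ × ℂ} {v : V} (hv : v ∉ S)
    (hu : Adm σ (insert v S) u) (w : Fin r → ℂ × ℂ)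
    (hw : ∀ i, w i = (1, 0) ∨ ∃ z : ℂ, 0 < σ * z.im ∧ w i = (z, 1)) :
    Adm σ S (setG u v w) := by
  constructor
  · intro a ha
    have hav : a ≠ v := fun h => hv (h ▸ ha)
    obtain ⟨z, hz, h⟩ := hu.1 a (Finset.mem_insert_of_mem ha)
    exact ⟨z, hz, fun i => by simp [Start.setG, hav, h i]⟩
  · intro a ha i
    by_cases hav : a = v
    · subst hav
      simpa [Start.setG] using hw i
    · have := hu.2 a (by simp [hav, ha]) i
      simpa [Start.setG, hav] using this

/-- the mean of the roots -/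
theorem stab_aux {σ : ℝ} (hr : 0 < r) (A : ℂ) (hA : A ≠ 0) (ζ : Fin r → ℂ) (z : ℂ)
    (hz : 0 < σ * z.im) (hζ : ∀ k, σ * (ζ k).im ≤ 0) : A * (r * z - ∑ k, ζ k) ≠ 0 := by
  apply mul_ne_zero hA
  intro h0
  have h1 := congrArg Complex.im h0
  simp only [Complex.sub_im, Complex.im_sum, Complex.zero_im] at h1
  have h2 : ((r : ℂ) * z).im = r * z.im := by
    rw [show (r : ℂ) = ((r : ℝ) : ℂ) by push_cast; rfl, Complex.im_ofReal_mul]
  rw [h2] at h1
  have h3 : ∑ k, σ * (ζ k).im ≤ 0 := Finset.sum_nonpos (fun k _ => hζ k)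
  rw [← Finset.mul_sum] at h3
  have hr' : (0 : ℝ) < r := by exact_mod_cast hr
  have h4 : r * (σ * z.im) = σ * ∑ k, (ζ k).im := by
    have : (r : ℝ) * z.im = ∑ k, (ζ k).im := by linarith
    rw [← this]; ring
  have h5 : 0 < r * (σ * z.im) := by positivity
  linarith

/-- **stability** -/
theorem F_ne_zero (hr : 0 < r) (X : Matrix (V × Fin r) (V × Fin r) ℂ) (hX : X.IsHermitian) (σ : ℝ) :
    ∀ (S : Finset V) (u : V × Fin r → ℂ × ℂ), Adm σ S u → F X S u ≠ 0 := by
  intro S
  induction S using Finset.induction_on with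
  | empty =>
    intro u hu
    have h1 : F X ∅ u = (Fintype.card (V → Fin r) : ℂ) * D X u := by
      simp only [F, mask_empty, Finset.sum_const, nsmul_eq_mul, Finset.card_univ]
    rw [h1]
    apply mul_ne_zero
    · have : Nonempty (Fin r) := ⟨⟨0, hr⟩⟩
      exact_mod_cast Fintype.card_ne_zero
    · apply D_ne_zero X hX σ
      intro s
      exact hu.2 s.1 (by simp) s.2
  | insert v S hv ih =>
    intro u hu
    obtain ⟨z, hz, hzu⟩ := hu.1 v (Finset.mem_insert_self v S)
    have hA : GG X S u v hv (fun _ => (1, 0)) ≠ 0 := by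
      rw [GG_apply]
      exact ih _ (hu.setG hv _ (fun i => Or.inl rfl))
    obtain ⟨ζ, h1, h2⟩ := exists_roots hr (GG X S u v hv) hA
    have hζ : ∀ k, σ * (ζ k).im ≤ 0 := by
      intro k
      by_contra hk
      push Not at hk
      have h3 : GG X S u v hv (fun _ => (ζ k, 1)) ≠ 0 := by
        rw [GG_apply]
        exact ih _ (hu.setG hv _ (fun i => Or.inr ⟨ζ k, hk, rfl⟩))
      apply h3
      rw [h1, Finset.prod_eq_zero (Finset.mem_univ k) (by ring), mul_zero]
    have h4 := stab_aux hr _ hA ζ z hz hζ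
    rw [← h2 z] at h4
    simp only [GG_apply] at h4
    rw [F_insert X u v hv] at h4
    rw [setG_self u v _ hzu] at h4
    exact right_ne_zero_of_mul h4

end sites

end Crest.Agent.R109.Start
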