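import Mathlib
import Crest.Agent.R109.FinStart2

/-!
# R109 / FinStart3 (helper585)

Real points: real rootedness, the Nevanlinna property, the barrier induction, the start bound.
-/

set_option autoImplicit false
set_option linter.unusedSectionVars false

namespace Crest.Agent.R109.Start

open Polynomial Finset Filter Topology Function
open scoped ComplexOrder

variable {V : Type*} [Fintype V] [DecidableEq V] {r : ℕ}

/-! ### continuity -/

theorem D_continuous (X : Matrix (V × Fin r) (V × Fin r) ℂ) :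
    Continuous (fun u : V × Fin r → ℂ × ℂ => D X u) := by
  simp only [D_apply]
  apply Continuous.matrix_det
  apply continuous_matrix
  intro s t
  simp only [Matrix.of_apply, Pi.sub_apply, Pi.smul_apply, smul_eq_mul]
  fun_prop

theorem mask_continuous (S : Finset V) (c : V → Fin r) :
    Continuous (fun u : V × Fin r → ℂ × ℂ => mask S c u) := by
  apply continuous_pi
  intro s
  by_cases h : s.1 ∈ S ∧ s.2 ≠ c s.1
  · simp only [mask, if_pos h]
    exact continuous_const
  · simp only [mask, if_neg h]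
    exact continuous_apply s

theorem F_continuous (X : Matrix (V × Fin r) (V × Fin r) ℂ) (S : Finset V) :
    Continuous (fun u : V × Fin r → ℂ × ℂ => F X S u) := by
  simp only [F]
  apply continuous_finsetSum
  intro c _
  exact (D_continuous X).comp (mask_continuous S c)

/-! ### points -/

/-- data with processed levels `Z`, unprocessed level `t`, deleted sites `Dl`, imaginary shift `e` -/
noncomputable def pt (S : Finset V) (Z : V → ℝ) (t : ℝ) (Dl : Finset (V × Fin r)) (e : ℝ) :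
    V × Fin r → ℂ × ℂ :=
  fun s => if s.1 ∈ S then ((Z s.1 : ℂ) + e * Complex.I, 1) else
    if s ∈ Dl then (1, 0) else ((t : ℂ) + e * Complex.I, 1)

theorem pt_adm {σ : ℝ} (S : Finset V) (Z : V → ℝ) (t : ℝ) (Dl : Finset (V × Fin r)) (e : ℝ)
    (he : 0 < σ * e) {v : V} (w : Fin r → ℂ × ℂ) (hv : v ∉ S)
    (hw : ∀ i, w i = (1, 0) ∨ ∃ z : ℂ, 0 < σ * z.im ∧ w i = (z, 1)) :
    Adm σ S (setG (pt S Z t Dl e) v w) := by
  constructor
  · intro a ha
    refine ⟨(Z a : ℂ) + e * Complex.I, by simpa using he, fun i => ?_⟩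
    have hav : a ≠ v := fun h => hv (h ▸ ha)
    simp [setG, pt, ha, hav]
  · intro a ha i
    by_cases hav : a = v
    · subst hav
      simpa [setG] using hw i
    · by_cases hD : (a, i) ∈ Dl
      · left; simp [setG, pt, ha, hav, hD]
      · right
        refine ⟨(t : ℂ) + e * Complex.I, by simpa using he, ?_⟩
        simp [setG, pt, ha, hav, hD]

theorem pt_continuous (S : Finset V) (Z : V → ℝ) (t : ℝ) (Dl : Finset (V × Fin r)) (v : V)
    (w : Fin r → ℂ × ℂ) :
    Continuous (fun e : ℝ => setG (pt S Z t Dl e) v w) := by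
  apply continuous_pi
  intro s
  by_cases h1 : s.1 = v
  · simp only [setG, h1, if_true]; exact continuous_const
  · simp only [setG, h1, if_false, pt]
    by_cases h2 : s.1 ∈ S
    · simp only [h2, if_true]
      fun_prop
    · simp only [h2, if_false]
      by_cases h3 : s ∈ Dl
      · simp only [h3, if_true]; exact continuous_const
      · simp only [h3, if_false]
        fun_prop

/-- value along the group line -/
theorem lower_bound (hr : 0 < r) (X : Matrix (V × Fin r) (V × Fin r) ℂ) (hX : X.IsHermitian)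
    (σ : ℝ) (hσ : σ = 1 ∨ σ = -1) (S : Finset V) (Z : V → ℝ) (t : ℝ) (Dl : Finset (V × Fin r))
    (v : V) (hv : v ∉ S) (y : ℂ) (hy : 0 < σ * y.im) :
    ‖F X S (setG (pt S Z t Dl 0) v (fun _ => (1, 0)))‖ * (σ * y.im) ^ r ≤
      ‖F X S (setG (pt S Z t Dl 0) v (fun _ => (y, 1)))‖ := by
  have hσ0 : σ ≠ 0 := by rcases hσ with h | h <;> rw [h] <;> norm_num
  have hσσ : σ * σ = 1 := by rcases hσ with h | h <;> rw [h] <;> norm_num
  have habs : |σ| = 1 := by rcases hσ with h | h <;> rw [h] <;> norm_num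
  -- inequality at `e = σ ε`
  have hineq : ∀ ε : ℝ, 0 < ε →
      ‖F X S (setG (pt S Z t Dl (σ * ε)) v (fun _ => (1, 0)))‖ * (σ * y.im) ^ r ≤
      ‖F X S (setG (pt S Z t Dl (σ * ε)) v (fun _ => (y, 1)))‖ := by
    intro ε hε
    have he : 0 < σ * (σ * ε) := by rw [← mul_assoc, hσσ, one_mul]; exact hε
    have hA : GG X S (pt S Z t Dl (σ * ε)) v hv (fun _ => (1, 0)) ≠ 0 := by
      rw [GG_apply]
      exact F_ne_zero hr X hX σ S _ (pt_adm S Z t Dl _ he _ hv (fun i => Or.inl rfl))
    obtain ⟨ζ, h1, _⟩ := exists_roots hr (GG X S (pt S Z t Dl (σ * ε)) v hv) hA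
    have hζ : ∀ k, σ * (ζ k).im ≤ 0 := by
      intro k
      by_contra hk
      push Not at hk
      have h3 : GG X S (pt S Z t Dl (σ * ε)) v hv (fun _ => (ζ k, 1)) ≠ 0 := by
        rw [GG_apply]
        exact F_ne_zero hr X hX σ S _ (pt_adm S Z t Dl _ he _ hv
          (fun i => Or.inr ⟨ζ k, hk, rfl⟩))
      apply h3
      rw [h1, Finset.prod_eq_zero (Finset.mem_univ k) (by ring), mul_zero]
    have h4 := h1 y
    rw [GG_apply, GG_apply] at h4
    rw [h4, norm_mul, norm_prod]
    apply mul_le_mul_of_nonneg_left _ (norm_nonneg _)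
    have h5 : ∀ k, σ * y.im ≤ ‖y - ζ k‖ := by
      intro k
      have h6 : σ * y.im ≤ σ * (y - ζ k).im := by
        rw [Complex.sub_im, mul_sub]; linarith [hζ k]
      refine h6.trans ((le_abs_self _).trans ?_)
      rw [abs_mul, habs, one_mul]
      exact Complex.abs_im_le_norm _
    calc (σ * y.im) ^ r = ∏ _k : Fin r, (σ * y.im) := by simp
      _ ≤ ∏ k, ‖y - ζ k‖ := Finset.prod_le_prod (fun k _ => hy.le) (fun k _ => h5 k)
  have hcont : ∀ w : Fin r → ℂ × ℂ, Tendsto
      (fun ε : ℝ => F X S (setG (pt S Z t Dl (σ * ε)) v w)) (𝓝[>] 0)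
      (𝓝 (F X S (setG (pt S Z t Dl 0) v w))) := by
    intro w
    have h1 : Continuous (fun ε : ℝ => F X S (setG (pt S Z t Dl (σ * ε)) v w)) :=
      (F_continuous X S).comp ((pt_continuous S Z t Dl v w).comp (continuous_const.mul
        continuous_id))
    have h2 := h1.tendsto 0
    simp only [mul_zero] at h2
    exact h2.mono_left nhdsWithin_le_nhds
  refine le_of_tendsto_of_tendsto ((hcont _).norm.mul_const _) (hcont _).norm ?_
  filter_upwards [self_mem_nhdsWithin] with ε hε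
  exact hineq ε hε

/-- real roots at a real point with nonzero leading coefficient -/
theorem real_group (hr : 0 < r) (X : Matrix (V × Fin r) (V × Fin r) ℂ) (hX : X.IsHermitian)
    (S : Finset V) (Z : V → ℝ) (t : ℝ) (Dl : Finset (V × Fin r))
    (v : V) (hv : v ∉ S)
    (hA : F X S (setG (pt S Z t Dl 0) v (fun _ => (1, 0))) ≠ 0) :
    ∃ ρ : Fin r → ℝ,
      (∀ y : ℂ, F X S (setG (pt S Z t Dl 0) v (fun _ => (y, 1))) =
        F X S (setG (pt S Z t Dl 0) v (fun _ => (1, 0))) * ∏ k, (y - (ρ k : ℂ))) ∧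
      (∀ y : ℂ, (r : ℂ) * F X (insert v S) (setG (pt S Z t Dl 0) v (fun _ => (y, 1))) =
        F X S (setG (pt S Z t Dl 0) v (fun _ => (1, 0))) * (r * y - ∑ k, (ρ k : ℂ))) := by
  obtain ⟨ζ, h1, h2⟩ := exists_roots hr (GG X S (pt S Z t Dl 0) v hv)
    (by rw [GG_apply]; exact hA)
  have hreal : ∀ k, ((ζ k).re : ℂ) = ζ k := by
    intro k
    have him : (ζ k).im = 0 := by
      by_contra hne
      have h3 := h1 (ζ k)
      rw [Finset.prod_eq_zero (Finset.mem_univ k) (by ring), mul_zero, GG_apply] at h3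
      rcases lt_or_gt_of_ne hne with h | h
      · have := lower_bound hr X hX (-1) (Or.inr rfl) S Z t Dl v hv (ζ k) (by linarith)
        rw [h3, norm_zero] at this
        have h5 : 0 < (-1 * (ζ k).im) ^ r := pow_pos (by linarith) r
        have h6 : 0 < ‖F X S (setG (pt S Z t Dl 0) v (fun _ => (1, 0)))‖ := norm_pos_iff.mpr hA
        have := mul_pos h6 h5
        linarith
      · have := lower_bound hr X hX 1 (Or.inl rfl) S Z t Dl v hv (ζ k) (by linarith)
        rw [h3, norm_zero] at this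
        have h5 : 0 < (1 * (ζ k).im) ^ r := pow_pos (by linarith) r
        have h6 : 0 < ‖F X S (setG (pt S Z t Dl 0) v (fun _ => (1, 0)))‖ := norm_pos_iff.mpr hA
        have := mul_pos h6 h5
        linarith
    apply Complex.ext
    · simp
    · simp [him]
  refine ⟨fun k => (ζ k).re, ?_, ?_⟩
  · intro y
    have := h1 y
    rw [GG_apply, GG_apply] at this
    rw [this]
    congr 1
    apply Finset.prod_congr rfl
    intro k _
    rw [hreal k]
  · intro y
    have := h2 y
    simp only [GG_apply] at this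
    rw [F_insert X _ v hv] at this
    rw [this]
    congr 2
    apply Finset.sum_congr rfl
    intro k _
    rw [hreal k]

/-- Nevanlinna property when one more site is deleted -/
theorem nevanlinna (hr : 0 < r) (X : Matrix (V × Fin r) (V × Fin r) ℂ) (hX : X.IsHermitian)
    (S : Finset V) (Z : V → ℝ) (t : ℝ) (Dl : Finset (V × Fin r))
    (v : V) (hv : v ∉ S) (s0 : V × Fin r) (h0S : s0.1 ∉ S) (h0v : s0.1 ≠ v) (h0D : s0 ∉ Dl)
    (hA : F X S (setG (pt S Z t Dl 0) v (fun _ => (1, 0))) ≠ 0) (y : ℂ) (hy : 0 < y.im) :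
    (F X S (setG (pt S Z t (insert s0 Dl) 0) v (fun _ => (y, 1))) /
      F X S (setG (pt S Z t Dl 0) v (fun _ => (y, 1)))).im ≤ 0 := by
  have hineq : ∀ ε : ℝ, 0 < ε →
    (F X S (setG (pt S Z t (insert s0 Dl) ε) v (fun _ => (y, 1))) /
      F X S (setG (pt S Z t Dl ε) v (fun _ => (y, 1)))).im ≤ 0 := by
    intro ε hε
    set U := setG (pt S Z t Dl ε) v (fun _ => (y, 1)) with hU
    have hU0 : U s0 = ((t : ℂ) + ε * Complex.I, 1) := by
      simp [hU, setG, pt, h0S, h0v, h0D]
    have hUq : setG (pt S Z t (insert s0 Dl) ε) v (fun _ => (y, 1)) = update U s0 (1, 0) := by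
      funext s
      by_cases hs : s = s0
      · subst hs
        simp [setG, pt, h0S, h0v]
      · simp [hU, setG, pt, hs]
    have hlin : ∀ z : ℂ, F X S (update U s0 (z, 1)) =
        z * F X S (update U s0 (1, 0)) + F X S (update U s0 (0, 1)) := by
      intro z
      rw [← F_update_smul X U s0 h0S, ← F_update_add X U s0 h0S]
      congr 2
      simp
    have hadm : Adm 1 S U := pt_adm S Z t Dl ε (by linarith) _ hv
      (fun i => Or.inr ⟨y, by linarith, rfl⟩)
    have hupd : ∀ x : ℂ × ℂ, (x = (1, 0) ∨ ∃ z : ℂ, 0 < 1 * z.im ∧ x = (z, 1)) →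
        Adm 1 S (update U s0 x) := by
      intro x hx
      constructor
      · intro a ha
        obtain ⟨z, hz, h⟩ := hadm.1 a ha
        refine ⟨z, hz, fun i => ?_⟩
        have hne : (a, i) ≠ s0 := fun h => h0S (by rw [← h]; exact ha)
        rw [update_of_ne hne, h i]
      · intro a ha i
        by_cases hne : (a, i) = s0
        · rw [hne, update_self]; exact hx
        · rw [update_of_ne hne]; exact hadm.2 a ha i
    have hq : F X S (update U s0 (1, 0)) ≠ 0 :=
      F_ne_zero hr X hX 1 S _ (hupd _ (Or.inl rfl))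
    set q := F X S (update U s0 (1, 0)) with hqdef
    set N := F X S (update U s0 (0, 1)) with hNdef
    have hNq : 0 ≤ (N / q).im := by
      by_contra hneg
      push Not at hneg
      have h1 : F X S (update U s0 (-(N / q), 1)) ≠ 0 :=
        F_ne_zero hr X hX 1 S _ (hupd _ (Or.inr ⟨-(N / q), by
          rw [Complex.neg_im]; linarith, rfl⟩))
      apply h1
      rw [hlin]
      field_simp
      ring
    have hp : F X S U = ((t : ℂ) + ε * Complex.I) * q + N := by
      rw [← hlin, ← hU0, update_eq_self]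
    have hpq : F X S U / q = ((t : ℂ) + ε * Complex.I) + N / q := by
      rw [hp]; field_simp
    have him : 0 < (F X S U / q).im := by
      rw [hpq, Complex.add_im]
      have : ((t : ℂ) + ε * Complex.I).im = ε := by simp
      rw [this]; linarith
    rw [hUq, ← hqdef]
    have : q / F X S U = (F X S U / q)⁻¹ := by rw [inv_div]
    rw [this, Complex.inv_im]
    apply div_nonpos_of_nonpos_of_nonneg
    · linarith
    · exact Complex.normSq_nonneg _
  have hcont : ∀ Dl' : Finset (V × Fin r), Tendsto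
      (fun ε : ℝ => F X S (setG (pt S Z t Dl' ε) v (fun _ => (y, 1)))) (𝓝[>] 0)
      (𝓝 (F X S (setG (pt S Z t Dl' 0) v (fun _ => (y, 1))))) := by
    intro Dl'
    have h1 : Continuous (fun ε : ℝ => F X S (setG (pt S Z t Dl' ε) v (fun _ => (y, 1)))) :=
      (F_continuous X S).comp (pt_continuous S Z t Dl' v _)
    exact (h1.tendsto 0).mono_left nhdsWithin_le_nhds
  have hne : F X S (setG (pt S Z t Dl 0) v (fun _ => (y, 1))) ≠ 0 := by
    have h1 := lower_bound hr X hX 1 (Or.inl rfl) S Z t Dl v hv y (by linarith)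
    have h5 : 0 < (1 * y.im) ^ r := pow_pos (by linarith) r
    have h6 : 0 < ‖F X S (setG (pt S Z t Dl 0) v (fun _ => (1, 0)))‖ := norm_pos_iff.mpr hA
    have h7 := mul_pos h6 h5
    exact norm_pos_iff.mp (lt_of_lt_of_le h7 h1)
  refine le_of_tendsto ((Complex.continuous_im.tendsto _).comp
    ((hcont (insert s0 Dl)).div (hcont Dl) hne)) ?_
  filter_upwards [self_mem_nhdsWithin] with ε hε
  exact hineq ε hε

/-! ### Taylor expansion along a group -/

/-- expansion of a multilinear map at `(t,1)` in the direction `(1,0)` -/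
noncomputable def polT (G : MultilinearMap ℂ (fun _ : Fin r => ℂ × ℂ) ℂ) (t : ℂ) : ℂ[X] :=
  ∑ K : Finset (Fin r),
    C (G (K.piecewise (fun _ => ((1 : ℂ), (0 : ℂ))) (fun _ => ((t : ℂ), (1 : ℂ))))) * X ^ K.card

theorem polT_eval (G : MultilinearMap ℂ (fun _ : Fin r => ℂ × ℂ) ℂ) (t y : ℂ) :
    (polT G t).eval y = G (fun _ => (t + y, 1)) := by
  have h1 : (fun _ : Fin r => ((t + y : ℂ), (1 : ℂ))) =
      (fun _ : Fin r => y • ((1 : ℂ), (0 : ℂ))) + (fun _ : Fin r => ((t : ℂ), (1 : ℂ))) := by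
    funext i
    simp [add_comm]
  rw [h1, MultilinearMap.map_add_univ, polT, eval_finsetSum]
  apply Finset.sum_congr rfl
  intro K _
  rw [eval_mul, eval_C, eval_pow, eval_X]
  have h2 := MultilinearMap.map_piecewise_smul G (fun _ : Fin r => y)
    (K.piecewise (fun _ => ((1 : ℂ), (0 : ℂ))) (fun _ => ((t : ℂ), (1 : ℂ)))) K
  have h3 : K.piecewise (fun i : Fin r => (fun _ : Fin r => y) i •
      (K.piecewise (fun _ => ((1 : ℂ), (0 : ℂ))) (fun _ => ((t : ℂ), (1 : ℂ)))) i)
      (K.piecewise (fun _ => ((1 : ℂ), (0 : ℂ))) (fun _ => ((t : ℂ), (1 : ℂ)))) =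
      K.piecewise (fun _ : Fin r => y • ((1 : ℂ), (0 : ℂ))) (fun _ => ((t : ℂ), (1 : ℂ))) := by
    funext i
    by_cases hi : i ∈ K
    · simp [Finset.piecewise_eq_of_mem _ _ _ hi]
    · simp [Finset.piecewise_eq_of_notMem _ _ _ hi]
  rw [h3] at h2
  rw [h2]
  simp only [Finset.prod_const, smul_eq_mul]
  ring

theorem polT_coeff_one (G : MultilinearMap ℂ (fun _ : Fin r => ℂ × ℂ) ℂ) (t : ℂ) :
    (polT G t).coeff 1 = ∑ i, G (fun j => if j = i then (1, 0) else (t, 1)) := by
  rw [polT, finsetSum_coeff]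
  have h1 : ∀ K : Finset (Fin r),
      (C (G (K.piecewise (fun _ => ((1 : ℂ), (0 : ℂ))) (fun _ => ((t : ℂ), (1 : ℂ))))) *
        X ^ K.card : ℂ[X]).coeff 1 =
      if K.card = 1 then
        G (K.piecewise (fun _ => ((1 : ℂ), (0 : ℂ))) (fun _ => ((t : ℂ), (1 : ℂ)))) else 0 := by
    intro K
    rw [coeff_C_mul_X_pow]
    simp only [eq_comm]
  rw [Finset.sum_congr rfl (fun K _ => h1 K)]
  rw [← Finset.sum_filter]
  refine (Finset.sum_bij (fun (i : Fin r) _ => {i}) ?_ ?_ ?_ ?_).symm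
  · intro i _
    simp
  · intro i _ j _ h
    exact Finset.singleton_injective h
  · intro K hK
    have hK' := (Finset.mem_filter.mp hK).2
    obtain ⟨i, hi⟩ := Finset.card_eq_one.mp hK'
    exact ⟨i, Finset.mem_univ _, hi.symm⟩
  · intro i _
    congr 1
    funext j
    by_cases hj : j = i
    · subst hj
      rw [if_pos rfl, Finset.piecewise_eq_of_mem]
      simp
    · rw [if_neg hj, Finset.piecewise_eq_of_notMem]
      simp [hj]

/-- positivity of the expansion -/
theorem group_pos_above (G : MultilinearMap ℂ (fun _ : Fin r => ℂ × ℂ) ℂ) (t : ℝ)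
    (hpos : ∀ K : Finset (Fin r),
      0 < G (K.piecewise (fun _ => ((1 : ℂ), (0 : ℂ))) (fun _ => ((t : ℂ), (1 : ℂ)))))
    (y : ℝ) (hy : t ≤ y) : 0 < G (fun _ => ((y : ℂ), 1)) := by
  have h1 : G (fun _ => ((y : ℂ), 1)) = (polT G t).eval ((y - t : ℝ) : ℂ) := by
    rw [polT_eval]
    congr 1
    funext _
    push_cast
    ring_nf
  rw [h1, polT, eval_finsetSum]
  have h2 : ∀ K : Finset (Fin r),
      0 ≤ (C (G (K.piecewise (fun _ => ((1 : ℂ), (0 : ℂ))) (fun _ => ((t : ℂ), (1 : ℂ))))) *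
        X ^ K.card : ℂ[X]).eval ((y - t : ℝ) : ℂ) := by
    intro K
    rw [eval_mul, eval_C, eval_pow, eval_X]
    apply mul_nonneg (hpos K).le
    apply pow_nonneg
    exact_mod_cast sub_nonneg.mpr hy
  refine Finset.sum_pos' (fun K _ => h2 K) ⟨∅, Finset.mem_univ _, ?_⟩
  rw [eval_mul, eval_C, eval_pow, eval_X]
  simpa using hpos ∅

/-- the logarithmic derivative in the group direction -/
theorem sum_inv_le (G : MultilinearMap ℂ (fun _ : Fin r => ℂ × ℂ) ℂ) (t A : ℝ) (ρ : Fin r → ℝ)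
    (hA : 0 < A) (hlt : ∀ k, ρ k < t)
    (hfac : ∀ y : ℂ, G (fun _ => (y, 1)) = (A : ℂ) * ∏ k, (y - (ρ k : ℂ))) (φ : ℝ)
    (hbar : ∀ i, (G (fun j => if j = i then (1, 0) else ((t : ℂ), 1))).re ≤
      φ * (G (fun _ => ((t : ℂ), 1))).re) :
    ∑ k, 1 / (t - ρ k) ≤ r * φ := by
  have hpoly : polT G t = C (A : ℂ) * ∏ k, (X + C ((t - ρ k : ℝ) : ℂ)) := by
    apply Polynomial.funext
    intro y
    rw [polT_eval, hfac, eval_mul, eval_C, eval_prod]
    congr 1
    apply Finset.prod_congr rfl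
    intro k _
    simp only [eval_add, eval_X, eval_C]
    push_cast
    ring
  have hc1 : (polT G t).coeff 1 =
      ((A * ∑ k, ∏ j ∈ Finset.univ.erase k, (t - ρ j) : ℝ) : ℂ) := by
    have h1 : (polT G t).coeff 1 = (derivative (polT G t)).eval 0 := by
      rw [← coeff_zero_eq_eval_zero, coeff_derivative]
      simp
    rw [h1, hpoly, derivative_C_mul, derivative_prod_finset, eval_mul, eval_C, eval_finsetSum]
    push_cast
    congr 1
    apply Finset.sum_congr rfl
    intro k _
    rw [eval_mul, eval_prod]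
    simp
  have hP : 0 < ∏ k, (t - ρ k) := Finset.prod_pos (fun k _ => by linarith [hlt k])
  have hval : (G (fun _ => ((t : ℂ), 1))).re = A * ∏ k, (t - ρ k) := by
    rw [hfac]
    have : (A : ℂ) * ∏ k, ((t : ℂ) - (ρ k : ℂ)) = ((A * ∏ k, (t - ρ k) : ℝ) : ℂ) := by
      push_cast; rfl
    rw [this, Complex.ofReal_re]
  have hsum : A * ∑ k, ∏ j ∈ Finset.univ.erase k, (t - ρ j) ≤ r * (φ * (A * ∏ k, (t - ρ k))) := by
    have h1 := congrArg Complex.re hc1
    rw [polT_coeff_one, Complex.re_sum, Complex.ofReal_re] at h1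
    rw [← h1, ← hval]
    calc ∑ i, (G (fun j => if j = i then (1, 0) else ((t : ℂ), 1))).re
        ≤ ∑ _i : Fin r, φ * (G (fun _ => ((t : ℂ), 1))).re :=
          Finset.sum_le_sum (fun i _ => hbar i)
      _ = r * (φ * (G (fun _ => ((t : ℂ), 1))).re) := by simp
  have hterm : ∀ k, ∏ j ∈ Finset.univ.erase k, (t - ρ j) = (∏ k, (t - ρ k)) * (1 / (t - ρ k)) := by
    intro k
    rw [← Finset.mul_prod_erase Finset.univ (fun j => t - ρ j) (Finset.mem_univ k)]
    have : t - ρ k ≠ 0 := by linarith [hlt k]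
    field_simp
  rw [Finset.sum_congr rfl (fun k _ => hterm k), ← Finset.mul_sum] at hsum
  have h2 : (A * ∏ k, (t - ρ k)) * ∑ k, 1 / (t - ρ k) ≤ (A * ∏ k, (t - ρ k)) * (r * φ) := by
    calc _ = A * ((∏ k, (t - ρ k)) * ∑ k, 1 / (t - ρ k)) := by ring
      _ ≤ _ := hsum
      _ = _ := by ring
  exact le_of_mul_le_mul_left h2 (by positivity)

/-! ### the induction -/

/-- the invariant -/
structure Inv (X : Matrix (V × Fin r) (V × Fin r) ℂ) (Z : V → ℝ) (t φ : ℝ) (S : Finset V) :
    Prop where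
  pos : ∀ Dl : Finset (V × Fin r), 0 < F X S (pt S Z t Dl 0)
  bar : ∀ s : V × Fin r, s.1 ∉ S → (F X S (pt S Z t {s} 0)).re ≤ φ * (F X S (pt S Z t ∅ 0)).re

theorem setG_pt_piecewise (S : Finset V) (Z : V → ℝ) (t : ℝ) (Dl : Finset (V × Fin r)) (v : V)
    (hv : v ∉ S) (K : Finset (Fin r)) :
    setG (pt S Z t Dl 0) v
      (K.piecewise (fun _ => ((1 : ℂ), (0 : ℂ))) (fun _ => ((t : ℂ), (1 : ℂ)))) =
    pt S Z t ((Dl.filter (fun s => s.1 ≠ v)) ∪ K.image (fun i => (v, i))) 0 := by
  funext s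
  rcases s with ⟨a, i⟩
  by_cases ha : a = v
  · subst ha
    by_cases hi : i ∈ K
    · simp [setG, pt, hv, hi, Finset.piecewise_eq_of_mem _ _ _ hi]
    · simp [setG, pt, hv, hi, Finset.piecewise_eq_of_notMem _ _ _ hi]
  · by_cases hS : a ∈ S
    · simp [setG, pt, ha, hS]
    · by_cases hD : (a, i) ∈ Dl
      · simp [setG, pt, ha, hS, hD]
      · have h1 : ¬ ∃ x, x ∈ K ∧ v = a ∧ x = i := by
          rintro ⟨x, _, h, _⟩; exact ha h.symm
        simp [setG, pt, ha, hS, hD, h1, Ne.symm ha]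

theorem insert_pt (S : Finset V) (Z : V → ℝ) (t : ℝ) (Dl : Finset (V × Fin r)) (v : V) :
    setG (pt S Z t Dl 0) v (fun _ => ((Z v : ℂ), 1)) = pt (insert v S) Z t Dl 0 := by
  funext s
  rcases s with ⟨a, i⟩
  by_cases ha : a = v
  · subst ha
    simp [setG, pt]
  · simp [setG, pt, ha]

theorem step (hr : 0 < r) (X : Matrix (V × Fin r) (V × Fin r) ℂ) (hX : X.IsHermitian)
    (Z : V → ℝ) (t φ : ℝ) (hφ : 0 < φ) (S : Finset V) (v : V) (hv : v ∉ S)
    (hZ : t - (1 - 1 / (r : ℝ)) ^ 2 / φ ≤ Z v) (hI : Inv X Z t φ S) :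
    Inv X Z t φ (insert v S) := by
  classical
  have hr' : (0 : ℝ) < r := by exact_mod_cast hr
  -- leading coefficients
  have hApos : ∀ Dl, 0 < F X S (setG (pt S Z t Dl 0) v (fun _ => (1, 0))) := by
    intro Dl
    have h1 := setG_pt_piecewise S Z t Dl v hv Finset.univ
    rw [Finset.piecewise_univ] at h1
    rw [h1]
    exact hI.pos _
  choose ρ hρ1 hρ2 using fun Dl => real_group hr X hX S Z t Dl v hv (hApos Dl).ne'
  set A : Finset (V × Fin r) → ℝ := fun Dl =>
    (F X S (setG (pt S Z t Dl 0) v (fun _ => (1, 0)))).re with hAdef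
  have hAc : ∀ Dl, F X S (setG (pt S Z t Dl 0) v (fun _ => (1, 0))) = (A Dl : ℂ) := by
    intro Dl
    have := hApos Dl
    rw [Complex.lt_def] at this
    apply Complex.ext
    · simp [hAdef]
    · simpa using this.2.symm
  have hA0 : ∀ Dl, 0 < A Dl := by
    intro Dl
    have := hApos Dl
    rw [Complex.lt_def] at this
    exact this.1
  have hpos : ∀ Dl (K : Finset (Fin r)), 0 < GG X S (pt S Z t Dl 0) v hv
      (K.piecewise (fun _ => ((1 : ℂ), (0 : ℂ))) (fun _ => ((t : ℂ), (1 : ℂ)))) := by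
    intro Dl K
    rw [GG_apply, setG_pt_piecewise S Z t Dl v hv K]
    exact hI.pos _
  have hlt : ∀ Dl k, ρ Dl k < t := by
    intro Dl k
    by_contra hge
    push Not at hge
    have h1 := group_pos_above (GG X S (pt S Z t Dl 0) v hv) t (hpos Dl) (ρ Dl k) hge
    rw [GG_apply, hρ1 Dl, Finset.prod_eq_zero (Finset.mem_univ k) (by ring), mul_zero] at h1
    exact lt_irrefl _ h1
  -- comparison for one more deletion
  have hpair : ∀ Dl (s0 : V × Fin r), s0.1 ∉ S → s0.1 ≠ v → s0 ∉ Dl →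
      (∑ k, ρ (insert s0 Dl) k ≤ ∑ k, ρ Dl k) ∧
      ∀ t y' m0 : ℝ, (∀ k, ρ Dl k < t) → (∀ k, m0 ≤ ρ Dl k) →
        (t - m0) / r ≤ y' - (∑ k, ρ Dl k) / r →
        (A (insert s0 Dl) * (y' - (∑ k, ρ (insert s0 Dl) k) / r)) *
          (A Dl * ∏ k, (t - ρ Dl k)) ≤
          (A (insert s0 Dl) * ∏ k, (t - ρ (insert s0 Dl) k)) *
          (A Dl * (y' - (∑ k, ρ Dl k) / r)) := by
    intro Dl s0 h1 h2 h3
    apply pair_barrier hr (A Dl) (A (insert s0 Dl)) (hA0 _) (hA0 _)
    intro y hy
    have := nevanlinna hr X hX S Z t Dl v hv s0 h1 h2 h3 (hApos Dl).ne' y hy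
    rwa [hρ1, hρ1, hAc, hAc] at this
  -- monotonicity of the mean
  have hmono : ∀ Dl, ∑ k, ρ Dl k ≤ ∑ k, ρ ∅ k := by
    intro Dl
    induction Dl using Finset.induction_on with
    | empty => exact le_refl _
    | insert s0 Dl hs0 ih =>
      by_cases h1 : s0.1 ∈ S ∨ s0.1 = v
      · -- same data
        have hsame : setG (pt S Z t (insert s0 Dl) 0) v = setG (pt S Z t Dl 0) v := by
          funext w s
          by_cases hs : s = s0
          · subst hs
            rcases h1 with h | h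
            · by_cases h2 : s.1 = v
              · simp [setG, h2]
              · simp [setG, pt, h]
            · simp [setG, h]
          · simp [setG, pt, hs]
        have h2 := hρ2 (insert s0 Dl) 0
        have h3 := hρ2 Dl 0
        rw [hsame] at h2
        rw [h2] at h3
        have h4 := mul_left_cancel₀ (hApos Dl).ne' h3
        have h5 : (∑ k, ((ρ (insert s0 Dl) k : ℝ) : ℂ)) = ∑ k, ((ρ Dl k : ℝ) : ℂ) := by
          linear_combination -h4
        have h6 : ∑ k, ρ (insert s0 Dl) k = ∑ k, ρ Dl k := by exact_mod_cast h5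
        rw [h6]; exact ih
      · push Not at h1
        exact (hpair Dl s0 h1.1 h1.2 hs0).1.trans ih
  -- the level
  have hbar0 : ∀ i, (GG X S (pt S Z t ∅ 0) v hv
      (fun j => if j = i then (1, 0) else ((t : ℂ), 1))).re ≤
      φ * (GG X S (pt S Z t ∅ 0) v hv (fun _ => ((t : ℂ), 1))).re := by
    intro i
    have h1 := hI.bar (v, i) hv
    have e1 : GG X S (pt S Z t ∅ 0) v hv (fun j => if j = i then (1, 0) else ((t : ℂ), 1)) =
        F X S (pt S Z t {(v, i)} 0) := by
      rw [GG_apply]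
      congr 1
      funext s
      rcases s with ⟨a, j⟩
      by_cases ha : a = v
      · subst ha
        by_cases hj : j = i
        · subst hj; simp [setG, pt, hv]
        · simp [setG, pt, hv, hj]
      · simp [setG, pt, ha]
    have e2 : GG X S (pt S Z t ∅ 0) v hv (fun _ => ((t : ℂ), 1)) = F X S (pt S Z t ∅ 0) := by
      rw [GG_apply]
      congr 1
      funext s
      rcases s with ⟨a, j⟩
      by_cases ha : a = v
      · subst ha; simp [setG, pt, hv]
      · simp [setG, pt, ha]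
    rw [e1, e2]
    exact h1
  have hsum := sum_inv_le (GG X S (pt S Z t ∅ 0) v hv) t (A ∅) (ρ ∅) (hA0 ∅) (hlt ∅)
    (by intro y; rw [GG_apply, hρ1, hAc]) φ hbar0
  obtain ⟨m0, hm0, hlev⟩ := level_bound hr (ρ ∅) t φ hφ (hlt ∅) hsum
  have hlevel := hlev (Z v) hZ
  have hm0t : m0 < t := lt_of_le_of_lt (hm0 ⟨0, hr⟩) (hlt ∅ ⟨0, hr⟩)
  have hgap : 0 < Z v - (∑ k, ρ ∅ k) / r :=
    lt_of_lt_of_le (div_pos (by linarith) hr') hlevel
  have hval : ∀ Dl, F X (insert v S) (pt (insert v S) Z t Dl 0) =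
      ((A Dl * (Z v - (∑ k, ρ Dl k) / r) : ℝ) : ℂ) := by
    intro Dl
    have h1 := hρ2 Dl (Z v)
    rw [insert_pt, hAc] at h1
    have hrc : (r : ℂ) ≠ 0 := by exact_mod_cast hr'.ne'
    apply mul_left_cancel₀ hrc
    rw [h1]
    push_cast
    field_simp
  refine ⟨?_, ?_⟩
  · intro Dl
    rw [hval]
    have h1 : 0 < A Dl * (Z v - (∑ k, ρ Dl k) / r) := by
      apply mul_pos (hA0 Dl)
      have h2 : (∑ k, ρ Dl k) / r ≤ (∑ k, ρ ∅ k) / r :=
        div_le_div_of_nonneg_right (hmono Dl) hr'.le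
      linarith
    exact_mod_cast h1
  · intro s hs
    have hsv : s.1 ≠ v := fun h => hs (by rw [h]; exact Finset.mem_insert_self _ _)
    have hsS : s.1 ∉ S := fun h => hs (Finset.mem_insert_of_mem h)
    have h1 := (hpair ∅ s hsS hsv (by simp)).2 t (Z v) m0 (hlt ∅) hm0 hlevel
    have hins : insert s (∅ : Finset (V × Fin r)) = {s} := by simp
    rw [hins] at h1
    rw [hval, hval, Complex.ofReal_re, Complex.ofReal_re]
    have e : ∀ Dl : Finset (V × Fin r), (∀ i, (v, i) ∉ Dl) →
        A Dl * ∏ k, (t - ρ Dl k) = (F X S (pt S Z t Dl 0)).re := by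
      intro Dl hDl
      have h2 := hρ1 Dl (t : ℂ)
      have h3 : setG (pt S Z t Dl 0) v (fun _ => ((t : ℂ), 1)) = pt S Z t Dl 0 := by
        funext s
        rcases s with ⟨a, j⟩
        by_cases ha : a = v
        · subst ha; simp [setG, pt, hv, hDl j]
        · simp [setG, pt, ha]
      rw [h3, hAc] at h2
      rw [h2]
      have : (A Dl : ℂ) * ∏ k, ((t : ℂ) - (ρ Dl k : ℂ)) =
          ((A Dl * ∏ k, (t - ρ Dl k) : ℝ) : ℂ) := by push_cast; rfl
      rw [this, Complex.ofReal_re]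
    rw [e ∅ (by simp), e {s} (by
      intro i h
      apply hsv
      rw [← Finset.mem_singleton.mp h])] at h1
    have h2 := hI.bar s hsS
    have h3 : 0 < (F X S (pt S Z t ∅ 0)).re := by
      have := hI.pos ∅
      rw [Complex.lt_def] at this
      exact this.1
    have h4 : 0 < A ∅ * (Z v - (∑ k, ρ ∅ k) / r) := mul_pos (hA0 ∅) hgap
    have h5 : (A {s} * (Z v - (∑ k, ρ {s} k) / r)) * (F X S (pt S Z t ∅ 0)).re ≤
        (φ * (A ∅ * (Z v - (∑ k, ρ ∅ k) / r))) * (F X S (pt S Z t ∅ 0)).re := by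
      refine h1.trans ?_
      have := mul_le_mul_of_nonneg_right h2 h4.le
      linarith
    exact le_of_mul_le_mul_right h5 h3

end Crest.Agent.R109.Start
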