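import Mathlib
import Crest.Agent.R109.FinStart3

/-!
# R109 / FinStart4 (helper585)

The start of the induction and the final start bound.
-/

set_option autoImplicit false
set_option linter.unusedSectionVars false

namespace Crest.Agent.R109.Start

open Polynomial Finset Filter Topology Function Matrix
open scoped ComplexOrder

section psd

variable {n : Type*} [Fintype n] [DecidableEq n]

theorem isHermitian_of_one_sub {X : Matrix n n ℂ} (h : (1 - X).PosSemidef) : X.IsHermitian := by
  have h1 := h.isHermitian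
  have h2 : X = 1 - (1 - X) := by abel
  rw [h2]
  exact Matrix.isHermitian_one.sub h1

theorem posDef_smul_sub {X : Matrix n n ℂ} (h : (1 - X).PosSemidef) (t : ℝ) (ht : 1 < t) :
    ((t : ℂ) • (1 : Matrix n n ℂ) - X).PosDef := by
  have e : ((t : ℂ) • (1 : Matrix n n ℂ) - X) = ((t - 1 : ℝ) : ℂ) • (1 : Matrix n n ℂ) + (1 - X) := by
    push_cast
    rw [sub_smul, one_smul]
    abel
  rw [e]
  apply Matrix.PosDef.add_posSemidef _ h
  apply Matrix.PosDef.smul Matrix.PosDef.one
  have : (0 : ℝ) < t - 1 := by linarith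
  exact_mod_cast this

/-- diagonal resolvent bound -/
theorem inv_diag_le {X : Matrix n n ℂ} (h1 : (1 - X).PosSemidef) (h2 : (1 + X).PosSemidef)
    (t : ℝ) (ht : 1 < t) (s : n) (hs : X s s = 0) :
    ((((t : ℂ) • (1 : Matrix n n ℂ) - X)⁻¹) s s).re ≤ t / (t ^ 2 - 1) := by
  set M := (t : ℂ) • (1 : Matrix n n ℂ) - X with hM
  have hMpd : M.PosDef := posDef_smul_sub h1 t ht
  have hMh : M.IsHermitian := hMpd.isHermitian
  have hdet : IsUnit M.det := (hMpd.det_pos).ne'.isUnit
  have hXh : X.IsHermitian := isHermitian_of_one_sub h1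
  -- positivity of `(1 - X)(1+X)(1-X)` and of `(1 - X^2)`
  have p1 : ((1 - X) * (1 + X) * (1 - X)).PosSemidef := by
    have := h2.mul_mul_conjTranspose_same (1 - X)
    rwa [h1.isHermitian.eq] at this
  have p2 : ((1 + X) * (1 - X) * (1 + X)).PosSemidef := by
    have := h1.mul_mul_conjTranspose_same (1 + X)
    rwa [h2.isHermitian.eq] at this
  have p3 : (1 - X * X).PosSemidef := by
    have e : (1 - X * X) = ((1 / 2 : ℝ) : ℂ) • ((1 - X) * (1 + X) * (1 - X)) +
        ((1 / 2 : ℝ) : ℂ) • ((1 + X) * (1 - X) * (1 + X)) := by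
      rw [← smul_add]
      have : (1 - X) * (1 + X) * (1 - X) + (1 + X) * (1 - X) * (1 + X) = (2 : ℂ) • (1 - X * X) := by
        rw [two_smul]
        noncomm_ring
      rw [this, smul_smul]
      norm_num
    have hhalf : (0 : ℂ) ≤ ((1 / 2 : ℝ) : ℂ) := by
      exact_mod_cast (by norm_num : (0 : ℝ) ≤ 1 / 2)
    rw [e]
    apply Matrix.PosSemidef.add
    · exact p1.smul hhalf
    · exact p2.smul hhalf
  set N : Matrix n n ℂ := ((t : ℂ) • (1 : Matrix n n ℂ) + X) - ((t ^ 2 - 1 : ℝ) : ℂ) • M⁻¹ with hN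
  have hMM : M⁻¹ * M = 1 := Matrix.nonsing_inv_mul M hdet
  have hMM' : M * M⁻¹ = 1 := Matrix.mul_nonsing_inv M hdet
  clear_value N M
  have hMNM : M * N * M = ((t - 1 : ℝ) : ℂ) • (1 - X * X) + (1 - X) * (1 + X) * (1 - X) := by
    have e1 : M * N * M = M * ((t : ℂ) • (1 : Matrix n n ℂ) + X) * M -
        ((t ^ 2 - 1 : ℝ) : ℂ) • M := by
      rw [hN, Matrix.mul_sub, Matrix.sub_mul]
      congr 1
      rw [Matrix.mul_smul, Matrix.smul_mul, hMM', Matrix.one_mul]
    rw [e1, hM]
    have e2 : ((t : ℂ) • (1 : Matrix n n ℂ) - X) * ((t : ℂ) • (1 : Matrix n n ℂ) + X) =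
        ((t ^ 2 : ℝ) : ℂ) • (1 : Matrix n n ℂ) - X * X := by
      simp only [Matrix.sub_mul, Matrix.mul_add, Matrix.smul_mul, Matrix.mul_smul, Matrix.one_mul,
        Matrix.mul_one]
      push_cast
      module
    rw [e2]
    simp only [Matrix.sub_mul, Matrix.mul_sub, Matrix.smul_mul, Matrix.mul_smul, Matrix.one_mul,
      Matrix.mul_one, smul_sub, smul_smul, Matrix.mul_add, Matrix.add_mul]
    push_cast
    module
  have hpsd : (M * N * M).PosSemidef := by
    rw [hMNM]
    apply Matrix.PosSemidef.add _ p1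
    apply p3.smul
    have : (0 : ℝ) ≤ t - 1 := by linarith
    exact_mod_cast this
  have hNpsd : N.PosSemidef := by
    have h3 := hpsd.mul_mul_conjTranspose_same M⁻¹
    have h4 : (M⁻¹)ᴴ = M⁻¹ := by rw [Matrix.conjTranspose_nonsing_inv, hMh.eq]
    rw [h4] at h3
    have h5 : M⁻¹ * (M * N * M) * M⁻¹ = N := by
      calc M⁻¹ * (M * N * M) * M⁻¹ = (M⁻¹ * M) * N * (M * M⁻¹) := by
            simp only [Matrix.mul_assoc]
        _ = N := by rw [hMM, hMM', Matrix.one_mul, Matrix.mul_one]
    rwa [h5] at h3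
  have h6 : 0 ≤ N s s := hNpsd.diag_nonneg
  have h7 : 0 ≤ (N s s).re := (Complex.le_def.mp h6).1
  rw [hN] at h7
  simp only [Matrix.sub_apply, Matrix.add_apply, Matrix.smul_apply, Matrix.one_apply_eq, hs,
    smul_eq_mul, mul_one, add_zero, Complex.sub_re, Complex.ofReal_re, Complex.re_ofReal_mul] at h7
  rw [le_div_iff₀ (by nlinarith)]
  linarith

end psd

variable {V : Type*} [Fintype V] [DecidableEq V] {r : ℕ}

/-- principal minors of `t - X` -/
theorem D_pt_pos (X : Matrix (V × Fin r) (V × Fin r) ℂ) (h1 : (1 - X).PosSemidef) (Z : V → ℝ)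
    (t : ℝ) (ht : 1 < t) (Dl : Finset (V × Fin r)) : 0 < D X (pt ∅ Z t Dl 0) := by
  classical
  rw [D_apply]
  set M : Matrix (V × Fin r) (V × Fin r) ℂ :=
    Matrix.of fun s => (pt ∅ Z t Dl 0 s).1 • Pi.single s (1 : ℂ) - (pt ∅ Z t Dl 0 s).2 • X s with hM
  have hin : ∀ s ∈ Dl, ∀ u, M s u = if u = s then 1 else 0 := by
    intro s hs u
    simp [hM, pt, hs, Pi.single_apply]
  have hout : ∀ s, s ∉ Dl → ∀ u, M s u =
      ((t : ℂ) • (1 : Matrix (V × Fin r) (V × Fin r) ℂ) - X) s u := by
    intro s hs u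
    simp [hM, pt, hs, Matrix.one_apply, Pi.single_apply, eq_comm]
  rw [Matrix.twoBlockTriangular_det M (fun s => s ∉ Dl)]
  · have e1 : (toSquareBlockProp M fun i => ¬ (i ∉ Dl)) = 1 := by
      ext ⟨i, hi⟩ ⟨j, hj⟩
      simp only [Matrix.toSquareBlockProp_def, Matrix.of_apply]
      rw [hin i (by simpa using hi)]
      by_cases h : j = i
      · subst h; simp
      · rw [if_neg h, Matrix.one_apply_ne]
        intro h'
        exact h (by simpa using (congrArg Subtype.val h').symm)
    have e2 : (toSquareBlockProp M fun i => i ∉ Dl) =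
        ((t : ℂ) • (1 : Matrix (V × Fin r) (V × Fin r) ℂ) - X).submatrix
          (Subtype.val : {i // i ∉ Dl} → V × Fin r) (Subtype.val : {i // i ∉ Dl} → V × Fin r) := by
      ext ⟨i, hi⟩ ⟨j, hj⟩
      simp only [Matrix.toSquareBlockProp_def, Matrix.of_apply, Matrix.submatrix_apply]
      exact hout i hi j
    rw [e1, Matrix.det_one, mul_one, e2]
    exact ((posDef_smul_sub h1 t ht).submatrix Subtype.val_injective).det_pos
  · intro i hi j hj
    have hi' : i ∈ Dl := by simpa using hi
    rw [hin i hi']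
    have : j ≠ i := by
      intro h; rw [h] at hj; exact hj hi'
    simp [this]

/-- the invariant at the start -/
theorem inv_empty (hr : 0 < r) (X : Matrix (V × Fin r) (V × Fin r) ℂ) (h1 : (1 - X).PosSemidef)
    (h2 : (1 + X).PosSemidef) (h0 : ∀ s, X s s = 0) (Z : V → ℝ) (t : ℝ) (ht : 1 < t) :
    Inv X Z t (t / (t ^ 2 - 1)) ∅ := by
  classical
  have hF : ∀ u, F X ∅ u = (Fintype.card (V → Fin r) : ℂ) * D X u := by
    intro u
    simp only [F, mask_empty, Finset.sum_const, nsmul_eq_mul, Finset.card_univ]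
  have hne : Nonempty (Fin r) := ⟨⟨0, hr⟩⟩
  have hcard : 0 < Fintype.card (V → Fin r) := Fintype.card_pos
  refine ⟨?_, ?_⟩
  · intro Dl
    rw [hF]
    apply mul_pos _ (D_pt_pos X h1 Z t ht Dl)
    exact_mod_cast hcard
  · intro s _
    rw [hF, hF]
    set M : Matrix (V × Fin r) (V × Fin r) ℂ :=
      (t : ℂ) • (1 : Matrix (V × Fin r) (V × Fin r) ℂ) - X with hM
    have e1 : D X (pt ∅ Z t ∅ 0) = M.det := by
      rw [D_apply]
      congr 1
      ext a b
      simp [hM, pt, Matrix.one_apply, Pi.single_apply, eq_comm]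
    have e2 : D X (pt ∅ Z t {s} 0) = M.adjugate s s := by
      rw [D_apply, Matrix.adjugate_apply]
      congr 1
      ext a b
      by_cases ha : a = s
      · subst ha
        simp [pt]
      · rw [Matrix.updateRow_ne ha]
        have ha' : ¬ s = a := fun h => ha h.symm
        simp [hM, pt, ha', Matrix.one_apply, Pi.single_apply, eq_comm]
    have hMpd : M.PosDef := posDef_smul_sub h1 t ht
    have hdetpos := hMpd.det_pos
    have e3 : M.adjugate s s = M.det * (M⁻¹) s s := by
      rw [Matrix.inv_def, Ring.inverse_eq_inv', Matrix.smul_apply, smul_eq_mul, ← mul_assoc,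
        mul_inv_cancel₀ hdetpos.ne', one_mul]
    have hbound := inv_diag_le h1 h2 t ht s (h0 s)
    rw [← hM] at hbound
    rw [e1, e2, e3]
    have hdre : M.det = ((M.det.re : ℝ) : ℂ) := by
      rw [Complex.lt_def] at hdetpos
      apply Complex.ext
      · simp
      · simpa using hdetpos.2.symm
    have hd0 : 0 < M.det.re := by
      rw [Complex.lt_def] at hdetpos
      exact hdetpos.1
    have hcast : (Fintype.card (V → Fin r) : ℂ) = (((Fintype.card (V → Fin r) : ℕ) : ℝ) : ℂ) := by
      push_cast; rfl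
    rw [hcast, Complex.re_ofReal_mul, Complex.re_ofReal_mul, hdre, Complex.re_ofReal_mul,
      Complex.ofReal_re]
    have h8 : (0 : ℝ) < (Fintype.card (V → Fin r) : ℝ) := by exact_mod_cast hcard
    have h9 : M.det.re * ((M⁻¹) s s).re ≤ M.det.re * (t / (t ^ 2 - 1)) :=
      mul_le_mul_of_nonneg_left hbound hd0.le
    calc (Fintype.card (V → Fin r) : ℝ) * (M.det.re * ((M⁻¹) s s).re)
        ≤ (Fintype.card (V → Fin r) : ℝ) * (M.det.re * (t / (t ^ 2 - 1))) :=
          mul_le_mul_of_nonneg_left h9 h8.le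
      _ = t / (t ^ 2 - 1) * ((Fintype.card (V → Fin r) : ℝ) * M.det.re) := by ring

/-- all groups processed -/
theorem inv_all (hr : 0 < r) (X : Matrix (V × Fin r) (V × Fin r) ℂ) (h1 : (1 - X).PosSemidef)
    (h2 : (1 + X).PosSemidef) (h0 : ∀ s, X s s = 0) (Z : V → ℝ) (t : ℝ) (ht : 1 < t)
    (hZ : ∀ v, t - (1 - 1 / (r : ℝ)) ^ 2 / (t / (t ^ 2 - 1)) ≤ Z v) :
    ∀ S : Finset V, Inv X Z t (t / (t ^ 2 - 1)) S := by
  intro S
  have hφ : 0 < t / (t ^ 2 - 1) := by
    apply div_pos (by linarith)
    nlinarith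
  induction S using Finset.induction_on with
  | empty => exact inv_empty hr X h1 h2 h0 Z t ht
  | insert v S hv ih =>
    exact step hr X (isHermitian_of_one_sub h1) Z t _ hφ S v hv (hZ v) ih

/-- the compression of `X` to the sites `(v, c v)` -/
def comp (X : Matrix (V × Fin r) (V × Fin r) ℂ) (c : V → Fin r) : Matrix V V ℂ :=
  X.submatrix (fun v => (v, c v)) (fun v => (v, c v))

theorem D_mask_univ (X : Matrix (V × Fin r) (V × Fin r) ℂ) (c : V → Fin r) (Z : V → ℝ) (t : ℝ) :
    D X (mask Finset.univ c (pt Finset.univ Z t ∅ 0)) =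
      (Matrix.diagonal (fun v => (Z v : ℂ)) - comp X c).det := by
  classical
  rw [D_apply]
  set M : Matrix (V × Fin r) (V × Fin r) ℂ := Matrix.of fun s =>
    (mask Finset.univ c (pt Finset.univ Z t ∅ 0) s).1 • Pi.single s (1 : ℂ) -
      (mask Finset.univ c (pt Finset.univ Z t ∅ 0) s).2 • X s with hM
  have hout : ∀ s : V × Fin r, s.2 ≠ c s.1 → ∀ u, M s u = if u = s then 1 else 0 := by
    intro s hs u
    simp [hM, mask, hs, Pi.single_apply]
  have hin : ∀ s : V × Fin r, s.2 = c s.1 → ∀ u,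
      M s u = (if u = s then (Z s.1 : ℂ) else 0) - X s u := by
    intro s hs u
    simp [hM, mask, hs, pt, Pi.single_apply]
  rw [Matrix.twoBlockTriangular_det M (fun s => s.2 = c s.1)]
  · have e1 : (toSquareBlockProp M fun i => ¬ (i.2 = c i.1)) = 1 := by
      ext ⟨i, hi⟩ ⟨j, hj⟩
      simp only [Matrix.toSquareBlockProp_def, Matrix.of_apply]
      rw [hout i hi]
      by_cases h : j = i
      · subst h; simp
      · rw [if_neg h, Matrix.one_apply_ne]
        intro h'
        exact h (by simpa using (congrArg Subtype.val h').symm)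
    rw [e1, Matrix.det_one, mul_one]
    set e : V ≃ {s : V × Fin r // s.2 = c s.1} :=
      { toFun := fun v => ⟨(v, c v), rfl⟩
        invFun := fun s => s.1.1
        left_inv := fun v => rfl
        right_inv := fun s => by
          rcases s with ⟨⟨a, i⟩, h⟩
          simp only [] at h
          apply Subtype.ext
          simp only [Prod.mk.injEq, true_and]
          exact h.symm } with he
    rw [← Matrix.det_submatrix_equiv_self e]
    congr 1
    ext v w
    simp only [Matrix.submatrix_apply, Matrix.toSquareBlockProp_def, Matrix.of_apply,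
      Matrix.sub_apply, comp]
    rw [hin _ (e v).2]
    have hev : ((e v : {s : V × Fin r // s.2 = c s.1}) : V × Fin r) = (v, c v) := rfl
    have hew : ((e w : {s : V × Fin r // s.2 = c s.1}) : V × Fin r) = (w, c w) := rfl
    rw [hev, hew]
    congr 1
    by_cases hvw : v = w
    · subst hvw; simp
    · rw [Matrix.diagonal_apply_ne _ hvw, if_neg]
      intro h
      exact hvw (Prod.ext_iff.mp h).1.symm
  · intro i hi j hj
    rw [hout i hi]
    have : j ≠ i := by
      intro h; rw [h] at hj; exact hi hj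
    simp [this]

/-- **Start bound**, general form: one site is chosen in every group. -/
theorem start_general (hr : 0 < r) (X : Matrix (V × Fin r) (V × Fin r) ℂ)
    (h1 : (1 - X).PosSemidef) (h2 : (1 + X).PosSemidef) (h0 : ∀ s, X s s = 0) (Z : V → ℝ)
    (t : ℝ) (ht : 1 < t) (hZ : ∀ v, t - (1 - 1 / (r : ℝ)) ^ 2 / (t / (t ^ 2 - 1)) ≤ Z v) :
    0 < ∑ c : V → Fin r, (Matrix.diagonal (fun v => (Z v : ℂ)) - comp X c).det := by
  have h3 := (inv_all hr X h1 h2 h0 Z t ht hZ Finset.univ).pos ∅
  rw [F] at h3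
  simp only [D_mask_univ] at h3
  exact h3

/-- **Start bound**, general form, with the level `2 √2 / √r`. -/
theorem start_general' (hr : 2 < r) (X : Matrix (V × Fin r) (V × Fin r) ℂ)
    (h1 : (1 - X).PosSemidef) (h2 : (1 + X).PosSemidef) (h0 : ∀ s, X s s = 0) (Z : V → ℝ)
    (hZ : ∀ v, 2 * Real.sqrt 2 / Real.sqrt r ≤ Z v) :
    0 < ∑ c : V → Fin r, (Matrix.diagonal (fun v => (Z v : ℂ)) - comp X c).det := by
  have hr2 : (2 : ℝ) < r := by exact_mod_cast hr
  set t : ℝ := Real.sqrt (r / 2) with htdef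
  have ht2 : t ^ 2 = r / 2 := Real.sq_sqrt (by linarith)
  have ht : 1 < t := by
    rw [htdef]
    rw [Real.lt_sqrt (by norm_num)]
    linarith
  have htpos : 0 < t := by linarith
  apply start_general (by omega) X h1 h2 h0 Z t ht
  intro v
  refine le_trans ?_ (hZ v)
  have hden : 0 < t ^ 2 - 1 := by nlinarith
  have e1 : (1 - 1 / (r : ℝ)) ^ 2 / (t / (t ^ 2 - 1)) = (1 - 1 / (r : ℝ)) ^ 2 * (t - 1 / t) := by
    field_simp
  rw [e1]
  have hb : 2 * Real.sqrt 2 / Real.sqrt r = 2 / t := by
    have h5 : Real.sqrt r = Real.sqrt 2 * t := by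
      rw [htdef, ← Real.sqrt_mul (by norm_num)]
      congr 1
      ring
    rw [h5]
    have h6 : Real.sqrt 2 ≠ 0 := by positivity
    field_simp
  rw [hb]
  have hrt : (r : ℝ) = 2 * t ^ 2 := by linarith
  rw [hrt]
  have h7 : t - (1 - 1 / (2 * t ^ 2)) ^ 2 * (t - 1 / t) ≤ 2 / t := by
    have h8 : 2 / t - (t - (1 - 1 / (2 * t ^ 2)) ^ 2 * (t - 1 / t)) =
        (5 * t ^ 2 - 1) / (4 * t ^ 5) := by
      field_simp
      ring
    have h9 : 0 ≤ (5 * t ^ 2 - 1) / (4 * t ^ 5) := by
      apply div_nonneg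
      · nlinarith
      · positivity
    linarith
  exact h7


theorem posSemidef_blockDiagonal {n o : Type*} [Fintype n] [Fintype o] [DecidableEq n]
    [DecidableEq o] (M : o → Matrix n n ℂ) (hM : ∀ i, (M i).PosSemidef) :
    (Matrix.blockDiagonal M).PosSemidef := by
  apply Matrix.PosSemidef.of_dotProduct_mulVec_nonneg
  · rw [Matrix.IsHermitian, Matrix.blockDiagonal_conjTranspose]
    congr 1
    funext i
    exact (hM i).isHermitian
  · intro x
    have h1 : star x ⬝ᵥ (Matrix.blockDiagonal M).mulVec x =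
        ∑ i, star (fun v => x (v, i)) ⬝ᵥ (M i).mulVec (fun v => x (v, i)) := by
      simp only [dotProduct, Matrix.mulVec, Pi.star_apply, Finset.mul_sum,
        Fintype.sum_prod_type, Matrix.blockDiagonal_apply]
      rw [Finset.sum_comm]
      apply Finset.sum_congr rfl
      intro i _
      apply Finset.sum_congr rfl
      intro v _
      apply Finset.sum_congr rfl
      intro w _
      rw [Finset.sum_eq_single_of_mem i (Finset.mem_univ i)]
      · simp
      · intro j _ hj
        simp [Ne.symm hj]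
    rw [h1]
    exact Finset.sum_nonneg (fun i _ => (hM i).dotProduct_mulVec_nonneg _)

/-- the pinched matrix of a colouring -/
def pinch (x : Fin r → Matrix V V ℂ) (c : V → Fin r) : Matrix V V ℂ :=
  Matrix.of fun v w => if c v = c w then x (c v) v w else 0

/-- **START BOUND** (colour dependent matrices `x i`, e.g. `± x`): above the level `2√2/√r` the
uniformly averaged determinant is positive. -/
theorem start_bound (hr : 2 < r) (x : Fin r → Matrix V V ℂ)
    (h1 : ∀ i, (1 - x i).PosSemidef) (h2 : ∀ i, (1 + x i).PosSemidef) (h0 : ∀ i v, x i v v = 0)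
    (Z : V → ℝ) (hZ : ∀ v, 2 * Real.sqrt 2 / Real.sqrt r ≤ Z v) :
    0 < ∑ c : V → Fin r, (Matrix.diagonal (fun v => (Z v : ℂ)) - pinch x c).det := by
  have h3 := start_general' hr (Matrix.blockDiagonal x)
    (by
      rw [← Matrix.blockDiagonal_one, ← Matrix.blockDiagonal_sub]
      exact posSemidef_blockDiagonal _ (fun i => h1 i))
    (by
      rw [← Matrix.blockDiagonal_one, ← Matrix.blockDiagonal_add]
      exact posSemidef_blockDiagonal _ (fun i => h2 i))
    (by
      intro s
      simp [Matrix.blockDiagonal_apply, h0]) Z hZ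
  have h4 : ∀ c : V → Fin r, comp (Matrix.blockDiagonal x) c = pinch x c := by
    intro c
    ext v w
    simp [comp, pinch, Matrix.blockDiagonal_apply]
  simp only [h4] at h3
  exact h3

/-- **START BOUND** for one matrix `x`. -/
theorem start_bound_single (hr : 2 < r) (x : Matrix V V ℂ)
    (h1 : (1 - x).PosSemidef) (h2 : (1 + x).PosSemidef) (h0 : ∀ v, x v v = 0)
    (Z : V → ℝ) (hZ : ∀ v, 2 * Real.sqrt 2 / Real.sqrt r ≤ Z v) :
    0 < ∑ c : V → Fin r, (Matrix.diagonal (fun v => (Z v : ℂ)) -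
      Matrix.of fun v w => if c v = c w then x v w else 0).det :=
  start_bound hr (fun _ => x) (fun _ => h1) (fun _ => h2) (fun _ => h0) Z hZ

/-- homogeneous form: sub-volume `W` as a subtype, any level `b ≥ 2√2/√r`, any `y ∈ [-1/b, 1/b]`:
`∑_c det(1 - y · diag(1/z) T_c) > 0` in the form with real levels of both signs: the sum does not
vanish for real `Z` with `|Z v| ≥ 2√2/√r` all of the same sign. -/
theorem start_bound_neg (hr : 2 < r) (x : Matrix V V ℂ)
    (h1 : (1 - x).PosSemidef) (h2 : (1 + x).PosSemidef) (h0 : ∀ v, x v v = 0)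
    (Z : V → ℝ) (hZ : ∀ v, 2 * Real.sqrt 2 / Real.sqrt r ≤ Z v) :
    0 < ∑ c : V → Fin r, (Matrix.diagonal (fun v => (Z v : ℂ)) +
      Matrix.of fun v w => if c v = c w then x v w else 0).det := by
  have h3 := start_bound_single hr (-x) (by simpa using h2) (by simpa [sub_eq_add_neg] using h1)
    (by simpa using h0) Z hZ
  have h4 : ∀ c : V → Fin r, (Matrix.diagonal (fun v => (Z v : ℂ)) -
      Matrix.of fun v w => if c v = c w then (-x) v w else 0) =
      (Matrix.diagonal (fun v => (Z v : ℂ)) +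
      Matrix.of fun v w => if c v = c w then x v w else 0) := by
    intro c
    ext v w
    by_cases h : c v = c w <;> simp [h]
  simp only [h4] at h3
  exact h3

end Crest.Agent.R109.Start
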