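import Crest.Agent.R109.Red143
import Crest.Agent.R109.Ampl

/-!
# Row 109: S0143 from `NCE_q`, `HasE`, `NoNCE143`
-/

set_option autoImplicit false
set_option linter.unusedSectionVars false

namespace Crest.Agent.R109

open scoped InnerProductSpace
open ContinuousLinearMap Crest.Agent.R121 Crest.Agent.R124

universe u

/-- **S0143** -/
theorem s0143_of (hN : NCE_q.{u}) (hE : HasE.{u}) (h0 : NoNCE143.{u})
    (ε : ℝ) (hε : 0 < ε) (hε1 : ε < 1)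
    (H : Type u) [NormedAddCommGroup H] [InnerProductSpace ℂ H] [CompleteSpace H]
    (M : VonNeumannAlgebra H) (A : StarSubalgebra ℂ (H →L[ℂ] H))
    (hAM : A ≤ M.toStarSubalgebra) (hA : ∀ a ∈ A, ∀ b ∈ A, a * b = b * a)
    (hAmax : ∀ y ∈ M, (∀ a ∈ A, a * y = y * a) → y ∈ A)
    (x : H →L[ℂ] H) (hxM : x ∈ M) (hx : IsSelfAdjoint x) (F : Finset H) (δ : ℝ) (hδ : 0 < δ) :
    ∃ p : Fin (Nat.ceil (400000000 / ε ^ 2) + Nat.ceil (4 / ε) + 1) → (H →L[ℂ] H),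
      (∀ i, p i ∈ A ∧ IsStarProjection (p i)) ∧ (∀ i j, i ≠ j → p i * p j = 0) ∧
      ∑ i, p i = 1 ∧
      ∃ a ∈ A, IsSelfAdjoint a ∧ ‖a‖ ≤ ‖x‖ ∧
        ∃ q ∈ M, IsStarProjection q ∧ (∀ ξ ∈ F, ‖(1 - q) ξ‖ < δ) ∧
          ‖q * (∑ i, p i * x * p i - a) * q‖ ≤ ε * ‖x‖ := by
  have hM : Masa M A := ⟨hAM, hA, hAmax⟩
  obtain ⟨K, iK1, iK2, iK3, Φ, Mt, At, hΦ, hMt, hAt, hMasa, hAmp, hF⟩ := exists_ampl M A hM
  have hinj : ∀ {y y' : H →L[ℂ] H}, Φ y = Φ y' → y = y' := by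
    intro y y' h
    have h1 : ‖y - y'‖ = 0 := by rw [← hΦ, map_sub, h, sub_self, norm_zero]
    exact sub_eq_zero.1 (norm_eq_zero.1 h1)
  obtain ⟨ξ, hξ⟩ := hF F
  have hproj : ∀ {y : H →L[ℂ] H}, IsStarProjection (Φ y) → IsStarProjection y := by
    intro y h
    refine ⟨hinj ?_, hinj ?_⟩
    · rw [map_mul]; exact h.isIdempotentElem
    · rw [map_star]; exact h.isSelfAdjoint
  obtain ⟨p, hp, a, haA, hasa, han, q, hqM, hqp, hqξ, hq⟩ := red143_amp hN hE h0 hMasa hAmp hε hε1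
    (x := Φ x) ((hMt _).2 ⟨x, hxM, rfl⟩) (hx.map Φ) ξ hδ
  choose p' hp'A hp' using fun i => (hAt (p i)).1 (hp.mem i)
  obtain ⟨a', ha'A, rfl⟩ := (hAt a).1 haA
  obtain ⟨q', hq'M, rfl⟩ := (hMt q).1 hqM
  refine ⟨p', fun i => ⟨hp'A i, hproj (by rw [hp' i]; exact hp.proj i)⟩, ?_, ?_, a', ha'A, ?_, ?_,
    q', hq'M, hproj hqp, ?_, ?_⟩
  · intro i j hij
    apply hinj
    rw [map_mul, hp', hp', hp.orth i j hij, map_zero]
  · apply hinj
    rw [map_sum, map_one, ← hp.sum]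
    exact Finset.sum_congr rfl (fun i _ => hp' i)
  · apply hinj
    rw [map_star]
    exact hasa
  · rwa [hΦ, hΦ] at han
  · intro ζ hζ
    refine lt_of_le_of_lt (hξ (1 - q') ζ hζ) ?_
    rw [map_sub, map_one]
    exact hqξ
  · have h1 : Φ (q' * (∑ i, p' i * x * p' i - a') * q') =
        Φ q' * (∑ i, p i * Φ x * p i - Φ a') * Φ q' := by
      rw [map_mul, map_mul, map_sub, map_sum]
      simp only [map_mul, hp']
    rw [← hΦ, h1, ← hΦ x]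
    exact hq

end Crest.Agent.R109
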