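import Crest.Agent.R109.GN
import Crest.Agent.R109.BallA
import Mathlib.Analysis.CStarAlgebra.Projection

/-!
# Row 109: Frolik's decomposition for normalising partial isometries
-/

set_option autoImplicit false
set_option linter.unusedSectionVars false
set_option linter.style.haveILetI false

namespace Crest.Agent.R109.Fro

open scoped InnerProductSpace
open ContinuousLinearMap TopologicalSpace Set Crest.Agent.R109

universe u

variable {H : Type u} [NormedAddCommGroup H] [InnerProductSpace ℂ H] [CompleteSpace H]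
variable {M : VonNeumannAlgebra H} {A : StarSubalgebra ℂ (H →L[ℂ] H)} {η : H}

/-- the property used in Frolik's lemma: `s` is a projection of `A` below `u*u` and
`s` is orthogonal to its image -/
structure FrP (A : StarSubalgebra ℂ (H →L[ℂ] H)) (u s : H →L[ℂ] H) : Prop where
  mem : s ∈ A
  proj : IsStarProjection s
  le : s * (star u * u) = s
  free : s * u * s = 0

/-- suprema of chains -/
lemma FrP.sup (hA : Masa M A) {u : H →L[ℂ] H} (c : Set (H →L[ℂ] H))
    (hc : ∀ s ∈ c, FrP A u s) (hch : ∀ s ∈ c, ∀ t ∈ c, s * t = s ∨ t * s = t) :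
    ∃ t, FrP A u t ∧ ∀ s ∈ c, s * t = s := by
  set W : Set H := {w | ∃ s ∈ c, ∃ ζ, w = s ζ} with hW
  have hsW : ∀ s ∈ c, pspan W * s = s := by
    intro s hs
    ext ζ
    exact pspan_self ⟨s, hs, ζ, rfl⟩
  have hsW' : ∀ s ∈ c, s * pspan W = s := by
    intro s hs
    have := congrArg star (hsW s hs)
    rwa [star_mul, (hc s hs).proj.isSelfAdjoint.star_eq,
      (pspan_proj W).isSelfAdjoint.star_eq] at this
  refine ⟨pspan W, ⟨?_, pspan_proj W, ?_, ?_⟩, hsW'⟩
  · apply hA.mem_of_comm
    intro T hT
    apply pspan_comm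
    · rintro _ ⟨s, hs, ζ, rfl⟩
      refine ⟨s, hs, T ζ, ?_⟩
      exact (congrArg (fun S : H →L[ℂ] H => S ζ) (hT s (hc s hs).mem)).symm
    · rintro _ ⟨s, hs, ζ, rfl⟩
      refine ⟨s, hs, star T ζ, ?_⟩
      have h1 := congrArg star (hT s (hc s hs).mem)
      rw [star_mul, star_mul, (hc s hs).proj.isSelfAdjoint.star_eq] at h1
      exact congrArg (fun S : H →L[ℂ] H => S ζ) h1
  · -- below `u*u`
    have h1 : (1 - star u * u) * pspan W = 0 := by
      apply mul_pspan_eq_zero
      rintro _ ⟨s, hs, ζ, rfl⟩
      have h2 := congrArg star (hc s hs).le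
      rw [star_mul, star_mul, star_star, (hc s hs).proj.isSelfAdjoint.star_eq] at h2
      have h3 : (1 - star u * u) * s = 0 := by rw [sub_mul, one_mul, h2, sub_self]
      exact congrArg (fun S : H →L[ℂ] H => S ζ) h3
    have h2 := congrArg star h1
    rw [star_mul, star_sub, star_mul, star_star, star_one, star_zero,
      (pspan_proj W).isSelfAdjoint.star_eq, mul_sub, mul_one, sub_eq_zero] at h2
    exact h2.symm
  · -- free
    have h1 : ∀ s ∈ c, ∀ t ∈ c, t * star u * s = 0 := by
      intro s hs t ht
      have key : ∀ r ∈ c, r * star u * r = 0 := fun r hr => by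
        have := congrArg star (hc r hr).free
        rwa [star_mul, star_mul, (hc r hr).proj.isSelfAdjoint.star_eq, star_zero,
          ← mul_assoc] at this
      rcases hch s hs t ht with h | h
      · -- s ≤ t
        have h' : t * s = s := by
          have := congrArg star h
          rwa [star_mul, (hc s hs).proj.isSelfAdjoint.star_eq,
            (hc t ht).proj.isSelfAdjoint.star_eq] at this
        calc t * star u * s = t * star u * t * s := by rw [mul_assoc, mul_assoc, mul_assoc, h',
              ← mul_assoc]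
          _ = 0 := by rw [key t ht, zero_mul]
      · calc t * star u * s = t * (s * star u * s) := by
              rw [← mul_assoc, ← mul_assoc, h]
          _ = 0 := by rw [key s hs, mul_zero]
    have h2 : ∀ s ∈ c, pspan W * u * s = 0 := by
      intro s hs
      have h3 : (s * star u) * pspan W = 0 := by
        apply mul_pspan_eq_zero
        rintro _ ⟨t, ht, ζ, rfl⟩
        exact congrArg (fun S : H →L[ℂ] H => S ζ) (h1 t ht s hs)
      have h4 := congrArg star h3
      rwa [star_mul, star_mul, star_star, star_zero, (pspan_proj W).isSelfAdjoint.star_eq,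
        (hc s hs).proj.isSelfAdjoint.star_eq, ← mul_assoc] at h4
    apply mul_pspan_eq_zero
    rintro _ ⟨s, hs, ζ, rfl⟩
    exact congrArg (fun S : H →L[ℂ] H => S ζ) (h2 s hs)

/-- a maximal projection orthogonal to its image -/
lemma FrP.exists_max (hA : Masa M A) (u : H →L[ℂ] H) :
    ∃ s, FrP A u s ∧ ∀ t, FrP A u t → s * t = s → t = s := by
  have hz : FrP A u (0 : H →L[ℂ] H) :=
    ⟨zero_mem A, ⟨by simp [IsIdempotentElem], by simp⟩, by simp, by simp⟩
  obtain ⟨s, -, hs⟩ := zorn_le_nonempty₀ {s | FrP A u s} (fun c hc hch y hy => by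
    obtain ⟨t, ht, ht'⟩ := FrP.sup hA c (fun s hs => hc hs) (fun s hs t ht => by
      rcases hch.total hs ht with h | h
      · exact Or.inl ((IsStarProjection.le_iff_mul_eq_left (hc hs).proj (hc ht).proj).1 h)
      · exact Or.inr ((IsStarProjection.le_iff_mul_eq_left (hc ht).proj (hc hs).proj).1 h))
    exact ⟨t, ht, fun z hz =>
      (IsStarProjection.le_iff_mul_eq_left (hc hz).proj ht.proj).2 (ht' z hz)⟩) 0 hz
  refine ⟨s, hs.1, fun t ht hst => ?_⟩
  have h1 : s ≤ t := (IsStarProjection.le_iff_mul_eq_left hs.1.proj ht.proj).2 hst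
  exact le_antisymm (hs.2 ht h1) h1


/-- the remainder of a maximal `s` vanishes -/
lemma frolik_rem (h : NCE M A η) {u : H →L[ℂ] H} (hu : GN M A u) (h0 : CE A η u = 0)
    {s : H →L[ℂ] H} (hs : FrP A u s) (hmax : ∀ t, FrP A u t → s * t = s → t = s) :
    star u * u * (1 - s) * (1 - u * s * star u) * (1 - star u * s * u) = 0 := by
  have hA := h.masa
  have hc := hA.comm
  have hss := hs.proj.isSelfAdjoint.star_eq
  have hs2 : s * s = s := hs.proj.isIdempotentElem
  set d : H →L[ℂ] H := star u * u with hd
  set a1 : H →L[ℂ] H := u * s * star u with ha1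
  set b1 : H →L[ℂ] H := star u * s * u with hb1
  have hdA : d ∈ A := hu.src
  have ha1A : a1 ∈ A := hu.conj s hs.mem
  have hb1A : b1 ∈ A := hu.conj' s hs.mem
  have hud : u * d = u := by rw [hd, ← mul_assoc]; exact hu.part
  have hdd : d * d = d := by rw [hd, mul_assoc, ← hd, hud]
  have hds : star d = d := by rw [hd, star_mul, star_star]
  have hsd : s * d = s := hs.le
  have ha1s : star a1 = a1 := by
    rw [ha1, star_mul, star_mul, star_star, hss, mul_assoc]
  have hb1s : star b1 = b1 := by
    rw [hb1, star_mul, star_mul, star_star, hss, mul_assoc]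
  have ha12 : a1 * a1 = a1 := by
    calc a1 * a1 = u * (s * (star u * u)) * (s * star u) := by
          rw [ha1]; simp only [mul_assoc]
      _ = a1 := by
          rw [← hd, hsd, ha1]
          simp only [mul_assoc]
          rw [← mul_assoc s s, hs2]
  have hb12 : b1 * b1 = b1 := by
    have hr := hc _ hu.rng _ hs.mem
    calc b1 * b1 = star u * (s * (u * star u)) * (s * u) := by
          rw [hb1]; simp only [mul_assoc]
      _ = star u * (u * star u * s) * (s * u) := by rw [← hr]
      _ = (star u * u * star u) * (s * s) * u := by simp only [mul_assoc]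
      _ = b1 := by
          have : star u * u * star u = star u := by
            have := congrArg star hu.part
            rwa [star_mul, star_mul, star_star, ← mul_assoc] at this
          rw [this, hs2, hb1]
  set e : H →L[ℂ] H := d * (1 - s) * (1 - a1) * (1 - b1) with he
  have h1A : (1 : H →L[ℂ] H) ∈ A := one_mem A
  have heA : e ∈ A := mul_mem (mul_mem (mul_mem hdA (sub_mem h1A hs.mem)) (sub_mem h1A ha1A))
    (sub_mem h1A hb1A)
  have h1s : s * (1 - s) = 0 := by rw [mul_sub, mul_one, hs2, sub_self]
  have h1a : (1 - a1) * a1 = 0 := by rw [sub_mul, one_mul, ha12, sub_self]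
  have h1b : (1 - b1) * b1 = 0 := by rw [sub_mul, one_mul, hb12, sub_self]
  have hes : e * s = 0 := by
    rw [hc e heA s hs.mem, he]
    have : s * d = d * s := hc s hs.mem d hdA
    calc s * (d * (1 - s) * (1 - a1) * (1 - b1))
        = (s * d) * (1 - s) * (1 - a1) * (1 - b1) := by simp only [mul_assoc]
      _ = d * (s * (1 - s)) * (1 - a1) * (1 - b1) := by rw [this]; simp only [mul_assoc]
      _ = 0 := by rw [h1s]; simp
  have hea : e * a1 = 0 := by
    have : (1 - b1) * a1 = a1 * (1 - b1) := hc _ (sub_mem h1A hb1A) _ ha1A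
    calc e * a1 = d * (1 - s) * (1 - a1) * ((1 - b1) * a1) := by rw [he]; simp only [mul_assoc]
      _ = d * (1 - s) * ((1 - a1) * a1) * (1 - b1) := by rw [this]; simp only [mul_assoc]
      _ = 0 := by rw [h1a]; simp
  have heb : e * b1 = 0 := by
    calc e * b1 = d * (1 - s) * (1 - a1) * ((1 - b1) * b1) := by rw [he]; simp only [mul_assoc]
      _ = 0 := by rw [h1b]; simp
  have hde : d * e = e := by
    rw [he]
    simp only [← mul_assoc]
    rw [hdd]
  have hed : e * d = e := by rw [hc e heA d hdA, hde]
  -- step 1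
  have step1 : ∀ f ∈ A, IsStarProjection f → f * e = f → f * u * f = 0 → f = 0 := by
    intro f hf hfp hfe hfu
    have hfs : f * s = 0 := by rw [← hfe, mul_assoc, hes, mul_zero]
    have hsf : s * f = 0 := by rw [hc s hs.mem f hf, hfs]
    have hfa : f * a1 = 0 := by rw [← hfe, mul_assoc, hea, mul_zero]
    have hfb : f * b1 = 0 := by rw [← hfe, mul_assoc, heb, mul_zero]
    have hfd : f * d = f := by
      conv_lhs => rw [← hfe]
      rw [mul_assoc, hed, hfe]
    have hff : f * f = f := hfp.isIdempotentElem
    have hnew : FrP A u (s + f) := by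
      refine ⟨add_mem hs.mem hf, ⟨?_, ?_⟩, ?_, ?_⟩
      · change (s + f) * (s + f) = s + f
        rw [add_mul, mul_add, mul_add, hs2, hsf, hfs, hff]
        abel
      · rw [isSelfAdjoint_iff, star_add, hss, hfp.isSelfAdjoint.star_eq]
      · rw [add_mul, ← hd, hsd, hfd]
      · have e1 : f * u * s = 0 := by
          rw [mul_assoc, hu.mul_eq' hA hs.mem, ← mul_assoc, ← ha1, hfa, zero_mul]
        have e2 : s * u * f = 0 := by
          rw [hu.mul_eq hA hs.mem, ← hb1, mul_assoc, hc b1 hb1A f hf, hfb, mul_zero]
        rw [add_mul, add_mul, mul_add, mul_add, hs.free, e1, e2, hfu]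
        abel
    have := hmax _ hnew (by rw [mul_add, hs2, hsf, add_zero])
    simpa using this
  -- step 2
  have hesa : star e = e := by
    have c1 : (1 - s) * d = d * (1 - s) := hc _ (sub_mem h1A hs.mem) _ hdA
    have hstar : star e = (1 - b1) * ((1 - a1) * ((1 - s) * d)) := by
      rw [he]
      simp only [star_mul, star_sub, star_one, hds, hss, ha1s, hb1s]
    rw [hstar, he, c1, hc _ (sub_mem h1A hb1A) _
      (mul_mem (sub_mem h1A ha1A) (mul_mem hdA (sub_mem h1A hs.mem))),
      hc _ (sub_mem h1A ha1A) _ (mul_mem hdA (sub_mem h1A hs.mem))]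
  have hee : e * e = e := by
    have k1 : e * (1 - s) = e := by rw [mul_sub, mul_one, hes, sub_zero]
    have k2 : e * (1 - a1) = e := by rw [mul_sub, mul_one, hea, sub_zero]
    have k3 : e * (1 - b1) = e := by rw [mul_sub, mul_one, heb, sub_zero]
    conv_lhs => rw [he]
    rw [← he]
    calc e * (d * (1 - s) * (1 - a1) * (1 - b1))
        = (((e * d) * (1 - s)) * (1 - a1)) * (1 - b1) := by simp only [mul_assoc]
      _ = e := by rw [hed, k1, k2, k3]
  have step2 : ∀ p ∈ A, IsStarProjection p → u * (e * p) = (e * p) * u := by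
    intro p hp hpp
    obtain ⟨f, hf⟩ : ∃ f : H →L[ℂ] H, f = e * p := ⟨_, rfl⟩
    rw [← hf]
    have hfA : f ∈ A := by rw [hf]; exact mul_mem heA hp
    have hfs : star f = f := by
      rw [hf, star_mul, hesa, hpp.isSelfAdjoint.star_eq, hc p hp e heA]
    have hff : f * f = f := by
      rw [hf]
      calc e * p * (e * p) = e * (p * e) * p := by simp only [mul_assoc]
        _ = (e * e) * (p * p) := by rw [hc p hp e heA]; simp only [mul_assoc]
        _ = e * p := by rw [hee, show p * p = p from hpp.isIdempotentElem]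
    have hfe : f * e = f := by
      rw [hf, mul_assoc, hc p hp e heA, ← mul_assoc, hee]
    have hfd : f * d = f := by
      conv_lhs => rw [← hfe]
      rw [mul_assoc, hed, hfe]
    obtain ⟨al, hal⟩ : ∃ al : H →L[ℂ] H, al = u * f * star u := ⟨_, rfl⟩
    obtain ⟨be, hbe⟩ : ∃ be : H →L[ℂ] H, be = star u * f * u := ⟨_, rfl⟩
    have halA : al ∈ A := by rw [hal]; exact hu.conj f hfA
    have hbeA : be ∈ A := by rw [hbe]; exact hu.conj' f hfA
    have hals : star al = al := by
      rw [hal, star_mul, star_mul, star_star, hfs, mul_assoc]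
    have hbes : star be = be := by
      rw [hbe, star_mul, star_mul, star_star, hfs, mul_assoc]
    have hal2 : al * al = al := by
      calc al * al = u * (f * (star u * u)) * (f * star u) := by
            rw [hal]; simp only [mul_assoc]
        _ = al := by
            rw [← hd, hfd, hal]
            simp only [mul_assoc]
            rw [← mul_assoc f f, hff]
    have hbe2 : be * be = be := by
      have hr := hc _ hu.rng _ hfA
      calc be * be = star u * (f * (u * star u)) * (f * u) := by
            rw [hbe]; simp only [mul_assoc]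
        _ = star u * (u * star u * f) * (f * u) := by rw [← hr]
        _ = (star u * u * star u) * (f * f) * u := by simp only [mul_assoc]
        _ = be := by
            have : star u * u * star u = star u := by
              have := congrArg star hu.part
              rwa [star_mul, star_mul, star_star, ← mul_assoc] at this
            rw [this, hff, hbe]
    -- products of commuting projections
    have hproj : ∀ q ∈ A, star q = q → q * q = q → IsStarProjection (f - f * q) := by
      intro q hq hqs hqq
      have hcq := hc q hq f hfA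
      have hm : f * q * (f * q) = f * q := by
        calc f * q * (f * q) = f * (q * f) * q := by simp only [mul_assoc]
          _ = (f * f) * (q * q) := by rw [hcq]; simp only [mul_assoc]
          _ = f * q := by rw [hff, hqq]
      refine ⟨?_, ?_⟩
      · change (f - f * q) * (f - f * q) = f - f * q
        rw [sub_mul, mul_sub, mul_sub, hff, hm, ← mul_assoc f f q, hff, mul_assoc f q f, hcq,
          ← mul_assoc, hff]
        abel
      · rw [isSelfAdjoint_iff, star_sub, star_mul, hfs, hqs, hcq]
    -- first inclusion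
    have hfal : f * al = f := by
      have hg0 := step1 (f - f * al) (sub_mem hfA (mul_mem hfA halA)) (hproj al halA hals hal2)
        (by rw [sub_mul, hfe, mul_assoc, hc al halA e heA, ← mul_assoc, hfe]) (by
          obtain ⟨g, hg⟩ : ∃ g : H →L[ℂ] H, g = f - f * al := ⟨_, rfl⟩
          rw [← hg]
          have hgA : g ∈ A := by rw [hg]; exact sub_mem hfA (mul_mem hfA halA)
          have hgal : g * al = 0 := by
            rw [hg, sub_mul, mul_assoc, hal2, sub_self]
          have hfg : f * g = g := by
            rw [hg, mul_sub, hff, ← mul_assoc, hff]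
          have h3 : u * g * star u = al * (u * g * star u) := by
            calc u * g * star u = u * (f * g) * star u := by rw [hfg]
              _ = u * ((f * (star u * u)) * g) * star u := by rw [← hd, hfd]
              _ = al * (u * g * star u) := by rw [hal]; simp only [mul_assoc]
          rw [mul_assoc, hu.mul_eq' hA hgA, h3, ← mul_assoc, ← mul_assoc, hgal]
          simp)
      exact (sub_eq_zero.1 hg0).symm
    have hfbe : f * be = f := by
      have hg0 := step1 (f - f * be) (sub_mem hfA (mul_mem hfA hbeA)) (hproj be hbeA hbes hbe2)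
        (by rw [sub_mul, hfe, mul_assoc, hc be hbeA e heA, ← mul_assoc, hfe]) (by
          obtain ⟨g, hg⟩ : ∃ g : H →L[ℂ] H, g = f - f * be := ⟨_, rfl⟩
          rw [← hg]
          have hgA : g ∈ A := by rw [hg]; exact sub_mem hfA (mul_mem hfA hbeA)
          have hgbe : g * be = 0 := by
            rw [hg, sub_mul, mul_assoc, hbe2, sub_self]
          have hfg : f * g = g := by
            rw [hg, mul_sub, hff, ← mul_assoc, hff]
          have hr := hc _ hu.rng _ hfA
          have h3 : star u * g * u = be * (star u * g * u) := by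
            have h4 : star u * f * (u * star u) = star u * f := by
              have h5 : star u * u * star u = star u := by
                have := congrArg star hu.part
                rwa [star_mul, star_mul, star_star, ← mul_assoc] at this
              calc star u * f * (u * star u) = star u * (f * (u * star u)) := by
                    simp only [mul_assoc]
                _ = star u * (u * star u * f) := by rw [← hr]
                _ = (star u * u * star u) * f := by simp only [mul_assoc]
                _ = star u * f := by rw [h5]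
            calc star u * g * u = star u * f * (g * u) := by
                  rw [mul_assoc (star u) f, ← mul_assoc f g, hfg, mul_assoc]
              _ = star u * f * (u * star u) * (g * u) := by rw [h4]
              _ = be * (star u * g * u) := by rw [hbe]; simp only [mul_assoc]
          rw [hu.mul_eq hA hgA, h3, mul_assoc, mul_assoc, hc _ (hu.conj' g hgA) g hgA, ← mul_assoc be,
            hc be hbeA g hgA, hgbe]
          simp)
      exact (sub_eq_zero.1 hg0).symm
    have e1 : u * f = f * u * f := by
      calc u * f = u * (f * be) := by rw [hfbe]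
        _ = (u * be) * f := by rw [hc f hfA be hbeA, mul_assoc]
        _ = f * u * f := by rw [hbe, ← hu.mul_eq hA hfA]
    have e2 : f * u = f * u * f := by
      calc f * u = (f * al) * u := by rw [hfal]
        _ = f * (al * u) := by rw [mul_assoc]
        _ = f * u * f := by rw [hal, ← hu.mul_eq' hA hfA, mul_assoc]
    rw [e1, ← e2]
  -- step 3
  have hue : u * e = e * u := by
    have := step2 1 h1A ⟨by simp [IsIdempotentElem], by simp [isSelfAdjoint_iff]⟩
    rwa [mul_one] at this
  have hueA : u * e ∈ A := by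
    refine hA.max _ (mul_mem hu.mem (hA.le heA))
      (fun a ha => hA.comm_of_proj (fun p hp hpp => ?_) ha)
    calc p * (u * e) = p * (e * u) := by rw [hue]
      _ = (e * p) * u := by rw [← mul_assoc, hc p hp e heA]
      _ = u * (e * p) := (step2 p hp hpp).symm
      _ = u * e * p := (mul_assoc u e p).symm
  have h4 : CE A η (u * e) = u * e := h.CE_of_mem hueA
  rw [h.CE_mul_right heA hu.mem, h0, zero_mul] at h4
  calc e = d * e := hde.symm
    _ = star u * (u * e) := by rw [hd, mul_assoc]
    _ = 0 := by rw [← h4, mul_zero]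


/-- **Frolik's decomposition**: a normalising partial isometry with `E(u) = 0` is cut into three
pieces with orthogonal source and range. -/
theorem frolik_part (h : NCE M A η) {u : H →L[ℂ] H} (hu : GN M A u) (h0 : CE A η u = 0) :
    ∃ s : Fin 3 → H →L[ℂ] H, (∀ j, s j ∈ A) ∧ (∀ j, IsStarProjection (s j)) ∧
      (∀ i j, i ≠ j → s i * s j = 0) ∧ ∑ j, s j = star u * u ∧ (∀ j, s j * (star u * u) = s j) ∧
      ∀ j, s j * u * s j = 0 := by
  obtain ⟨s, hs, hmax⟩ := FrP.exists_max h.masa u
  have hrem := frolik_rem h hu h0 hs hmax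
  have hA := h.masa
  have hc := hA.comm
  have hss := hs.proj.isSelfAdjoint.star_eq
  have hs2 : s * s = s := hs.proj.isIdempotentElem
  obtain ⟨d, hd⟩ : ∃ d : H →L[ℂ] H, d = star u * u := ⟨_, rfl⟩
  obtain ⟨a1, ha1⟩ : ∃ a1 : H →L[ℂ] H, a1 = u * s * star u := ⟨_, rfl⟩
  obtain ⟨b1, hb1⟩ : ∃ b1 : H →L[ℂ] H, b1 = star u * s * u := ⟨_, rfl⟩
  have hdA : d ∈ A := by rw [hd]; exact hu.src
  have ha1A : a1 ∈ A := by rw [ha1]; exact hu.conj s hs.mem
  have hb1A : b1 ∈ A := by rw [hb1]; exact hu.conj' s hs.mem
  rw [← ha1, ← hb1, ← hd] at hrem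
  rw [← hd]
  have hud : u * d = u := by rw [hd, ← mul_assoc]; exact hu.part
  have hdd : d * d = d := by
    calc d * d = star u * (u * d) := by rw [hd, mul_assoc]
      _ = d := by rw [hud, hd]
  have hds : star d = d := by rw [hd, star_mul, star_star]
  have hsd : s * d = s := by rw [hd]; exact hs.le
  have hds' : d * s = s := by rw [hc d hdA s hs.mem, hsd]
  have ha1s : star a1 = a1 := by
    rw [ha1, star_mul, star_mul, star_star, hss, mul_assoc]
  have ha12 : a1 * a1 = a1 := by
    calc a1 * a1 = u * (s * (star u * u)) * (s * star u) := by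
          rw [ha1]; simp only [mul_assoc]
      _ = a1 := by
          rw [← hd, hsd, ha1]
          simp only [mul_assoc]
          rw [← mul_assoc s s, hs2]
  have h1A : (1 : H →L[ℂ] H) ∈ A := one_mem A
  -- the remainder `d (1-s)`
  obtain ⟨t, ht⟩ : ∃ t : H →L[ℂ] H, t = d * (1 - s) := ⟨_, rfl⟩
  have htA : t ∈ A := by rw [ht]; exact mul_mem hdA (sub_mem h1A hs.mem)
  have ht' : t = d - s := by rw [ht, mul_sub, mul_one, hds']
  have hts : star t = t := by rw [ht', star_sub, hds, hss]
  have htt : t * t = t := by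
    rw [ht', sub_mul, mul_sub, mul_sub, hdd, hds', hsd, hs2]; abel
  have htd : t * d = t := by rw [ht', sub_mul, hdd, hsd]
  have hst : s * t = 0 := by rw [ht', mul_sub, hsd, hs2, sub_self]
  have hts' : t * s = 0 := by rw [hc t htA s hs.mem, hst]
  have hcta : t * a1 = a1 * t := hc t htA a1 ha1A
  -- second piece `t a1`, third piece `t (1 - a1)`
  obtain ⟨s2, hs2'⟩ : ∃ s2 : H →L[ℂ] H, s2 = t * a1 := ⟨_, rfl⟩
  obtain ⟨s3, hs3'⟩ : ∃ s3 : H →L[ℂ] H, s3 = t - t * a1 := ⟨_, rfl⟩
  have hs2A : s2 ∈ A := by rw [hs2']; exact mul_mem htA ha1A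
  have hs3A : s3 ∈ A := by rw [hs3']; exact sub_mem htA (mul_mem htA ha1A)
  have hm : t * a1 * (t * a1) = t * a1 := by
    calc t * a1 * (t * a1) = t * (a1 * t) * a1 := by simp only [mul_assoc]
      _ = (t * t) * (a1 * a1) := by rw [← hcta]; simp only [mul_assoc]
      _ = t * a1 := by rw [htt, ha12]
  have hs2s : star s2 = s2 := by rw [hs2', star_mul, hts, ha1s, hcta]
  have hs22 : s2 * s2 = s2 := by rw [hs2', hm]
  have hs3s : star s3 = s3 := by rw [hs3', star_sub, star_mul, hts, ha1s, hcta]
  have htm : t * (t * a1) = t * a1 := by rw [← mul_assoc, htt]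
  have hmt : t * a1 * t = t * a1 := by rw [mul_assoc, ← hcta, ← mul_assoc, htt]
  have hs33 : s3 * s3 = s3 := by
    rw [hs3', sub_mul, mul_sub, mul_sub, htt, hm, htm, hmt]; abel
  have h23 : s2 * s3 = 0 := by rw [hs2', hs3', mul_sub, hmt, hm, sub_self]
  have h32 : s3 * s2 = 0 := by rw [hc s3 hs3A s2 hs2A, h23]
  have h12 : s * s2 = 0 := by rw [hs2', ← mul_assoc, hst, zero_mul]
  have h21 : s2 * s = 0 := by rw [hc s2 hs2A s hs.mem, h12]
  have h13 : s * s3 = 0 := by rw [hs3', mul_sub, ← mul_assoc, hst, zero_mul, sub_zero]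
  have h31 : s3 * s = 0 := by rw [hc s3 hs3A s hs.mem, h13]
  have hs2d : s2 * d = s2 := by rw [hs2', mul_assoc, hc a1 ha1A d hdA, ← mul_assoc, htd]
  have hs3d : s3 * d = s3 := by
    rw [hs3', sub_mul, htd, mul_assoc, hc a1 ha1A d hdA, ← mul_assoc, htd]
  have hus : u * s = a1 * u := by rw [ha1]; exact hu.mul_eq' hA hs.mem
  have hsu : s * u = u * b1 := by rw [hb1]; exact hu.mul_eq hA hs.mem
  -- freeness of the second piece
  have hf2 : s2 * u * s2 = 0 := by
    have e1 : s2 * a1 = s2 := by rw [hs2', mul_assoc, ha12]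
    calc s2 * u * s2 = (s2 * a1) * u * s2 := by rw [e1]
      _ = s2 * (a1 * u) * s2 := by simp only [mul_assoc]
      _ = s2 * u * (s * s2) := by rw [← hus]; simp only [mul_assoc]
      _ = 0 := by rw [h12, mul_zero]
  -- the third piece lies under `b1`
  have hs3b : s3 = s3 * b1 := by
    have e1 : s3 = d * (1 - s) * (1 - a1) := by rw [← ht, hs3', mul_sub, mul_one]
    rw [← e1, mul_sub, mul_one, sub_eq_zero] at hrem
    exact hrem
  have hf3 : s3 * u * s3 = 0 := by
    calc s3 * u * s3 = s3 * u * (b1 * s3) := by rw [← hc s3 hs3A b1 hb1A, ← hs3b]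
      _ = s3 * (u * b1) * s3 := by simp only [mul_assoc]
      _ = (s3 * s) * u * s3 := by rw [← hsu]; simp only [mul_assoc]
      _ = 0 := by rw [h31]; simp
  refine ⟨![s, s2, s3], ?_, ?_, ?_, ?_, ?_, ?_⟩
  · intro j
    fin_cases j
    exacts [hs.mem, hs2A, hs3A]
  · intro j
    fin_cases j
    exacts [hs.proj, ⟨hs22, hs2s⟩, ⟨hs33, hs3s⟩]
  · intro i j hij
    fin_cases i <;> fin_cases j <;> first | exact absurd rfl hij | assumption
  · rw [Fin.sum_univ_three]
    change s + s2 + s3 = d
    rw [hs2', hs3', ht']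
    abel
  · intro j
    fin_cases j
    exacts [hsd, hs2d, hs3d]
  · intro j
    fin_cases j
    exacts [hs.free, hf2, hf3]

/-! ### involutions -/

section Inv

variable {v : H →L[ℂ] H}

/-- the involutive unitary attached to a partial isometry with `v ^ 2 = 0` -/
noncomputable def inv (v : H →L[ℂ] H) : H →L[ℂ] H := v + star v + (1 - star v * v - v * star v)

lemma star_inv (v : H →L[ℂ] H) : star (inv v) = inv v := by
  simp only [inv, star_add, star_sub, star_mul, star_star, star_one]
  abel

lemma inv_mul_inv (hv : v * star v * v = v) (hv2 : v * v = 0) : inv v * inv v = 1 := by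
  have h1 : star v * v * star v = star v := by
    have := congrArg star hv
    rwa [star_mul, star_mul, star_star, ← mul_assoc] at this
  have h2 : star v * star v = 0 := by
    have := congrArg star hv2
    rwa [star_mul, star_zero] at this
  have a1 : v * (star v * v) = v := by rw [← mul_assoc, hv]
  have a2 : v * (v * star v) = 0 := by rw [← mul_assoc, hv2, zero_mul]
  have a3 : star v * (star v * v) = 0 := by rw [← mul_assoc, h2, zero_mul]
  have a4 : star v * (v * star v) = star v := by rw [← mul_assoc, h1]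
  have b3 : star v * v * (star v * v) = star v * v := by rw [mul_assoc, a1]
  have b4 : star v * v * (v * star v) = 0 := by rw [mul_assoc, a2, mul_zero]
  have b5 : v * star v * (star v * v) = 0 := by rw [mul_assoc, a3, mul_zero]
  have b6 : v * star v * (v * star v) = v * star v := by rw [mul_assoc, a4]
  have c1 : star v * v * v = 0 := by rw [mul_assoc, hv2, mul_zero]
  have c2 : v * star v * star v = 0 := by rw [mul_assoc, h2, mul_zero]
  unfold inv
  simp only [add_mul, mul_add, sub_mul, mul_sub, one_mul, mul_one, hv2, h2, a1, a2, a3, a4, b3,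
    b4, b5, b6, c1, c2, hv, h1]
  abel

lemma inv_mem {S : Type*} [SetLike S (H →L[ℂ] H)] [SubringClass S (H →L[ℂ] H)]
    [StarMemClass S (H →L[ℂ] H)] {s : S} (hv : v ∈ s) : inv v ∈ s :=
  add_mem (add_mem hv (star_mem hv))
    (sub_mem (sub_mem (one_mem s) (mul_mem (star_mem hv) hv)) (mul_mem hv (star_mem hv)))

end Inv


/-- the involution attached to `v` normalises `A` -/
lemma GN_inv (hA : Masa M A) {v : H →L[ℂ] H} (hv : GN M A v) (hv2 : v * v = 0) :
    GN M A (inv v) := by
  have hc := hA.comm
  have hw2 := inv_mul_inv hv.part hv2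
  have hws := star_inv v
  have h2 : star v * star v = 0 := by
    have := congrArg star hv2
    rwa [star_mul, star_zero] at this
  have hvs := hv.star
  have key : ∀ a ∈ A, inv v * a * inv v ∈ A := by
    intro a ha
    obtain ⟨q, hq⟩ : ∃ q : H →L[ℂ] H, q = 1 - star v * v - v * star v := ⟨_, rfl⟩
    have hqA : q ∈ A := by rw [hq]; exact sub_mem (sub_mem (one_mem A) hv.src) hv.rng
    have hvq : v * q = 0 := by
      have e : v * (star v * v) = v := by rw [← mul_assoc, hv.part]
      rw [hq, mul_sub, mul_sub, mul_one, e, ← mul_assoc v v, hv2, zero_mul]; simp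
    have hqv : q * v = 0 := by
      have e : v * star v * v = v := hv.part
      rw [hq, sub_mul, sub_mul, one_mul, e, mul_assoc, hv2, mul_zero]; simp
    have hsq : star v * q = 0 := by
      have h1 := congrArg star hqv
      have hqs : star q = q := by
        rw [hq]; simp only [star_sub, star_mul, star_star, star_one]
      rwa [star_mul, star_zero, hqs] at h1
    have hqs' : q * star v = 0 := by
      have h1 := congrArg star hvq
      have hqs : star q = q := by
        rw [hq]; simp only [star_sub, star_mul, star_star, star_one]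
      rwa [star_mul, star_zero, hqs] at h1
    have t1 : v * a * v = 0 := by
      rw [hv.mul_eq' hA ha, mul_assoc, hv2, mul_zero]
    have t2 : star v * a * star v = 0 := by
      rw [hvs.mul_eq' hA ha, mul_assoc, h2, mul_zero]
    have t3 : v * a * q = 0 := by rw [mul_assoc, hc a ha q hqA, ← mul_assoc, hvq, zero_mul]
    have t4 : star v * a * q = 0 := by
      rw [mul_assoc, hc a ha q hqA, ← mul_assoc, hsq, zero_mul]
    have t5 : q * a * v = 0 := by rw [hc q hqA a ha, mul_assoc, hqv, mul_zero]
    have t6 : q * a * star v = 0 := by rw [hc q hqA a ha, mul_assoc, hqs', mul_zero]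
    have e : inv v * a * inv v
        = v * a * star v + star v * a * v + q * a * q := by
      change (v + star v + (1 - star v * v - v * star v)) * a *
        (v + star v + (1 - star v * v - v * star v)) = _
      rw [← hq]
      simp only [add_mul, mul_add, t1, t2, t3, t4, t5, t6]
      abel
    rw [e]
    exact add_mem (add_mem (hv.conj a ha) (hv.conj' a ha)) (mul_mem (mul_mem hqA ha) hqA)
  have hm : inv v ∈ M.toStarSubalgebra := by
    have : v ∈ M.toStarSubalgebra := hv.mem
    exact inv_mem this
  refine ⟨hm, ?_, ?_, ?_, ?_, ?_⟩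
  · rw [hws, hw2, one_mul]
  · rw [hws, hw2]; exact one_mem A
  · rw [hws, hw2]; exact one_mem A
  · intro a ha; rw [hws]; exact key a ha
  · intro a ha; rw [hws]; exact key a ha

/-- off-diagonal terms vanish on an `A`-central vector -/
lemma offdiag (hη : CVec M A η) (hA : A ≤ M.toStarSubalgebra) {e f y : H →L[ℂ] H}
    (he : e ∈ A) (hf : f ∈ A) (hfe : f * e = 0) (hy : y ∈ M) : ⟪η, (e * y * f) η⟫_ℂ = 0 := by
  have h1 := hη f hf (e * y) (mul_mem (hA he) hy)
  rw [← h1, ← mul_assoc, hfe, zero_mul]
  simp

/-- compression by a projection of `A` decreases an `A`-central functional -/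
lemma compress (hη : CVec M A η) (hA : A ≤ M.toStarSubalgebra) {s y : H →L[ℂ] H}
    (hs : s ∈ A) (hsp : IsStarProjection s) (hy : y ∈ M) (hy0 : 0 ≤ y) :
    (⟪η, (s * y * s) η⟫_ℂ).re ≤ (⟪η, y η⟫_ℂ).re := by
  have hs2 : s * s = s := hsp.isIdempotentElem
  have h1A : (1 : H →L[ℂ] H) ∈ A := one_mem A
  have e : y = s * y * s + (s * y * (1 - s) + ((1 - s) * y * s + (1 - s) * y * (1 - s))) := by
    noncomm_ring
  have h1 : ⟪η, (s * y * (1 - s)) η⟫_ℂ = 0 :=
    offdiag hη hA hs (sub_mem h1A hs) (by rw [sub_mul, one_mul, hs2, sub_self]) hy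
  have h2 : ⟪η, ((1 - s) * y * s) η⟫_ℂ = 0 :=
    offdiag hη hA (sub_mem h1A hs) hs (by rw [mul_sub, mul_one, hs2, sub_self]) hy
  have h3 : 0 ≤ (⟪η, ((1 - s) * y * (1 - s)) η⟫_ℂ).re := by
    have hpos : 0 ≤ (1 - s) * y * (1 - s) := by
      have := star_left_conjugate_nonneg hy0 (1 - s)
      rwa [star_sub, star_one, hsp.isSelfAdjoint.star_eq] at this
    have h4 := (ContinuousLinearMap.nonneg_iff_isPositive _).1 hpos
    have h5 := h4.inner_nonneg_right η
    exact (Complex.le_def.1 h5).1
  have h4 : ⟪η, y η⟫_ℂ = ⟪η, (s * y * s) η⟫_ℂ + (⟪η, (s * y * (1 - s)) η⟫_ℂ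
      + (⟪η, ((1 - s) * y * s) η⟫_ℂ + ⟪η, ((1 - s) * y * (1 - s)) η⟫_ℂ)) := by
    conv_lhs => rw [e]
    simp only [add_apply, inner_add_right]
  rw [h4, h1, h2]
  simp only [Complex.add_re, Complex.zero_re]
  linarith

/-- domination is inherited by cut normalisers -/
lemma dom_cut (hη : CVec M A η) (hA : A ≤ M.toStarSubalgebra) {u s : H →L[ℂ] H} {C : ℝ}
    (hu : u ∈ M) (hs : s ∈ A) (hsp : IsStarProjection s)
    (hd : ∀ x ∈ M, 0 ≤ x → (⟪η, (star u * x * u) η⟫_ℂ).re ≤ C * (⟪η, x η⟫_ℂ).re) :
    ∀ x ∈ M, 0 ≤ x → (⟪η, (star (u * s) * x * (u * s)) η⟫_ℂ).re ≤ C * (⟪η, x η⟫_ℂ).re := by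
  intro x hx hx0
  have e : star (u * s) * x * (u * s) = s * (star u * x * u) * s := by
    rw [star_mul, hsp.isSelfAdjoint.star_eq]; simp only [mul_assoc]
  rw [e]
  refine (compress hη hA hs hsp (mul_mem (mul_mem (star_mem hu) hx) hu)
    (star_left_conjugate_nonneg hx0 u)).trans (hd x hx hx0)

lemma dom_star_cut (hη : CVec M A η) (hA : A ≤ M.toStarSubalgebra) {u s : H →L[ℂ] H} {C : ℝ}
    (hs : s ∈ A) (hsp : IsStarProjection s) (hC : 0 ≤ C)
    (hd : ∀ x ∈ M, 0 ≤ x → (⟪η, (u * x * star u) η⟫_ℂ).re ≤ C * (⟪η, x η⟫_ℂ).re) :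
    ∀ x ∈ M, 0 ≤ x → (⟪η, ((u * s) * x * star (u * s)) η⟫_ℂ).re ≤ C * (⟪η, x η⟫_ℂ).re := by
  intro x hx hx0
  have hss := hsp.isSelfAdjoint.star_eq
  have e : (u * s) * x * star (u * s) = u * (s * x * s) * star u := by
    rw [star_mul, hss]; simp only [mul_assoc]
  rw [e]
  have h1 : 0 ≤ s * x * s := by
    have := star_left_conjugate_nonneg hx0 s
    rwa [hss] at this
  refine (hd (s * x * s) (mul_mem (mul_mem (hA hs) hx) (hA hs)) h1).trans ?_
  exact mul_le_mul_of_nonneg_left (compress hη hA hs hsp hx hx0) hC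

/-- domination for the involution -/
lemma dom_inv (hη : CVec M A η) (hA : Masa M A) {v : H →L[ℂ] H} {C C' : ℝ}
    (hv : GN M A v) (hv2 : v * v = 0)
    (hd : ∀ x ∈ M, 0 ≤ x → (⟪η, (star v * x * v) η⟫_ℂ).re ≤ C * (⟪η, x η⟫_ℂ).re)
    (hd' : ∀ x ∈ M, 0 ≤ x → (⟪η, (v * x * star v) η⟫_ℂ).re ≤ C' * (⟪η, x η⟫_ℂ).re) :
    ∀ x ∈ M, 0 ≤ x → (⟪η, (star (inv v) * x * inv v) η⟫_ℂ).re
      ≤ (C + C' + 1) * (⟪η, x η⟫_ℂ).re := by
  intro x hx hx0
  have hle := hA.le
  obtain ⟨e, he⟩ : ∃ e : H →L[ℂ] H, e = star v * v := ⟨_, rfl⟩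
  obtain ⟨f, hf⟩ : ∃ f : H →L[ℂ] H, f = v * star v := ⟨_, rfl⟩
  obtain ⟨q, hq⟩ : ∃ q : H →L[ℂ] H, q = 1 - e - f := ⟨_, rfl⟩
  have heA : e ∈ A := by rw [he]; exact hv.src
  have hfA : f ∈ A := by rw [hf]; exact hv.rng
  have hqA : q ∈ A := by rw [hq]; exact sub_mem (sub_mem (one_mem A) heA) hfA
  have h1 : star v * v * star v = star v := by
    have := congrArg star hv.part
    rwa [star_mul, star_mul, star_star, ← mul_assoc] at this
  have h2 : star v * star v = 0 := by
    have := congrArg star hv2
    rwa [star_mul, star_zero] at this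
  have hes : star e = e := by rw [he, star_mul, star_star]
  have hfs : star f = f := by rw [hf, star_mul, star_star]
  have hee : e * e = e := by
    rw [he, mul_assoc, ← mul_assoc v, hv.part]
  have hff : f * f = f := by
    rw [hf, mul_assoc, ← mul_assoc (star v), h1]
  have hef : e * f = 0 := by
    rw [he, hf, mul_assoc, ← mul_assoc v v, hv2, zero_mul, mul_zero]
  have hfe : f * e = 0 := by rw [hA.comm f hfA e heA, hef]
  have hqe : q * e = 0 := by rw [hq, sub_mul, sub_mul, one_mul, hee, hfe]; simp
  have heq : e * q = 0 := by rw [hA.comm e heA q hqA, hqe]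
  have hqf : q * f = 0 := by rw [hq, sub_mul, sub_mul, one_mul, hef, hff]; simp
  have hfq : f * q = 0 := by rw [hA.comm f hfA q hqA, hqf]
  have hqq : q * q = q := by
    have h3 : (1 - e - f) * q = q := by
      rw [sub_mul, sub_mul, one_mul, heq, hfq]; simp
    rwa [← hq] at h3
  have hqs : star q = q := by rw [hq, star_sub, star_sub, star_one, hes, hfs]
  have hqp : IsStarProjection q := ⟨hqq, hqs⟩
  have hve : v * e = v := by rw [he, ← mul_assoc, hv.part]
  have hfv : f * v = v := by rw [hf, hv.part]
  have hev : e * star v = star v := by rw [he, h1]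
  have hvf : star v * f = star v := by rw [hf, ← mul_assoc, h1]
  have hvM := hv.mem
  have hsM : star v ∈ M := star_mem hv.mem
  have hqM : q ∈ M := hle hqA
  -- the nine terms
  have z1 : ⟪η, (star v * x * star v) η⟫_ℂ = 0 := by
    have := offdiag hη hle (e := e) (f := f) (y := star v * x * star v) heA hfA hfe
      (mul_mem (mul_mem hsM hx) hsM)
    have e1 : e * (star v * x * star v) * f = star v * x * star v := by
      calc e * (star v * x * star v) * f = (e * star v) * x * (star v * f) := by
            simp only [mul_assoc]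
        _ = _ := by rw [hev, hvf]
    rwa [e1] at this
  have z2 : ⟪η, (v * x * v) η⟫_ℂ = 0 := by
    have := offdiag hη hle (e := f) (f := e) (y := v * x * v) hfA heA hef
      (mul_mem (mul_mem hvM hx) hvM)
    have e1 : f * (v * x * v) * e = v * x * v := by
      calc f * (v * x * v) * e = (f * v) * x * (v * e) := by
            simp only [mul_assoc]
        _ = _ := by rw [hfv, hve]
    rwa [e1] at this
  have z3 : ⟪η, (star v * x * q) η⟫_ℂ = 0 := by
    have := offdiag hη hle (e := e) (f := q) (y := star v * x * q) heA hqA hqe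
      (mul_mem (mul_mem hsM hx) hqM)
    have e1 : e * (star v * x * q) * q = star v * x * q := by
      calc e * (star v * x * q) * q = (e * star v) * x * (q * q) := by
            simp only [mul_assoc]
        _ = _ := by rw [hev, hqq]
    rwa [e1] at this
  have z4 : ⟪η, (v * x * q) η⟫_ℂ = 0 := by
    have := offdiag hη hle (e := f) (f := q) (y := v * x * q) hfA hqA hqf
      (mul_mem (mul_mem hvM hx) hqM)
    have e1 : f * (v * x * q) * q = v * x * q := by
      calc f * (v * x * q) * q = (f * v) * x * (q * q) := by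
            simp only [mul_assoc]
        _ = _ := by rw [hfv, hqq]
    rwa [e1] at this
  have z5 : ⟪η, (q * x * v) η⟫_ℂ = 0 := by
    have := offdiag hη hle (e := q) (f := e) (y := q * x * v) hqA heA heq
      (mul_mem (mul_mem hqM hx) hvM)
    have e1 : q * (q * x * v) * e = q * x * v := by
      calc q * (q * x * v) * e = (q * q) * x * (v * e) := by
            simp only [mul_assoc]
        _ = _ := by rw [hqq, hve]
    rwa [e1] at this
  have z6 : ⟪η, (q * x * star v) η⟫_ℂ = 0 := by
    have := offdiag hη hle (e := q) (f := f) (y := q * x * star v) hqA hfA hfq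
      (mul_mem (mul_mem hqM hx) hsM)
    have e1 : q * (q * x * star v) * f = q * x * star v := by
      calc q * (q * x * star v) * f = (q * q) * x * (star v * f) := by
            simp only [mul_assoc]
        _ = _ := by rw [hqq, hvf]
    rwa [e1] at this
  have hw : inv v = v + star v + q := by rw [hq, he, hf]; rfl
  have hexp : star (inv v) * x * inv v = star v * x * v + v * x * star v + q * x * q
      + (star v * x * star v + v * x * v + star v * x * q + v * x * q + q * x * v
        + q * x * star v) := by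
    rw [star_inv, hw]
    simp only [add_mul, mul_add]
    abel
  rw [hexp]
  simp only [add_apply, inner_add_right, Complex.add_re, z1, z2, z3, z4, z5, z6,
    add_zero]
  have b1 := hd x hx hx0
  have b2 := hd' x hx hx0
  have b3 := compress hη hle hqA hqp hx hx0
  nlinarith

/-- **Banded form**: every normalising partial isometry is, up to `A`, a sum of three
cut involutive unitary normalisers (with control of the Radon-Nikodym bounds). -/
theorem decomp (h : NCE M A η) {u : H →L[ℂ] H} (hu : GN M A u) :
    ∃ w s : Fin 3 → H →L[ℂ] H, (∀ j, s j ∈ A) ∧ (∀ j, IsStarProjection (s j)) ∧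
      (∀ j, GN M A (w j)) ∧ (∀ j, star (w j) = w j) ∧ (∀ j, w j * w j = 1) ∧
      u = CE A η u + ∑ j, w j * s j ∧
      ∀ C : ℝ, 0 ≤ C →
        (∀ x ∈ M, 0 ≤ x → (⟪η, (star u * x * u) η⟫_ℂ).re ≤ C * (⟪η, x η⟫_ℂ).re) →
        (∀ x ∈ M, 0 ≤ x → (⟪η, (u * x * star u) η⟫_ℂ).re ≤ C * (⟪η, x η⟫_ℂ).re) →
        ∀ j, ∀ x ∈ M, 0 ≤ x →
          (⟪η, (star (w j) * x * w j) η⟫_ℂ).re ≤ (2 * C + 1) * (⟪η, x η⟫_ℂ).re := by
  have hA := h.masa
  have hc := hA.comm
  obtain ⟨p, hpA, hpp, hp, hpd⟩ := h.CE_GN hu
  have hpp' : p * p = p := hpp.isIdempotentElem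
  have hq : IsStarProjection (1 - p) := hpp.one_sub
  have hqA : 1 - p ∈ A := sub_mem (one_mem A) hpA
  have hu' : GN M A (u * (1 - p)) := hu.cut hA hqA hq
  have h0 : CE A η (u * (1 - p)) = 0 := by
    rw [h.CE_mul_right hqA hu.mem, hp, mul_assoc, mul_sub, mul_one, hpp', sub_self, mul_zero]
  obtain ⟨s, hsA, hsp, hso, hsum, hsd, hsf⟩ := frolik_part h hu' h0
  have hsrc : star (u * (1 - p)) * (u * (1 - p)) = (star u * u) * (1 - p) := by
    rw [star_mul, hq.isSelfAdjoint.star_eq]
    calc (1 - p) * star u * (u * (1 - p)) = ((1 - p) * (star u * u)) * (1 - p) := by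
          simp only [mul_assoc]
      _ = (star u * u) * ((1 - p) * (1 - p)) := by rw [hc _ hqA _ hu.src]; simp only [mul_assoc]
      _ = _ := by rw [show (1 - p) * (1 - p) = 1 - p from hq.isIdempotentElem]
  -- `s j ≤ 1 - p`
  have hsq : ∀ j, (1 - p) * s j = s j := by
    intro j
    have h1 := hsd j
    rw [hsrc] at h1
    rw [hc _ hqA _ (hsA j)]
    conv_lhs => rw [← h1]
    rw [mul_assoc, mul_assoc, show (1 - p) * (1 - p) = 1 - p from hq.isIdempotentElem, h1]
  have hsu : ∀ j, s j * (star u * u) = s j := by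
    intro j
    have h1 := hsd j
    rw [hsrc] at h1
    rw [hc _ hu.src _ hqA, ← mul_assoc, hc _ (hsA j) _ hqA, hsq] at h1
    exact h1
  obtain ⟨v, hv⟩ : ∃ v : Fin 3 → H →L[ℂ] H, ∀ j, v j = u * s j := ⟨fun j => u * s j, fun _ => rfl⟩
  have hvGN : ∀ j, GN M A (v j) := fun j => by rw [hv]; exact hu.cut hA (hsA j) (hsp j)
  have hv0 : ∀ j, s j * u * s j = 0 := by
    intro j
    have := hsf j
    calc s j * u * s j = s j * (u * (1 - p)) * s j := by
          rw [mul_assoc (s j) (u * (1 - p)), mul_assoc u, hsq, mul_assoc]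
      _ = 0 := this
  have hvv : ∀ j, v j * v j = 0 := by
    intro j
    rw [hv]
    calc u * s j * (u * s j) = u * (s j * u * s j) := by simp only [mul_assoc]
      _ = 0 := by rw [hv0, mul_zero]
  refine ⟨fun j => inv (v j), s, hsA, hsp, fun j => GN_inv hA (hvGN j) (hvv j),
    fun j => star_inv _, fun j => inv_mul_inv (hvGN j).part (hvv j), ?_, ?_⟩
  · -- the sum
    have hws : ∀ j, inv (v j) * s j = u * s j := by
      intro j
      have hss := (hsp j).isSelfAdjoint.star_eq
      have hs2 : s j * s j = s j := (hsp j).isIdempotentElem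
      have e1 : v j * s j = v j := by rw [hv, mul_assoc, hs2]
      have e2 : star (v j) * s j = 0 := by
        have := congrArg star (hv0 j)
        rw [star_mul, star_mul, hss, star_zero] at this
        rw [hv, star_mul, hss, mul_assoc]
        exact this
      have e3 : star (v j) * v j = s j := by
        rw [hv, star_mul, hss]
        calc s j * star u * (u * s j) = (s j * (star u * u)) * s j := by simp only [mul_assoc]
          _ = s j := by rw [hsu, hs2]
      change (v j + star (v j) + (1 - star (v j) * v j - v j * star (v j))) * s j = _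
      rw [e3, add_mul, add_mul, e1, e2, sub_mul, sub_mul, one_mul, hs2, mul_assoc (v j), e2, hv]
      simp
    have hsum' : ∑ j, inv (v j) * s j = u * (1 - p) := by
      rw [Finset.sum_congr rfl (fun j _ => hws j), ← Finset.mul_sum, hsum, hsrc, ← mul_assoc,
        ← mul_assoc, hu.part]
    rw [hsum', hp, mul_sub, mul_one]
    abel
  · intro C hC hd hd' j x hx hx0
    have h1 := dom_cut h.cvec hA.le hu.mem (hsA j) (hsp j) hd
    have h2 := dom_star_cut h.cvec hA.le (hsA j) (hsp j) hC hd'
    rw [← hv] at h1 h2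
    have h3 := dom_inv h.cvec hA (hvGN j) (hvv j) h1 h2 x hx hx0
    have : C + C + 1 = 2 * C + 1 := by ring
    rw [this] at h3
    exact h3

end Crest.Agent.R109.Fro
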