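import Crest.Agent.R121.DichLC

/-!
# Row 109, module GAMMA: from a domination `± T ≤ e + Γ` to a projection `q`, and the moment
lemmas `± T ≤ s + s (T / s) ^ (2 n)`, in quadratic form
-/

set_option autoImplicit false
set_option linter.unusedSectionVars false

namespace Crest.Agent.R109

open scoped InnerProductSpace
open ContinuousLinearMap

universe u

namespace Gamma

variable {H : Type u} [NormedAddCommGroup H] [InnerProductSpace ℂ H] [CompleteSpace H]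

/-- norm of a self-adjoint operator from its quadratic form -/
lemma norm_le_form {S : H →L[ℂ] H} (hS : IsSelfAdjoint S) {c : ℝ} (hc : 0 ≤ c)
    (h : ∀ v, |(⟪S v, v⟫_ℂ).re| ≤ c * ‖v‖ ^ 2) : ‖S‖ ≤ c := by
  rw [norm_eq_iSup_rayleighQuotient S hS.isSymmetric]
  refine ciSup_le (fun v => ?_)
  rw [rayleighQuotient, reApplyInnerSelf_apply, abs_div,
    abs_of_nonneg (by positivity : (0 : ℝ) ≤ ‖v‖ ^ 2)]
  by_cases hv : ‖v‖ = 0
  · rw [hv]; simp [hc]
  · rw [div_le_iff₀ (by positivity)]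
    exact h v

lemma sa_inner {e : H →L[ℂ] H} (he : IsSelfAdjoint e) (v w : H) : ⟪e v, w⟫_ℂ = ⟪v, e w⟫_ℂ := by
  conv_lhs => rw [← he.star_eq, star_eq_adjoint, adjoint_inner_left]

/-- **Gamma lemma.** -/
theorem gamma_q (M : VonNeumannAlgebra H) {T Γ : H →L[ℂ] H} (_hT : T ∈ M)
    (hTs : IsSelfAdjoint T) (hΓ : Γ ∈ M) (h0 : 0 ≤ Γ) {e : ℝ} (he : 0 < e)
    (h : ∀ v, |(⟪T v, v⟫_ℂ).re| ≤ e * ‖v‖ ^ 2 + (⟪Γ v, v⟫_ℂ).re) (η : H) :
    ∃ q ∈ M, IsStarProjection q ∧ e * ‖(1 - q) η‖ ^ 2 ≤ (⟪Γ η, η⟫_ℂ).re ∧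
      ‖q * T * q‖ ≤ 2 * e := by
  set t := R121.tr Γ e with ht
  set G := Γ - t with hG
  have htr0 : R121.tr Γ 0 = Γ := R121.tr_zero h0
  have hGeq : G = R121.tr Γ 0 - R121.tr Γ (0 + e) := by rw [htr0, zero_add]
  set p := R121.rp t with hp
  have hpp : IsStarProjection p := R121.rp_proj t
  have htM : t ∈ M := R124.cfc_mem M hΓ _
  have hpM : p ∈ M := R121.rp_mem M htM
  have hts : star t = t := R121.tr_sa h0 e
  have ht0 : 0 ≤ t := by
    rw [ht]; unfold R121.tr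
    exact cfc_nonneg (fun s _ => le_max_right _ _)
  have hG0 : 0 ≤ G := by rw [hGeq]; exact R121.tr_diff_nonneg h0 0 he
  have hGs : IsSelfAdjoint G := hG0.isSelfAdjoint
  have hGle : ∀ v, (⟪G v, v⟫_ℂ).re ≤ e * ‖v‖ ^ 2 := by
    intro v; rw [hGeq]; exact R121.tr_diff_le h0 0 he v
  have hGp : G * p = (e : ℂ) • p := by
    apply R121.mul_rp_of
    have := R121.tr_diff_mul h0 0 he
    rw [← hGeq, zero_add] at this
    exact this
  have hps : star p = p := hpp.isSelfAdjoint.star_eq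
  have htp : t * p = t := by
    have h1 : p * t = t := R121.rp_mul_self t
    have h2 := congrArg star h1
    rwa [star_mul, hts, hps] at h2
  have hqp : IsStarProjection (1 - p) := hpp.one_sub
  refine ⟨1 - p, sub_mem (one_mem _) hpM, hqp, ?_, ?_⟩
  · have e1 : (1 - (1 - p)) η = p η := by simp
    rw [e1]
    -- `⟪Γ η, η⟫ ≥ ⟪G η, η⟫ ≥ e ‖p η‖ ^ 2`
    have h1 : (⟪G η, η⟫_ℂ).re ≤ (⟪Γ η, η⟫_ℂ).re := by
      have h2 := R121.re_inner_nonneg ht0 η
      rw [hG, sub_apply, inner_sub_left, Complex.sub_re]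
      linarith
    refine le_trans ?_ h1
    have hGpa : ∀ v, G (p v) = (e : ℂ) • p v := fun v =>
      congrArg (fun R : H →L[ℂ] H => R v) hGp
    set w := (1 - p) η with hw
    have hpw : p w = 0 := by
      have : p * (1 - p) = 0 := by rw [mul_sub, mul_one, hpp.isIdempotentElem.eq, sub_self]
      exact congrArg (fun R : H →L[ℂ] H => R η) this
    have hη : η = p η + w := by rw [hw]; simp
    have h3 : ⟪G η, η⟫_ℂ = (e : ℂ) * ⟪p η, p η⟫_ℂ + ⟪G w, w⟫_ℂ := by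
      have a1 : ⟪p η, w⟫_ℂ = 0 := by
        have : p (p η) = p η := congrArg (fun R : H →L[ℂ] H => R η) hpp.isIdempotentElem.eq
        rw [← this, sa_inner hpp.isSelfAdjoint, hpw, inner_zero_right]
      have a2 : ⟪w, p η⟫_ℂ = 0 := by
        rw [← inner_conj_symm, a1, map_zero]
      have a3 : ⟪G w, p η⟫_ℂ = 0 := by
        rw [sa_inner hGs, hGpa, inner_smul_right, a2, mul_zero]
      conv_lhs => rw [hη]
      rw [map_add, hGpa, inner_add_left, inner_add_right, inner_add_right, inner_smul_left,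
        inner_smul_left, a1, a3, Complex.conj_ofReal]
      ring
    have h4 : (⟪p η, p η⟫_ℂ).re = ‖p η‖ ^ 2 := inner_self_eq_norm_sq (𝕜 := ℂ) _
    have h5 := R121.re_inner_nonneg hG0 w
    rw [h3, Complex.add_re, Complex.re_ofReal_mul, h4]
    linarith
  · set q := 1 - p with hq
    have hqs : star q = q := hqp.isSelfAdjoint.star_eq
    have hS : IsSelfAdjoint (q * T * q) := by
      rw [isSelfAdjoint_iff, star_mul, star_mul, hqs, hTs.star_eq, mul_assoc]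
    refine norm_le_form hS (by positivity) (fun v => ?_)
    have e1 : ⟪(q * T * q) v, v⟫_ℂ = ⟪T (q v), q v⟫_ℂ := by
      change ⟪q (T (q v)), v⟫_ℂ = _
      rw [sa_inner hqp.isSelfAdjoint]
    rw [e1]
    have h1 := h (q v)
    have h2 : ‖q v‖ ^ 2 ≤ ‖v‖ ^ 2 := R121.norm_proj_le hqp v
    have h3 : (⟪Γ (q v), q v⟫_ℂ).re ≤ e * ‖q v‖ ^ 2 := by
      have htq : t (q v) = 0 := by
        have : t * q = 0 := by rw [hq, mul_sub, mul_one, htp, sub_self]
        exact congrArg (fun R : H →L[ℂ] H => R v) this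
      have : G (q v) = Γ (q v) := by
        change Γ (q v) - t (q v) = _
        rw [htq, sub_zero]
      rw [← this]
      exact hGle _
    have h4 := mul_le_mul_of_nonneg_left h2 he.le
    linarith

lemma norm_mul_self_apply {T : H →L[ℂ] H} (hT : IsSelfAdjoint T) (v : H) :
    ‖T v‖ ^ 2 ≤ ‖T (T v)‖ * ‖v‖ := by
  have h1 : (⟪T v, T v⟫_ℂ).re = ‖T v‖ ^ 2 := inner_self_eq_norm_sq (𝕜 := ℂ) _
  rw [← h1, ← sa_inner hT]
  exact (Complex.re_le_norm _).trans (norm_inner_le_norm _ _)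

/-- the norms `‖T ^ k v‖` are log-convex: `‖T v‖ ^ n ≤ ‖T ^ n v‖ ‖v‖ ^ (n - 1)` -/
lemma norm_pow_apply {T : H →L[ℂ] H} (hT : IsSelfAdjoint T) (v : H) (n : ℕ) :
    ‖T v‖ ^ (n + 1) ≤ ‖(T ^ (n + 1)) v‖ * ‖v‖ ^ n := by
  -- log-convexity of `a k = ‖T ^ k v‖`
  set a : ℕ → ℝ := fun k => ‖(T ^ k) v‖ with ha
  have ha0 : ∀ k, 0 ≤ a k := fun k => norm_nonneg _
  have hlc : ∀ k, a (k + 1) ^ 2 ≤ a (k + 2) * a k := by
    intro k
    have h1 := norm_mul_self_apply hT ((T ^ k) v)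
    have e1 : T ((T ^ k) v) = (T ^ (k + 1)) v := by rw [pow_succ']; rfl
    have e2 : T ((T ^ (k + 1)) v) = (T ^ (k + 2)) v := by rw [pow_succ' T (k + 1)]; rfl
    rw [e1, e2] at h1
    exact h1
  have hra : ∀ k, a 1 * a k ≤ a (k + 1) * a 0 := by
    intro k
    induction k with
    | zero => exact le_rfl
    | succ k ih =>
      -- `a1 a(k+1) ≤ a(k+2) a0`
      rcases (ha0 (k + 1)).eq_or_lt with h | h
      · rw [← h, mul_zero]; exact mul_nonneg (ha0 _) (ha0 _)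
      · have h1 := hlc k
        have hk : 0 < a k := by
          rcases (ha0 k).eq_or_lt with h' | h'
          · rw [← h', mul_zero] at h1
            have : 0 < a (k + 1) ^ 2 := by positivity
            linarith
          · exact h'
        have h2 : a 1 * a k * a (k + 1) ≤ a (k + 2) * a 0 * a k := by
          calc a 1 * a k * a (k + 1) ≤ a (k + 1) * a 0 * a (k + 1) :=
                mul_le_mul_of_nonneg_right ih (ha0 _)
            _ = a (k + 1) ^ 2 * a 0 := by ring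
            _ ≤ a (k + 2) * a k * a 0 := mul_le_mul_of_nonneg_right h1 (ha0 _)
            _ = a (k + 2) * a 0 * a k := by ring
        have h3 : (a 1 * a (k + 1)) * a k ≤ (a (k + 1 + 1) * a 0) * a k := by
          calc (a 1 * a (k + 1)) * a k = a 1 * a k * a (k + 1) := by ring
            _ ≤ _ := h2
        exact le_of_mul_le_mul_right h3 hk
  have key : ∀ n, a 1 ^ (n + 1) ≤ a (n + 1) * a 0 ^ n := by
    intro n
    induction n with
    | zero => simp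
    | succ n ih =>
      calc a 1 ^ (n + 1 + 1) = a 1 * a 1 ^ (n + 1) := by ring
        _ ≤ a 1 * (a (n + 1) * a 0 ^ n) := mul_le_mul_of_nonneg_left ih (ha0 _)
        _ = a 1 * a (n + 1) * a 0 ^ n := by ring
        _ ≤ a (n + 1 + 1) * a 0 * a 0 ^ n :=
            mul_le_mul_of_nonneg_right (hra (n + 1)) (pow_nonneg (ha0 0) _)
        _ = a (n + 1 + 1) * a 0 ^ (n + 1) := by ring
  have h := key n
  simp only [ha, pow_one, pow_zero] at h
  exact h

/-- **moment lemma** -/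
theorem moment {T : H →L[ℂ] H} (hT : IsSelfAdjoint T) {s : ℝ} (hs : 0 < s) {n : ℕ}
    (hn : 1 ≤ n) (v : H) :
    |(⟪T v, v⟫_ℂ).re| ≤ s * ‖v‖ ^ 2 + s * (s⁻¹) ^ (2 * n) * ‖(T ^ n) v‖ ^ 2 := by
  have h0 : |(⟪T v, v⟫_ℂ).re| ≤ ‖T v‖ * ‖v‖ :=
    (Complex.abs_re_le_norm _).trans (norm_inner_le_norm _ _)
  have hR : 0 ≤ s * (s⁻¹) ^ (2 * n) * ‖(T ^ n) v‖ ^ 2 := by positivity
  have hL : 0 ≤ s * ‖v‖ ^ 2 := by positivity
  by_cases hcase : ‖T v‖ ≤ s * ‖v‖
  · have h1 : ‖T v‖ * ‖v‖ ≤ s * ‖v‖ * ‖v‖ := mul_le_mul_of_nonneg_right hcase (norm_nonneg _)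
    nlinarith
  · push Not at hcase
    obtain ⟨m, rfl⟩ : ∃ m, n = m + 1 := ⟨n - 1, by omega⟩
    have hkey := norm_pow_apply hT v m
    set x := ‖T v‖ with hx
    set y := ‖v‖ with hy
    set N := ‖(T ^ (m + 1)) v‖ with hN
    have hy0 : 0 ≤ y := norm_nonneg _
    have hx0 : 0 < x := lt_of_le_of_lt (by positivity) hcase
    have hypos : 0 < y := by
      rcases hy0.eq_or_lt with h | h
      · exfalso
        have hv : v = 0 := norm_eq_zero.1 h.symm
        rw [hx, hv, map_zero, norm_zero] at hx0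
        exact lt_irrefl _ hx0
      · exact h
    have h1 : x ^ (2 * m + 2) ≤ N ^ 2 * y ^ (2 * m) := by
      have := pow_le_pow_left₀ (by positivity) hkey 2
      calc x ^ (2 * m + 2) = (x ^ (m + 1)) ^ 2 := by ring
        _ ≤ (N * y ^ m) ^ 2 := this
        _ = N ^ 2 * y ^ (2 * m) := by ring
    have h2 : (s * y) ^ (2 * m + 1) ≤ x ^ (2 * m + 1) :=
      pow_le_pow_left₀ (by positivity) hcase.le _
    have h3 : x * y * y ^ (2 * m) ≤ s * (s⁻¹) ^ (2 * (m + 1)) * N ^ 2 * y ^ (2 * m) := by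
      have h4 : x * y * y ^ (2 * m) ≤ s * (s⁻¹) ^ (2 * (m + 1)) * x ^ (2 * m + 2) := by
        have h5 : s ^ (2 * m + 1) * (s * (s⁻¹) ^ (2 * (m + 1))) = 1 := by
          have : s * (s⁻¹) = 1 := mul_inv_cancel₀ hs.ne'
          calc s ^ (2 * m + 1) * (s * (s⁻¹) ^ (2 * (m + 1))) = (s * s⁻¹) ^ (2 * (m + 1)) := by
                rw [mul_pow]; ring
            _ = 1 := by rw [this, one_pow]
        have h6 : 0 ≤ s * (s⁻¹) ^ (2 * (m + 1)) := by positivity
        calc x * y * y ^ (2 * m)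
            = (s * (s⁻¹) ^ (2 * (m + 1))) * x * (s * y) ^ (2 * m + 1) := by
              rw [mul_pow]
              calc x * y * y ^ (2 * m)
                  = 1 * (x * y * y ^ (2 * m)) := by ring
                _ = (s ^ (2 * m + 1) * (s * (s⁻¹) ^ (2 * (m + 1)))) * (x * y * y ^ (2 * m)) := by
                    rw [h5]
                _ = _ := by ring
          _ ≤ (s * (s⁻¹) ^ (2 * (m + 1))) * x * x ^ (2 * m + 1) :=
              mul_le_mul_of_nonneg_left h2 (by positivity)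
          _ = s * (s⁻¹) ^ (2 * (m + 1)) * x ^ (2 * m + 2) := by ring
      calc x * y * y ^ (2 * m) ≤ s * (s⁻¹) ^ (2 * (m + 1)) * x ^ (2 * m + 2) := h4
        _ ≤ s * (s⁻¹) ^ (2 * (m + 1)) * (N ^ 2 * y ^ (2 * m)) :=
            mul_le_mul_of_nonneg_left h1 (by positivity)
        _ = _ := by ring
    have h7 : x * y ≤ s * (s⁻¹) ^ (2 * (m + 1)) * N ^ 2 :=
      le_of_mul_le_mul_right h3 (by positivity)
    linarith

/-- second moment form: `|⟪T v, v⟫| ≤ s ‖v‖² + s⁻¹ ‖T v‖²` -/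
theorem moment_one {T : H →L[ℂ] H} (hT : IsSelfAdjoint T) {s : ℝ} (hs : 0 < s) (v : H) :
    |(⟪T v, v⟫_ℂ).re| ≤ s * ‖v‖ ^ 2 + s⁻¹ * ‖T v‖ ^ 2 := by
  have h := moment hT hs (n := 1) le_rfl v
  rw [pow_one] at h
  have h1 : s * s⁻¹ = 1 := mul_inv_cancel₀ hs.ne'
  have e : s * (s⁻¹) ^ (2 * 1) = s⁻¹ := by
    calc s * (s⁻¹) ^ (2 * 1) = (s * s⁻¹) * s⁻¹ := by ring
      _ = s⁻¹ := by rw [h1, one_mul]
  rwa [e] at h

/-- `⟪(T ^ (2 n)) v, v⟫ = ‖T ^ n v‖ ^ 2` -/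
theorem re_pow_two {T : H →L[ℂ] H} (hT : IsSelfAdjoint T) (n : ℕ) (v : H) :
    (⟪(T ^ (2 * n)) v, v⟫_ℂ).re = ‖(T ^ n) v‖ ^ 2 := by
  have h1 : T ^ (2 * n) = T ^ n * T ^ n := by rw [two_mul, pow_add]
  have h2 : ⟪(T ^ (2 * n)) v, v⟫_ℂ = ⟪(T ^ n) v, (T ^ n) v⟫_ℂ := by
    rw [h1]
    exact sa_inner (hT.pow n) _ _
  rw [h2]
  exact inner_self_eq_norm_sq (𝕜 := ℂ) _

theorem re_pow_two' {T : H →L[ℂ] H} (hT : IsSelfAdjoint T) (n : ℕ) (v : H) :
    (⟪v, (T ^ (2 * n)) v⟫_ℂ).re = ‖(T ^ n) v‖ ^ 2 := by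
  rw [← re_pow_two hT n v, ← inner_conj_symm, Complex.conj_re]

/-- `0 ≤ T ^ (2 n)` and its quadratic form, for building `Γ` -/
theorem pow_two_nonneg {T : H →L[ℂ] H} (hT : IsSelfAdjoint T) (n : ℕ) : 0 ≤ T ^ (2 * n) := by
  have h1 : T ^ (2 * n) = star (T ^ n) * T ^ n := by
    rw [(hT.pow n).star_eq, ← pow_add, two_mul]
  rw [h1]
  exact star_mul_self_nonneg _

end Gamma

end Crest.Agent.R109
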