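import Crest.Agent.R109.AnnealedInv
import Crest.Agent.R109.FinVol

/-!
# Row 109: relabelling, gauge invariance, continuity and bounds of the potential `Hf`
-/

set_option autoImplicit false
set_option linter.unusedSectionVars false
set_option linter.unusedSimpArgs false

namespace Crest.Agent.R109.FinVol

open Matrix Finset Polynomial Crest.Agent.R109.Ann

variable {V V' K : Type*} [Fintype V] [DecidableEq V] [Fintype V'] [DecidableEq V']
  [Fintype K] [DecidableEq K]

theorem cc_one_sub_pol (x : V → V → ℂ) (γ : V → K → ℝ) :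
    PowerSeries.constantCoeff (1 - ((pol x γ : ℝ[X]) : PowerSeries ℝ)) = 0 := by
  rw [map_sub, ← PowerSeries.coeff_zero_eq_constantCoeff_apply,
    ← PowerSeries.coeff_zero_eq_constantCoeff_apply, Polynomial.coeff_coe, pol_coeff_zero]
  simp

theorem continuous_coeff_pow {Z : Type*} [TopologicalSpace Z] (F : Z → PowerSeries ℝ)
    (hF : ∀ n, Continuous fun z => PowerSeries.coeff n (F z)) (m : ℕ) :
    ∀ n, Continuous fun z => PowerSeries.coeff n (F z ^ m) := by
  induction m with
  | zero =>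
    intro n
    simp only [pow_zero]
    exact continuous_const
  | succ m ih =>
    intro n
    simp only [pow_succ, PowerSeries.coeff_mul]
    exact continuous_finsetSum _ fun p _ => (ih p.1).mul (hF p.2)

/-- `Hf` is continuous in the kernel and the weights -/
theorem continuous_Hf (k : ℕ) :
    Continuous fun p : (V → V → ℂ) × (V → K → ℝ) => Hf k p.1 p.2 := by
  have h1 : ∀ n, Continuous fun p : (V → V → ℂ) × (V → K → ℝ) =>
      PowerSeries.coeff n (1 - ((pol p.1 p.2 : ℝ[X]) : PowerSeries ℝ)) := by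
    intro n
    simp only [map_sub, Polynomial.coeff_coe]
    exact continuous_const.sub (continuous_coeff n)
  have h2 : (fun p : (V → V → ℂ) × (V → K → ℝ) => Hf k p.1 p.2)
      = fun p => ∑ n ∈ Finset.range (2 * k + 1), ((2 * k : ℕ) : ℝ) / (n + 1) *
        PowerSeries.coeff (2 * k) ((1 - ((pol p.1 p.2 : ℝ[X]) : PowerSeries ℝ)) ^ (n + 1)) := by
    funext p
    rw [Hf, coeff_qS _ (cc_one_sub_pol _ _)]
  rw [h2]
  refine continuous_finsetSum _ fun n _ => continuous_const.mul ?_
  exact continuous_coeff_pow (fun p : (V → V → ℂ) × (V → K → ℝ) =>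
    1 - ((pol p.1 p.2 : ℝ[X]) : PowerSeries ℝ)) h1 (n + 1) (2 * k)

theorem Hf_reindex (k : ℕ) (e : V ≃ V') (x : V' → V' → ℂ) (γ : V' → K → ℝ) :
    Hf k (fun u w => x (e u) (e w)) (fun v => γ (e v)) = Hf k x γ := by
  rw [Hf, Hf, pol_reindex e x γ]

/-- gauge invariance -/
theorem Hf_gauge (k : ℕ) (x : V → V → ℂ) (a : V → ℂ) (ha : ∀ v, ‖a v‖ = 1) (γ : V → K → ℝ) :
    Hf k (fun u w => a u * (starRingEnd ℂ) (a w) * x u w) γ = Hf k x γ := by
  have h := pol_gauge (fun v => (starRingEnd ℂ) (a v))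
    (fun v => by
      rw [Complex.conj_conj, Complex.mul_conj, Complex.normSq_eq_norm_sq, ha v]
      simp) x γ
  have h2 : (fun u w => a u * (starRingEnd ℂ) (a w) * x u w)
      = fun u w => (starRingEnd ℂ) ((starRingEnd ℂ) (a u)) * x u w * (starRingEnd ℂ) (a w) := by
    funext u w
    rw [Complex.conj_conj]
    ring
  rw [Hf, Hf, h2, h]

/-- uniform bound on bounded data -/
theorem Hf_bdd (V K : Type*) [Fintype V] [DecidableEq V] [Fintype K] [DecidableEq K] (k : ℕ)
    (M G : ℝ) : ∃ C : ℝ, ∀ (x : V → V → ℂ) (γ : V → K → ℝ), (∀ u w, ‖x u w‖ ≤ M) →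
      (∀ v i, |γ v i| ≤ G) → |Hf k x γ| ≤ C := by
  have hcomp : IsCompact {p : (V → V → ℂ) × (V → K → ℝ) |
      (∀ u w, p.1 u w ∈ Metric.closedBall (0 : ℂ) M) ∧
      ∀ v i, p.2 v i ∈ Metric.closedBall (0 : ℝ) G} := by
    have h1 : IsCompact (Set.pi Set.univ fun _ : V => Set.pi Set.univ fun _ : V =>
        Metric.closedBall (0 : ℂ) M) :=
      isCompact_univ_pi fun _ => isCompact_univ_pi fun _ => isCompact_closedBall _ _
    have h2 : IsCompact (Set.pi Set.univ fun _ : V => Set.pi Set.univ fun _ : K =>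
        Metric.closedBall (0 : ℝ) G) :=
      isCompact_univ_pi fun _ => isCompact_univ_pi fun _ => isCompact_closedBall _ _
    convert h1.prod h2 using 1
    ext p
    simp only [Set.mem_ofPred_eq, Set.mem_prod, Set.mem_pi, Set.mem_univ, true_imp_iff]
  obtain ⟨C, hC⟩ := hcomp.exists_bound_of_continuousOn
    (f := fun p : (V → V → ℂ) × (V → K → ℝ) => Hf k p.1 p.2) (continuous_Hf k).continuousOn
  refine ⟨C, fun x γ hx hγ => ?_⟩
  have := hC (x, γ) ⟨fun u w => by simpa using hx u w, fun v i => by simpa using hγ v i⟩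
  simpa using this

/-- the potential along an injective parametrization -/
theorem H_image {X I : Type*} [Fintype I] [DecidableEq I] {r : ℕ} (k : ℕ) (x : X → X → ℂ)
    (g : X → Fin r → ℝ) (u : I → X) (hu : Function.Injective u) (W : Finset X)
    (hW : ∀ y, y ∈ W ↔ ∃ i, u i = y) :
    H k x g W = Hf k (fun i j => x (u i) (u j)) (fun i => g (u i)) := by
  classical
  let e : I ≃ W := Equiv.ofBijective (fun i => (⟨u i, (hW _).2 ⟨i, rfl⟩⟩ : W)) ⟨fun i j h => by
    exact hu (congrArg Subtype.val h), fun y => by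
      obtain ⟨i, hi⟩ := (hW y.1).1 y.2
      exact ⟨i, Subtype.ext hi⟩⟩
  have h := Hf_reindex k e (fun u w : W => x u w) (fun (v : W) i => g v i)
  rw [H]
  refine Eq.trans ?_ h.symm
  congr!

end Crest.Agent.R109.FinVol
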