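import Mathlib

/-!
# Hunter's theorem: complete homogeneous symmetric polynomials of even degree are nonnegative

Row 109 (helper135).  We only use the recursive form: `hcoef l n` is the coefficient of `y^n` in
`∏_{x ∈ l} (1 - x y)⁻¹`.
-/

set_option autoImplicit false

namespace Crest.Agent.R109

open Polynomial

/-- A real polynomial `P` with `P - x P' ≥ 0` everywhere, `0 < x`, is nonnegative everywhere. -/
theorem nonneg_of_sub_deriv_pos (x : ℝ) (hx : 0 < x) (P : ℝ[X])
    (h : ∀ a : ℝ, 0 ≤ P.eval a - x * (derivative P).eval a) (a : ℝ) : 0 ≤ P.eval a := by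
  -- consider f(t) = P(a + x t) exp(-t), decreasing, tends to 0
  set Q : ℝ[X] := P.comp (C a + C x * X) with hQ
  have hQe : ∀ t : ℝ, Q.eval t = P.eval (a + x * t) := by
    intro t; simp [hQ]
  have hQd : ∀ t : ℝ, (derivative Q).eval t = x * (derivative P).eval (a + x * t) := by
    intro t
    simp [hQ, derivative_comp]
  have hder : ∀ t : ℝ, HasDerivAt (fun t : ℝ => Q.eval t / Real.exp t)
      (((derivative Q).eval t * Real.exp t - Q.eval t * Real.exp t) / (Real.exp t) ^ 2) t := by
    intro t
    exact (Q.hasDerivAt t).div (Real.hasDerivAt_exp t) (Real.exp_pos t).ne'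
  have hanti : Antitone (fun t : ℝ => Q.eval t / Real.exp t) := by
    apply antitone_of_deriv_nonpos
    · intro t; exact (hder t).differentiableAt
    · intro t
      rw [(hder t).deriv]
      apply div_nonpos_of_nonpos_of_nonneg
      · have := h (a + x * t)
        rw [hQe, hQd]
        nlinarith [Real.exp_pos t, mul_nonneg this (Real.exp_pos t).le]
      · positivity
  have hlim := Q.tendsto_div_exp_atTop
  have h0 : 0 ≤ Q.eval 0 / Real.exp 0 := by
    apply le_of_tendsto hlim
    filter_upwards [Filter.eventually_ge_atTop (0:ℝ)] with t ht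
    exact hanti ht
  have h1 : Q.eval 0 = P.eval a := by rw [hQe]; simp
  rw [h1] at h0
  simpa using h0

theorem nonneg_of_sub_deriv (x : ℝ) (P : ℝ[X])
    (h : ∀ a : ℝ, 0 ≤ P.eval a - x * (derivative P).eval a) (a : ℝ) : 0 ≤ P.eval a := by
  rcases lt_trichotomy x 0 with hx | hx | hx
  · have := nonneg_of_sub_deriv_pos (-x) (by linarith) (P.comp (-X)) (by
      intro b
      have h2 := h (-b)
      have e1 : (P.comp (-X)).eval b = P.eval (-b) := by simp
      have e2 : (derivative (P.comp (-X))).eval b = - (derivative P).eval (-b) := by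
        simp [derivative_comp]
      rw [e1, e2]
      linarith) (-a)
    simpa using this
  · subst hx
    simpa using h a
  · exact nonneg_of_sub_deriv_pos x hx P h a

/-- `hcoef l n` = complete homogeneous symmetric polynomial of degree `n` in the entries of `l`. -/
noncomputable def hcoef : List ℝ → ℕ → ℝ
  | [], 0 => 1
  | [], (_ + 1) => 0
  | (x :: l), n => ∑ j ∈ Finset.range (n + 1), x ^ j * hcoef l (n - j)

theorem hcoef_nil (n : ℕ) : hcoef [] n = if n = 0 then 1 else 0 := by
  cases n <;> simp [hcoef]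

theorem hcoef_cons_zero (x : ℝ) (l : List ℝ) : hcoef (x :: l) 0 = hcoef l 0 := by
  simp [hcoef]

theorem hcoef_cons_succ (x : ℝ) (l : List ℝ) (n : ℕ) :
    hcoef (x :: l) (n + 1) = hcoef l (n + 1) + x * hcoef (x :: l) n := by
  simp only [hcoef]
  rw [Finset.sum_range_succ' _ (n + 1)]
  simp only [pow_zero, one_mul, Nat.sub_zero, Finset.mul_sum]
  rw [add_comm]
  congr 1
  apply Finset.sum_congr rfl
  intro j hj
  rw [pow_succ]
  have : n + 1 - (j + 1) = n - j := by omega
  rw [this]; ring

/-- the polynomial `∏ (1 - x D)⁻¹ a^n / n!` -/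
noncomputable def hpoly (l : List ℝ) (n : ℕ) : ℝ[X] :=
  ∑ m ∈ Finset.range (n + 1), C (hcoef l m / (Nat.factorial (n - m) : ℝ)) * X ^ (n - m)

theorem hpoly_eval_zero (l : List ℝ) (n : ℕ) : (hpoly l n).eval 0 = hcoef l n := by
  simp only [hpoly, eval_finsetSum, eval_mul, eval_C, eval_pow, eval_X]
  rw [Finset.sum_eq_single n]
  · simp
  · intro m hm hmn
    have : n - m ≠ 0 := by
      have := Finset.mem_range.mp hm
      omega
    simp [this]
  · intro h; simp at h

theorem hpoly_derivative (l : List ℝ) (n : ℕ) : derivative (hpoly l (n + 1)) = hpoly l n := by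
  simp only [hpoly, derivative_sum]
  rw [Finset.sum_range_succ]
  simp only [Nat.sub_self, pow_zero, mul_one, derivative_C, add_zero]
  apply Finset.sum_congr rfl
  intro m hm
  have hm' : m ≤ n := by have := Finset.mem_range.mp hm; omega
  have e : n + 1 - m = (n - m) + 1 := by omega
  rw [e, derivative_C_mul, derivative_X_pow, Nat.factorial_succ]
  simp only [Nat.add_sub_cancel]
  rw [← mul_assoc, ← C_mul]
  congr 2
  push_cast
  have : (Nat.factorial (n - m) : ℝ) ≠ 0 := by positivity
  have h2 : ((n - m : ℕ) : ℝ) + 1 ≠ 0 := by positivity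
  field_simp

theorem hpoly_derivative_zero (l : List ℝ) : derivative (hpoly l 0) = 0 := by
  simp [hpoly]

theorem hpoly_cons_zero (x : ℝ) (l : List ℝ) : hpoly (x :: l) 0 = hpoly l 0 := by
  simp [hpoly, hcoef_cons_zero]

theorem hpoly_cons_succ (x : ℝ) (l : List ℝ) (n : ℕ) :
    hpoly (x :: l) (n + 1) = hpoly l (n + 1) + C x * hpoly (x :: l) n := by
  simp only [hpoly]
  rw [Finset.sum_range_succ' _ (n + 1), Finset.sum_range_succ' _ (n + 1), Finset.mul_sum]
  simp only [hcoef_cons_succ, hcoef_cons_zero]
  rw [add_right_comm, ← Finset.sum_add_distrib]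
  congr 1
  apply Finset.sum_congr rfl
  intro m hm
  have e : n + 1 - (m + 1) = n - m := by omega
  rw [e, ← mul_assoc, ← C_mul, ← add_mul, ← C_add]
  congr 2
  ring

theorem hpoly_nonneg (l : List ℝ) : ∀ (p : ℕ) (a : ℝ), 0 ≤ (hpoly l (2 * p)).eval a := by
  induction l with
  | nil =>
    intro p a
    simp only [hpoly, eval_finsetSum, eval_mul, eval_C, eval_pow, eval_X, hcoef_nil]
    rw [Finset.sum_eq_single 0]
    · simp only [if_true, Nat.sub_zero]
      have : 0 ≤ a ^ (2 * p) := by
        rw [pow_mul]; positivity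
      positivity
    · intro m _ hm; simp [hm]
    · intro h; simp at h
  | cons x l ih =>
    intro p
    apply nonneg_of_sub_deriv x
    intro a
    rcases Nat.eq_zero_or_pos p with hp | hp
    · subst hp
      simp only [hpoly_derivative_zero, eval_zero, mul_zero, sub_zero,
        hpoly_cons_zero]
      exact ih 0 a
    · obtain ⟨q, hq⟩ : ∃ q, 2 * p = q + 1 := ⟨2 * p - 1, by omega⟩
      rw [hq, hpoly_derivative, hpoly_cons_succ]
      simp only [eval_add, eval_mul, eval_C]
      rw [← hq]
      have := ih p a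
      linarith

/-- **Hunter's theorem.** -/
theorem hcoef_even_nonneg (l : List ℝ) (p : ℕ) : 0 ≤ hcoef l (2 * p) := by
  rw [← hpoly_eval_zero]
  exact hpoly_nonneg l p 0

end Crest.Agent.R109
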