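import Mathlib

/-!
# Interlacing of zeros and poles of a rational Nevanlinna function (row 109)

`ρ : Fin (n+1) → ℝ` zeros, `s : Fin n → ℝ` poles of `F z = ∏ (z - ρ j) / ∏ (z - s j)` with
`Im F > 0` on the upper half plane.  Then the counting functions satisfy
`N_s ≤ N_ρ ≤ N_s + 1` off the zeros and poles, and `∑ ρ^{2k} - ∑ s^{2k} ≤ 2 R^{2k}`
if all zeros and poles lie in `[-R, R]`.
-/

set_option autoImplicit false

namespace Crest.Agent.R109.Inter

open Complex Filter Topology Finset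

theorem prod_phase {ι : Type*} (s : Finset ι) (f : ι → ℂ) :
    ∏ j ∈ s, f j = ((∏ j ∈ s, ‖f j‖ : ℝ) : ℂ) * exp (((∑ j ∈ s, arg (f j) : ℝ) : ℂ) * I) := by
  have h1 : ∀ j ∈ s, f j = ((‖f j‖ : ℝ) : ℂ) * exp ((arg (f j) : ℝ) * I) :=
    fun j _ => (norm_mul_exp_arg_mul_I (f j)).symm
  rw [Finset.prod_congr rfl h1, Finset.prod_mul_distrib, ← Complex.exp_sum]
  congr 1
  · push_cast; rfl
  · rw [← Finset.sum_mul]; push_cast; rfl

variable {n : ℕ}

/-- the phase -/
noncomputable def ph (ρ : Fin (n + 1) → ℝ) (s : Fin n → ℝ) (z : ℂ) : ℝ :=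
  ∑ j, arg (z - ρ j) - ∑ j, arg (z - s j)

theorem sub_im_pos {z : ℂ} (hz : 0 < z.im) (a : ℝ) : 0 < (z - (a : ℂ)).im := by simpa using hz

theorem sub_ne {z : ℂ} (hz : 0 < z.im) (a : ℝ) : z - (a : ℂ) ≠ 0 := by
  intro h
  have := sub_im_pos hz a
  rw [h] at this
  simp at this

theorem quot_phase (ρ : Fin (n + 1) → ℝ) (s : Fin n → ℝ) {z : ℂ} (hz : 0 < z.im) :
    ∃ A : ℝ, 0 < A ∧ (∏ j, (z - (ρ j : ℂ))) / (∏ j, (z - (s j : ℂ)))
      = (A : ℂ) * exp ((ph ρ s z : ℂ) * I) := by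
  refine ⟨(∏ j, ‖z - (ρ j : ℂ)‖) / (∏ j, ‖z - (s j : ℂ)‖), ?_, ?_⟩
  · apply div_pos
    · exact Finset.prod_pos fun j _ => norm_pos_iff.mpr (sub_ne hz _)
    · exact Finset.prod_pos fun j _ => norm_pos_iff.mpr (sub_ne hz _)
  · rw [prod_phase, prod_phase, ph]
    push_cast
    rw [sub_mul, Complex.exp_sub]
    ring

theorem sin_ph_pos {ρ : Fin (n + 1) → ℝ} {s : Fin n → ℝ}
    (hF : ∀ z : ℂ, 0 < z.im → 0 < ((∏ j, (z - (ρ j : ℂ))) / (∏ j, (z - (s j : ℂ)))).im)
    {z : ℂ} (hz : 0 < z.im) : 0 < Real.sin (ph ρ s z) := by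
  obtain ⟨A, hA, hq⟩ := quot_phase ρ s hz
  have h1 := hF z hz
  rw [hq, Complex.im_ofReal_mul, Complex.exp_ofReal_mul_I_im] at h1
  exact (mul_pos_iff_of_pos_left hA).mp h1

theorem continuousOn_ph (ρ : Fin (n + 1) → ℝ) (s : Fin n → ℝ) :
    ContinuousOn (ph ρ s) {z : ℂ | 0 < z.im} := by
  have h1 : ∀ a : ℝ, ContinuousOn (fun z : ℂ => arg (z - (a : ℂ))) {z : ℂ | 0 < z.im} := by
    intro a z hz
    have h2 : ContinuousAt arg (z - (a : ℂ)) :=
      continuousAt_arg (Complex.mem_slitPlane_iff.mpr (Or.inr (sub_im_pos hz a).ne'))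
    exact (ContinuousAt.comp (f := fun z : ℂ => z - (a : ℂ)) h2
      (by fun_prop)).continuousWithinAt
  unfold ph
  exact (continuousOn_finsetSum _ fun j _ => h1 _).sub (continuousOn_finsetSum _ fun j _ => h1 _)

theorem tendsto_arg_up (a : ℝ) :
    Tendsto (fun Y : ℝ => arg ((Y : ℂ) * I - (a : ℂ))) atTop (𝓝 (Real.pi / 2)) := by
  have h1 : Tendsto (fun Y : ℝ => I - ((a / Y : ℝ) : ℂ)) atTop (𝓝 (I - ((0 : ℝ) : ℂ))) := by
    refine tendsto_const_nhds.sub ?_
    exact (Complex.continuous_ofReal.tendsto 0).comp (tendsto_const_nhds.div_atTop tendsto_id)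
  have h2 : Tendsto arg (𝓝 (I - ((0 : ℝ) : ℂ))) (𝓝 (Real.pi / 2)) := by
    have : ContinuousAt arg (I - ((0 : ℝ) : ℂ)) :=
      continuousAt_arg (by simp [Complex.mem_slitPlane_iff])
    have h3 := this.tendsto
    simpa [arg_I] using h3
  refine (h2.comp h1).congr' ?_
  filter_upwards [eventually_gt_atTop 0] with Y hY
  have h4 : (Y : ℂ) * I - (a : ℂ) = (Y : ℂ) * (I - ((a / Y : ℝ) : ℂ)) := by
    have : (Y : ℂ) ≠ 0 := by exact_mod_cast hY.ne'
    push_cast
    field_simp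
  simp only [Function.comp_apply]
  rw [h4, arg_real_mul _ hY]

theorem ph_mem {ρ : Fin (n + 1) → ℝ} {s : Fin n → ℝ}
    (hF : ∀ z : ℂ, 0 < z.im → 0 < ((∏ j, (z - (ρ j : ℂ))) / (∏ j, (z - (s j : ℂ)))).im)
    {z : ℂ} (hz : 0 < z.im) : 0 < ph ρ s z ∧ ph ρ s z < Real.pi := by
  have hconn : IsPreconnected {z : ℂ | 0 < z.im} := (convex_halfSpace_im_gt 0).isPreconnected
  -- a base point
  have hlim : Tendsto (fun Y : ℝ => ph ρ s ((Y : ℂ) * I)) atTop (𝓝 (Real.pi / 2)) := by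
    have h1 := (tendsto_finsetSum Finset.univ fun j (_ : j ∈ Finset.univ) => tendsto_arg_up (ρ j)).sub
      (tendsto_finsetSum Finset.univ fun j (_ : j ∈ Finset.univ) => tendsto_arg_up (s j))
    have h2 : (∑ _j : Fin (n + 1), Real.pi / 2) - ∑ _j : Fin n, Real.pi / 2 = Real.pi / 2 := by
      simp only [Finset.sum_const, Finset.card_univ, Fintype.card_fin, nsmul_eq_mul]
      push_cast; ring
    rw [h2] at h1
    exact h1
  have hpi := Real.pi_pos
  have hev := (hlim.eventually (Ioo_mem_nhds (by linarith : (0 : ℝ) < Real.pi / 2)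
    (by linarith : Real.pi / 2 < Real.pi))).and (eventually_gt_atTop (0 : ℝ))
  obtain ⟨Y, hY, hY0⟩ := hev.exists
  have hYm : (Y : ℂ) * I ∈ {z : ℂ | 0 < z.im} := by simpa using hY0
  constructor
  · by_contra hneg
    push Not at hneg
    obtain ⟨w, hw, hw0⟩ := hconn.intermediate_value hz hYm (continuousOn_ph ρ s)
      ⟨hneg, hY.1.le⟩
    have := sin_ph_pos hF hw
    rw [hw0, Real.sin_zero] at this
    exact lt_irrefl _ this
  · by_contra hneg
    push Not at hneg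
    obtain ⟨w, hw, hw0⟩ := hconn.intermediate_value hYm hz (continuousOn_ph ρ s)
      ⟨hY.2.le, hneg⟩
    have := sin_ph_pos hF hw
    rw [hw0, Real.sin_pi] at this
    exact lt_irrefl _ this

theorem tendsto_arg_down (a x : ℝ) (hax : a ≠ x) :
    Tendsto (fun ε : ℝ => arg (((x : ℂ) + (ε : ℂ) * I) - (a : ℂ))) (𝓝[>] 0)
      (𝓝 (if x < a then Real.pi else 0)) := by
  have h1 : Tendsto (fun ε : ℝ => ((x : ℂ) + (ε : ℂ) * I) - (a : ℂ)) (𝓝[>] 0)
      (𝓝 ((((x - a : ℝ) : ℂ)))) := by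
    have : Continuous (fun ε : ℝ => ((x : ℂ) + (ε : ℂ) * I) - (a : ℂ)) := by fun_prop
    have h2 := (this.tendsto 0).mono_left (nhdsWithin_le_nhds (s := Set.Ioi (0 : ℝ)))
    simpa using h2
  rcases lt_or_gt_of_ne hax with h | h
  · rw [if_neg (not_lt.mpr h.le)]
    have h3 : ContinuousAt arg (((x - a : ℝ) : ℂ)) :=
      continuousAt_arg (Complex.mem_slitPlane_iff.mpr (Or.inl (by simpa using h)))
    have h4 := h3.tendsto.comp h1
    have h5 : arg (((x - a : ℝ) : ℂ)) = 0 := Complex.arg_ofReal_of_nonneg (by linarith)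
    rw [h5] at h4
    exact h4
  · rw [if_pos h]
    have h3 := tendsto_arg_nhdsWithin_im_nonneg_of_re_neg_of_im_zero (z := (((x - a : ℝ) : ℂ)))
      (by simpa using h) (by simp)
    refine h3.comp (tendsto_nhdsWithin_iff.mpr ⟨h1, ?_⟩)
    filter_upwards [self_mem_nhdsWithin] with ε hε
    have : (0 : ℝ) < ε := hε
    simpa using this.le

/-- counting function -/
noncomputable def cnt {m : ℕ} (a : Fin m → ℝ) (x : ℝ) : ℕ := (Finset.univ.filter (fun j => x < a j)).card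

theorem sum_ite_cnt {m : ℕ} (a : Fin m → ℝ) (x c : ℝ) :
    ∑ j, (if x < a j then c else 0) = cnt a x * c := by
  rw [← Finset.sum_filter, Finset.sum_const, nsmul_eq_mul, cnt]

/-- **interlacing, counting form** -/
theorem interlace {ρ : Fin (n + 1) → ℝ} {s : Fin n → ℝ}
    (hF : ∀ z : ℂ, 0 < z.im → 0 < ((∏ j, (z - (ρ j : ℂ))) / (∏ j, (z - (s j : ℂ)))).im)
    (x : ℝ) (hρ : ∀ j, ρ j ≠ x) (hs : ∀ j, s j ≠ x) :
    cnt s x ≤ cnt ρ x ∧ cnt ρ x ≤ cnt s x + 1 := by
  have hlim : Tendsto (fun ε : ℝ => ph ρ s ((x : ℂ) + (ε : ℂ) * I)) (𝓝[>] 0)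
      (𝓝 ((cnt ρ x : ℝ) * Real.pi - (cnt s x : ℝ) * Real.pi)) := by
    have h1 := (tendsto_finsetSum Finset.univ fun j (_ : j ∈ Finset.univ) =>
      tendsto_arg_down (ρ j) x (hρ j)).sub
      (tendsto_finsetSum Finset.univ fun j (_ : j ∈ Finset.univ) => tendsto_arg_down (s j) x (hs j))
    rw [sum_ite_cnt, sum_ite_cnt] at h1
    exact h1
  have hpi := Real.pi_pos
  have hmem : ∀ᶠ ε : ℝ in 𝓝[>] 0, 0 < ph ρ s ((x : ℂ) + (ε : ℂ) * I) ∧
      ph ρ s ((x : ℂ) + (ε : ℂ) * I) < Real.pi := by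
    filter_upwards [self_mem_nhdsWithin] with ε hε
    have : (0 : ℝ) < ε := hε
    exact ph_mem hF (by simpa using this)
  have hge : 0 ≤ (cnt ρ x : ℝ) * Real.pi - (cnt s x : ℝ) * Real.pi :=
    ge_of_tendsto hlim (hmem.mono fun _ h => h.1.le)
  have hle : (cnt ρ x : ℝ) * Real.pi - (cnt s x : ℝ) * Real.pi ≤ Real.pi :=
    le_of_tendsto hlim (hmem.mono fun _ h => h.2.le)
  constructor
  · have h1 : (cnt s x : ℝ) * Real.pi ≤ (cnt ρ x : ℝ) * Real.pi := by linarith
    exact_mod_cast le_of_mul_le_mul_right h1 hpi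
  · have h1 : (cnt ρ x : ℝ) * Real.pi ≤ ((cnt s x : ℝ) + 1) * Real.pi := by linarith
    exact_mod_cast le_of_mul_le_mul_right h1 hpi

/-! ### power sums -/

theorem layer_intervalIntegrable (m : ℕ) (t R : ℝ) :
    IntervalIntegrable (fun u : ℝ => if u < t then (m : ℝ) * u ^ (m - 1) else 0)
      MeasureTheory.volume 0 R := by
  have h1 : IntervalIntegrable (fun u : ℝ => (m : ℝ) * u ^ (m - 1)) MeasureTheory.volume 0 R :=
    (by fun_prop : Continuous (fun u : ℝ => (m : ℝ) * u ^ (m - 1))).intervalIntegrable 0 R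
  have h2 : (fun u : ℝ => if u < t then (m : ℝ) * u ^ (m - 1) else 0)
      = (Set.Iio t).indicator (fun u : ℝ => (m : ℝ) * u ^ (m - 1)) := by
    funext u; simp [Set.indicator_apply]
  rw [h2]
  rw [intervalIntegrable_iff] at h1 ⊢
  exact h1.indicator measurableSet_Iio

theorem layer {m : ℕ} (hm : 0 < m) {t R : ℝ} (ht : t ≤ R) (hR : 0 ≤ R) :
    ∫ u in (0 : ℝ)..R, (if u < t then (m : ℝ) * u ^ (m - 1) else 0) = (max t 0) ^ m := by
  rcases le_or_gt t 0 with h | h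
  · rw [max_eq_right h, zero_pow hm.ne']
    rw [intervalIntegral.integral_congr (g := fun _ => (0 : ℝ))]
    · simp
    · intro u hu
      rw [Set.uIcc_of_le hR] at hu
      simp only
      rw [if_neg (by have := hu.1; linarith)]
  · rw [max_eq_left h.le]
    rw [← intervalIntegral.integral_add_adjacent_intervals (b := t)
      (layer_intervalIntegrable m t t) (((layer_intervalIntegrable m t t).symm).trans
        (layer_intervalIntegrable m t R))]
    have h1 : ∫ u in (0 : ℝ)..t, (if u < t then (m : ℝ) * u ^ (m - 1) else 0)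
        = ∫ u in (0 : ℝ)..t, (m : ℝ) * u ^ (m - 1) := by
      apply intervalIntegral.integral_congr_ae
      have h3 : ∀ᵐ u : ℝ, u ≠ t := by
        simp [MeasureTheory.ae_iff]
      filter_upwards [h3] with u hu hmem
      rw [Set.uIoc_of_le h.le] at hmem
      rw [if_pos (lt_of_le_of_ne hmem.2 hu)]
    have h2 : ∫ u in t..R, (if u < t then (m : ℝ) * u ^ (m - 1) else 0) = 0 := by
      rw [intervalIntegral.integral_congr (g := fun _ => (0 : ℝ))]
      · simp
      · intro u hu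
        rw [Set.uIcc_of_le ht] at hu
        simp only
        rw [if_neg (not_lt.mpr hu.1)]
    rw [h1, h2, add_zero, intervalIntegral.integral_const_mul, integral_pow]
    have h4 : ((m - 1 : ℕ) : ℝ) + 1 = m := by
      rw [Nat.cast_sub hm]; simp
    rw [h4, Nat.sub_add_cancel hm, zero_pow hm.ne', sub_zero]
    have : (m : ℝ) ≠ 0 := by exact_mod_cast hm.ne'
    field_simp

theorem sum_layer {m l : ℕ} (hm : 0 < m) {R : ℝ} (hR : 0 ≤ R) (a : Fin l → ℝ) (ha : ∀ j, a j ≤ R) :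
    ∫ u in (0 : ℝ)..R, (cnt a u : ℝ) * ((m : ℝ) * u ^ (m - 1)) = ∑ j, (max (a j) 0) ^ m := by
  simp only [← sum_ite_cnt]
  rw [intervalIntegral.integral_finsetSum (fun j _ => layer_intervalIntegrable m (a j) R)]
  exact Finset.sum_congr rfl fun j _ => layer hm (ha j) hR

theorem cnt_intervalIntegrable (m : ℕ) {l : ℕ} (R : ℝ) (a : Fin l → ℝ) :
    IntervalIntegrable (fun u : ℝ => (cnt a u : ℝ) * ((m : ℝ) * u ^ (m - 1)))
      MeasureTheory.volume 0 R := by
  simp only [← sum_ite_cnt]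
  have := IntervalIntegrable.sum (μ := MeasureTheory.volume) (a := 0) (b := R) Finset.univ
    (f := fun (j : Fin l) (u : ℝ) => if u < a j then (m : ℝ) * u ^ (m - 1) else 0)
    (fun j _ => layer_intervalIntegrable m (a j) R)
  have h2 : (∑ i : Fin l, fun u : ℝ => if u < a i then (m : ℝ) * u ^ (m - 1) else 0)
      = fun u : ℝ => ∑ j : Fin l, if u < a j then (m : ℝ) * u ^ (m - 1) else 0 := by
    funext u; simp [Finset.sum_apply]
  rwa [h2] at this

theorem pos_part_le {m p q : ℕ} (hm : 0 < m) {R : ℝ} (hR : 0 ≤ R) (a : Fin p → ℝ) (b : Fin q → ℝ)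
    (ha : ∀ j, a j ≤ R) (hb : ∀ j, b j ≤ R)
    (hc : ∀ x, 0 < x → (∀ j, a j ≠ x) → (∀ j, b j ≠ x) → cnt a x ≤ cnt b x + 1) :
    ∑ j, (max (a j) 0) ^ m ≤ ∑ j, (max (b j) 0) ^ m + R ^ m := by
  have h1 : R ^ m = ∫ u in (0 : ℝ)..R, (m : ℝ) * u ^ (m - 1) := by
    rw [intervalIntegral.integral_const_mul, integral_pow]
    have h4 : ((m - 1 : ℕ) : ℝ) + 1 = m := by
      rw [Nat.cast_sub hm]; simp
    rw [h4, Nat.sub_add_cancel hm, zero_pow hm.ne', sub_zero]
    have : (m : ℝ) ≠ 0 := by exact_mod_cast hm.ne'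
    field_simp
  have h2 : IntervalIntegrable (fun u : ℝ => (m : ℝ) * u ^ (m - 1)) MeasureTheory.volume 0 R :=
    (by fun_prop : Continuous (fun u : ℝ => (m : ℝ) * u ^ (m - 1))).intervalIntegrable 0 R
  rw [← sum_layer hm hR a ha, ← sum_layer hm hR b hb, h1,
    ← intervalIntegral.integral_add (cnt_intervalIntegrable m R b) h2]
  apply intervalIntegral.integral_mono_ae_restrict hR (cnt_intervalIntegrable m R a)
    ((cnt_intervalIntegrable m R b).add h2)
  have h3 : ∀ᵐ u : ℝ ∂(MeasureTheory.volume.restrict (Set.Icc 0 R)),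
      u ∉ (Set.range a ∪ Set.range b) ∪ {0} := by
    have hfin : ((Set.range a ∪ Set.range b) ∪ {(0 : ℝ)}).Finite :=
      ((Set.finite_range a).union (Set.finite_range b)).union (Set.finite_singleton 0)
    exact MeasureTheory.ae_restrict_of_ae (hfin.countable.ae_notMem _)
  filter_upwards [h3, MeasureTheory.ae_restrict_mem measurableSet_Icc] with u hu hmem
  simp only [Set.mem_union, Set.mem_range, Set.mem_singleton_iff, not_or, not_exists] at hu
  have hu0 : 0 < u := lt_of_le_of_ne hmem.1 (Ne.symm hu.2)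
  have h4 := hc u hu0 hu.1.1 hu.1.2
  have h5 : (cnt a u : ℝ) ≤ (cnt b u : ℝ) + 1 := by exact_mod_cast h4
  have h6 : 0 ≤ (m : ℝ) * u ^ (m - 1) := by positivity
  have h7 := mul_le_mul_of_nonneg_right h5 h6
  simpa [add_mul] using h7

theorem cnt_neg {l : ℕ} (a : Fin l → ℝ) (u : ℝ) (h : ∀ j, a j ≠ -u) :
    cnt (fun j => - a j) u + cnt a (-u) = l := by
  have h1 : (Finset.univ.filter (fun j => u < - a j))
      = (Finset.univ.filter (fun j => ¬ (-u < a j))) := by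
    ext j
    simp only [Finset.mem_filter, Finset.mem_univ, true_and, not_lt]
    constructor
    · intro h2; linarith
    · intro h2
      have := lt_of_le_of_ne h2 (h j)
      linarith
  rw [cnt, cnt, h1, add_comm, Finset.card_filter_add_card_filter_not]
  simp

theorem even_pow_split {k : ℕ} (hk : 0 < k) (t : ℝ) :
    t ^ (2 * k) = (max t 0) ^ (2 * k) + (max (-t) 0) ^ (2 * k) := by
  have h2k : 2 * k ≠ 0 := by omega
  rcases le_total t 0 with h | h
  · rw [max_eq_right h, max_eq_left (by linarith : (0 : ℝ) ≤ -t), zero_pow h2k, zero_add,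
      Even.neg_pow ⟨k, by ring⟩]
  · rw [max_eq_left h, max_eq_right (by linarith : -t ≤ (0 : ℝ)), zero_pow h2k, add_zero]

/-- **interlacing, power sum form** -/
theorem pow_sum_le {ρ : Fin (n + 1) → ℝ} {s : Fin n → ℝ}
    (hF : ∀ z : ℂ, 0 < z.im → 0 < ((∏ j, (z - (ρ j : ℂ))) / (∏ j, (z - (s j : ℂ)))).im)
    {R : ℝ} (hR : 0 ≤ R) (hρ : ∀ j, |ρ j| ≤ R) (hs : ∀ j, |s j| ≤ R) {k : ℕ} (hk : 0 < k) :
    ∑ j, ρ j ^ (2 * k) ≤ ∑ j, s j ^ (2 * k) + 2 * R ^ (2 * k) := by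
  have h1 := pos_part_le (m := 2 * k) (by omega) hR ρ s (fun j => (abs_le.mp (hρ j)).2)
    (fun j => (abs_le.mp (hs j)).2) (fun x _ h1 h2 => (interlace hF x h1 h2).2)
  have h2 := pos_part_le (m := 2 * k) (by omega) hR (fun j => - ρ j) (fun j => - s j)
    (fun j => by have := (abs_le.mp (hρ j)).1; linarith)
    (fun j => by have := (abs_le.mp (hs j)).1; linarith) (fun x _ h1 h2 => by
      have h1' : ∀ j, ρ j ≠ -x := fun j h => h1 j (by rw [h]; ring)
      have h2' : ∀ j, s j ≠ -x := fun j h => h2 j (by rw [h]; ring)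
      have h3 := cnt_neg ρ x h1'
      have h4 := cnt_neg s x h2'
      have h5 := (interlace hF (-x) h1' h2').1
      omega)
  have h3 : ∑ j, ρ j ^ (2 * k) = ∑ j, (max (ρ j) 0) ^ (2 * k) + ∑ j, (max (-ρ j) 0) ^ (2 * k) := by
    rw [← Finset.sum_add_distrib]
    exact Finset.sum_congr rfl fun j _ => even_pow_split hk _
  have h4 : ∑ j, s j ^ (2 * k) = ∑ j, (max (s j) 0) ^ (2 * k) + ∑ j, (max (-s j) 0) ^ (2 * k) := by
    rw [← Finset.sum_add_distrib]
    exact Finset.sum_congr rfl fun j _ => even_pow_split hk _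
  rw [h3, h4]
  linarith

open Polynomial in
/-- power sum bound in the form of the one-vertex identity -/
theorem pow_sum_le_of_identity (n k : ℕ) (hk : 0 < k) (ρ : Fin (n + 1) → ℝ) (s m : Fin n → ℝ)
    (hm : ∀ j, 0 ≤ m j)
    (h : ∏ j, (1 - C (ρ j) * X) = ∏ j, (1 - C (s j) * X)
      - ∑ j, C (m j) * (X ^ 2 * ∏ k ∈ Finset.univ.erase j, (1 - C (s k) * X)))
    {R : ℝ} (hρ : ∀ j, |ρ j| ≤ R) (hs : ∀ j, |s j| ≤ R) :
    ∑ j, ρ j ^ (2 * k) - ∑ j, s j ^ (2 * k) ≤ 2 * R ^ (2 * k) := by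
  have hR : 0 ≤ R := (abs_nonneg _).trans (hρ 0)
  -- the identity in the variable z = 1 / y
  have hz : ∀ z : ℂ, z ≠ 0 → ∏ j, (z - (ρ j : ℂ))
      = z * ∏ j, (z - (s j : ℂ)) - ∑ j, (m j : ℂ) * ∏ k ∈ Finset.univ.erase j, (z - (s k : ℂ)) := by
    intro z hz
    have h1 := congrArg (fun p : ℝ[X] => (p.map (algebraMap ℝ ℂ)).eval z⁻¹) h
    simp only [Polynomial.map_prod, Polynomial.map_sub, Polynomial.map_one, Polynomial.map_mul,
      Polynomial.map_C, Polynomial.map_X, Polynomial.map_sum, Polynomial.map_pow,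
      Polynomial.eval_prod, Polynomial.eval_sub, Polynomial.eval_one, Polynomial.eval_mul,
      Polynomial.eval_C, Polynomial.eval_X, Polynomial.eval_finsetSum, Polynomial.eval_pow,
      Complex.coe_algebraMap] at h1
    have e1 : ∀ {ι : Type} (t : Finset ι) (a : ι → ℝ),
        ∏ j ∈ t, (z - (a j : ℂ)) = z ^ t.card * ∏ j ∈ t, (1 - (a j : ℂ) * z⁻¹) := by
      intro ι t a
      rw [← Finset.prod_const, ← Finset.prod_mul_distrib]
      refine Finset.prod_congr rfl fun j _ => ?_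
      field_simp
    rw [e1, e1, h1]
    simp only [e1]
    rw [mul_sub]
    congr 1
    · rw [Finset.card_univ, Finset.card_univ, Fintype.card_fin, Fintype.card_fin, pow_succ]
      ring
    · rw [Finset.mul_sum]
      refine Finset.sum_congr rfl fun j _ => ?_
      rw [Finset.card_univ, Fintype.card_fin, Finset.card_erase_of_mem (Finset.mem_univ j),
        Finset.card_univ, Fintype.card_fin]
      have hn : n + 1 = 2 + (n - 1) := by have := j.pos; omega
      rw [hn, pow_add]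
      have : z ^ 2 * (z⁻¹) ^ 2 = 1 := by rw [← mul_pow, mul_inv_cancel₀ hz, one_pow]
      calc z ^ 2 * z ^ (n - 1) * ((m j : ℂ) * ((z⁻¹) ^ 2 * ∏ k ∈ Finset.univ.erase j, (1 - (s k : ℂ) * z⁻¹)))
          = (z ^ 2 * (z⁻¹) ^ 2) * ((m j : ℂ) * (z ^ (n - 1) * ∏ k ∈ Finset.univ.erase j, (1 - (s k : ℂ) * z⁻¹))) := by
            ring
        _ = _ := by rw [this, one_mul]
  have hF : ∀ z : ℂ, 0 < z.im → 0 < ((∏ j, (z - (ρ j : ℂ))) / (∏ j, (z - (s j : ℂ)))).im := by
    intro z hzim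
    have hz0 : z ≠ 0 := by rintro rfl; simp at hzim
    have hne : ∀ j, z - (s j : ℂ) ≠ 0 := fun j => sub_ne hzim _
    have hprod : ∏ j, (z - (s j : ℂ)) ≠ 0 := Finset.prod_ne_zero_iff.mpr fun j _ => hne j
    have h2 : (∏ j, (z - (ρ j : ℂ))) / (∏ j, (z - (s j : ℂ)))
        = z - ∑ j, (m j : ℂ) * (z - (s j : ℂ))⁻¹ := by
      rw [hz z hz0, sub_div, mul_div_cancel_right₀ _ hprod, Finset.sum_div]
      congr 1
      refine Finset.sum_congr rfl fun j _ => ?_
      rw [← Finset.mul_prod_erase Finset.univ _ (Finset.mem_univ j)]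
      have h3 : ∏ k ∈ Finset.univ.erase j, (z - (s k : ℂ)) ≠ 0 :=
        Finset.prod_ne_zero_iff.mpr fun k _ => hne k
      field_simp [hne j]
    rw [h2, Complex.sub_im, Complex.im_sum]
    have h4 : ∀ j, ((m j : ℂ) * (z - (s j : ℂ))⁻¹).im ≤ 0 := by
      intro j
      rw [Complex.im_ofReal_mul, Complex.inv_im]
      have h5 : 0 ≤ z.im := hzim.le
      have h6 := Complex.normSq_nonneg (z - (s j : ℂ))
      have h7 : -(z - (s j : ℂ)).im / Complex.normSq (z - (s j : ℂ)) ≤ 0 := by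
        apply div_nonpos_of_nonpos_of_nonneg _ h6
        simp [h5]
      exact mul_nonpos_of_nonneg_of_nonpos (hm j) h7
    have h5 : ∑ j, ((m j : ℂ) * (z - (s j : ℂ))⁻¹).im ≤ 0 := Finset.sum_nonpos fun j _ => h4 j
    linarith
  have := pow_sum_le hF hR hρ hs hk
  linarith

end Crest.Agent.R109.Inter
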