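import Crest.Agent.R109.BallA
import Crest.Agent.R109.GN

/-!
# Row 109, GLUE: the global kernel of an operator over the spectrum of a masa

`m.K η T v w` is the kernel of `T ∈ M` on the orbit relation of `UN M A η` on `m.X`; in every orbit a
base point and, for every point, a group element moving the base point there is chosen, so that
there is no gauge ambiguity.
-/

set_option autoImplicit false
set_option linter.unusedSectionVars false
set_option linter.style.haveILetI false

namespace Crest.Agent.R109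

open scoped InnerProductSpace ComplexConjugate ComplexOrder
open ContinuousLinearMap

universe u

variable {H : Type u} [NormedAddCommGroup H] [InnerProductSpace ℂ H] [CompleteSpace H]
variable {M : VonNeumannAlgebra H} {A : StarSubalgebra ℂ (H →L[ℂ] H)} {η : H}

lemma UN.gnK (g : UN M A η) : GN M A g.op :=
  GN.of_unitary g.mem g.star_mul_self (fun _ ha => g.conj ha)
    (fun _ ha => g.conj' ha)

lemma UN.mem3 {T : H →L[ℂ] H} (hT : T ∈ M) (g k : UN M A η) : star g.op * T * k.op ∈ M :=
  mul_mem (mul_mem (star_mem g.mem) hT) k.mem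

namespace Model

variable (m : Model A)

section Orb

variable (M η)

/-- the base point of the orbit of `x` -/
noncomputable def base (x : m.X) : m.X :=
  Quotient.out (Quotient.mk (MulAction.orbitRel (UN M A η) m.X) x)

lemma base_rel (x : m.X) : ∃ g : UN M A η, g • m.base M η x = x := by
  have h : (MulAction.orbitRel (UN M A η) m.X) (m.base M η x) x :=
    Quotient.exact (Quotient.out_eq _)
  have h2 : x ∈ MulAction.orbit (UN M A η) (m.base M η x) :=
    (MulAction.orbitRel (UN M A η) m.X).symm h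
  exact h2

/-- the chosen group element moving the base point to `x` -/
noncomputable def sec (x : m.X) : UN M A η := (m.base_rel M η x).choose

lemma sec_smul (x : m.X) : m.sec M η x • m.base M η x = x := (m.base_rel M η x).choose_spec

variable {M η}

lemma base_smul (g : UN M A η) (x : m.X) : m.base M η (g • x) = m.base M η x := by
  unfold base
  have : (Quotient.mk (MulAction.orbitRel (UN M A η) m.X) (g • x)) = Quotient.mk _ x :=
    Quotient.sound (MulAction.mem_orbit _ _)
  rw [this]

lemma exists_smul_of_base {v w : m.X} (hvw : m.base M η v = m.base M η w) :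
    ∃ g : UN M A η, g • w = v := by
  refine ⟨m.sec M η v * (m.sec M η w)⁻¹, ?_⟩
  have h1 : (m.sec M η w)⁻¹ • w = m.base M η w := by
    rw [inv_smul_eq_iff]
    exact (m.sec_smul M η w).symm
  rw [mul_smul, h1, ← hvw, sec_smul]

/-- the stabiliser element attached to `g • w` -/
lemma stab (g : UN M A η) (w : m.X) :
    ((m.sec M η (g • w))⁻¹ * g * m.sec M η w) • m.base M η w = m.base M η w := by
  rw [mul_smul, mul_smul, sec_smul, ← m.base_smul g w]
  exact inv_smul_eq_iff.2 (m.sec_smul M η _).symm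

end Orb

section Basic

variable (h : NCE M A η)
include h

lemma cE_conj {T : H →L[ℂ] H} (hT : T ∈ M) (g : UN M A η) (x : m.X) :
    m.cE η (star g.op * T * g.op) x = m.cE η T (g • x) := by
  have h1 : m.cE η (star g.op * T * g.op) = m.al g (m.cE η T) := by
    apply m.inj
    rw [m.Φ_cE h (UN.mem3 hT g g), h.CE_conj' (UN.gnK g) hT, m.Φ_al, m.Φ_cE h hT]
  rw [h1, ← m.apply_smul]

lemma cE_mul_op {T : H →L[ℂ] H} (hT : T ∈ M) (g : UN M A η) {x : m.X} (hx : g • x = x) :
    m.cE η (T * g.op) x = m.cE η T x * m.cE η g.op x := by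
  have h1 := m.cE_mul_Φ h (m.ind (m.fixC g h.masa)) (mul_mem hT g.mem)
  have h2 := m.cE_mul_Φ h (m.cE η g.op) hT
  have h3 : T * g.op * m.Φ (m.ind (m.fixC g h.masa)) = T * m.Φ (m.cE η g.op) := by
    rw [m.cE_op g h, mul_assoc]; rfl
  rw [h3, h2] at h1
  have h4 := congrArg (fun k : C(m.X, ℂ) => k x) h1
  simp only [ContinuousMap.mul_apply] at h4
  rw [m.ind_of_mem ((m.mem_fixC g h.masa).2 hx), mul_one] at h4
  exact h4.symm

lemma cE_star_apply {T : H →L[ℂ] H} (hT : T ∈ M) (x : m.X) :
    m.cE η (star T) x = conj (m.cE η T x) := by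
  rw [m.cE_star h hT]; rfl

lemma cE_star_op_mul {T : H →L[ℂ] H} (hT : T ∈ M) (g : UN M A η) {x : m.X} (hx : g • x = x) :
    m.cE η (star g.op * T) x = conj (m.cE η g.op x) * m.cE η T x := by
  have e : star g.op * T = star (star T * g.op) := by rw [star_mul, star_star]
  rw [e, m.cE_star_apply h (mul_mem (star_mem hT) g.mem), m.cE_mul_op h (star_mem hT) g hx,
    map_mul, m.cE_star_apply h hT, Complex.conj_conj, mul_comm]

lemma cE_one (x : m.X) : m.cE η (1 : H →L[ℂ] H) x = 1 := by
  have := m.cE_Φ h 1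
  rw [map_one] at this
  rw [this]; rfl

lemma cE_of_mem {a : H →L[ℂ] H} (ha : a ∈ A) : m.cE η a = m.inv a := by
  unfold cE
  rw [h.CE_of_mem ha]

lemma norm_cE_apply_le {T : H →L[ℂ] H} (hT : T ∈ M) (x : m.X) : ‖m.cE η T x‖ ≤ ‖T‖ := by
  refine ((m.cE η T).norm_coe_le_norm x).trans ?_
  rw [← m.iso, m.Φ_cE h hT]
  exact h.norm_CE_le hT

end Basic

variable (M η) in
open Classical in
/-- the global kernel -/
noncomputable def K (T : H →L[ℂ] H) (v w : m.X) : ℂ :=
  if m.base M η v = m.base M η w then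
    m.cE η (star (m.sec M η v).op * T * (m.sec M η w).op) (m.base M η w) else 0

lemma K_of_eq {v w : m.X} (hvw : m.base M η v = m.base M η w) (T : H →L[ℂ] H) :
    m.K M η T v w = m.cE η (star (m.sec M η v).op * T * (m.sec M η w).op) (m.base M η w) :=
  if_pos hvw

lemma K_of_ne {v w : m.X} (hvw : m.base M η v ≠ m.base M η w) (T : H →L[ℂ] H) :
    m.K M η T v w = 0 := if_neg hvw

variable (h : NCE M A η)
include h

lemma K_star {T : H →L[ℂ] H} (hT : T ∈ M) (v w : m.X) :
    m.K M η (star T) v w = conj (m.K M η T w v) := by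
  by_cases hvw : m.base M η v = m.base M η w
  · rw [m.K_of_eq hvw, m.K_of_eq hvw.symm, hvw]
    have : star (m.sec M η v).op * star T * (m.sec M η w).op
        = star (star (m.sec M η w).op * T * (m.sec M η v).op) := by
      simp only [star_mul, star_star, mul_assoc]
    rw [this, m.cE_star_apply h (UN.mem3 hT _ _)]
  · rw [m.K_of_ne hvw, m.K_of_ne (Ne.symm hvw), map_zero]

lemma K_add {S T : H →L[ℂ] H} (hS : S ∈ M) (hT : T ∈ M) (v w : m.X) :
    m.K M η (S + T) v w = m.K M η S v w + m.K M η T v w := by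
  by_cases hvw : m.base M η v = m.base M η w
  · rw [m.K_of_eq hvw, m.K_of_eq hvw, m.K_of_eq hvw, mul_add, add_mul,
      m.cE_add h (UN.mem3 hS _ _) (UN.mem3 hT _ _)]
    rfl
  · rw [m.K_of_ne hvw, m.K_of_ne hvw, m.K_of_ne hvw, add_zero]

lemma K_smul {T : H →L[ℂ] H} (hT : T ∈ M) (c : ℂ) (v w : m.X) :
    m.K M η (c • T) v w = c * m.K M η T v w := by
  by_cases hvw : m.base M η v = m.base M η w
  · rw [m.K_of_eq hvw, m.K_of_eq hvw, mul_smul_comm, smul_mul_assoc,
      m.cE_smul h (UN.mem3 hT _ _)]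
    rfl
  · rw [m.K_of_ne hvw, m.K_of_ne hvw, mul_zero]

lemma K_neg {T : H →L[ℂ] H} (hT : T ∈ M) (v w : m.X) :
    m.K M η (-T) v w = -m.K M η T v w := by
  have := m.K_smul h hT (-1) v w
  simpa using this

lemma K_sub {S T : H →L[ℂ] H} (hS : S ∈ M) (hT : T ∈ M) (v w : m.X) :
    m.K M η (S - T) v w = m.K M η S v w - m.K M η T v w := by
  rw [sub_eq_add_neg, m.K_add h hS (neg_mem hT), m.K_neg h hT, sub_eq_add_neg]

lemma K_zero (v w : m.X) : m.K M η 0 v w = 0 := by
  have := m.K_smul h (zero_mem M) 0 v w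
  simpa using this

lemma K_sum {ι : Type*} (s : Finset ι) (f : ι → H →L[ℂ] H) (hf : ∀ i ∈ s, f i ∈ M) (v w : m.X) :
    m.K M η (∑ i ∈ s, f i) v w = ∑ i ∈ s, m.K M η (f i) v w := by
  classical
  induction s using Finset.induction_on with
  | empty => simp [m.K_zero h]
  | insert i s his ih =>
    rw [Finset.sum_insert his, Finset.sum_insert his,
      m.K_add h (hf i (Finset.mem_insert_self i s))
        (sum_mem fun j hj => hf j (Finset.mem_insert_of_mem hj)),
      ih fun j hj => hf j (Finset.mem_insert_of_mem hj)]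

lemma K_left {a T : H →L[ℂ] H} (ha : a ∈ A) (hT : T ∈ M) (v w : m.X) :
    m.K M η (a * T) v w = m.inv a v * m.K M η T v w := by
  by_cases hvw : m.base M η v = m.base M η w
  · rw [m.K_of_eq hvw, m.K_of_eq hvw]
    set g := m.sec M η v with hg
    set k := m.sec M η w
    have e : star g.op * (a * T) * k.op
        = m.Φ (m.inv (star g.op * a * g.op)) * (star g.op * T * k.op) := by
      rw [m.Φ_inv (g.conj' ha)]
      calc star g.op * (a * T) * k.op
          = star g.op * a * 1 * T * k.op := by simp only [mul_assoc, one_mul]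
        _ = _ := by rw [← g.mul_star_self]; simp only [mul_assoc]
    have e2 : m.inv (star g.op * a * g.op) (m.base M η w) = m.inv a v := by
      rw [← m.cE_of_mem h (g.conj' ha), m.cE_conj h (h.masa.memM ha), ← hvw, hg, m.sec_smul,
        m.cE_of_mem h ha]
    rw [e, m.cE_Φ_mul h _ (UN.mem3 hT _ _), ContinuousMap.mul_apply, e2]
  · rw [m.K_of_ne hvw, m.K_of_ne hvw, mul_zero]

lemma K_right {b T : H →L[ℂ] H} (hb : b ∈ A) (hT : T ∈ M) (v w : m.X) :
    m.K M η (T * b) v w = m.K M η T v w * m.inv b w := by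
  have hbM := h.masa.memM hb
  have h1 : m.K M η (T * b) v w = conj (m.K M η (star b * star T) w v) := by
    rw [← star_mul, m.K_star h (mul_mem hT hbM), Complex.conj_conj]
  have h2 : m.inv (star b) w = conj (m.inv b w) := by
    rw [← m.cE_of_mem h (star_mem hb), ← m.cE_of_mem h hb, m.cE_star_apply h hbM]
  rw [h1, m.K_left h (star_mem hb) (star_mem hT), m.K_star h hT, map_mul, Complex.conj_conj,
    h2, Complex.conj_conj, mul_comm]

lemma K_diag {T : H →L[ℂ] H} (hT : T ∈ M) (v : m.X) : m.K M η T v v = m.cE η T v := by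
  rw [m.K_of_eq rfl, m.cE_conj h hT, m.sec_smul]

/-- the phase of `g` at `w` -/
noncomputable def ph (_h : NCE M A η) (g : UN M A η) (w : m.X) : ℂ :=
  m.cE η ((m.sec M η (g • w))⁻¹ * g * m.sec M η w).op (m.base M η w)

lemma norm_ph (g : UN M A η) (w : m.X) : ‖m.ph h g w‖ = 1 := m.norm_cE_op _ h (m.stab g w)

lemma K_mul_op {T : H →L[ℂ] H} (hT : T ∈ M) (g : UN M A η) (v w : m.X) :
    m.K M η (T * g.op) v w = m.K M η T v (g • w) * m.ph h g w := by
  by_cases hvw : m.base M η v = m.base M η w
  · have hvw' : m.base M η v = m.base M η (g • w) := by rw [base_smul, hvw]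
    rw [m.K_of_eq hvw, m.K_of_eq hvw', base_smul]
    have e : star (m.sec M η v).op * (T * g.op) * (m.sec M η w).op
        = (star (m.sec M η v).op * T * (m.sec M η (g • w)).op)
          * ((m.sec M η (g • w))⁻¹ * g * m.sec M η w).op := by
      rw [UN.op_mul, UN.op_mul, UN.op_inv]
      calc star (m.sec M η v).op * (T * g.op) * (m.sec M η w).op
          = star (m.sec M η v).op * T * 1 * g.op * (m.sec M η w).op := by
            simp only [mul_assoc, one_mul]
        _ = _ := by rw [← (m.sec M η (g • w)).mul_star_self]; simp only [mul_assoc]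
    rw [e]
    exact m.cE_mul_op h (UN.mem3 hT _ _) _ (m.stab g w)
  · have hvw' : m.base M η v ≠ m.base M η (g • w) := by rw [base_smul]; exact hvw
    rw [m.K_of_ne hvw, m.K_of_ne hvw', zero_mul]

lemma K_one (v w : m.X) [Decidable (v = w)] : m.K M η 1 v w = if v = w then 1 else 0 := by
  by_cases hb : m.base M η v = m.base M η w
  · split_ifs with hvw
    · subst hvw
      rw [m.K_diag h (one_mem M), m.cE_one h]
    · have e : star (m.sec M η v).op * 1 * (m.sec M η w).op
          = ((m.sec M η v)⁻¹ * m.sec M η w).op := by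
        rw [mul_one, UN.op_mul, UN.op_inv]
      rw [m.K_of_eq hb, e]
      apply m.cE_op_of_ne _ h
      intro h2
      apply hvw
      rw [mul_smul, sec_smul, inv_smul_eq_iff, ← hb, sec_smul] at h2
      exact h2.symm
  · rw [m.K_of_ne hb, if_neg]
    rintro rfl
    exact hb rfl

lemma K_op (g : UN M A η) (v w : m.X) [Decidable (v = g • w)] :
    m.K M η g.op v w = if v = g • w then m.ph h g w else 0 := by
  have h1 := m.K_mul_op h (one_mem M) g v w
  rw [one_mul, m.K_one h] at h1
  rw [h1]
  split_ifs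
  · rw [one_mul]
  · rw [zero_mul]

/-- multiplicativity of the kernel when the right factor is `∑ a_i g_i` -/
theorem K_mul {ι : Type*} (s : Finset ι) (a : ι → H →L[ℂ] H) (g : ι → UN M A η)
    (ha : ∀ i ∈ s, a i ∈ A) {T : H →L[ℂ] H} (hT : T ∈ M) (v w : m.X) (F : Finset m.X)
    (hF : ∀ i ∈ s, g i • w ∈ F) :
    m.K M η (T * ∑ i ∈ s, a i * (g i).op) v w
      = ∑ x ∈ F, m.K M η T v x * m.K M η (∑ i ∈ s, a i * (g i).op) x w := by
  classical
  have haM : ∀ i ∈ s, a i * (g i).op ∈ M := fun i hi =>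
    mul_mem (h.masa.memM (ha i hi)) (g i).mem
  rw [Finset.mul_sum, m.K_sum h s _ fun i hi => mul_mem hT (haM i hi)]
  simp_rw [m.K_sum h s _ haM, Finset.mul_sum]
  rw [Finset.sum_comm]
  refine Finset.sum_congr rfl fun i hi => ?_
  rw [← mul_assoc, m.K_mul_op h (mul_mem hT (h.masa.memM (ha i hi))), m.K_right h (ha i hi) hT,
    Finset.sum_eq_single (g i • w)]
  · rw [m.K_left h (ha i hi) (g i).mem, m.K_op h, if_pos rfl]
    ring
  · intro x _ hx
    rw [m.K_left h (ha i hi) (g i).mem, m.K_op h, if_neg hx]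
    ring
  · intro hx
    exact absurd (hF i hi) hx

/-- band structure -/
theorem K_band {ι : Type*} (s : Finset ι) (a : ι → H →L[ℂ] H) (g : ι → UN M A η)
    (ha : ∀ i ∈ s, a i ∈ A) {v w : m.X} (hne : m.K M η (∑ i ∈ s, a i * (g i).op) v w ≠ 0) :
    ∃ i ∈ s, v = g i • w := by
  classical
  by_contra hcon
  push Not at hcon
  apply hne
  rw [m.K_sum h s _ fun i hi => mul_mem (h.masa.memM (ha i hi)) (g i).mem]
  refine Finset.sum_eq_zero fun i hi => ?_
  rw [m.K_left h (ha i hi) (g i).mem, m.K_op h, if_neg (hcon i hi), mul_zero]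

/-- **gauge**: on an orbit parametrised by group elements the kernel is, up to phases, a continuous
function of the base point -/
theorem K_gauge {T : H →L[ℂ] H} (hT : T ∈ M) (g k : UN M A η) (x : m.X) :
    m.K M η T (g • x) (k • x)
      = m.ph h g x * conj (m.ph h k x) * m.cE η (star g.op * T * k.op) x := by
  have hb : m.base M η (g • x) = m.base M η (k • x) := by rw [base_smul, base_smul]
  rw [m.K_of_eq hb, base_smul]
  set b := m.base M η x with hbd
  set s := m.sec M η x with hs
  set p := (m.sec M η (g • x))⁻¹ * g * s with hp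
  set q := (m.sec M η (k • x))⁻¹ * k * s with hq
  have e1 : m.sec M η (g • x) = g * s * p⁻¹ := by rw [hp]; group
  have e2 : m.sec M η (k • x) = k * s * q⁻¹ := by rw [hq]; group
  have hpb : p • b = b := m.stab g x
  have hqb : q • b = b := m.stab k x
  have hq' : q⁻¹ • b = b := by rw [inv_smul_eq_iff, hqb]
  have hp' : p⁻¹ • b = b := by rw [inv_smul_eq_iff, hpb]
  have e3 : star (m.sec M η (g • x)).op * T * (m.sec M η (k • x)).op
      = star (p⁻¹).op * ((star s.op * (star g.op * T * k.op) * s.op) * (q⁻¹).op) := by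
    rw [e1, e2]
    simp only [UN.op_mul, star_mul, mul_assoc]
  have hm1 : star g.op * T * k.op ∈ M := UN.mem3 hT g k
  rw [e3, m.cE_star_op_mul h (mul_mem (UN.mem3 hm1 s s) (q⁻¹).mem) _ hp',
    m.cE_mul_op h (UN.mem3 hm1 s s) _ hq', m.cE_conj h hm1, hs, hbd, m.sec_smul]
  have e4 : ∀ r : UN M A η, m.cE η (r⁻¹).op (m.base M η x) = conj (m.cE η r.op (m.base M η x)) := by
    intro r
    rw [UN.op_inv, m.cE_star_apply h r.mem]
  rw [e4, e4, Complex.conj_conj]
  have e5 : m.ph h g x = m.cE η p.op (m.base M η x) := rfl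
  have e6 : m.ph h k x = m.cE η q.op (m.base M η x) := rfl
  rw [e5, e6]
  ring

lemma norm_K_le {T : H →L[ℂ] H} (hT : T ∈ M) (v w : m.X) : ‖m.K M η T v w‖ ≤ ‖T‖ := by
  by_cases hb : m.base M η v = m.base M η w
  · rw [m.K_of_eq hb]
    refine (m.norm_cE_apply_le h (UN.mem3 hT _ _) _).trans ?_
    have hn : ∀ g : UN M A η, ‖g.op‖ ≤ 1 := fun g => (UN.gnK g).norm_le
    have hn' : ∀ g : UN M A η, ‖star g.op‖ ≤ 1 := fun g => by rw [norm_star]; exact hn g
    calc ‖star (m.sec M η v).op * T * (m.sec M η w).op‖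
        ≤ ‖star (m.sec M η v).op * T‖ * ‖(m.sec M η w).op‖ := norm_mul_le _ _
      _ ≤ (‖star (m.sec M η v).op‖ * ‖T‖) * 1 :=
          mul_le_mul (norm_mul_le _ _) (hn _) (norm_nonneg _) (by positivity)
      _ ≤ (1 * ‖T‖) * 1 := by
          gcongr
          exact hn' _
      _ = ‖T‖ := by ring
  · rw [m.K_of_ne hb, norm_zero]
    exact norm_nonneg _

/-- positivity of the kernel of a positive operator, quadratic form version -/
theorem K_quad_nonneg {T : H →L[ℂ] H} (hT : T ∈ M) (h0 : 0 ≤ T) (F : Finset m.X) (z : m.X → ℂ) :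
    0 ≤ ∑ v ∈ F, ∑ w ∈ F, conj (z v) * m.K M η T v w * z w := by
  classical
  -- restrict the inner sum to the orbit of `v`
  have h1 : ∀ v ∈ F, ∑ w ∈ F, conj (z v) * m.K M η T v w * z w
      = ∑ w ∈ F.filter (fun w => m.base M η w = m.base M η v),
        conj (z v) * m.K M η T v w * z w := by
    intro v _
    rw [Finset.sum_filter]
    refine Finset.sum_congr rfl fun w _ => ?_
    split_ifs with hw
    · rfl
    · rw [m.K_of_ne (Ne.symm hw), mul_zero, zero_mul]
  rw [Finset.sum_congr rfl h1,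
    ← Finset.sum_fiberwise_of_maps_to (s := F) (t := F.image (m.base M η)) (g := m.base M η)
      (fun v hv => Finset.mem_image_of_mem _ hv)]
  refine Finset.sum_nonneg fun b _ => ?_
  set Fb := F.filter (fun w => m.base M η w = b) with hFb
  have h2 : ∀ v ∈ Fb, ∑ w ∈ F.filter (fun w => m.base M η w = m.base M η v),
        conj (z v) * m.K M η T v w * z w
      = ∑ w ∈ Fb, conj (z v) * m.K M η T v w * z w := by
    intro v hv
    rw [(Finset.mem_filter.1 hv).2]
  rw [Finset.sum_congr rfl h2]
  set Y : H →L[ℂ] H := ∑ w ∈ Fb, z w • (m.sec M η w).op with hY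
  have hYM : Y ∈ M := sum_mem fun w _ => M.smul_mem (m.sec M η w).mem _
  have hpos : 0 ≤ m.cE η (star Y * T * Y) b :=
    m.cE_nonneg h (mul_mem (mul_mem (star_mem hYM) hT) hYM) (star_left_conjugate_nonneg h0 Y) b
  have h3 : star Y * T * Y
      = ∑ v ∈ Fb, ∑ w ∈ Fb, (conj (z v) * z w) •
        (star (m.sec M η v).op * T * (m.sec M η w).op) := by
    rw [hY, star_sum, Finset.sum_mul, Finset.sum_mul]
    refine Finset.sum_congr rfl fun v _ => ?_
    rw [Finset.mul_sum]
    refine Finset.sum_congr rfl fun w _ => ?_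
    rw [star_smul, smul_mul_assoc, smul_mul_assoc, mul_smul_comm, smul_smul]
    rfl
  have h4 : m.cE η (star Y * T * Y) b
      = ∑ v ∈ Fb, ∑ w ∈ Fb, conj (z v) * m.K M η T v w * z w := by
    rw [h3, m.cE_sum h _ fun v _ => sum_mem fun w _ => M.smul_mem (UN.mem3 hT _ _) _]
    rw [ContinuousMap.sum_apply]
    refine Finset.sum_congr rfl fun v hv => ?_
    rw [m.cE_sum h _ fun w _ => M.smul_mem (UN.mem3 hT _ _) _, ContinuousMap.sum_apply]
    refine Finset.sum_congr rfl fun w hw => ?_
    have hvb : m.base M η v = b := (Finset.mem_filter.1 hv).2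
    have hwb : m.base M η w = b := (Finset.mem_filter.1 hw).2
    rw [m.cE_smul h (UN.mem3 hT _ _), m.K_of_eq (hvb.trans hwb.symm), hwb]
    change (conj (z v) * z w) * _ = _
    ring
  rw [← h4]
  exact hpos

/-- positivity of the kernel of a positive operator, matrix version -/
theorem K_posSemidef {T : H →L[ℂ] H} (hT : T ∈ M) (h0 : 0 ≤ T) (F : Finset m.X) :
    (Matrix.of fun v w : F => m.K M η T v w).PosSemidef := by
  classical
  refine Matrix.PosSemidef.of_dotProduct_mulVec_nonneg ?_ ?_
  · ext v w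
    simp only [Matrix.conjTranspose_apply, Matrix.of_apply]
    have := m.K_star h hT (v : m.X) w
    rw [h0.isSelfAdjoint.star_eq] at this
    rw [this]; rfl
  · intro z
    have h1 := m.K_quad_nonneg h hT h0 F (fun v => if hv : v ∈ F then z ⟨v, hv⟩ else 0)
    have h2 : ∑ v ∈ F, ∑ w ∈ F, conj (if hv : v ∈ F then z ⟨v, hv⟩ else 0)
          * m.K M η T v w * (if hw : w ∈ F then z ⟨w, hw⟩ else 0)
        = star z ⬝ᵥ (Matrix.of fun v w : F => m.K M η T v w).mulVec z := by
      rw [← Finset.sum_coe_sort F (fun v => ∑ w ∈ F, conj (if hv : v ∈ F then z ⟨v, hv⟩ else 0)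
          * m.K M η T v w * (if hw : w ∈ F then z ⟨w, hw⟩ else 0))]
      rw [dotProduct]
      refine Finset.sum_congr rfl fun v _ => ?_
      rw [Matrix.mulVec, dotProduct, Finset.mul_sum,
        ← Finset.sum_coe_sort F (fun w => conj (if hv : (v : m.X) ∈ F then z ⟨v, hv⟩ else 0)
          * m.K M η T v w * (if hw : w ∈ F then z ⟨w, hw⟩ else 0))]
      refine Finset.sum_congr rfl fun w _ => ?_
      simp only [Finset.coe_mem, dite_true, Pi.star_apply, Matrix.of_apply]
      rw [mul_assoc]
      rfl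
    rw [← h2]
    exact h1

/-- the kernel of a self-adjoint contraction satisfies `-1 ≤ K ≤ 1` on every finite set -/
theorem K_le_one {T : H →L[ℂ] H} (hT : T ∈ M) (hsa : IsSelfAdjoint T) (hn : ‖T‖ ≤ 1)
    (F : Finset m.X) [DecidableEq m.X] :
    (1 - Matrix.of fun v w : F => m.K M η T v w).PosSemidef ∧
      (1 + Matrix.of fun v w : F => m.K M η T v w).PosSemidef := by
  have hT1 : T ≤ 1 := by
    refine hsa.le_algebraMap_norm_self.trans ?_
    rw [Algebra.algebraMap_eq_smul_one]
    calc ‖T‖ • (1 : H →L[ℂ] H) ≤ (1 : ℝ) • (1 : H →L[ℂ] H) :=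
          smul_le_smul_of_nonneg_right hn zero_le_one
      _ = 1 := one_smul _ _
  have hT2 : -T ≤ 1 := by
    have hsa' : IsSelfAdjoint (-T) := hsa.neg
    refine hsa'.le_algebraMap_norm_self.trans ?_
    rw [Algebra.algebraMap_eq_smul_one, norm_neg]
    calc ‖T‖ • (1 : H →L[ℂ] H) ≤ (1 : ℝ) • (1 : H →L[ℂ] H) :=
          smul_le_smul_of_nonneg_right hn zero_le_one
      _ = 1 := one_smul _ _
  have hone : (Matrix.of fun v w : F => m.K M η 1 v w) = 1 := by
    ext v w
    rw [Matrix.of_apply, m.K_one h, Matrix.one_apply]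
    simp only [Subtype.ext_iff]
  constructor
  · have h1 := m.K_posSemidef h (sub_mem (one_mem M) hT) (sub_nonneg.2 hT1) F
    have h2 : (Matrix.of fun v w : F => m.K M η (1 - T) v w)
        = 1 - Matrix.of fun v w : F => m.K M η T v w := by
      rw [← hone]
      ext v w
      simp only [Matrix.of_apply, Matrix.sub_apply]
      exact m.K_sub h (one_mem M) hT _ _
    rwa [h2] at h1
  · have h0 : 0 ≤ 1 + T := by
      have := sub_nonneg.2 hT2
      rwa [sub_neg_eq_add] at this
    have h1 := m.K_posSemidef h (add_mem (one_mem M) hT) h0 F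
    have h2 : (Matrix.of fun v w : F => m.K M η (1 + T) v w)
        = 1 + Matrix.of fun v w : F => m.K M η T v w := by
      rw [← hone]
      ext v w
      simp only [Matrix.of_apply, Matrix.add_apply]
      exact m.K_add h (one_mem M) hT _ _
    rwa [h2] at h1

end Model

end Crest.Agent.R109
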