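import Crest.Agent.R109.Kern
import Crest.Agent.R109.BookEnd

/-!
# Row 109, GLUE: measurability of gauge invariant expressions of the kernel
-/

set_option autoImplicit false
set_option linter.unusedSectionVars false

namespace Crest.Agent.R109

open scoped InnerProductSpace ComplexConjugate ComplexOrder
open ContinuousLinearMap MeasureTheory

universe u

variable {H : Type u} [NormedAddCommGroup H] [InnerProductSpace ℂ H] [CompleteSpace H]
variable {M : VonNeumannAlgebra H} {A : StarSubalgebra ℂ (H →L[ℂ] H)} {η : H}

namespace Model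

variable (m : Model A) (h : NCE M A η)
include h

/-- phases of two group elements with the same image point -/
lemma ph_mul_conj {g k : UN M A η} {x : m.X} (hgk : k • x = g • x) :
    m.ph h g x * conj (m.ph h k x) = m.cE η (k⁻¹ * g).op x := by
  set b := m.base M η x with hbd
  set s := m.sec M η x with hs
  set p := (m.sec M η (g • x))⁻¹ * g * s with hp
  set q := (m.sec M η (k • x))⁻¹ * k * s with hq
  have hpb : p • b = b := m.stab g x
  have hqb : q • b = b := m.stab k x
  have hq' : q⁻¹ • b = b := by rw [inv_smul_eq_iff, hqb]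
  have hkg : (k⁻¹ * g) • x = x := by rw [mul_smul, ← hgk, inv_smul_smul]
  have e1 : q⁻¹ * p = s⁻¹ * (k⁻¹ * g) * s := by
    rw [hp, hq, hgk]; group
  have e5 : m.ph h g x = m.cE η p.op b := rfl
  have e6 : m.ph h k x = m.cE η q.op b := rfl
  have e7 : conj (m.cE η q.op b) * m.cE η p.op b = m.cE η (q⁻¹ * p).op b := by
    have h1 : (q⁻¹ * p).op = star q.op * p.op := rfl
    rw [h1]
    exact (m.cE_star_op_mul h p.mem q hqb).symm
  rw [e5, e6, mul_comm, e7, e1]
  have e8 : (s⁻¹ * (k⁻¹ * g) * s).op = star s.op * (k⁻¹ * g).op * s.op := rfl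
  rw [e8, m.cE_conj h (k⁻¹ * g).mem, hbd, hs, m.sec_smul]

/-- the product of continuous entries along a walk -/
noncomputable def wcont (_h : NCE M A η) (T : H →L[ℂ] H) : UN M A η → List (UN M A η) → C(m.X, ℂ)
  | _, [] => 1
  | g, k :: l => m.cE η (star g.op * T * k.op) * wcont _h T k l

lemma wprod_eq {T : H →L[ℂ] H} (hT : T ∈ M) (g : UN M A η) (l : List (UN M A η)) (v : m.X) :
    Book.wprod (fun _ => m.K M η T) v g l
      = m.ph h g v * conj (m.ph h (Book.wend g l) v) * m.wcont h T g l v := by
  have hph : ∀ k : UN M A η, m.ph h k v * conj (m.ph h k v) = 1 := by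
    intro k
    rw [Complex.mul_conj, Complex.normSq_eq_norm_sq, m.norm_ph h]
    simp
  induction l generalizing g with
  | nil =>
    simp only [Book.wprod, Book.wend, wcont, ContinuousMap.one_apply, mul_one]
    exact (hph g).symm
  | cons k l ih =>
    simp only [Book.wprod, Book.wend, wcont, ContinuousMap.mul_apply]
    rw [ih k, m.K_gauge h hT]
    have := hph k
    calc m.ph h g v * conj (m.ph h k v) * m.cE η (star g.op * T * k.op) v *
          (m.ph h k v * conj (m.ph h (Book.wend k l) v) * m.wcont h T k l v)
        = (m.ph h k v * conj (m.ph h k v)) * (m.ph h g v * conj (m.ph h (Book.wend k l) v) *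
          (m.cE η (star g.op * T * k.op) v * m.wcont h T k l v)) := by ring
      _ = _ := by rw [this, one_mul]

/-- closed walk products of the kernel are measurable -/
theorem K_CW [MeasurableSpace m.X] (hmeas : ∀ f : C(m.X, ℂ), Measurable f) {T : H →L[ℂ] H}
    (hT : T ∈ M) : Book.CW (UN M A η) (fun _ => m.K M η T) := by
  classical
  intro g l
  have h1 : (fun v => if Book.wend g l • v = g • v then
        Book.wprod (fun _ => m.K M η T) v g l else 0)
      = fun v => (m.ind ⟨_, m.isClopen_eq (Book.wend g l) g h.masa⟩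
          * (m.cE η ((Book.wend g l)⁻¹ * g).op * m.wcont h T g l) : C(m.X, ℂ)) v := by
    funext v
    simp only [ContinuousMap.mul_apply]
    split_ifs with hv
    · rw [m.ind_of_mem (show v ∈ (⟨_, m.isClopen_eq (Book.wend g l) g h.masa⟩ :
        TopologicalSpace.Clopens m.X) from hv), one_mul, m.wprod_eq h hT, m.ph_mul_conj h hv]
    · rw [m.ind_of_notMem (show v ∉ (⟨_, m.isClopen_eq (Book.wend g l) g h.masa⟩ :
        TopologicalSpace.Clopens m.X) from hv), zero_mul]
  rw [h1]
  exact hmeas _

end Model

end Crest.Agent.R109
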