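import Crest.Agent.R109.L0Gns
import Mathlib.Analysis.InnerProductSpace.ProdL2

/-!
# Row 109, part without normal expectation: density when there is no intertwiner
-/

set_option autoImplicit false
set_option linter.unusedSectionVars false

namespace Crest.Agent.R109.L0

open scoped InnerProductSpace ComplexOrder
open ContinuousLinearMap Crest.Agent.R124

universe u

noncomputable section

variable {H : Type u} [NormedAddCommGroup H] [InnerProductSpace ℂ H] [CompleteSpace H]
variable {K : Type u} [NormedAddCommGroup K] [InnerProductSpace ℂ K] [CompleteSpace K]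
variable {C : Type u} [CStarAlgebra C]
variable {ι : C →⋆ₐ[ℂ] (H →L[ℂ] H)} {π : C →⋆ₐ[ℂ] (K →L[ℂ] K)}

/-- If there is no nonzero intertwiner, one element is `≈ 0` at `v` and `≈ 1` at `w`. -/
lemma exists_sep (hno : ∀ B : H →L[ℂ] K, Int ι π B → B = 0) (v : H) (w : K) {ε : ℝ} (hε : 0 < ε) :
    ∃ c : C, ‖ι c v‖ < ε ∧ ‖π c w - w‖ < ε := by
  let E := WithLp 2 (H × K)
  let e : E ≃L[ℂ] H × K := WithLp.prodContinuousLinearEquiv 2 ℂ H K
  let F : C →ₗ[ℂ] E :=
    { toFun := fun c => e.symm (ι c v, π c w)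
      map_add' := fun a b => by
        rw [← map_add]; simp
      map_smul' := fun a b => by
        rw [RingHom.id_apply, ← map_smul]; simp }
  let N0 : Submodule ℂ E := LinearMap.range F
  let N : Submodule ℂ E := N0.topologicalClosure
  have : CompleteSpace N := N0.isClosed_topologicalClosure.completeSpace_coe
  let R : C → E →L[ℂ] E := fun c => (e.symm : (H × K) →L[ℂ] E) ∘L ((ι c).prodMap (π c)) ∘L (e : E →L[ℂ] H × K)
  have hR : ∀ c x, R c x = e.symm (ι c (e x).1, π c (e x).2) := fun c x => rfl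
  have hinner : ∀ x y : E, ⟪x, y⟫_ℂ = ⟪(e x).1, (e y).1⟫_ℂ + ⟪(e x).2, (e y).2⟫_ℂ := fun x y =>
    WithLp.prod_inner_apply x y
  have hRadj : ∀ c x y, ⟪R c x, y⟫_ℂ = ⟪x, R (star c) y⟫_ℂ := by
    intro c x y
    rw [hinner, hinner, hR, hR]
    simp only [ContinuousLinearEquiv.apply_symm_apply]
    rw [inner_rep, inner_rep]
  have hinv : ∀ c, ∀ x ∈ N, R c x ∈ N := by
    intro c x hx
    have h1 : Set.MapsTo (R c) (N0 : Set E) (N0 : Set E) := by
      rintro _ ⟨d, rfl⟩
      refine ⟨c * d, ?_⟩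
      change e.symm (ι (c * d) v, π (c * d) w) = R c (e.symm (ι d v, π d w))
      rw [hR]
      simp only [ContinuousLinearEquiv.apply_symm_apply, map_mul]
      rfl
    exact h1.closure (R c).continuous hx
  have hcomm : ∀ c x, N.starProjection (R c x) = R c (N.starProjection x) := by
    intro c x
    refine N.eq_starProjection_of_mem_orthogonal (hinv c _ (N.starProjection_apply_mem x)) ?_
    rw [← map_sub, Submodule.mem_orthogonal]
    intro y hy
    have h2 := N.sub_starProjection_mem_orthogonal x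
    rw [Submodule.mem_orthogonal] at h2
    have h3 := h2 _ (hinv (star c) y hy)
    rw [hRadj, star_star] at h3
    exact h3
  let B : H →L[ℂ] K := (ContinuousLinearMap.snd ℂ H K) ∘L (e : E →L[ℂ] H × K) ∘L
    N.starProjection ∘L (e.symm : (H × K) →L[ℂ] E) ∘L (ContinuousLinearMap.inl ℂ H K)
  have hBapp : ∀ h, B h = (e (N.starProjection (e.symm (h, 0)))).2 := fun h => rfl
  have hB : Int ι π B := by
    intro c h
    rw [hBapp, hBapp]
    have h1 : e.symm (ι c h, (0 : K)) = R c (e.symm (h, 0)) := by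
      rw [hR]; simp
    rw [h1, hcomm, hR]
    simp
  have hB0 := hno B hB
  have hs : ∀ h, (e (N.starProjection (e.symm (h, 0)))).2 = 0 := by
    intro h
    rw [← hBapp, hB0]; rfl
  have hf : ∀ k, (e (N.starProjection (e.symm (0, k)))).1 = 0 := by
    intro k
    refine ext_inner_right ℂ (fun h => ?_)
    have h1 : ⟪N.starProjection (e.symm (0, k)), e.symm (h, 0)⟫_ℂ
        = ⟪e.symm (0, k), N.starProjection (e.symm (h, 0))⟫_ℂ :=
      N.inner_starProjection_left_eq_right _ _
    rw [hinner, hinner, hs] at h1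
    simpa using h1
  have hmem : e.symm (v, w) ∈ N := by
    refine N0.le_topologicalClosure ⟨1, ?_⟩
    change e.symm (ι 1 v, π 1 w) = _
    simp
  have hP : N.starProjection (e.symm (v, w)) = e.symm (v, w) :=
    Submodule.starProjection_eq_self_iff.2 hmem
  have hdec : e.symm (v, w) = e.symm (v, 0) + e.symm (0, w) := by
    rw [← map_add]; simp
  have h0w : N.starProjection (e.symm (0, w)) = e.symm (0, w) := by
    apply e.injective
    refine Prod.ext ?_ ?_
    · rw [hf]; simp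
    · have h1 := congrArg (fun x => (e x).2) hP
      rw [hdec, map_add, map_add, map_add, Prod.snd_add, Prod.snd_add, hs] at h1
      simpa using h1
  have hcl : e.symm (0, w) ∈ closure (N0 : Set E) := by
    rw [← h0w]
    exact N.starProjection_apply_mem _
  rw [Metric.mem_closure_iff] at hcl
  obtain ⟨_, ⟨c, rfl⟩, hc⟩ := hcl ε hε
  rw [dist_comm, dist_eq_norm] at hc
  have h1 : F c - e.symm (0, w) = e.symm (ι c v, π c w - w) := by
    change e.symm (ι c v, π c w) - _ = _
    rw [← map_sub]; simp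
  rw [h1] at hc
  have h2 : ‖e.symm (ι c v, π c w - w)‖ ^ 2 = ‖ι c v‖ ^ 2 + ‖π c w - w‖ ^ 2 :=
    WithLp.prod_norm_sq_eq_of_L2 _
  refine ⟨c, ?_, ?_⟩
  · refine lt_of_le_of_lt ?_ hc
    refine le_of_sq_le_sq ?_ (norm_nonneg _)
    rw [h2]; nlinarith [sq_nonneg ‖π c w - w‖]
  · refine lt_of_le_of_lt ?_ hc
    refine le_of_sq_le_sq ?_ (norm_nonneg _)
    rw [h2]; nlinarith [sq_nonneg ‖ι c v‖]

/-- closure of a real subspace by duality -/
lemma mem_closure_of_real {E : Type u} [NormedAddCommGroup E] [InnerProductSpace ℂ E]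
    [CompleteSpace E] (Q : Set E) (h0 : (0 : E) ∈ Q) (hadd : ∀ x ∈ Q, ∀ y ∈ Q, x + y ∈ Q)
    (hsmul : ∀ (t : ℝ), ∀ x ∈ Q, (t : ℂ) • x ∈ Q) (z : E)
    (h : ∀ y, (∀ q ∈ Q, (⟪y, q⟫_ℂ).re = 0) → (⟪y, z⟫_ℂ).re = 0) : z ∈ closure Q := by
  let _ : InnerProductSpace ℝ E := InnerProductSpace.rclikeToReal ℂ E
  let N0 : Submodule ℝ E :=
    { carrier := Q
      add_mem' := fun {x y} hx hy => hadd x hx y hy
      zero_mem' := h0
      smul_mem' := fun t x hx => hsmul t x hx }
  let N : Submodule ℝ E := N0.topologicalClosure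
  have : CompleteSpace N := N0.isClosed_topologicalClosure.completeSpace_coe
  change z ∈ N
  rw [← N.orthogonal_orthogonal, Submodule.mem_orthogonal]
  intro y hy
  rw [Submodule.mem_orthogonal] at hy
  refine h y (fun q hq => ?_)
  have h1 := hy q (N0.le_topologicalClosure hq)
  have h2 : (⟪q, y⟫_ℂ).re = 0 := h1
  rw [← inner_conj_symm, Complex.conj_re]
  exact h2

/-- If there is no nonzero intertwiner, one element has adjoint `≈ 0` at `v` and is `≈ 1` at
`w`. -/
lemma exists_sep_star (hno : ∀ B : H →L[ℂ] K, Int ι π B → B = 0) (v : H) (w : K) {ε : ℝ}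
    (hε : 0 < ε) : ∃ c : C, ‖ι (star c) v‖ < ε ∧ ‖π c w - w‖ < ε := by
  let E := WithLp 2 (H × K)
  let e : E ≃L[ℂ] H × K := WithLp.prodContinuousLinearEquiv 2 ℂ H K
  have hinner : ∀ x y : E, ⟪x, y⟫_ℂ = ⟪(e x).1, (e y).1⟫_ℂ + ⟪(e x).2, (e y).2⟫_ℂ := fun x y =>
    WithLp.prod_inner_apply x y
  let F : C → E := fun c => e.symm (ι (star c) v, π c w)
  have key : e.symm (0, w) ∈ closure (Set.range F) := by
    refine mem_closure_of_real (Set.range F) ⟨(0 : C), by simp [F]⟩ ?_ ?_ _ ?_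
    · rintro _ ⟨a, rfl⟩ _ ⟨b, rfl⟩
      refine ⟨a + b, ?_⟩
      simp only [F]
      rw [← map_add]; simp
    · rintro t _ ⟨a, rfl⟩
      refine ⟨(t : ℂ) • a, ?_⟩
      simp only [F]
      rw [← map_smul, star_smul, Complex.star_def, Complex.conj_ofReal, map_smul, map_smul]
      rfl
    · intro y hy
      set a := (e y).1 with ha
      set b := (e y).2 with hb
      have h1 : ∀ c, (⟪a, ι (star c) v⟫_ℂ + ⟪b, π c w⟫_ℂ).re = 0 := by
        intro c
        have := hy _ ⟨c, rfl⟩
        rw [hinner] at this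
        simpa [F] using this
      have h2 : ∀ c, ⟪v, ι c a⟫_ℂ + ⟪b, π c w⟫_ℂ = 0 := by
        intro c
        have e1 := h1 c
        have e2 := h1 (Complex.I • c)
        rw [star_smul, map_smul, map_smul, smul_apply, smul_apply, inner_smul_right,
          inner_smul_right] at e2
        have e3 : ⟪v, ι c a⟫_ℂ = (starRingEnd ℂ) ⟪a, ι (star c) v⟫_ℂ := by
          rw [inner_conj_symm, inner_rep, star_star]
        rw [e3]
        simp only [Complex.add_re, Complex.mul_re, RCLike.star_def, Complex.conj_I, Complex.neg_re,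
          Complex.neg_im, Complex.I_re, Complex.I_im] at e1 e2
        apply Complex.ext
        · simp only [Complex.add_re, Complex.conj_re, Complex.zero_re]; exact e1
        · simp only [Complex.add_im, Complex.conj_im, Complex.zero_im]; linarith
      have h3 : ⟪b, w⟫_ℂ = 0 := by
        by_contra hne
        have hpos : 0 < ‖⟪b, w⟫_ℂ‖ := norm_pos_iff.2 hne
        obtain ⟨c, hc1, hc2⟩ := exists_sep hno a w
          (ε := ‖⟪b, w⟫_ℂ‖ / (‖v‖ + ‖b‖ + 1)) (by positivity)
        have e4 : ⟪b, w⟫_ℂ = - ⟪v, ι c a⟫_ℂ - ⟪b, π c w - w⟫_ℂ := by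
          rw [inner_sub_right]
          linear_combination h2 c
        have e5 : ‖⟪b, w⟫_ℂ‖ ≤ ‖v‖ * ‖ι c a‖ + ‖b‖ * ‖π c w - w‖ := by
          conv_lhs => rw [e4]
          refine (norm_sub_le _ _).trans ?_
          rw [norm_neg]
          exact add_le_add (norm_inner_le_norm _ _) (norm_inner_le_norm _ _)
        have e6 : ‖v‖ * ‖ι c a‖ + ‖b‖ * ‖π c w - w‖
            ≤ (‖v‖ + ‖b‖) * (‖⟪b, w⟫_ℂ‖ / (‖v‖ + ‖b‖ + 1)) := by
          rw [add_mul]
          gcongr
        have e7 : (‖v‖ + ‖b‖) * (‖⟪b, w⟫_ℂ‖ / (‖v‖ + ‖b‖ + 1)) < ‖⟪b, w⟫_ℂ‖ := by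
          rw [mul_div_assoc', div_lt_iff₀ (by positivity)]
          nlinarith
        linarith
      rw [hinner]
      simp [h3, ← hb]
  rw [Metric.mem_closure_iff] at key
  obtain ⟨_, ⟨c, rfl⟩, hc⟩ := key ε hε
  rw [dist_comm, dist_eq_norm] at hc
  have h1 : F c - e.symm (0, w) = e.symm (ι (star c) v, π c w - w) := by
    simp only [F]
    rw [← map_sub]; simp
  rw [h1] at hc
  have h2 : ‖e.symm (ι (star c) v, π c w - w)‖ ^ 2 = ‖ι (star c) v‖ ^ 2 + ‖π c w - w‖ ^ 2 :=
    WithLp.prod_norm_sq_eq_of_L2 _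
  refine ⟨c, ?_, ?_⟩
  · refine lt_of_le_of_lt ?_ hc
    refine le_of_sq_le_sq ?_ (norm_nonneg _)
    rw [h2]; nlinarith [sq_nonneg ‖π c w - w‖]
  · refine lt_of_le_of_lt ?_ hc
    refine le_of_sq_le_sq ?_ (norm_nonneg _)
    rw [h2]; nlinarith [sq_nonneg ‖ι (star c) v‖]

end

end Crest.Agent.R109.L0
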