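import Crest.Agent.R109.L0Dens

/-!
# Row 109, part without normal expectation: a positive contraction small at a vector
-/

set_option autoImplicit false
set_option linter.unusedSectionVars false

namespace Crest.Agent.R109.L0

open scoped InnerProductSpace ComplexOrder
open ContinuousLinearMap Crest.Agent.R124

universe u

noncomputable section

variable {H : Type u} [NormedAddCommGroup H] [InnerProductSpace ℂ H] [CompleteSpace H]
variable {C : Type u} [CStarAlgebra C] [PartialOrder C] [StarOrderedRing C]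
variable {ι : C →⋆ₐ[ℂ] (H →L[ℂ] H)} (f : C →ₚ[ℂ] ℂ)

lemma f_eq (c : C) : f c = ⟪gnsVec f, f.gnsStarAlgHom c (gnsVec f)⟫_ℂ := by
  rw [gns_vec, gnsVec, UniformSpace.Completion.inner_coe, f.preGNS_inner_def]
  simp

lemma norm_f_le (c : C) : ‖f c‖ ≤ ‖gnsVec f‖ * ‖f.gnsStarAlgHom c (gnsVec f)‖ := by
  rw [f_eq]; exact norm_inner_le_norm _ _

lemma exists_resolvent (y : C) (hy : 0 ≤ y) {s : ℝ} (hs : 0 < s) :
    ∃ r : C, 0 ≤ r ∧ r ≤ 1 ∧ 1 - r ≤ (s ^ 2) • y ∧ star r = r ∧ ‖r * y * r‖ ≤ (s⁻¹) ^ 2 := by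
  have hysa : IsSelfAdjoint y := hy.isSelfAdjoint
  have hspec : ∀ t ∈ spectrum ℝ y, 0 ≤ t := fun t ht => spectrum_nonneg_of_nonneg hy ht
  set F : ℝ → ℝ := fun t => (1 + s ^ 2 * |t|)⁻¹ with hF
  have hden : ∀ t : ℝ, 0 < 1 + s ^ 2 * |t| := fun t => by positivity
  have hFc : Continuous F := by
    refine Continuous.inv₀ (by fun_prop) (fun t => (hden t).ne')
  refine ⟨cfc F y, ?_, ?_, ?_, ?_, ?_⟩
  · exact cfc_nonneg (fun t _ => (inv_pos.2 (hden t)).le)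
  · refine cfc_le_one _ _ (fun t _ => ?_)
    refine inv_le_one_of_one_le₀ ?_
    have : 0 ≤ s ^ 2 * |t| := by positivity
    linarith
  · have h1 : (1 : C) - cfc F y = cfc (fun t => 1 - F t) y := by
      rw [cfc_sub (fun _ => (1 : ℝ)) F y (by fun_prop) hFc.continuousOn, cfc_const_one ℝ y]
    have h2 : (s ^ 2) • y = cfc (fun t => s ^ 2 * t) y := by
      rw [cfc_const_mul_id (s ^ 2) y]
    rw [h1, h2]
    refine cfc_mono (fun t ht => ?_) (by fun_prop) (by fun_prop)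
    have ht0 := hspec t ht
    simp only [hF, abs_of_nonneg ht0]
    have h3 : 0 < 1 + s ^ 2 * t := by positivity
    have h4 := mul_inv_cancel₀ h3.ne'
    have h5 : 0 ≤ s ^ 2 * t := by positivity
    have h6 : 0 < (1 + s ^ 2 * t)⁻¹ := inv_pos.2 h3
    nlinarith
  · exact (IsSelfAdjoint.cfc (f := F) (a := y)).star_eq
  · have h1 : cfc F y * y * cfc F y = cfc (fun t => F t * t * F t) y := by
      rw [cfc_mul (fun t => F t * t) F y (by fun_prop) hFc.continuousOn,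
        cfc_mul F (fun t => t) y hFc.continuousOn (by fun_prop), cfc_id' ℝ y]
    rw [h1]
    refine norm_cfc_le (by positivity) (fun t ht => ?_)
    have ht0 := hspec t ht
    simp only [hF, abs_of_nonneg ht0]
    have h3 : 0 < 1 + s ^ 2 * t := by positivity
    have h5 : 0 ≤ s ^ 2 * t := by positivity
    rw [Real.norm_of_nonneg (by positivity)]
    have h6 : (1 + s ^ 2 * t)⁻¹ * t * (1 + s ^ 2 * t)⁻¹ = t / (1 + s ^ 2 * t) ^ 2 := by
      field_simp
    rw [h6, div_le_iff₀ (by positivity), inv_pow, ← div_eq_inv_mul, le_div_iff₀ (by positivity)]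
    nlinarith

/-- If there is no nonzero intertwiner, there is a positive contraction which is small at `ξ`
and close to one for the functional. -/
theorem exists_g (hno : ∀ B : H →L[ℂ] f.GNS, Int ι f.gnsStarAlgHom B → B = 0) (ξ : H) {κ : ℝ}
    (hκ : 0 < κ) : ∃ r : C, 0 ≤ r ∧ r ≤ 1 ∧ (⟪ι (1 - r) ξ, ξ⟫_ℂ).re ≤ κ ∧ (f r).re ≤ κ := by
  set Ω : f.GNS := gnsVec f with hΩ
  set s : ℝ := 2 * (‖Ω‖ ^ 2 + 1) / κ with hs
  have hs0 : 0 < s := by positivity
  set ε : ℝ := min (κ / (2 * (‖Ω‖ + 1))) (√κ / s) with hε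
  have hε0 : 0 < ε := lt_min (by positivity) (by positivity)
  obtain ⟨c, hc1, hc2⟩ := exists_sep_star hno ξ Ω hε0
  obtain ⟨r, hr0, hr1, hr2, hr3, hr4⟩ := exists_resolvent (c * star c) (mul_star_self_nonneg c) hs0
  refine ⟨r, hr0, hr1, ?_, ?_⟩
  · have h1 : (0 : H →L[ℂ] H) ≤ ι ((s ^ 2) • (c * star c) - (1 - r)) :=
      map_nonneg ι (sub_nonneg.2 hr2)
    have h2 := ((nonneg_iff_isPositive _).1 h1).re_inner_nonneg_left ξ
    have e1 : ι ((s ^ 2) • (c * star c) - (1 - r)) ξ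
        = ((s ^ 2 : ℝ) : ℂ) • ι c (ι (star c) ξ) - ι (1 - r) ξ := by
      rw [map_sub, sub_apply, show ((s ^ 2) • (c * star c) : C) = ((s ^ 2 : ℝ) : ℂ) • (c * star c)
        from (Complex.coe_smul _ _).symm, map_smul, smul_apply, map_mul]
      rfl
    rw [e1, inner_sub_left, inner_smul_left, inner_rep] at h2
    have e2 : ⟪ι (star c) ξ, ι (star c) ξ⟫_ℂ = ((‖ι (star c) ξ‖ ^ 2 : ℝ) : ℂ) := by
      rw [inner_self_eq_norm_sq_to_K]; norm_cast
    rw [e2, Complex.conj_ofReal, ← Complex.ofReal_mul, map_sub, RCLike.re_eq_complex_re,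
      Complex.ofReal_re] at h2
    have h3 : ‖ι (star c) ξ‖ ≤ √κ / s := hc1.le.trans (min_le_right _ _)
    have h4 : s ^ 2 * ‖ι (star c) ξ‖ ^ 2 ≤ κ := by
      have h5 : s * ‖ι (star c) ξ‖ ≤ √κ := by
        rw [le_div_iff₀ hs0] at h3; linarith
      have h6 : (s * ‖ι (star c) ξ‖) ^ 2 ≤ √κ ^ 2 := by gcongr
      rw [Real.sq_sqrt hκ.le, mul_pow] at h6
      exact h6
    linarith
  · have h1 : (f r).re ≤ ‖Ω‖ * ‖f.gnsStarAlgHom r Ω‖ :=
      (Complex.re_le_norm _).trans (norm_f_le f r)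
    have e1 : f.gnsStarAlgHom r Ω
        = f.gnsStarAlgHom (r * c) Ω - f.gnsStarAlgHom r (f.gnsStarAlgHom c Ω - Ω) := by
      rw [map_sub, gns_mul]; abel
    have h2 : ‖f.gnsStarAlgHom (r * c) Ω‖ ≤ s⁻¹ * ‖Ω‖ := by
      refine ((f.gnsStarAlgHom (r * c)).le_opNorm Ω).trans ?_
      gcongr
      refine (starHom_norm_le f.gnsStarAlgHom (r * c)).trans ?_
      have h3 : ‖(r * c) * star (r * c)‖ = ‖r * c‖ * ‖r * c‖ := CStarRing.norm_self_mul_star
      have h4 : (r * c) * star (r * c) = r * (c * star c) * r := by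
        rw [star_mul, hr3]; noncomm_ring
      rw [h4] at h3
      rw [h3] at hr4
      have h5 : 0 < s⁻¹ := inv_pos.2 hs0
      nlinarith [norm_nonneg (r * c)]
    have h3 : ‖f.gnsStarAlgHom r (f.gnsStarAlgHom c Ω - Ω)‖ ≤ ε := by
      refine ((f.gnsStarAlgHom r).le_opNorm _).trans ?_
      have h4 : ‖f.gnsStarAlgHom r‖ ≤ 1 :=
        (starHom_norm_le f.gnsStarAlgHom r).trans
          ((CStarAlgebra.norm_le_one_iff_of_nonneg r hr0).2 hr1)
      have h5 := hc2.le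
      have h6 := norm_nonneg (f.gnsStarAlgHom c Ω - Ω)
      nlinarith [norm_nonneg (f.gnsStarAlgHom r)]
    have h4 : ‖f.gnsStarAlgHom r Ω‖ ≤ s⁻¹ * ‖Ω‖ + ε := by
      rw [e1]
      exact (norm_sub_le _ _).trans (add_le_add h2 h3)
    have h5 : ‖Ω‖ * (s⁻¹ * ‖Ω‖) ≤ κ / 2 := by
      have h6 : ‖Ω‖ * (s⁻¹ * ‖Ω‖) = ‖Ω‖ ^ 2 * κ / (2 * (‖Ω‖ ^ 2 + 1)) := by
        rw [hs]; field_simp
      rw [h6, div_le_iff₀ (by positivity)]
      nlinarith [sq_nonneg ‖Ω‖]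
    have h6 : ‖Ω‖ * ε ≤ κ / 2 := by
      calc ‖Ω‖ * ε ≤ ‖Ω‖ * (κ / (2 * (‖Ω‖ + 1))) := by
            gcongr; exact min_le_left _ _
        _ ≤ κ / 2 := by
            rw [mul_div_assoc', div_le_iff₀ (by positivity)]
            nlinarith [norm_nonneg Ω]
    calc (f r).re ≤ ‖Ω‖ * ‖f.gnsStarAlgHom r Ω‖ := h1
      _ ≤ ‖Ω‖ * (s⁻¹ * ‖Ω‖ + ε) := by gcongr
      _ ≤ κ := by rw [mul_add]; linarith

end

end Crest.Agent.R109.L0
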