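import Crest.Agent.R109.L0Vec

/-!
# Row 109, part without normal expectation: central vectors from intertwiners
-/

set_option autoImplicit false
set_option linter.unusedSectionVars false

namespace Crest.Agent.R109.L0

open scoped InnerProductSpace ComplexOrder
open ContinuousLinearMap Crest.Agent.R124

universe u

noncomputable section

variable {H : Type u} [NormedAddCommGroup H] [InnerProductSpace ℂ H] [CompleteSpace H]

variable {C : Type u} [CStarAlgebra C] [PartialOrder C] [StarOrderedRing C]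
variable (f : C →ₚ[ℂ] ℂ)

lemma gns_vec (c : C) :
    f.gnsStarAlgHom c (gnsVec f) = ((f.toPreGNS c : f.PreGNS) : f.GNS) := by
  have h1 : f.gnsStarAlgHom c (gnsVec f)
      = ((f.leftMulMapPreGNS c (f.toPreGNS 1) : f.PreGNS) : f.GNS) :=
    f.gnsNonUnitalStarAlgHom_apply_coe
  rw [h1]
  simp

lemma gns_mul (a b : C) (v : f.GNS) :
    f.gnsStarAlgHom (a * b) v = f.gnsStarAlgHom a (f.gnsStarAlgHom b v) := by
  rw [map_mul]; rfl

lemma gns_one (v : f.GNS) : f.gnsStarAlgHom 1 v = v := by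
  rw [map_one]; rfl

lemma norm_gns_vec_sq (c : C) :
    ‖f.gnsStarAlgHom c (gnsVec f)‖ ^ 2 = (f (star c * c)).re := by
  rw [gns_vec, UniformSpace.Completion.norm_coe, f.preGNS_norm_def, Real.sq_sqrt]
  · simp
  · have h : 0 ≤ f (star c * c) := f.map_nonneg (star_mul_self_nonneg _)
    simpa using (Complex.nonneg_iff.mp h).1

lemma inner_gns (c : C) (v w : f.GNS) :
    ⟪f.gnsStarAlgHom c v, w⟫_ℂ = ⟪v, f.gnsStarAlgHom (star c) w⟫_ℂ := inner_rep _ _ _ _

/-- reflections leaving the functional invariant -/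
structure Refl (u : C) : Prop where
  sa : star u = u
  sq : u * u = 1
  inv : ∀ x, f (u * x * u) = f x

variable {f}

lemma Refl.bound {u : C} (hu : Refl f u) (x : C) :
    ‖(f.gnsStarAlgHom : C →ₐ[ℂ] (f.GNS →L[ℂ] f.GNS)) x (f.gnsStarAlgHom u (gnsVec f))‖ ^ 2
      ≤ (f (star x * x)).re := by
  have h1 : (f.gnsStarAlgHom : C →ₐ[ℂ] (f.GNS →L[ℂ] f.GNS)) x (f.gnsStarAlgHom u (gnsVec f))
      = f.gnsStarAlgHom (x * u) (gnsVec f) := by
    rw [gns_mul]; rfl
  rw [h1, norm_gns_vec_sq, star_mul, hu.sa]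
  have h2 : u * star x * (x * u) = u * (star x * x) * u := by noncomm_ring
  rw [h2, hu.inv]

/-- right multiplication by a reflection -/
def rmul {u : C} (hu : Refl f u) : f.GNS →L[ℂ] f.GNS :=
  gnsT (f.gnsStarAlgHom : C →ₐ[ℂ] (f.GNS →L[ℂ] f.GNS)) f (f.gnsStarAlgHom u (gnsVec f)) hu.bound

lemma rmul_vec {u : C} (hu : Refl f u) : rmul hu (gnsVec f) = f.gnsStarAlgHom u (gnsVec f) :=
  gnsT_vec _ _ _ _

lemma rmul_comm {u : C} (hu : Refl f u) (c : C) (v : f.GNS) :
    rmul hu (f.gnsStarAlgHom c v) = f.gnsStarAlgHom c (rmul hu v) :=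
  gnsT_intertwine _ _ _ _ c v

lemma norm_rmul_le {u : C} (hu : Refl f u) (v : f.GNS) : ‖rmul hu v‖ ≤ ‖v‖ :=
  norm_gnsT_le _ _ _ _ v

lemma rmul_rmul {u : C} (hu : Refl f u) (v : f.GNS) : rmul hu (rmul hu v) = v := by
  induction v using UniformSpace.Completion.induction_on with
  | hp => exact isClosed_eq (by fun_prop) (by fun_prop)
  | ih x =>
    have h1 : (x : f.GNS) = f.gnsStarAlgHom (f.ofPreGNS x) (gnsVec f) := by
      rw [gns_vec]; simp
    rw [h1, rmul_comm, rmul_vec, rmul_comm, rmul_comm, rmul_vec]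
    rw [← gns_mul f u u, hu.sq, gns_one]

lemma norm_rmul {u : C} (hu : Refl f u) (v : f.GNS) : ‖rmul hu v‖ = ‖v‖ := by
  refine le_antisymm (norm_rmul_le hu v) ?_
  calc ‖v‖ = ‖rmul hu (rmul hu v)‖ := by rw [rmul_rmul]
    _ ≤ ‖rmul hu v‖ := norm_rmul_le hu _

lemma inner_rmul {u : C} (hu : Refl f u) (v w : f.GNS) :
    ⟪rmul hu v, rmul hu w⟫_ℂ = ⟪v, w⟫_ℂ :=
  (⟨(rmul hu : f.GNS →ₗ[ℂ] f.GNS), norm_rmul hu⟩ : f.GNS →ₗᵢ[ℂ] f.GNS).inner_map_map v w

lemma inner_rmul_left {u : C} (hu : Refl f u) (v w : f.GNS) :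
    ⟪rmul hu v, w⟫_ℂ = ⟪v, rmul hu w⟫_ℂ := by
  have := inner_rmul hu v (rmul hu w)
  rw [rmul_rmul] at this
  exact this

/-- a vector orthogonal to the orbit of the cyclic vector is zero -/
lemma eq_zero_of_orth {v : f.GNS} (h : ∀ c, ⟪v, f.gnsStarAlgHom c (gnsVec f)⟫_ℂ = 0) : v = 0 := by
  have h1 : ∀ w : f.GNS, ⟪v, w⟫_ℂ = 0 := by
    intro w
    induction w using UniformSpace.Completion.induction_on with
    | hp => exact isClosed_eq (by fun_prop) (by fun_prop)
    | ih x =>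
      have h1 : (x : f.GNS) = f.gnsStarAlgHom (f.ofPreGNS x) (gnsVec f) := by
        rw [gns_vec]; simp
      rw [h1]; exact h _
  exact inner_self_eq_zero.1 (h1 v)

variable {ι : C →⋆ₐ[ℂ] (H →L[ℂ] H)}
variable {S T : H →L[ℂ] H} (hS : ∀ c, S * ι c = ι c * S) (hT : ∀ c, T * ι c = ι c * T)
  (hSS : star S * S = 1) (hTT : star T * T = 1) (hST : star S * T = 0)

include hS hT hSS hTT hST in
theorem exists_central {B : H →L[ℂ] f.GNS} (hB : Int ι f.gnsStarAlgHom B) (hB0 : B ≠ 0) :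
    ∃ η : H, η ≠ 0 ∧ (∀ c, (f (star c * c)).re = 0 → ι c η = 0) ∧
      ∀ u, Refl f u → ∀ c, ⟪ι (u * c * u) η, η⟫_ℂ = ⟪ι c η, η⟫_ℂ := by
  set π := f.gnsStarAlgHom with hπ
  set Ω : f.GNS := gnsVec f with hΩ
  set N0 : Submodule ℂ f.GNS := rng ι π hS hT hSS hTT hST with hN0
  set N : Submodule ℂ f.GNS := N0.topologicalClosure with hN
  have : CompleteSpace N := N0.isClosed_topologicalClosure.completeSpace_coe
  have hpi : ∀ c, ∀ v ∈ N, π c v ∈ N := by
    intro c v hv
    have h1 : Set.MapsTo (π c) (N0 : Set f.GNS) (N0 : Set f.GNS) := by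
      rintro _ ⟨B', h, hB', rfl⟩
      exact ⟨B', ι c h, hB', hB' c h⟩
    exact h1.closure (π c).continuous hv
  have hr : ∀ u (hu : Refl f u), ∀ v ∈ N, rmul hu v ∈ N := by
    intro u hu v hv
    have h1 : Set.MapsTo (rmul hu) (N0 : Set f.GNS) (N0 : Set f.GNS) := by
      rintro _ ⟨B', h, hB', rfl⟩
      refine ⟨rmul hu ∘L B', h, ?_, rfl⟩
      intro c k
      simp only [ContinuousLinearMap.comp_apply]
      rw [hB' c k, rmul_comm]
    exact h1.closure (rmul hu).continuous hv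
  have hPpi : ∀ c v, N.starProjection (π c v) = π c (N.starProjection v) := by
    intro c v
    refine N.eq_starProjection_of_mem_orthogonal (hpi c _ (N.starProjection_apply_mem v)) ?_
    rw [← map_sub, Submodule.mem_orthogonal]
    intro w hw
    have h2 := N.sub_starProjection_mem_orthogonal v
    rw [Submodule.mem_orthogonal] at h2
    have h3 := h2 _ (hpi (star c) w hw)
    rw [inner_gns, star_star] at h3
    exact h3
  have hPr : ∀ u (hu : Refl f u) v, N.starProjection (rmul hu v) = rmul hu (N.starProjection v) := by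
    intro u hu v
    refine N.eq_starProjection_of_mem_orthogonal (hr u hu _ (N.starProjection_apply_mem v)) ?_
    rw [← map_sub, Submodule.mem_orthogonal]
    intro w hw
    have h2 := N.sub_starProjection_mem_orthogonal v
    rw [Submodule.mem_orthogonal] at h2
    have h3 := h2 _ (hr u hu w hw)
    rw [inner_rmul_left] at h3
    exact h3
  set ζ : f.GNS := N.starProjection Ω with hζ
  obtain ⟨η, hη⟩ := exists_vec hS hT hSS hTT hST
    (show ζ ∈ closure (N0 : Set f.GNS) from N.starProjection_apply_mem Ω)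
  have hnorm : ∀ c, ‖ι c η‖ ^ 2 = ‖π c ζ‖ ^ 2 := by
    intro c
    have h1 := hη (star c * c)
    have e1 : ⟪ι (star c * c) η, η⟫_ℂ = ⟪ι c η, ι c η⟫_ℂ := by
      rw [map_mul, mul_apply_eq_comp, inner_rep, star_star]
    have e2 : ⟪π (star c * c) ζ, ζ⟫_ℂ = ⟪π c ζ, π c ζ⟫_ℂ := by
      rw [map_mul, mul_apply_eq_comp, inner_rep, star_star]
    rw [e1, e2, inner_self_eq_norm_sq_to_K, inner_self_eq_norm_sq_to_K] at h1
    exact_mod_cast h1
  refine ⟨η, ?_, ?_, ?_⟩
  · rintro rfl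
    have h1 := hnorm 1
    rw [map_zero, norm_zero, map_one] at h1
    have h2 : ζ = 0 := by
      have : ‖(1 : f.GNS →L[ℂ] f.GNS) ζ‖ = 0 := by
        have h3 : ‖(1 : f.GNS →L[ℂ] f.GNS) ζ‖ ^ 2 = 0 := by rw [← h1]; norm_num
        exact pow_eq_zero_iff (two_ne_zero) |>.1 h3
      exact norm_eq_zero.1 this
    apply hB0
    ext h : 1
    refine eq_zero_of_orth (fun c => ?_)
    have h3 : B (ι (star c) h) ∈ N := N0.le_topologicalClosure ⟨B, _, hB, rfl⟩
    have h4 : ⟪B (ι (star c) h), Ω⟫_ℂ = 0 := by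
      have h5 := N.sub_starProjection_mem_orthogonal Ω
      rw [Submodule.mem_orthogonal] at h5
      have h6 := h5 _ h3
      rw [← hζ, h2, sub_zero] at h6
      exact h6
    rw [hB, inner_gns, star_star] at h4
    exact h4
  · intro c hc
    have h1 : π c ζ = 0 := by
      rw [hζ, ← hPpi]
      have : ‖π c Ω‖ ^ 2 = 0 := by rw [norm_gns_vec_sq, hc]
      have h2 : π c Ω = 0 := norm_eq_zero.1 (pow_eq_zero_iff (two_ne_zero) |>.1 this)
      rw [h2, map_zero]
    have h2 := hnorm c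
    rw [h1, norm_zero] at h2
    have h3 : ‖ι c η‖ ^ 2 = 0 := by rw [h2]; norm_num
    exact norm_eq_zero.1 (pow_eq_zero_iff (two_ne_zero) |>.1 h3)
  · intro u hu c
    rw [hη, hη]
    have h1 : π u ζ = rmul hu ζ := by
      rw [hζ, ← hPpi, ← rmul_vec hu, hPr]
    have h2 : π (u * c * u) ζ = π u (π c (π u ζ)) := by
      rw [map_mul, map_mul]; rfl
    rw [h2, inner_gns, hu.sa, h1, ← rmul_comm, inner_rmul]

end

end Crest.Agent.R109.L0
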