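import Crest.Agent.R109.L0G
import Crest.Agent.R109.CE

/-!
# Row 109, part without normal expectation: the central limit functional
-/

set_option autoImplicit false
set_option linter.unusedSectionVars false
set_option linter.style.haveILetI false

namespace Crest.Agent.R109.L0

open scoped InnerProductSpace ComplexOrder
open ContinuousLinearMap Crest.Agent.R124 Crest.Agent.R121 Filter Topology

universe u

noncomputable section

variable {H : Type u} [NormedAddCommGroup H] [InnerProductSpace ℂ H] [CompleteSpace H]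
variable {M : VonNeumannAlgebra H} {A : StarSubalgebra ℂ (H →L[ℂ] H)}

/-- an ultrafilter of partitions finer than refinement -/
def UU (hM : Masa M A) : Ultrafilter (FP A) :=
  haveI := FP.atTop_neBot hM
  Ultrafilter.of atTop

/-- the same as a filter -/
def UF (hM : Masa M A) : Filter (FP A) := (UU hM : Filter (FP A))

lemma UF_le (hM : Masa M A) : UF hM ≤ atTop := by
  haveI := FP.atTop_neBot hM
  exact Ultrafilter.of_le atTop

instance (hM : Masa M A) : NeBot (UF hM) := (UU hM).neBot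

lemma lim_exists (hM : Masa M A) (ξ : H) (y : H →L[ℂ] H) :
    ∃ c : ℂ, Tendsto (fun P => ⟪ξ, D P y ξ⟫_ℂ) (UF hM) (𝓝 c) := by
  have hc : IsCompact (Metric.closedBall (0 : ℂ) (‖ξ‖ * (‖y‖ * ‖ξ‖))) :=
    isCompact_closedBall _ _
  obtain ⟨c, -, hc⟩ := hc.ultrafilter_le_nhds ((UU hM).map (fun P => ⟪ξ, D P y ξ⟫_ℂ)) (by
    rw [le_principal_iff, Ultrafilter.coe_map, mem_map]
    refine Filter.univ_mem' (fun P => ?_)
    simp only [Set.mem_preimage, Metric.mem_closedBall, dist_zero_right]
    refine (norm_inner_le_norm _ _).trans ?_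
    gcongr
    refine (le_opNorm _ _).trans ?_
    gcongr
    exact norm_D_le P y)
  exact ⟨c, hc⟩

/-- the limit functional -/
def psi (hM : Masa M A) (ξ : H) (y : H →L[ℂ] H) : ℂ := (lim_exists hM ξ y).choose

lemma psi_tendsto (hM : Masa M A) (ξ : H) (y : H →L[ℂ] H) :
    Tendsto (fun P => ⟪ξ, D P y ξ⟫_ℂ) (UF hM) (𝓝 (psi hM ξ y)) := (lim_exists hM ξ y).choose_spec

lemma psi_add (hM : Masa M A) (ξ : H) (x y : H →L[ℂ] H) :
    psi hM ξ (x + y) = psi hM ξ x + psi hM ξ y := by
  refine tendsto_nhds_unique (psi_tendsto hM ξ (x + y)) ?_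
  convert (psi_tendsto hM ξ x).add (psi_tendsto hM ξ y) using 1
  funext P
  rw [D_add, add_apply, inner_add_right]

lemma psi_smul (hM : Masa M A) (ξ : H) (c : ℂ) (x : H →L[ℂ] H) :
    psi hM ξ (c • x) = c * psi hM ξ x := by
  refine tendsto_nhds_unique (psi_tendsto hM ξ (c • x)) ?_
  convert (psi_tendsto hM ξ x).const_mul c using 1
  funext P
  rw [D_smul, smul_apply, inner_smul_right]

lemma inner_D_nonneg {ξ : H} (P : FP A) {y : H →L[ℂ] H} (hy : 0 ≤ y) : 0 ≤ ⟪ξ, D P y ξ⟫_ℂ := by
  rw [D, sum_apply, inner_sum]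
  refine Finset.sum_nonneg (fun i _ => ?_)
  have h1 : ⟪ξ, (P.e i * y * P.e i) ξ⟫_ℂ = ⟪P.e i ξ, y (P.e i ξ)⟫_ℂ := by
    have e3 : adjoint (P.e i) = P.e i := P.star_e i
    conv_rhs => rw [← adjoint_inner_right, e3]
    rfl
  rw [h1]
  exact ((nonneg_iff_isPositive _).1 hy).inner_nonneg_right _

lemma psi_nonneg (hM : Masa M A) (ξ : H) {y : H →L[ℂ] H} (hy : 0 ≤ y) : 0 ≤ psi hM ξ y :=
  ge_of_tendsto (psi_tendsto hM ξ y) (Eventually.of_forall fun P => inner_D_nonneg P hy)

/-- the reflections of the masa leave the limit functional invariant -/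
lemma psi_refl (hM : Masa M A) (ξ : H) {p : H →L[ℂ] H} (hp : p ∈ A) (hpp : IsStarProjection p)
    (x : H →L[ℂ] H) : psi hM ξ ((2 * p - 1) * x * (2 * p - 1)) = psi hM ξ x := by
  refine tendsto_nhds_unique (psi_tendsto hM ξ _) ((psi_tendsto hM ξ x).congr' ?_)
  have h1 : ∀ᶠ P : FP A in UF hM, FP.two hp hpp ≤ P :=
    UF_le hM (eventually_ge_atTop _)
  filter_upwards [h1] with P hP
  have hq := hpp.isIdempotentElem.eq
  have e1 : D (FP.two hp hpp) ((2 * p - 1) * x * (2 * p - 1)) = D (FP.two hp hpp) x := by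
    have a1 : p * (2 * p - 1) = p := by
      have : p * (2 * p - 1) = 2 * (p * p) - p := by noncomm_ring
      rw [this, hq]; noncomm_ring
    have a2 : (2 * p - 1) * p = p := by
      have : (2 * p - 1) * p = 2 * (p * p) - p := by noncomm_ring
      rw [this, hq]; noncomm_ring
    have a3 : (1 - p) * (2 * p - 1) = -(1 - p) := by
      have : (1 - p) * (2 * p - 1) = 3 * p - 2 * (p * p) - 1 := by noncomm_ring
      rw [this, hq]; noncomm_ring
    have a4 : (2 * p - 1) * (1 - p) = -(1 - p) := by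
      have : (2 * p - 1) * (1 - p) = 3 * p - 2 * (p * p) - 1 := by noncomm_ring
      rw [this, hq]; noncomm_ring
    have b : ∀ y, D (FP.two hp hpp) y = p * y * p + (1 - p) * y * (1 - p) := by
      intro y
      change ∑ i : Fin 2, _ = _
      rw [Fin.sum_univ_two]
      rfl
    rw [b, b]
    have c1 : p * ((2 * p - 1) * x * (2 * p - 1)) * p
        = (p * (2 * p - 1)) * x * ((2 * p - 1) * p) := by simp only [mul_assoc]
    have c2 : (1 - p) * ((2 * p - 1) * x * (2 * p - 1)) * (1 - p)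
        = ((1 - p) * (2 * p - 1)) * x * ((2 * p - 1) * (1 - p)) := by simp only [mul_assoc]
    rw [c1, c2, a1, a2, a3, a4, neg_mul, neg_mul_neg]
  rw [← D_D_of_le hP x, ← e1, D_D_of_le hP]

end

end Crest.Agent.R109.L0
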