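import Crest.Agent.R124.GnsMap
import Crest.Agent.R124.Halving

/-!
# Row 109, part without normal expectation: vector functionals in the span of intertwiners
-/

set_option autoImplicit false
set_option linter.unusedSectionVars false

namespace Crest.Agent.R109.L0

open scoped InnerProductSpace ComplexOrder
open ContinuousLinearMap Crest.Agent.R124

universe u

noncomputable section

variable {H : Type u} [NormedAddCommGroup H] [InnerProductSpace ℂ H] [CompleteSpace H]
variable {K : Type u} [NormedAddCommGroup K] [InnerProductSpace ℂ K] [CompleteSpace K]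
variable {C : Type u} [CStarAlgebra C]

/-- intertwiners -/
def Int (ι : C →⋆ₐ[ℂ] (H →L[ℂ] H)) (π : C →⋆ₐ[ℂ] (K →L[ℂ] K)) (T : H →L[ℂ] K) : Prop :=
  ∀ c h, T (ι c h) = π c (T h)

/-- the span of the ranges of intertwiners -/
def rng (ι : C →⋆ₐ[ℂ] (H →L[ℂ] H)) (π : C →⋆ₐ[ℂ] (K →L[ℂ] K)) {S T : H →L[ℂ] H}
    (hS : ∀ c, S * ι c = ι c * S) (hT : ∀ c, T * ι c = ι c * T)
    (hSS : star S * S = 1) (hTT : star T * T = 1) (hST : star S * T = 0) :
    Submodule ℂ K where
  carrier := {v | ∃ (B : H →L[ℂ] K) (h : H), Int ι π B ∧ B h = v}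
  zero_mem' := ⟨0, 0, fun c h => by simp, by simp⟩
  smul_mem' := by
    rintro c _ ⟨B, h, hB, rfl⟩
    exact ⟨B, c • h, hB, by simp⟩
  add_mem' := by
    rintro _ _ ⟨B, h, hB, rfl⟩ ⟨B', h', hB', rfl⟩
    have hS' : ∀ c, star S * ι c = ι c * star S := by
      intro c
      have := congrArg star (hS (star c))
      simp only [star_mul, map_star, star_star] at this
      exact this.symm
    have hT' : ∀ c, star T * ι c = ι c * star T := by
      intro c
      have := congrArg star (hT (star c))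
      simp only [star_mul, map_star, star_star] at this
      exact this.symm
    have hTS : star T * S = 0 := by
      have := congrArg star hST
      simpa using this
    refine ⟨B ∘L star S + B' ∘L star T, S h + T h', ?_, ?_⟩
    · intro c k
      have e1 : star S (ι c k) = ι c (star S k) := congrArg (fun X : H →L[ℂ] H => X k) (hS' c)
      have e2 : star T (ι c k) = ι c (star T k) := congrArg (fun X : H →L[ℂ] H => X k) (hT' c)
      simp only [add_apply, ContinuousLinearMap.comp_apply, map_add]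
      rw [e1, e2, hB, hB']
    · have e1 : star S (S h) = h := congrArg (fun X : H →L[ℂ] H => X h) hSS
      have e2 : star T (T h') = h' := congrArg (fun X : H →L[ℂ] H => X h') hTT
      have e3 : star S (T h') = 0 := congrArg (fun X : H →L[ℂ] H => X h') hST
      have e4 : star T (S h) = 0 := congrArg (fun X : H →L[ℂ] H => X h) hTS
      simp only [add_apply, ContinuousLinearMap.comp_apply, map_add]
      rw [e1, e2, e3, e4]
      simp

section Vec

variable {ι : C →⋆ₐ[ℂ] (H →L[ℂ] H)} {π : C →⋆ₐ[ℂ] (K →L[ℂ] K)}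
variable {S T : H →L[ℂ] H} (hS : ∀ c, S * ι c = ι c * S) (hT : ∀ c, T * ι c = ι c * T)
  (hSS : star S * S = 1) (hTT : star T * T = 1) (hST : star S * T = 0)

/-- isometries with orthogonal ranges -/
def JJ (S T : H →L[ℂ] H) (k : ℕ) : H →L[ℂ] H := S ^ k * T

include hSS in
lemma star_pow_mul_pow (k : ℕ) : star (S ^ k) * S ^ k = 1 := by
  induction k with
  | zero => simp
  | succ k ih =>
    rw [pow_succ', star_mul]
    calc star (S ^ k) * star S * (S * S ^ k) = star (S ^ k) * (star S * S) * S ^ k := by noncomm_ring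
      _ = 1 := by rw [hSS]; simpa using ih

include hSS hTT in
lemma JJ_same (k : ℕ) : star (JJ S T k) * JJ S T k = 1 := by
  rw [JJ, star_mul]
  calc star T * star (S ^ k) * (S ^ k * T) = star T * (star (S ^ k) * S ^ k) * T := by noncomm_ring
    _ = 1 := by rw [star_pow_mul_pow hSS, mul_one, hTT]

include hSS hST in
lemma JJ_lt {k l : ℕ} (h : k < l) : star (JJ S T l) * JJ S T k = 0 := by
  obtain ⟨m, rfl⟩ := Nat.exists_eq_add_of_lt h
  rw [JJ, JJ, star_mul]
  have e1 : S ^ (k + m + 1) = S ^ k * (S * S ^ m) := by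
    rw [← pow_succ', ← pow_add]; congr 1
  rw [e1, star_mul, star_mul]
  calc star T * (star (S ^ m) * star S * star (S ^ k)) * (S ^ k * T)
      = star T * (star (S ^ m) * star S * (star (S ^ k) * S ^ k) * T) := by noncomm_ring
    _ = star T * (star (S ^ m) * (star S * T)) := by
        rw [star_pow_mul_pow hSS]; noncomm_ring
    _ = 0 := by rw [hST]; simp

include hSS hST in
lemma JJ_ne {k l : ℕ} (h : k ≠ l) : star (JJ S T l) * JJ S T k = 0 := by
  rcases lt_or_gt_of_ne h with h | h
  · exact JJ_lt hSS hST h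
  · have := congrArg star (JJ_lt hSS hST h)
    simpa using this

include hS hT in
lemma JJ_comm (k : ℕ) (c : C) : JJ S T k * ι c = ι c * JJ S T k := by
  have h1 : S ^ k * ι c = ι c * S ^ k := (Commute.pow_left (hS c) k)
  rw [JJ, mul_assoc, hT, ← mul_assoc, h1, mul_assoc]

include hS hT in
lemma JJ_star_comm (k : ℕ) (c : C) : star (JJ S T k) * ι c = ι c * star (JJ S T k) := by
  have := congrArg star (JJ_comm hS hT k (star c))
  simp only [star_mul, map_star, star_star] at this
  exact this.symm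

include hSS hTT in
lemma norm_JJ_le (k : ℕ) : ‖star (JJ S T k)‖ ≤ 1 := by
  rw [norm_star]
  have h1 : ‖star (JJ S T k) * JJ S T k‖ = ‖JJ S T k‖ * ‖JJ S T k‖ := CStarRing.norm_star_mul_self
  rw [JJ_same hSS hTT] at h1
  have h2 : ‖(1 : H →L[ℂ] H)‖ ≤ 1 := norm_id_le
  nlinarith [norm_nonneg (JJ S T k)]

lemma inner_rep (π : C →⋆ₐ[ℂ] (K →L[ℂ] K)) (c : C) (v w : K) :
    ⟪π c v, w⟫_ℂ = ⟪v, π (star c) w⟫_ℂ := by
  rw [map_star, star_eq_adjoint, adjoint_inner_right]

include hS hT hSS hTT hST in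
/-- one intertwiner whose range contains countably many given vectors -/
lemma exists_common (v : ℕ → K) (hv : ∀ k, v k ∈ rng ι π hS hT hSS hTT hST) :
    ∃ G : H →L[ℂ] K, Int ι π G ∧ ∀ k, ∃ w, G w = v k := by
  choose B h hB hBh using hv
  set a : ℕ → ℝ := fun k => (1 / 2) ^ k / (1 + ‖B k‖) with ha
  have ha0 : ∀ k, 0 < a k := fun k => by positivity
  let F : ℕ → (H →L[ℂ] K) := fun k => (a k : ℂ) • (B k ∘L star (JJ S T k))
  have hF : ∀ k, ‖F k‖ ≤ (1 / 2) ^ k := by
    intro k
    have h1 : ‖B k ∘L star (JJ S T k)‖ ≤ ‖B k‖ * 1 :=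
      (opNorm_comp_le _ _).trans (by gcongr; exact norm_JJ_le hSS hTT k)
    calc ‖F k‖ = a k * ‖B k ∘L star (JJ S T k)‖ := by
          simp only [F]
          rw [norm_smul, Complex.norm_real, Real.norm_of_nonneg (ha0 k).le]
      _ ≤ a k * (1 + ‖B k‖) := by
          refine mul_le_mul_of_nonneg_left ?_ (ha0 k).le
          linarith
      _ = (1 / 2) ^ k := by
          simp only [ha]
          field_simp
  have hsum : Summable F :=
    Summable.of_norm_bounded (summable_geometric_of_lt_one (by norm_num) (by norm_num)) hF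
  set G : H →L[ℂ] K := ∑' k, F k with hG
  have hGs : HasSum F G := hsum.hasSum
  have hGv : ∀ w : H, HasSum (fun k => F k w) (G w) := fun w =>
    hGs.mapL (ContinuousLinearMap.apply ℂ K w)
  have hGJ : ∀ k w, G (JJ S T k w) = (a k : ℂ) • B k w := by
    intro k w
    refine (hGv (JJ S T k w)).unique ?_
    have e0 : F k (JJ S T k w) = (a k : ℂ) • B k w := by
      have : star (JJ S T k) (JJ S T k w) = w :=
        congrArg (fun X : H →L[ℂ] H => X w) (JJ_same hSS hTT k)
      simp only [F, smul_apply, ContinuousLinearMap.comp_apply, this]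
    rw [← e0]
    refine hasSum_single k (fun l hl => ?_)
    have : star (JJ S T l) (JJ S T k w) = 0 :=
      congrArg (fun X : H →L[ℂ] H => X w) (JJ_ne hSS hST (Ne.symm hl))
    simp only [F, smul_apply, ContinuousLinearMap.comp_apply, this, map_zero, smul_zero]
  refine ⟨G, ?_, fun k => ⟨((a k : ℂ))⁻¹ • JJ S T k (h k), ?_⟩⟩
  · intro c w
    have h1 := hGv (ι c w)
    have h2 := (hGv w).mapL (π c)
    refine h1.unique ?_
    convert h2 using 1
    funext k
    have e1 : star (JJ S T k) (ι c w) = ι c (star (JJ S T k) w) :=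
      congrArg (fun X : H →L[ℂ] H => X w) (JJ_star_comm hS hT k c)
    simp only [F, smul_apply, ContinuousLinearMap.comp_apply, e1, map_smul]
    rw [hB k]
  · have : (a k : ℂ) ≠ 0 := by exact_mod_cast (ha0 k).ne'
    rw [map_smul, hGJ, smul_smul, inv_mul_cancel₀ this, one_smul, hBh]

lemma inner_sq {g X : H →L[ℂ] H} (hgs : star g = g) (hgg : g * g = X) (x y : H) :
    ⟪g x, g y⟫_ℂ = ⟪X x, y⟫_ℂ := by
  have hadj : adjoint g = g := hgs
  rw [← hgg]
  change _ = ⟪g (g x), y⟫_ℂ
  rw [← adjoint_inner_right g (g x) y, hadj]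

include hS hT hSS hTT hST in
/-- the vector functional of a vector in the closed span of the ranges of intertwiners is a
vector functional of the given representation -/
lemma exists_vec {ζ : K} (hζ : ζ ∈ closure (rng ι π hS hT hSS hTT hST : Set K)) :
    ∃ η : H, ∀ c, ⟪ι c η, η⟫_ℂ = ⟪π c ζ, ζ⟫_ℂ := by
  rw [mem_closure_iff_seq_limit] at hζ
  obtain ⟨v, hv, hlim⟩ := hζ
  obtain ⟨G, hG, hGv⟩ := exists_common hS hT hSS hTT hST v hv
  choose w hw using hGv
  have hpos : (0 : H →L[ℂ] H) ≤ adjoint G ∘L G :=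
    (nonneg_iff_isPositive _).2 (isPositive_adjoint_comp_self G)
  set g : H →L[ℂ] H := CFC.sqrt (adjoint G ∘L G) with hg
  have hgg : g * g = adjoint G ∘L G := CFC.sqrt_mul_sqrt_self _ hpos
  have hgs : star g = g := (CFC.sqrt_nonneg _).isSelfAdjoint.star_eq
  have hGG : ∀ c, Commute (adjoint G ∘L G) (ι c) := by
    intro c
    ext x : 1
    refine ext_inner_right ℂ (fun y => ?_)
    change ⟪adjoint G (G (ι c x)), y⟫_ℂ = ⟪ι c (adjoint G (G x)), y⟫_ℂ
    rw [adjoint_inner_left, hG, inner_rep, inner_rep, adjoint_inner_left, hG]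
  have hgc : ∀ c, g * ι c = ι c * g := by
    intro c
    rw [hg, CFC.sqrt_eq_cfc]
    exact ((hGG c).cfc_nnreal _).eq
  have hnorm : ∀ x, ‖g x‖ = ‖G x‖ := by
    intro x
    have h1 : ⟪g x, g x⟫_ℂ = ⟪G x, G x⟫_ℂ := by
      rw [inner_sq hgs hgg, ContinuousLinearMap.comp_apply, adjoint_inner_left]
    rw [inner_self_eq_norm_sq_to_K, inner_self_eq_norm_sq_to_K] at h1
    have h2 : ‖g x‖ ^ 2 = ‖G x‖ ^ 2 := by exact_mod_cast h1
    exact (sq_eq_sq₀ (norm_nonneg _) (norm_nonneg _)).1 h2
  have hcau : CauchySeq (fun k => g (w k)) := by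
    have h1 : CauchySeq v := hlim.cauchySeq
    rw [Metric.cauchySeq_iff] at h1 ⊢
    intro ε hε
    obtain ⟨N, hN⟩ := h1 ε hε
    refine ⟨N, fun m hm n hn => ?_⟩
    have := hN m hm n hn
    rw [dist_eq_norm] at this ⊢
    rwa [← map_sub, hnorm, map_sub, hw, hw]
  obtain ⟨η, hη⟩ := cauchySeq_tendsto_of_complete hcau
  refine ⟨η, fun c => ?_⟩
  have h1 : Filter.Tendsto (fun k => ⟪ι c (g (w k)), g (w k)⟫_ℂ) Filter.atTop
      (nhds ⟪ι c η, η⟫_ℂ) :=
    (((ι c).continuous.tendsto η).comp hη).inner hη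
  have h2 : Filter.Tendsto (fun k => ⟪π c (v k), v k⟫_ℂ) Filter.atTop
      (nhds ⟪π c ζ, ζ⟫_ℂ) :=
    (((π c).continuous.tendsto ζ).comp hlim).inner hlim
  refine tendsto_nhds_unique h1 ?_
  convert h2 using 1
  funext k
  have e1 : ι c (g (w k)) = g (ι c (w k)) :=
    congrArg (fun X : H →L[ℂ] H => X (w k)) (hgc c).symm
  rw [e1, inner_sq hgs hgg, ContinuousLinearMap.comp_apply, adjoint_inner_left, hG, hw]

end Vec

end

end Crest.Agent.R109.L0
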