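import Crest.Agent.R109.OneSiteA

/-!
# One-site lemma, part B (row 109, helper135)

`J`-bound: if `q k s μ ≤ 1` then the truncated even moment sum is at most `4`.
-/

set_option autoImplicit false

namespace Crest.Agent.R109

open PowerSeries Finset

variable {ι : Type*} [Fintype ι]

/-! ### series with nonnegative coefficients -/

def CPos (F : ℝ⟦X⟧) : Prop := ∀ n, 0 ≤ coeff n F

theorem CPos.one : CPos 1 := by
  intro n; rw [coeff_one]; split_ifs <;> norm_num

theorem CPos.mul {F G : ℝ⟦X⟧} (hF : CPos F) (hG : CPos G) : CPos (F * G) := by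
  intro n
  rw [coeff_mul]
  exact Finset.sum_nonneg fun p _ => mul_nonneg (hF _) (hG _)

theorem CPos.pow {F : ℝ⟦X⟧} (hF : CPos F) (n : ℕ) : CPos (F ^ n) := by
  induction n with
  | zero => simpa using CPos.one
  | succ n ih => rw [pow_succ]; exact ih.mul hF

theorem CPos.coeff_qS_nonneg {F : ℝ⟦X⟧} (hF : CPos F) (h0 : constantCoeff F = 0) (N : ℕ) :
    0 ≤ coeff N (qS F) := by
  rw [coeff_qS F h0]
  apply Finset.sum_nonneg
  intro n _
  have := hF.pow (n + 1) N
  positivity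

theorem qS_of_mul (F G H : ℝ⟦X⟧) (hF : constantCoeff F = 0) (hG : constantCoeff G = 0)
    (h : 1 - H = (1 - F) * (1 - G)) : qS H = qS F + qS G := by
  have hu : (1 - F) * (1 - F)⁻¹ = 1 := PowerSeries.mul_inv_cancel _ (by simp [hF])
  have e : H = F + (1 - F) * G := by
    have : H = 1 - (1 - F) * (1 - G) := by rw [← h]; ring
    rw [this]; ring
  have e2 : (1 - F) * G * (1 - F)⁻¹ = G := by
    calc (1 - F) * G * (1 - F)⁻¹ = G * ((1 - F) * (1 - F)⁻¹) := by ring
      _ = G := by rw [hu, mul_one]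
  rw [e, qS_add F ((1 - F) * G) hF (by simp [hG]), e2]

/-! ### the one-sided part -/

/-- `∑_i (∑_j ν_j σ_j^i) u^(i+1)` -/
noncomputable def mom1 (σ ν : ι → ℝ) : ℝ⟦X⟧ := ∑ j, C (ν j) * (geo (σ j) * X)

theorem coeff_mom1_succ (σ ν : ι → ℝ) (i : ℕ) :
    coeff (i + 1) (mom1 σ ν) = ∑ j, ν j * σ j ^ i := by
  simp only [mom1, map_sum, coeff_C_mul, coeff_succ_mul_X, coeff_geo]

theorem coeff_mom1_zero (σ ν : ι → ℝ) : coeff 0 (mom1 σ ν) = 0 := by
  simp only [mom1, map_sum, coeff_C_mul]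
  apply Finset.sum_eq_zero
  intro j _
  simp

theorem constantCoeff_mom1 (σ ν : ι → ℝ) : constantCoeff (mom1 σ ν) = 0 := by
  rw [← coeff_zero_eq_constantCoeff_apply]; exact coeff_mom1_zero σ ν

theorem CPos.mom1 (σ ν : ι → ℝ) (hσ : ∀ j, 0 ≤ σ j) (hν : ∀ j, 0 ≤ ν j) : CPos (mom1 σ ν) := by
  intro n
  rcases n with _ | n
  · rw [coeff_mom1_zero]
  · rw [coeff_mom1_succ]
    exact Finset.sum_nonneg fun j _ => mul_nonneg (hν j) (pow_nonneg (hσ j) n)

theorem CPos.mom (s μ : ι → ℝ) (hs : ∀ j, 0 ≤ s j) (hμ : ∀ j, 0 ≤ μ j) : CPos (mom s μ) := by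
  intro n
  rcases n with _ | _ | n
  · rw [coeff_mom_zero]
  · rw [coeff_mom_one]
  · rw [coeff_mom_add_two]
    exact Finset.sum_nonneg fun j _ => mul_nonneg (hμ j) (pow_nonneg (hs j) n)

theorem coeff_mom_two_mul (s μ : ι → ℝ) (i : ℕ) :
    coeff (2 * i) (mom s μ) = coeff i (mom1 (fun j => s j ^ 2) μ) := by
  rcases i with _ | i
  · rw [Nat.mul_zero, coeff_mom_zero, coeff_mom1_zero]
  · rw [coeff_mom1_succ]
    have : 2 * (i + 1) = 2 * i + 2 := by ring
    rw [this, coeff_mom_add_two]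
    apply Finset.sum_congr rfl
    intro j _
    rw [← pow_mul]

theorem coeff_mom_pow_ge (s μ : ι → ℝ) (hs : ∀ j, 0 ≤ s j) (hμ : ∀ j, 0 ≤ μ j) (n : ℕ) :
    ∀ m, coeff m (mom1 (fun j => s j ^ 2) μ ^ n) ≤ coeff (2 * m) (mom s μ ^ n) := by
  induction n with
  | zero =>
    intro m
    rw [pow_zero, pow_zero, coeff_one, coeff_one]
    rcases m with _ | m
    · simp
    · simp
  | succ n ih =>
    intro m
    rw [pow_succ, pow_succ, coeff_mul, coeff_mul]
    have hM := (CPos.mom s μ hs hμ)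
    have hg : CPos (mom1 (fun j => s j ^ 2) μ) :=
      CPos.mom1 _ _ (fun j => sq_nonneg _) hμ
    calc ∑ p ∈ antidiagonal m, coeff p.1 (mom1 (fun j => s j ^ 2) μ ^ n) *
            coeff p.2 (mom1 (fun j => s j ^ 2) μ)
        ≤ ∑ p ∈ antidiagonal m, coeff (2 * p.1) (mom s μ ^ n) * coeff (2 * p.2) (mom s μ) := by
          apply Finset.sum_le_sum
          intro p _
          rw [coeff_mom_two_mul]
          exact mul_le_mul_of_nonneg_right (ih _) (hg _)
      _ = ∑ p ∈ (antidiagonal m).image (fun p : ℕ × ℕ => (2 * p.1, 2 * p.2)),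
            coeff p.1 (mom s μ ^ n) * coeff p.2 (mom s μ) := by
          rw [Finset.sum_image]
          rintro ⟨a, b⟩ _ ⟨c, d⟩ _ h
          simp only [Prod.mk.injEq] at h ⊢
          omega
      _ ≤ _ := by
          apply Finset.sum_le_sum_of_subset_of_nonneg
          · intro p hp
            rw [Finset.mem_image] at hp
            obtain ⟨a, ha, rfl⟩ := hp
            rw [HasAntidiagonal.mem_antidiagonal] at ha ⊢
            simp only
            omega
          · intro p _ _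
            exact mul_nonneg (hM.pow n _) (hM _)

theorem q_ge_two_mul (k : ℕ) (s μ : ι → ℝ) (hs : ∀ j, 0 ≤ s j) (hμ : ∀ j, 0 ≤ μ j) :
    2 * coeff k (qS (mom1 (fun j => s j ^ 2) μ)) ≤ q k s μ := by
  rw [q_eq_sum, coeff_qS _ (constantCoeff_mom1 _ _), Finset.mul_sum]
  calc ∑ n ∈ range (k + 1), 2 * ((k : ℝ) / (n + 1) *
          coeff k (mom1 (fun j => s j ^ 2) μ ^ (n + 1)))
      ≤ ∑ n ∈ range (k + 1), ((2 * k : ℕ) : ℝ) / (n + 1) *
          coeff (2 * k) (mom s μ ^ (n + 1)) := by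
        apply Finset.sum_le_sum
        intro n _
        have h1 := coeff_mom_pow_ge s μ hs hμ (n + 1) k
        have h2 : (0:ℝ) ≤ ((2 * k : ℕ) : ℝ) / (n + 1) := by positivity
        calc 2 * ((k : ℝ) / (n + 1) * coeff k (mom1 (fun j => s j ^ 2) μ ^ (n + 1)))
            = ((2 * k : ℕ) : ℝ) / (n + 1) * coeff k (mom1 (fun j => s j ^ 2) μ ^ (n + 1)) := by
              push_cast; ring
          _ ≤ _ := mul_le_mul_of_nonneg_left h1 h2
    _ ≤ _ := by
        apply Finset.sum_le_sum_of_subset_of_nonneg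
        · intro n hn
          rw [Finset.mem_range] at hn ⊢; omega
        · intro n _ _
          have := coeff_mom_pow_nonneg k s μ hμ (n + 1)
          positivity

/-- the exactly solvable case -/
theorem coeff_qS_mom1_ge (k : ℕ) (w : ℝ) (hw : 1 < w) (σ ν : ι → ℝ) (hσ0 : ∀ j, 0 ≤ σ j)
    (hσ1 : ∀ j, σ j ≤ 1) (hν : ∀ j, 0 ≤ ν j) (h1 : ∑ j, ν j / (w - σ j) = 1) (hk : 1 ≤ k) :
    w ^ k - 1 ≤ coeff k (qS (mom1 σ ν)) := by
  set B : ℝ⟦X⟧ := ∑ j, C (ν j / (w - σ j)) * geo (σ j) with hB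
  have hBc : ∀ i, coeff i B = ∑ j, ν j / (w - σ j) * σ j ^ i := by
    intro i; simp only [hB, map_sum, coeff_C_mul, coeff_geo]
  have hwσ : ∀ j, 0 < w - σ j := fun j => by linarith [hσ1 j]
  -- 1 - g = (1 - w X) B
  have e1 : 1 - mom1 σ ν = (1 - C w * X) * B := by
    ext n
    rcases n with _ | n
    · simp only [map_sub, coeff_mom1_zero, sub_mul, one_mul, mul_assoc]
      rw [hBc]
      simp [h1]
    · rw [map_sub, coeff_mom1_succ, sub_mul, one_mul, mul_assoc, map_sub, coeff_C_mul,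
        coeff_succ_X_mul, hBc, hBc, coeff_one, if_neg (Nat.succ_ne_zero n), zero_sub,
        Finset.mul_sum, ← Finset.sum_sub_distrib, ← Finset.sum_neg_distrib]
      apply Finset.sum_congr rfl
      intro j _
      have := (hwσ j).ne'
      field_simp
      ring
  set d : ℝ⟦X⟧ := 1 - (1 - X) * B with hd
  have hdc : ∀ n, coeff (n + 1) d = ∑ j, ν j / (w - σ j) * (σ j ^ n * (1 - σ j)) := by
    intro n
    rw [hd, sub_mul, one_mul, map_sub, map_sub, coeff_one, if_neg (Nat.succ_ne_zero n),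
      coeff_succ_X_mul, hBc, hBc, ← Finset.sum_sub_distrib, zero_sub, ← Finset.sum_neg_distrib]
    apply Finset.sum_congr rfl
    intro j _
    ring
  have hd0 : constantCoeff d = 0 := by
    have : constantCoeff B = 1 := by
      rw [← coeff_zero_eq_constantCoeff_apply, hBc]; simp [h1]
    simp [hd, this]
  have hdpos : CPos d := by
    intro n
    rcases n with _ | n
    · rw [coeff_zero_eq_constantCoeff_apply, hd0]
    · rw [hdc]
      apply Finset.sum_nonneg
      intro j _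
      have := (hwσ j).le
      have := hν j
      have := pow_nonneg (hσ0 j) n
      have : 0 ≤ 1 - σ j := by linarith [hσ1 j]
      positivity
  -- both factorisations of (1 - X)(1 - g)
  set H : ℝ⟦X⟧ := 1 - (1 - X) * (1 - mom1 σ ν) with hH
  have q1 : qS H = qS X + qS (mom1 σ ν) :=
    qS_of_mul X (mom1 σ ν) H (by simp) (constantCoeff_mom1 _ _) (by rw [hH]; ring)
  have q2 : qS H = qS (C w * X) + qS d :=
    qS_of_mul (C w * X) d H (by simp) hd0 (by rw [hH, e1, hd]; ring)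
  have hgeo : ∀ a : ℝ, (1 - C a * X)⁻¹ = geo a := by
    intro a
    have h1 := geo_mul a
    have h2 : (1 - C a * X) * (1 - C a * X)⁻¹ = 1 := PowerSeries.mul_inv_cancel _ (by simp)
    calc (1 - C a * X)⁻¹ = (1 - C a * X)⁻¹ * ((1 - C a * X) * geo a) := by rw [h1, mul_one]
      _ = ((1 - C a * X) * (1 - C a * X)⁻¹) * geo a := by ring
      _ = geo a := by rw [h2, one_mul]
  have hq : ∀ a : ℝ, coeff k (qS (C a * X)) = a ^ k := by
    intro a
    obtain ⟨m, rfl⟩ : ∃ m, k = m + 1 := ⟨k - 1, by omega⟩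
    rw [qS, hgeo]
    have : d⁄dX ℝ (C a * X) = C a := by
      rw [Derivation.leibniz]; simp
    rw [this, mul_assoc, coeff_succ_X_mul, coeff_C_mul, coeff_geo, pow_succ]; ring
  have hX : qS (X : ℝ⟦X⟧) = qS (C 1 * X) := by simp
  have := congrArg (coeff k) (q1.symm.trans q2)
  rw [map_add, map_add, hX, hq, hq, one_pow] at this
  have hpos := hdpos.coeff_qS_nonneg hd0 k
  linarith

theorem sum_mom1_le (k : ℕ) (hk : 1 ≤ k) (σ ν : ι → ℝ) (hσ0 : ∀ j, 0 ≤ σ j)
    (hσ1 : ∀ j, σ j ≤ 1) (hν : ∀ j, 0 ≤ ν j) (h : coeff k (qS (mom1 σ ν)) ≤ 1 / 2) :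
    ∑ j, ν j * ∑ i ∈ range k, σ j ^ i ≤ 3 / 2 := by
  by_contra hcon
  push Not at hcon
  have hk0 : (0 : ℝ) < k := by exact_mod_cast hk
  set w : ℝ := 1 + 1 / (2 * k) with hw
  have hw1 : 1 < w := by rw [hw]; have : (0:ℝ) < 1 / (2 * k) := by positivity
                         linarith
  have hwσ : ∀ j, 0 < w - σ j := fun j => by linarith [hσ1 j]
  have hgeo : ∀ j, ∑ i ∈ range k, σ j ^ i ≤ (3 / 2) / (w - σ j) := by
    intro j
    rw [le_div_iff₀ (hwσ j)]
    have h1 : (∑ i ∈ range k, σ j ^ i) * (1 - σ j) = 1 - σ j ^ k := geom_sum_mul_neg (σ j) k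
    have h2 : ∑ i ∈ range k, σ j ^ i ≤ k := by
      calc ∑ i ∈ range k, σ j ^ i ≤ ∑ i ∈ range k, (1 : ℝ) :=
            Finset.sum_le_sum fun i _ => pow_le_one₀ (hσ0 j) (hσ1 j)
        _ = k := by simp
    have h3 : (∑ i ∈ range k, σ j ^ i) * (1 / (2 * k)) ≤ 1 / 2 := by
      calc (∑ i ∈ range k, σ j ^ i) * (1 / (2 * k)) ≤ k * (1 / (2 * k)) :=
            mul_le_mul_of_nonneg_right h2 (by positivity)
        _ = 1 / 2 := by field_simp
    have h4 : 0 ≤ σ j ^ k := pow_nonneg (hσ0 j) k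
    calc (∑ i ∈ range k, σ j ^ i) * (w - σ j)
        = (∑ i ∈ range k, σ j ^ i) * (1 - σ j) + (∑ i ∈ range k, σ j ^ i) * (1 / (2 * k)) := by
          rw [hw]; ring
      _ ≤ 3 / 2 := by rw [h1]; linarith
  set Θ : ℝ := ∑ j, ν j / (w - σ j) with hΘ
  have hΘ1 : 1 < Θ := by
    have : ∑ j, ν j * ∑ i ∈ range k, σ j ^ i ≤ (3 / 2) * Θ := by
      rw [hΘ, Finset.mul_sum]
      apply Finset.sum_le_sum
      intro j _
      calc ν j * ∑ i ∈ range k, σ j ^ i ≤ ν j * ((3 / 2) / (w - σ j)) :=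
            mul_le_mul_of_nonneg_left (hgeo j) (hν j)
        _ = 3 / 2 * (ν j / (w - σ j)) := by ring
    linarith
  have hΘ0 : 0 < Θ := by linarith
  have hsum1 : ∑ j, (ν j / Θ) / (w - σ j) = 1 := by
    have : ∑ j, (ν j / Θ) / (w - σ j) = (∑ j, ν j / (w - σ j)) / Θ := by
      rw [Finset.sum_div]
      apply Finset.sum_congr rfl
      intro j _
      rw [div_div, div_div, mul_comm]
    rw [this, ← hΘ]; exact div_self hΘ0.ne'
  have hν' : ∀ j, 0 ≤ ν j / Θ := fun j => div_nonneg (hν j) hΘ0.le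
  have key := coeff_qS_mom1_ge k w hw1 σ (fun j => ν j / Θ) hσ0 hσ1 hν' hsum1 hk
  have hpow : (3 : ℝ) / 2 ≤ w ^ k := by
    have := one_add_mul_le_pow (a := 1 / (2 * (k : ℝ))) (by
      have : (0:ℝ) ≤ 1 / (2 * k) := by positivity
      linarith) k
    calc (3 : ℝ) / 2 = 1 + k * (1 / (2 * k)) := by field_simp; norm_num
      _ ≤ _ := this
  have hge : Θ * coeff k (qS (mom1 σ (fun j => ν j / Θ))) ≤ coeff k (qS (mom1 σ ν)) := by
    rw [coeff_qS _ (constantCoeff_mom1 _ _), coeff_qS _ (constantCoeff_mom1 _ _), Finset.mul_sum]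
    apply Finset.sum_le_sum
    intro n _
    have e : mom1 σ ν = C Θ * mom1 σ (fun j => ν j / Θ) := by
      rw [mom1, mom1, Finset.mul_sum]
      apply Finset.sum_congr rfl
      intro j _
      have : C (ν j) = C Θ * C (ν j / Θ) := by
        rw [← map_mul]; congr 1; field_simp
      rw [this]; ring
    have hp := (CPos.mom1 σ (fun j => ν j / Θ) hσ0 hν').pow (n + 1) k
    rw [e, mul_pow, ← map_pow, coeff_C_mul]
    have h1 : Θ ≤ Θ ^ (n + 1) := by
      calc Θ = Θ ^ 1 := (pow_one _).symm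
        _ ≤ Θ ^ (n + 1) := pow_le_pow_right₀ hΘ1.le (by omega)
    have h2 : 0 ≤ (k : ℝ) / (n + 1) * coeff k (mom1 σ (fun j => ν j / Θ) ^ (n + 1)) := by
      positivity
    calc Θ * ((k : ℝ) / (n + 1) * coeff k (mom1 σ (fun j => ν j / Θ) ^ (n + 1)))
        ≤ Θ ^ (n + 1) * ((k : ℝ) / (n + 1) * coeff k (mom1 σ (fun j => ν j / Θ) ^ (n + 1))) :=
          mul_le_mul_of_nonneg_right h1 h2
      _ = _ := by ring
  nlinarith

/-- restriction of a weight to a set -/
noncomputable def restr (A : ι → Prop) [DecidablePred A] (μ : ι → ℝ) : ι → ℝ :=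
  fun j => if A j then μ j else 0

theorem mom_restr (A : ι → Prop) [DecidablePred A] (s μ : ι → ℝ) :
    mom s (restr A μ) = mom (fun j => if A j then s j else 0) (restr A μ) := by
  rw [mom, mom]
  apply Finset.sum_congr rfl
  intro j _
  by_cases h : A j
  · simp [restr, h]
  · simp [restr, h]

theorem even_sum_nonneg_part (k : ℕ) (hk : 1 ≤ k) (s μ : ι → ℝ) (hμ : ∀ j, 0 ≤ μ j)
    (h : q k s μ ≤ 1) :
    ∑ j, restr (fun j => 0 ≤ s j ∧ s j ≤ 1) μ j * ∑ i ∈ range k, s j ^ (2 * i) ≤ 3 / 2 := by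
  classical
  set A : ι → Prop := fun j => 0 ≤ s j ∧ s j ≤ 1 with hA
  set ν := restr A μ with hν
  have hν0 : ∀ j, 0 ≤ ν j := by
    intro j; simp only [hν, restr]; split_ifs
    · exact hμ j
    · exact le_rfl
  have hνμ : ∀ j, ν j ≤ μ j := by
    intro j; simp only [hν, restr]; split_ifs
    · exact le_rfl
    · exact hμ j
  have h1 : q k s ν ≤ 1 := (q_mono k s ν μ hν0 hνμ).trans h
  set s' : ι → ℝ := fun j => if A j then s j else 0 with hs'
  have h2 : q k s' ν ≤ 1 := by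
    rw [q, ← mom_restr A s μ]; exact h1
  have hs0 : ∀ j, 0 ≤ s' j := by
    intro j; simp only [hs']; split_ifs with hj
    · exact hj.1
    · exact le_rfl
  have hs1 : ∀ j, s' j ≤ 1 := by
    intro j; simp only [hs']; split_ifs with hj
    · exact hj.2
    · norm_num
  have h3 := q_ge_two_mul k s' ν hs0 hν0
  have h4 : coeff k (qS (mom1 (fun j => s' j ^ 2) ν)) ≤ 1 / 2 := by linarith
  have h5 := sum_mom1_le k hk (fun j => s' j ^ 2) ν (fun j => sq_nonneg _)
    (fun j => pow_le_one₀ (hs0 j) (hs1 j)) hν0 h4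
  refine le_trans (le_of_eq ?_) h5
  apply Finset.sum_congr rfl
  intro j _
  by_cases hj : A j
  · simp only [hs', hj, if_true]
    congr 1
    apply Finset.sum_congr rfl
    intro i _
    rw [pow_mul]
  · have : ν j = 0 := by simp [hν, restr, hj]
    simp [this]

/-! ### symmetries -/

theorem mom_rescale (a : ℝ) (s μ : ι → ℝ) :
    mom (fun j => a * s j) (fun j => a ^ 2 * μ j) = rescale a (mom s μ) := by
  ext n
  rw [coeff_rescale]
  rcases n with _ | _ | n
  · rw [coeff_mom_zero, coeff_mom_zero, mul_zero]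
  · rw [coeff_mom_one, coeff_mom_one, mul_zero]
  · rw [coeff_mom_add_two, coeff_mom_add_two, Finset.mul_sum]
    apply Finset.sum_congr rfl
    intro j _
    rw [mul_pow, pow_add]; ring

theorem q_rescale (k : ℕ) (a : ℝ) (s μ : ι → ℝ) :
    q k (fun j => a * s j) (fun j => a ^ 2 * μ j) = a ^ (2 * k) * q k s μ := by
  rw [q_eq_sum, q_eq_sum, mom_rescale, Finset.mul_sum]
  apply Finset.sum_congr rfl
  intro n _
  rw [← map_pow, coeff_rescale]; ring

theorem q_neg (k : ℕ) (s μ : ι → ℝ) : q k (fun j => - s j) μ = q k s μ := by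
  have := q_rescale k (-1) s μ
  have e1 : (fun j => (-1 : ℝ) * s j) = fun j => - s j := by ext j; ring
  have e2 : (fun j => (-1 : ℝ) ^ 2 * μ j) = μ := by ext j; ring
  rw [e1, e2] at this
  rw [this, pow_mul]; norm_num

/-- the linear functional -/
noncomputable def Jfun (k : ℕ) (s μ : ι → ℝ) : ℝ :=
  ∑ j, μ j * (∑ i ∈ range k, s j ^ (2 * i) + k * s j ^ (2 * k - 2))

theorem Jfun_le (k : ℕ) (hk : 1 ≤ k) (s μ : ι → ℝ) (hμ : ∀ j, 0 ≤ μ j) (h : q k s μ ≤ 1) :
    Jfun k s μ ≤ 4 := by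
  classical
  have hp := even_sum_nonneg_part k hk s μ hμ h
  have hn := even_sum_nonneg_part k hk (fun j => - s j) μ hμ (by rw [q_neg]; exact h)
  have hf := q_ge_first k hk s μ hμ
  have hkR : (1 : ℝ) ≤ k := by exact_mod_cast hk
  set E : ℝ := ∑ j, μ j * s j ^ (2 * k - 2) with hE
  have hfirst : (k : ℝ) * E ≤ 1 / 2 := by nlinarith
  have hev : ∀ j, 0 ≤ s j ^ (2 * k - 2) := by
    intro j
    have : 2 * k - 2 = 2 * (k - 1) := by omega
    rw [this, pow_mul]; positivity
  have hterm : ∀ j, μ j * ∑ i ∈ range k, s j ^ (2 * i) ≤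
      restr (fun j => 0 ≤ s j ∧ s j ≤ 1) μ j * ∑ i ∈ range k, s j ^ (2 * i)
      + restr (fun j => 0 ≤ - s j ∧ - s j ≤ 1) μ j * ∑ i ∈ range k, (- s j) ^ (2 * i)
      + k * (μ j * s j ^ (2 * k - 2)) := by
    intro j
    have hsum0 : 0 ≤ ∑ i ∈ range k, s j ^ (2 * i) := by
      apply Finset.sum_nonneg; intro i _; rw [pow_mul]; positivity
    have hneg : ∑ i ∈ range k, (- s j) ^ (2 * i) = ∑ i ∈ range k, s j ^ (2 * i) := by
      apply Finset.sum_congr rfl; intro i _; rw [pow_mul, pow_mul, neg_sq]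
    rw [hneg]
    have hb : 0 ≤ (k : ℝ) * (μ j * s j ^ (2 * k - 2)) :=
      mul_nonneg (by positivity) (mul_nonneg (hμ j) (hev j))
    have hr1 : 0 ≤ restr (fun j => 0 ≤ s j ∧ s j ≤ 1) μ j := by
      simp only [restr]; split_ifs; exacts [hμ j, le_rfl]
    have hr2 : 0 ≤ restr (fun j => 0 ≤ - s j ∧ - s j ≤ 1) μ j := by
      simp only [restr]; split_ifs; exacts [hμ j, le_rfl]
    by_cases h1 : 0 ≤ s j ∧ s j ≤ 1
    · have : restr (fun j => 0 ≤ s j ∧ s j ≤ 1) μ j = μ j := by simp [restr, h1]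
      rw [this]
      have := mul_nonneg hr2 hsum0
      linarith
    · by_cases h2 : 0 ≤ - s j ∧ - s j ≤ 1
      · have : restr (fun j => 0 ≤ - s j ∧ - s j ≤ 1) μ j = μ j := by
          simp only [restr]; rw [if_pos h2]
        rw [this]
        have := mul_nonneg hr1 hsum0
        linarith
      · -- |s j| > 1
        have hs : 1 ≤ s j ^ 2 := by
          by_contra hlt
          push Not at hlt
          have hab : |s j| < 1 := by
            rw [← sq_lt_one_iff_abs_lt_one]; exact hlt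
          rw [abs_lt] at hab
          rcases le_total 0 (s j) with h0 | h0
          · exact h1 ⟨h0, hab.2.le⟩
          · exact h2 ⟨by linarith, by linarith⟩
        have hle : ∑ i ∈ range k, s j ^ (2 * i) ≤ k * s j ^ (2 * k - 2) := by
          calc ∑ i ∈ range k, s j ^ (2 * i) ≤ ∑ i ∈ range k, s j ^ (2 * k - 2) := by
                apply Finset.sum_le_sum
                intro i hi
                have hi' := Finset.mem_range.mp hi
                have : 2 * k - 2 = 2 * (k - 1) := by omega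
                rw [this, pow_mul, pow_mul]
                exact pow_le_pow_right₀ hs (by omega)
            _ = k * s j ^ (2 * k - 2) := by simp
        have h3 : μ j * ∑ i ∈ range k, s j ^ (2 * i) ≤ k * (μ j * s j ^ (2 * k - 2)) := by
          calc μ j * ∑ i ∈ range k, s j ^ (2 * i) ≤ μ j * (k * s j ^ (2 * k - 2)) :=
                mul_le_mul_of_nonneg_left hle (hμ j)
            _ = _ := by ring
        have := mul_nonneg hr1 hsum0
        have := mul_nonneg hr2 hsum0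
        linarith
  have hJ : Jfun k s μ = ∑ j, μ j * ∑ i ∈ range k, s j ^ (2 * i) + k * E := by
    rw [Jfun, hE, Finset.mul_sum, ← Finset.sum_add_distrib]
    apply Finset.sum_congr rfl
    intro j _
    ring
  have hsum := Finset.sum_le_sum (fun j (_ : j ∈ (Finset.univ : Finset ι)) => hterm j)
  rw [Finset.sum_add_distrib, Finset.sum_add_distrib, ← Finset.mul_sum, ← hE] at hsum
  rw [hJ]
  have hn' : ∑ j, restr (fun j => 0 ≤ - s j ∧ - s j ≤ 1) μ j *
      ∑ i ∈ range k, (- s j) ^ (2 * i) ≤ 3 / 2 := hn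
  linarith

end Crest.Agent.R109
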