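import Mathlib
import Crest.Agent.R109.Pure4
import Crest.Agent.R109.BookEnd

/-!
# Row 109, module PURE STATE (5): (H4) in terms of the matrices of `BookEnd`

`pdens x v W = (1/(K0 β))^(2k) * re ((mat (tilt Q k (pin c K) x) W)^(2k))_vv`.
-/

set_option autoImplicit false
set_option linter.unusedSectionVars false

namespace Crest.Agent.R109.Ann

open Finset MeasureTheory

variable {Gam X : Type*} [Group Gam] [MulAction Gam X] [MeasurableSpace X] {μ : Measure X}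
  [DecidableEq X]

/-- the tilted matrix of the window `W` -/
theorem pmat_eq_mat (Q : Book.QI Gam X μ) (T : X → X → ℂ) {k : ℕ} {l : ℝ} (hl : 0 ≤ l) {r : ℕ}
    (c : X → Fin r) (x : X) (W : Finset X) :
    pmat (fun u w : W => T u w) (fun v : W => c v)
        (fun v : W => (Q.rel x v) ^ ((1 : ℝ) / (2 * k)) * l)
      = (l : ℂ) • Book.mat (Book.tilt Q k (Book.pin c (fun _ => T)) x) W := by
  ext u w
  have h0 : ∀ z : X, √((Q.rel x z) ^ ((1 : ℝ) / (2 * k)) * l)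
      = (Q.rel x z) ^ ((1 : ℝ) / (4 * k)) * √l := by
    intro z
    rw [Real.sqrt_mul (Real.rpow_nonneg (Q.rel_pos _ _).le _)]
    congr 1
    rw [Real.sqrt_eq_rpow, ← Real.rpow_mul (Q.rel_pos _ _).le]
    congr 1
    ring
  have h1 : ((√l : ℝ) : ℂ) * ((√l : ℝ) : ℂ) = (l : ℂ) := by
    rw [← Complex.ofReal_mul, Real.mul_self_sqrt hl]
  simp only [pmat, Matrix.of_apply, Matrix.smul_apply, smul_eq_mul, Book.mat, Book.tilt, Book.tf,
    Book.pin]
  rw [h0, h0, ← h1]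
  push_cast
  ring

theorem pdens_eq_mat (Q : Book.QI Gam X μ) {T : X → X → ℂ} (hT : Herm T) (k : ℕ)
    {β K0 : ℝ} (hβ : 0 ≤ β) (hK : 0 ≤ K0) {r : ℕ} (c : X → Fin r) (x : X) (W : Finset X) (v : W) :
    pdens Q T k β K0 c x v W = (1 / (K0 * β)) ^ (2 * k) *
      ((Book.mat (Book.tilt Q k (Book.pin c (fun _ => T)) x) W ^ (2 * k)) v v).re := by
  rw [pdens, dens_eq hT k c _ W v, pmat_eq_mat Q T (by positivity), smul_pow, Matrix.smul_apply,
    smul_eq_mul, ← Complex.ofReal_pow, Complex.re_ofReal_mul]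

/-- **(H4)**: the trace formula, weights of `Book6` -/
theorem H_trace (Q : Book.QI Gam X μ) {T : X → X → ℂ} (hT : Herm T) {k : ℕ} (hk : 1 ≤ k)
    {β K0 : ℝ} (hβ : 0 ≤ β) (hK : 0 ≤ K0) {r : ℕ} (c : X → Fin r) (x : X) (W : Finset X) :
    FinVol.H k T (Book.gam Q k β K0 x (fun w => some (c w))) W
      = ∑ v : W, (1 / (K0 * β)) ^ (2 * k) *
      ((Book.mat (Book.tilt Q k (Book.pin c (fun _ => T)) x) W ^ (2 * k)) v v).re := by
  rw [H_gam_pure' Q hT hk hβ hK, ← Finset.sum_coe_sort]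
  exact Finset.sum_congr rfl fun v _ => pdens_eq_mat Q hT k hβ hK c x W v

/-- **(H4)**: the trace formula, weights of `FinVol` -/
theorem H_trace' (Q : Book.QI Gam X μ) {T : X → X → ℂ} (hT : Herm T) {k : ℕ} (hk : 1 ≤ k)
    {β K0 : ℝ} (hβ : 0 ≤ β) (hK : 0 ≤ K0) {r : ℕ} (c : X → Fin r) (x : X) (W : Finset X) :
    FinVol.H k T (FinVol.gam r β K0 k (Q.rel x) (fun w => some (c w))) W
      = ∑ v : W, (1 / (K0 * β)) ^ (2 * k) *
      ((Book.mat (Book.tilt Q k (Book.pin c (fun _ => T)) x) W ^ (2 * k)) v v).re := by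
  rw [H_gam_pure Q hT hk hβ hK, ← Finset.sum_coe_sort]
  exact Finset.sum_congr rfl fun v _ => pdens_eq_mat Q hT k hβ hK c x W v

end Crest.Agent.R109.Ann
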