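import Crest.Agent.R109.GN
import Mathlib.Analysis.CStarAlgebra.ContinuousFunctionalCalculus.Instances

/-!
# Row 109, module RN: Radon-Nikodym derivatives between `A`-central vectors
-/

set_option autoImplicit false
set_option linter.unusedSectionVars false
set_option linter.style.haveILetI false

namespace Crest.Agent.R109

open Crest.Agent.R124 Crest.Agent.R121 Filter Topology
open scoped InnerProductSpace

universe u

variable {H : Type u} [NormedAddCommGroup H] [InnerProductSpace ℂ H] [CompleteSpace H]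
variable {M : VonNeumannAlgebra H} {A : StarSubalgebra ℂ (H →L[ℂ] H)} {η : H}

/-! ### density of the span of the projections -/

/-- the span of the projections of `A` is norm dense in `A` -/
theorem Masa.mem_closure_span (hM : Masa M A) {a : H →L[ℂ] H} (ha : a ∈ A) :
    a ∈ (Submodule.span ℂ {p : H →L[ℂ] H | p ∈ A ∧ IsStarProjection p}).topologicalClosure := by
  set S := Submodule.span ℂ {p : H →L[ℂ] H | p ∈ A ∧ IsStarProjection p} with hS
  -- positive elements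
  have hpos : ∀ b ∈ A, 0 ≤ b → b ∈ S.topologicalClosure := by
    intro b hb h0
    change b ∈ (S.topologicalClosure : Set (H →L[ℂ] H))
    rw [Submodule.topologicalClosure_coe, Metric.mem_closure_iff]
    intro ε hε
    obtain ⟨n, q, hqA, hqp, h1, h2⟩ := hM.exists_simple hb h0 (half_pos hε)
    refine ⟨∑ k ∈ Finset.range n, ((ε / 2 : ℝ) : ℂ) • q k, ?_, ?_⟩
    · exact S.sum_mem fun k _ => S.smul_mem _ (Submodule.subset_span ⟨hqA k, hqp k⟩)
    · have h4 : 0 ≤ (∑ k ∈ Finset.range n, ((ε / 2 : ℝ) : ℂ) • q k) - b := sub_nonneg.2 h1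
      have h5 : (∑ k ∈ Finset.range n, ((ε / 2 : ℝ) : ℂ) • q k) - b
          ≤ algebraMap ℝ (H →L[ℂ] H) (ε / 2) := by
        rw [Algebra.algebraMap_eq_smul_one]
        have : ((ε / 2 : ℝ) : ℂ) • (1 : H →L[ℂ] H) = (ε / 2) • (1 : H →L[ℂ] H) :=
          Complex.coe_smul _ _
        rw [← this, sub_le_iff_le_add']
        exact h2
      have h6 := (CStarAlgebra.norm_le_iff_le_algebraMap _ (half_pos hε).le h4).2 h5
      rw [dist_comm, dist_eq_norm]
      linarith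
  have hone : (1 : H →L[ℂ] H) ∈ S.topologicalClosure :=
    S.le_topologicalClosure (Submodule.subset_span ⟨one_mem A, by simp [IsIdempotentElem], by simp⟩)
  -- self-adjoint elements
  have hsa : ∀ b ∈ A, IsSelfAdjoint b → b ∈ S.topologicalClosure := by
    intro b hb hbs
    have h1 : 0 ≤ b + (‖b‖ : ℂ) • (1 : H →L[ℂ] H) := by
      have h2 := IsSelfAdjoint.neg_algebraMap_norm_le_self hbs
      have h3 : algebraMap ℝ (H →L[ℂ] H) ‖b‖ = (‖b‖ : ℂ) • (1 : H →L[ℂ] H) := by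
        rw [Algebra.algebraMap_eq_smul_one]
        exact (Complex.coe_smul _ _).symm
      rw [h3] at h2
      rw [add_comm]
      exact neg_le_iff_add_nonneg'.1 h2
    have h2 := hpos _ (add_mem hb (A.smul_mem (one_mem A) _)) h1
    have h3 := S.topologicalClosure.sub_mem h2 (S.topologicalClosure.smul_mem (‖b‖ : ℂ) hone)
    simpa using h3
  have h1 := hsa (a + star a) (add_mem ha (star_mem ha)) (IsSelfAdjoint.add_star_self a)
  have h2 := hsa (Complex.I • (a - star a)) (A.smul_mem (sub_mem ha (star_mem ha)) _) (by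
    rw [isSelfAdjoint_iff, star_smul, star_sub, star_star, Complex.star_def, Complex.conj_I,
      neg_smul, ← smul_neg, neg_sub])
  have h3 := S.topologicalClosure.smul_mem (-Complex.I) h2
  rw [smul_smul] at h3
  have h4 : -Complex.I * Complex.I = 1 := by
    rw [neg_mul, Complex.I_mul_I, neg_neg]
  rw [h4, one_smul] at h3
  have h5 := S.topologicalClosure.smul_mem (1 / 2 : ℂ) (S.topologicalClosure.add_mem h1 h3)
  have h6 : (1 / 2 : ℂ) • (a + star a + (a - star a)) = a := by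
    have : a + star a + (a - star a) = (2 : ℂ) • a := by rw [two_smul]; abel
    rw [this, smul_smul]; norm_num
  rwa [h6] at h5

/-- two continuous linear maps which agree on the projections of `A` agree on `A` -/
theorem Masa.eq_of_proj (hM : Masa M A) {E : Type*} [NormedAddCommGroup E] [NormedSpace ℂ E]
    {f g : (H →L[ℂ] H) →L[ℂ] E}
    (hfg : ∀ p ∈ A, IsStarProjection p → f p = g p) {a : H →L[ℂ] H} (ha : a ∈ A) : f a = g a := by
  have h1 : Submodule.span ℂ {p : H →L[ℂ] H | p ∈ A ∧ IsStarProjection p}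
      ≤ LinearMap.eqLocus (f : (H →L[ℂ] H) →ₗ[ℂ] E) (g : (H →L[ℂ] H) →ₗ[ℂ] E) := by
    rw [Submodule.span_le]
    rintro p ⟨hp, hpp⟩
    exact hfg p hp hpp
  have h2 : IsClosed ((LinearMap.eqLocus (f : (H →L[ℂ] H) →ₗ[ℂ] E)
      (g : (H →L[ℂ] H) →ₗ[ℂ] E) : Submodule ℂ (H →L[ℂ] H)) : Set (H →L[ℂ] H)) :=
    isClosed_eq f.continuous g.continuous
  exact Submodule.topologicalClosure_minimal _ h1 h2 (hM.mem_closure_span ha)

/-- the functional `a ↦ ⟪α, (b * a) β⟫` -/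
noncomputable def pair (α β : H) (b : H →L[ℂ] H) : (H →L[ℂ] H) →L[ℂ] ℂ :=
  (innerSL ℂ α).comp ((ContinuousLinearMap.apply ℂ H β).comp
    (ContinuousLinearMap.mul ℂ (H →L[ℂ] H) b))

@[simp] lemma pair_apply (α β : H) (b a : H →L[ℂ] H) : pair α β b a = ⟪α, (b * a) β⟫_ℂ := rfl

/-! ### simple functions -/

section SimpleFn

/-- simple functions over a partition -/
noncomputable def FP.sf (P : FP A) (c : Fin P.n → ℝ) : H →L[ℂ] H := ∑ i, (c i : ℂ) • P.e i

variable (P Q : FP A) (c d : Fin P.n → ℝ)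

lemma FP.sf_mem : P.sf c ∈ A := sum_mem fun i _ => A.smul_mem (P.part.mem i) _

lemma FP.e_mul_sf (i : Fin P.n) : P.e i * P.sf c = (c i : ℂ) • P.e i := by
  rw [FP.sf, Finset.mul_sum, Finset.sum_eq_single i]
  · rw [mul_smul_comm, P.e_mul_e]
  · intro j _ hj
    rw [mul_smul_comm, P.part.orth _ _ (Ne.symm hj), smul_zero]
  · simp

lemma FP.sf_star : star (P.sf c) = P.sf c := by
  simp only [FP.sf, star_sum, star_smul, P.star_e, Complex.star_def, Complex.conj_ofReal]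

lemma FP.sf_sub : P.sf c - P.sf d = P.sf (fun i => c i - d i) := by
  simp only [FP.sf, Complex.ofReal_sub, sub_smul, Finset.sum_sub_distrib]

lemma FP.norm_sq_sf (ζ : H) : ‖P.sf c ζ‖ ^ 2 = ∑ i, c i ^ 2 * ‖P.e i ζ‖ ^ 2 := by
  rw [P.norm_sq]
  refine Finset.sum_congr rfl fun i _ => ?_
  have h1 : P.e i (P.sf c ζ) = (c i : ℂ) • P.e i ζ :=
    congrArg (fun R : H →L[ℂ] H => R ζ) (P.e_mul_sf c i)
  rw [h1, norm_smul, mul_pow]
  congr 1
  rw [Complex.norm_real, Real.norm_eq_abs, sq_abs]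

lemma FP.inner_sf (ζ : H) : ⟪ζ, P.sf c ζ⟫_ℂ = ((∑ i, c i * ‖P.e i ζ‖ ^ 2 : ℝ) : ℂ) := by
  rw [FP.sf, sum_apply, inner_sum]
  push_cast
  refine Finset.sum_congr rfl fun i _ => ?_
  change ⟪ζ, (c i : ℂ) • P.e i ζ⟫_ℂ = _
  rw [inner_smul_right]
  congr 1
  have e3 : ContinuousLinearMap.adjoint (P.e i) = P.e i := P.star_e i
  have : ⟪P.e i ζ, P.e i ζ⟫_ℂ = ⟪ζ, P.e i ζ⟫_ℂ := by
    conv_lhs => rw [← e3, ContinuousLinearMap.adjoint_inner_left, e3]
    change ⟪ζ, (P.e i * P.e i) ζ⟫_ℂ = _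
    rw [P.e_mul_e]
  rw [← this, inner_self_eq_norm_sq_to_K]
  rfl

lemma FP.norm_sf_le {C : ℝ} (hC : 0 ≤ C) (hc : ∀ i, |c i| ≤ C) : ‖P.sf c‖ ≤ C := by
  refine ContinuousLinearMap.opNorm_le_bound _ hC fun ζ => ?_
  apply le_of_sq_le_sq _ (by positivity)
  rw [P.norm_sq_sf, mul_pow, P.norm_sq ζ, Finset.mul_sum]
  refine Finset.sum_le_sum fun i _ => ?_
  have h1 : c i ^ 2 ≤ C ^ 2 := sq_le_sq' (by linarith [abs_le.1 (hc i)]) (abs_le.1 (hc i)).2
  exact mul_le_mul_of_nonneg_right h1 (by positivity)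

lemma FP.sf_nonneg (hc : ∀ i, 0 ≤ c i) : 0 ≤ P.sf c := by
  rw [ContinuousLinearMap.nonneg_iff_isPositive, ContinuousLinearMap.isPositive_def']
  refine ⟨P.sf_star c, fun ζ => ?_⟩
  rw [ContinuousLinearMap.reApplyInnerSelf_apply]
  have h1 := P.inner_sf c ζ
  have h2 : (⟪P.sf c ζ, ζ⟫_ℂ).re = ∑ i, c i * ‖P.e i ζ‖ ^ 2 := by
    rw [← inner_conj_symm, h1, Complex.conj_ofReal, Complex.ofReal_re]
  change 0 ≤ (⟪P.sf c ζ, ζ⟫_ℂ).re
  rw [h2]
  exact Finset.sum_nonneg fun i _ => mul_nonneg (hc i) (by positivity)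

variable {P Q} in
lemma FP.sf_refine (f : Fin Q.n → Fin P.n)
    (hf : ∀ i, P.e i = ∑ j, if f j = i then Q.e j else 0) :
    P.sf c = Q.sf (fun j => c (f j)) := by
  rw [FP.sf, FP.sf]
  have h1 : ∀ i, (c i : ℂ) • P.e i = ∑ j, if f j = i then (c (f j) : ℂ) • Q.e j else 0 := by
    intro i
    conv_lhs => rw [hf i]
    rw [Finset.smul_sum]
    refine Finset.sum_congr rfl fun j _ => ?_
    split_ifs with hij
    · rw [hij]
    · rw [smul_zero]
  rw [Finset.sum_congr rfl fun i _ => h1 i, Finset.sum_comm]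
  refine Finset.sum_congr rfl fun j _ => ?_
  rw [Finset.sum_ite_eq Finset.univ (f j)]
  simp

variable {P Q} in
lemma FP.sum_refine (f : Fin Q.n → Fin P.n)
    (hf : ∀ i, P.e i = ∑ j, if f j = i then Q.e j else 0) (g : Fin P.n → ℝ) (ζ : H) :
    ∑ j, g (f j) * ‖Q.e j ζ‖ ^ 2 = ∑ i, g i * ‖P.e i ζ‖ ^ 2 := by
  have h1 : ∀ i, g i * ‖P.e i ζ‖ ^ 2 = ∑ j, if f j = i then g (f j) * ‖Q.e j ζ‖ ^ 2 else 0 := by
    intro i
    rw [Q.norm_sq (P.e i ζ), Finset.mul_sum]
    refine Finset.sum_congr rfl fun j _ => ?_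
    have h2 : Q.e j (P.e i ζ) = (if f j = i then Q.e j else 0) ζ :=
      congrArg (fun R : H →L[ℂ] H => R ζ) (FP.le_mul' f hf i j)
    rw [h2]
    split_ifs with hij
    · rw [hij]
    · simp
  rw [Finset.sum_congr rfl fun i _ => h1 i, Finset.sum_comm]
  refine Finset.sum_congr rfl fun j _ => ?_
  rw [Finset.sum_ite_eq Finset.univ (f j)]
  simp

end SimpleFn

lemma FP.two_le {p : H →L[ℂ] H} (hp : p ∈ A) (hpp : IsStarProjection p) {P : FP A}
    (hP : FP.two hp hpp ≤ P) : ∃ s : Fin P.n → Bool, p = ∑ j, if s j then P.e j else 0 := by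
  obtain ⟨f, hf⟩ := hP
  let f' : Fin P.n → Fin 2 := f
  have h0 : p = ∑ j, if f' j = (0 : Fin 2) then P.e j else 0 := hf (0 : Fin 2)
  refine ⟨fun j => decide (f' j = 0), ?_⟩
  simpa using h0

/-! ### the martingale -/

section Mart

variable (β γ : H)

/-- the weight `‖b η‖² + ‖b β‖²` -/
noncomputable def lam (η β : H) (b : H →L[ℂ] H) : ℝ := ‖b η‖ ^ 2 + ‖b β‖ ^ 2

lemma lam_nonneg (η β : H) (b : H →L[ℂ] H) : 0 ≤ lam η β b := by unfold lam; positivity

/-- density on the atoms -/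
noncomputable def FP.dens (P : FP A) (η β γ : H) (i : Fin P.n) : ℝ :=
  ‖P.e i γ‖ ^ 2 / lam η β (P.e i)

variable {β γ} {C : ℝ}

/-- **Radon-Nikodym theorem** on the masa -/
theorem NCE.exists_mart (h : NCE M A η) (hC : 0 ≤ C)
    (hd : ∀ p ∈ A, IsStarProjection p → ‖p γ‖ ^ 2 ≤ C * (‖p η‖ ^ 2 + ‖p β‖ ^ 2)) :
    ∃ F ∈ A, 0 ≤ F ∧ ‖F‖ ≤ C ∧ ∀ a ∈ A, ⟪γ, a γ⟫_ℂ = ⟪η, (F * a) η⟫_ℂ + ⟪β, (F * a) β⟫_ℂ := by
  haveI := FP.atTop_neBot h.masa
  have hden : ∀ (P : FP A) i, P.dens η β γ i * lam η β (P.e i) = ‖P.e i γ‖ ^ 2 := by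
    intro P i
    unfold FP.dens
    by_cases h0 : lam η β (P.e i) = 0
    · have h1 := hd _ (P.part.mem i) (P.part.proj i)
      change _ ≤ C * lam η β (P.e i) at h1
      rw [h0, mul_zero] at h1
      rw [h0, mul_zero]
      exact le_antisymm (by positivity) h1
    · rw [div_mul_cancel₀ _ h0]
  have hd0 : ∀ (P : FP A) i, 0 ≤ P.dens η β γ i := fun P i =>
    div_nonneg (by positivity) (lam_nonneg _ _ _)
  have hdC : ∀ (P : FP A) i, P.dens η β γ i ≤ C := by
    intro P i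
    unfold FP.dens
    exact div_le_of_le_mul₀ (lam_nonneg _ _ _) hC (hd _ (P.part.mem i) (P.part.proj i))
  set F : FP A → H →L[ℂ] H := fun P => P.sf (P.dens η β γ) with hF
  set N : FP A → ℝ := fun P => ∑ i, P.dens η β γ i ^ 2 * lam η β (P.e i) with hN
  -- key identity
  have hkey : ∀ P Q : FP A, P ≤ Q →
      ‖F Q η - F P η‖ ^ 2 + ‖F Q β - F P β‖ ^ 2 = N Q - N P := by
    rintro P Q ⟨f, hf⟩
    have e1 : ∀ ζ, F Q ζ - F P ζ = Q.sf (fun j => Q.dens η β γ j - P.dens η β γ (f j)) ζ := by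
      intro ζ
      simp only [hF]
      rw [FP.sf_refine (P.dens η β γ) f hf, ← Q.sf_sub]
      rfl
    rw [e1, e1, Q.norm_sq_sf, Q.norm_sq_sf, ← Finset.sum_add_distrib]
    have e2 : ∀ g : Fin P.n → ℝ, ∑ j, g (f j) * lam η β (Q.e j) = ∑ i, g i * lam η β (P.e i) := by
      intro g
      simp only [lam, mul_add, Finset.sum_add_distrib]
      rw [FP.sum_refine f hf, FP.sum_refine f hf]
    have e3 : ∑ j, P.dens η β γ (f j) * Q.dens η β γ j * lam η β (Q.e j) = N P := by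
      have : ∀ j, P.dens η β γ (f j) * Q.dens η β γ j * lam η β (Q.e j)
          = P.dens η β γ (f j) * ‖Q.e j γ‖ ^ 2 := fun j => by rw [mul_assoc, hden]
      rw [Finset.sum_congr rfl fun j _ => this j,
        FP.sum_refine f hf (fun i => P.dens η β γ i) γ]
      refine Finset.sum_congr rfl fun i _ => ?_
      rw [← hden P i]
      ring
    have e4 : ∑ j, P.dens η β γ (f j) ^ 2 * lam η β (Q.e j) = N P :=
      e2 fun i => P.dens η β γ i ^ 2
    have e5 : ∀ j, ((Q.dens η β γ j - P.dens η β γ (f j)) ^ 2 * ‖Q.e j η‖ ^ 2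
        + (Q.dens η β γ j - P.dens η β γ (f j)) ^ 2 * ‖Q.e j β‖ ^ 2)
        = Q.dens η β γ j ^ 2 * lam η β (Q.e j)
          - 2 * (P.dens η β γ (f j) * Q.dens η β γ j * lam η β (Q.e j))
          + P.dens η β γ (f j) ^ 2 * lam η β (Q.e j) := by
      intro j
      unfold lam
      ring
    rw [Finset.sum_congr rfl fun j _ => e5 j, Finset.sum_add_distrib, Finset.sum_sub_distrib,
      ← Finset.mul_sum, e3, e4]
    simp only [hN]
    ring
  have hNle : ∀ P, N P ≤ C ^ 2 * (‖η‖ ^ 2 + ‖β‖ ^ 2) := by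
    intro P
    rw [P.norm_sq η, P.norm_sq β, ← Finset.sum_add_distrib, Finset.mul_sum]
    refine Finset.sum_le_sum fun i _ => ?_
    change _ ≤ C ^ 2 * lam η β (P.e i)
    exact mul_le_mul_of_nonneg_right (pow_le_pow_left₀ (hd0 P i) (hdC P i) 2) (lam_nonneg _ _ _)
  have hbdd : BddAbove (Set.range N) := ⟨_, by rintro _ ⟨P, rfl⟩; exact hNle P⟩
  have hcauchy : Cauchy (map (fun P : FP A => F P η) atTop) := by
    rw [Metric.cauchy_iff]
    refine ⟨inferInstance, fun ε hε => ?_⟩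
    set m := ⨆ P : FP A, N P with hm
    obtain ⟨P₀, hP₀⟩ := exists_lt_of_lt_ciSup (show m - (ε / 2) ^ 2 < m by
      have : 0 < (ε / 2) ^ 2 := by positivity
      linarith)
    have hle : ∀ P, N P ≤ m := fun P => le_ciSup hbdd P
    have hk : ∀ P, P₀ ≤ P → ‖F P η - F P₀ η‖ < ε / 2 := by
      intro P hP
      have h1 := hkey P₀ P hP
      have h2 := hle P
      have h3 : 0 ≤ ‖F P β - F P₀ β‖ ^ 2 := by positivity
      apply lt_of_pow_lt_pow_left₀ 2 (by positivity)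
      linarith
    refine ⟨(fun P : FP A => F P η) '' Set.Ici P₀, image_mem_map (Ici_mem_atTop P₀), ?_⟩
    rintro _ ⟨P, hP, rfl⟩ _ ⟨Q, hQ, rfl⟩
    have h1 := hk P hP
    have h2 := hk Q hQ
    rw [dist_eq_norm]
    calc ‖F P η - F Q η‖ = ‖(F P η - F P₀ η) - (F Q η - F P₀ η)‖ := by congr 1; abel
      _ ≤ ‖F P η - F P₀ η‖ + ‖F Q η - F P₀ η‖ := norm_sub_le _ _
      _ < ε := by linarith
  obtain ⟨L, hL, hLn, hLt⟩ := strong_lim M h.sep
    (fun P : FP A => h.masa.memM (P.sf_mem (P.dens η β γ)))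
    (fun P => P.norm_sf_le _ hC fun i => by
      rw [abs_of_nonneg (hd0 P i)]; exact hdC P i) hcauchy
  have hLA : L ∈ A := by
    apply h.masa.max _ hL
    intro a ha
    ext ζ
    change a (L ζ) = L (a ζ)
    refine tendsto_nhds_unique ((a.continuous.tendsto _).comp (hLt ζ)) ?_
    refine (hLt (a ζ)).congr fun P => ?_
    exact congrArg (fun R : H →L[ℂ] H => R ζ) (h.masa.comm _ (P.sf_mem _) a ha)
  have hL0 : 0 ≤ L := by
    rw [ContinuousLinearMap.nonneg_iff_isPositive, ContinuousLinearMap.isPositive_def']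
    refine ⟨?_, fun ζ => ?_⟩
    · rw [ContinuousLinearMap.isSelfAdjoint_iff_isSymmetric]
      intro ζ ξ
      have h1 : Tendsto (fun P : FP A => ⟪F P ζ, ξ⟫_ℂ) atTop (𝓝 ⟪L ζ, ξ⟫_ℂ) :=
        Filter.Tendsto.inner (hLt ζ) tendsto_const_nhds
      have h2 : Tendsto (fun P : FP A => ⟪ζ, F P ξ⟫_ℂ) atTop (𝓝 ⟪ζ, L ξ⟫_ℂ) :=
        Filter.Tendsto.inner tendsto_const_nhds (hLt ξ)
      refine tendsto_nhds_unique h1 (h2.congr fun P => ?_)
      have e3 : ContinuousLinearMap.adjoint (F P) = F P := P.sf_star _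
      conv_lhs => rw [← e3, ContinuousLinearMap.adjoint_inner_right]
    · rw [ContinuousLinearMap.reApplyInnerSelf_apply]
      have h1 : Tendsto (fun P : FP A => (⟪F P ζ, ζ⟫_ℂ).re) atTop (𝓝 (⟪L ζ, ζ⟫_ℂ).re) :=
        (Complex.continuous_re.tendsto _).comp
          (Filter.Tendsto.inner (hLt ζ) tendsto_const_nhds)
      exact ge_of_tendsto' h1 fun P => re_inner_nonneg (P.sf_nonneg _ (hd0 P)) ζ
  refine ⟨L, hLA, hL0, hLn, ?_⟩
  -- the identity for projections
  have hproj : ∀ p ∈ A, IsStarProjection p →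
      ⟪γ, p γ⟫_ℂ = ⟪η, (L * p) η⟫_ℂ + ⟪β, (L * p) β⟫_ℂ := by
    intro p hp hpp
    have h1 : Tendsto (fun P : FP A => ⟪η, (F P * p) η⟫_ℂ + ⟪β, (F P * p) β⟫_ℂ) atTop
        (𝓝 (⟪η, (L * p) η⟫_ℂ + ⟪β, (L * p) β⟫_ℂ)) :=
      (Filter.Tendsto.inner tendsto_const_nhds (hLt (p η))).add
        (Filter.Tendsto.inner tendsto_const_nhds (hLt (p β)))
    refine tendsto_nhds_unique (tendsto_const_nhds.congr' ?_) h1
    filter_upwards [Ici_mem_atTop (FP.two hp hpp)] with P hP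
    obtain ⟨f, hp0⟩ := FP.two_le hp hpp hP
    have e1 : F P * p = P.sf (fun j => if f j then P.dens η β γ j else 0) := by
      conv_lhs => rw [hp0, Finset.mul_sum]
      rw [FP.sf]
      refine Finset.sum_congr rfl fun j _ => ?_
      split_ifs with hj
      · rw [h.masa.comm _ (P.sf_mem _) _ (P.part.mem j), P.e_mul_sf]
      · simp
    have e2 : p = P.sf (fun j => if f j then 1 else 0) := by
      conv_lhs => rw [hp0]
      rw [FP.sf]
      refine Finset.sum_congr rfl fun j _ => ?_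
      split_ifs with hj <;> simp
    rw [e1]
    conv_lhs => rw [e2]
    rw [P.inner_sf, P.inner_sf, P.inner_sf, ← Complex.ofReal_add, ← Finset.sum_add_distrib]
    congr 1
    refine Finset.sum_congr rfl fun j _ => ?_
    split_ifs with hj
    · rw [one_mul, ← hden P j]
      unfold lam
      ring
    · simp
  intro a ha
  have h1 := h.masa.eq_of_proj (f := pair γ γ 1) (g := pair η η L + pair β β L)
    (fun p hp hpp => by simpa using hproj p hp hpp) ha
  simpa using h1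

end Mart

end Crest.Agent.R109
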