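import Crest.Agent.R109.PartLib

/-!
# Row 109: S0143 in the amplified situation, from `NCE_q`, `HasE`, `NoNCE143`
-/

set_option autoImplicit false
set_option linter.unusedSectionVars false

namespace Crest.Agent.R109

open scoped InnerProductSpace
open ContinuousLinearMap Crest.Agent.R121 Crest.Agent.R124

universe u

variable {H : Type u} [NormedAddCommGroup H] [InnerProductSpace ℂ H] [CompleteSpace H]
variable {M : VonNeumannAlgebra H} {A : StarSubalgebra ℂ (H →L[ℂ] H)}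

/-- pinching of an element of the masa -/
lemma Part.pinch_mem (hM : Masa M A) {z : H →L[ℂ] H} {ι : Type*} [Fintype ι]
    {p : ι → H →L[ℂ] H} (h : Part A z p) {a : H →L[ℂ] H} (ha : a ∈ A) :
    ∑ i, p i * a * p i = z * a := by
  rw [← h.sum, Finset.sum_mul]
  refine Finset.sum_congr rfl (fun i _ => ?_)
  rw [mul_assoc, hM.comm a ha (p i) (h.mem i), ← mul_assoc, (h.proj i).isIdempotentElem.eq]

lemma proj_add {e f : H →L[ℂ] H} (he : IsStarProjection e) (hf : IsStarProjection f)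
    (hef : e * f = 0) : IsStarProjection (e + f) := by
  have hfe : f * e = 0 := by
    have := congrArg star hef
    rwa [star_mul, he.isSelfAdjoint.star_eq, hf.isSelfAdjoint.star_eq, star_zero] at this
  refine ⟨?_, ?_⟩
  · change (e + f) * (e + f) = e + f
    rw [add_mul, mul_add, mul_add, he.isIdempotentElem.eq, hf.isIdempotentElem.eq, hef, hfe]
    abel
  · exact he.isSelfAdjoint.add hf.isSelfAdjoint

lemma proj_sub {e f : H →L[ℂ] H} (he : IsStarProjection e) (hf : IsStarProjection f)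
    (hef : e * f = f) : IsStarProjection (e - f) := by
  have hfe : f * e = f := by
    have := congrArg star hef
    rwa [star_mul, he.isSelfAdjoint.star_eq, hf.isSelfAdjoint.star_eq] at this
  refine ⟨?_, ?_⟩
  · change (e - f) * (e - f) = e - f
    rw [sub_mul, mul_sub, mul_sub, he.isIdempotentElem.eq, hf.isIdempotentElem.eq, hef, hfe]
    abel
  · exact he.isSelfAdjoint.sub hf.isSelfAdjoint

/-- **S0143 when the commutant is properly infinite** -/
theorem red143_amp (hN : NCE_q.{u}) (hE : HasE.{u}) (h0 : NoNCE143.{u}) (hM : Masa M A)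
    (hA : Amp M) {ε : ℝ} (hε : 0 < ε) (hε1 : ε < 1) {x : H →L[ℂ] H} (hx : x ∈ M)
    (hsa : IsSelfAdjoint x) (ξ : H) {δ : ℝ} (hδ : 0 < δ) :
    ∃ p : Fin (Nat.ceil (400000000 / ε ^ 2) + Nat.ceil (4 / ε) + 1) → (H →L[ℂ] H),
      Part A 1 p ∧ ∃ a ∈ A, IsSelfAdjoint a ∧ ‖a‖ ≤ ‖x‖ ∧
        ∃ q ∈ M, IsStarProjection q ∧ ‖(1 - q) ξ‖ < δ ∧
          ‖q * (∑ i, p i * x * p i - a) * q‖ ≤ ε * ‖x‖ := by
  -- the dichotomy
  obtain ⟨z, hzA, hzp, hNoC, hzle, hznear⟩ := exists_zed hM hA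
  obtain ⟨η, hη, hηξ⟩ := hznear ξ (δ / 3) (by positivity)
  set e := vs M η with he
  have hep : IsStarProjection e := vs_proj M η
  have heA : e ∈ A := hη.vs_mem hM
  have heM : e ∈ M := hM.le heA
  have hzM : z ∈ M := hM.le hzA
  have hze : z * e = e := hzle η hη
  have hez : e * z = e := by
    have := congrArg star hze
    rwa [star_mul, hep.isSelfAdjoint.star_eq, hzp.isSelfAdjoint.star_eq] at this
  have hzz : z * z = z := hzp.isIdempotentElem
  have hee : e * e = e := hep.isIdempotentElem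
  have h1zp : IsStarProjection (1 - z) := hzp.one_sub
  have h1zA : (1 - z) ∈ A := sub_mem (one_mem _) hzA
  have hrp : IsStarProjection (z - e) := proj_sub hzp hep hze
  have hrA : z - e ∈ A := sub_mem hzA heA
  have he1 : e * (1 - z) = 0 := by rw [mul_sub, mul_one, hez, sub_self]
  have h1e : (1 - z) * e = 0 := by rw [sub_mul, one_mul, hze, sub_self]
  -- the part with normal expectation
  obtain ⟨a₁, ha₁A, ha₁sa, ha₁n, hea₁, ha₁e, ha₁0⟩ := exists_E hE hM hη hx hsa
  have ha₁M : a₁ ∈ M := hM.le ha₁A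
  have part1 : ∃ p : Fin (Nat.ceil (400000000 / ε ^ 2)) → H →L[ℂ] H, Part A e p ∧ ∃ q ∈ M,
      IsStarProjection q ∧ e * q = q ∧ ‖(e - q) ξ‖ < δ / 3 ∧
        ‖q * (∑ i, p i * x * p i - a₁) * q‖ ≤ ε * ‖x‖ := by
    obtain ⟨δ', hδ', hnear⟩ := near M η ξ 1 (show (0 : ℝ) < δ / 3 by positivity)
    have hr : (10 : ℝ) ^ 8 / (ε / 2) ^ 2 ≤ ((Nat.ceil (400000000 / ε ^ 2) : ℕ) : ℝ) := by
      refine le_trans (le_of_eq ?_) (Nat.le_ceil _)
      field_simp
      norm_num
    -- normalisation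
    by_cases hx0 : x = 0
    · -- trivial case
      have ha₁0' : a₁ = 0 := by
        rw [hx0, norm_zero] at ha₁n
        exact norm_le_zero_iff.1 ha₁n
      obtain ⟨p, hp, q, hqM, hqp, heq, hqη, -⟩ := nce_corner hN hM hA hη (x := 0) (zero_mem _)
        (by simp [IsSelfAdjoint]) (by simp) (by intro a _; simp)
        (show (0 : ℝ) < ε / 2 by positivity) (by linarith) hr hδ'
      refine ⟨p, hp, q, hqM, hqp, heq, ?_, ?_⟩
      · have h1 := hnear (e - q) (sub_mem heM hqM) ((proj_sub hep hqp heq).norm_le) hqη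
        have h2 : (e - q) (e ξ) = (e - q) ξ := by
          have h3 : (e - q) * e = e - q := by
            have hqe : q * e = q := by
              have := congrArg star heq
              rwa [star_mul, hep.isSelfAdjoint.star_eq, hqp.isSelfAdjoint.star_eq] at this
            rw [sub_mul, hee, hqe]
          exact congrArg (fun F : H →L[ℂ] H => F ξ) h3
        rwa [h2] at h1
      · rw [hx0, ha₁0']
        simp
    · have hxn : 0 < ‖x‖ := norm_pos_iff.2 hx0
      set c : ℂ := (((2 * ‖x‖)⁻¹ : ℝ) : ℂ) with hc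
      have hcn : ‖c‖ = (2 * ‖x‖)⁻¹ := by
        rw [hc, Complex.norm_real, Real.norm_of_nonneg (by positivity)]
      have hyM : c • (x - a₁) ∈ M :=
        SMulMemClass.smul_mem (S := StarSubalgebra ℂ (H →L[ℂ] H))
          (s := M.toStarSubalgebra) c (sub_mem hx ha₁M)
      have hysa : IsSelfAdjoint (c • (x - a₁)) := by
        have h1 : IsSelfAdjoint (x - a₁) := hsa.sub ha₁sa
        change star (c • (x - a₁)) = _
        rw [star_smul, h1.star_eq, hc, Complex.star_def, Complex.conj_ofReal]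
      have hyn : ‖c • (x - a₁)‖ ≤ 1 := by
        rw [norm_smul, hcn]
        have h1 : ‖x - a₁‖ ≤ 2 * ‖x‖ := (norm_sub_le _ _).trans (by linarith)
        calc (2 * ‖x‖)⁻¹ * ‖x - a₁‖ ≤ (2 * ‖x‖)⁻¹ * (2 * ‖x‖) := by gcongr
          _ = 1 := by field_simp
      have hy0 : ∀ a ∈ A, ⟪η, (a * (c • (x - a₁))) η⟫_ℂ = 0 := by
        intro a ha
        rw [mul_smul_comm, smul_apply, inner_smul_right, ha₁0 a ha, mul_zero]
      obtain ⟨p, hp, q, hqM, hqp, heq, hqη, hq⟩ := nce_corner hN hM hA hη hyM hysa hyn hy0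
        (show (0 : ℝ) < ε / 2 by positivity) (by linarith) hr hδ'
      refine ⟨p, hp, q, hqM, hqp, heq, ?_, ?_⟩
      · have h1 := hnear (e - q) (sub_mem heM hqM) ((proj_sub hep hqp heq).norm_le) hqη
        have h2 : (e - q) (e ξ) = (e - q) ξ := by
          have h3 : (e - q) * e = e - q := by
            have hqe : q * e = q := by
              have := congrArg star heq
              rwa [star_mul, hep.isSelfAdjoint.star_eq, hqp.isSelfAdjoint.star_eq] at this
            rw [sub_mul, hee, hqe]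
          exact congrArg (fun F : H →L[ℂ] H => F ξ) h3
        rwa [h2] at h1
      · have h1 : q * (∑ i, p i * (c • (x - a₁)) * p i) * q =
            c • (q * (∑ i, p i * x * p i - a₁) * q) := by
          have h2 : ∑ i, p i * (c • (x - a₁)) * p i = c • (∑ i, p i * x * p i - a₁) := by
            have h3 : ∑ i, p i * a₁ * p i = a₁ := by
              rw [hp.pinch_mem hM ha₁A, hea₁]
            have h5 : ∑ i, p i * (c • (x - a₁)) * p i =
                c • (∑ i, p i * x * p i - ∑ i, p i * a₁ * p i) := by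
              rw [← Finset.sum_sub_distrib, Finset.smul_sum]
              refine Finset.sum_congr rfl (fun i _ => ?_)
              rw [mul_smul_comm, smul_mul_assoc, mul_sub, sub_mul]
            rw [h5, h3]
          rw [h2, mul_smul_comm, smul_mul_assoc]
        rw [h1, norm_smul, hcn] at hq
        have h4 : ‖q * (∑ i, p i * x * p i - a₁) * q‖ =
            (2 * ‖x‖) * ((2 * ‖x‖)⁻¹ * ‖q * (∑ i, p i * x * p i - a₁) * q‖) := by
          field_simp
        rw [h4]
        calc (2 * ‖x‖) * ((2 * ‖x‖)⁻¹ * ‖q * (∑ i, p i * x * p i - a₁) * q‖)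
            ≤ (2 * ‖x‖) * (ε / 2) := by gcongr
          _ = ε * ‖x‖ := by ring
  obtain ⟨p₁, hp₁, q₁, hq₁M, hq₁p, heq₁, hq₁ξ, hq₁⟩ := part1
  -- the part without normal expectation
  have part0 : ∃ p : Fin (Nat.ceil (4 / ε)) → H →L[ℂ] H, Part A (1 - z) p ∧ ∃ a ∈ A,
      IsSelfAdjoint a ∧ (1 - z) * a = a ∧ ‖a‖ ≤ ‖x‖ ∧ ∃ q ∈ M,
      IsStarProjection q ∧ (1 - z) * q = q ∧ ‖((1 - z) - q) ξ‖ < δ / 3 ∧
        ‖q * (∑ i, p i * x * p i - a) * q‖ ≤ ε * ‖x‖ := by
    have hR : 0 < Nat.ceil (4 / ε) := Nat.ceil_pos.2 (by positivity)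
    have hR' : 4 / ε ≤ ((Nat.ceil (4 / ε) : ℕ) : ℝ) := Nat.le_ceil _
    by_cases hx0 : x = 0
    · obtain ⟨p, hp, a, haA, hasa, hza, han, q, hqM, hqp, hzq, hqξ, hq⟩ :=
        h0 H M A hM hA (1 - z) h1zA h1zp hNoC x hx hsa ξ _ hR (δ / 3) (by positivity)
      have ha0 : a = 0 := by
        rw [hx0, norm_zero] at han
        exact norm_le_zero_iff.1 han
      refine ⟨p, hp, a, haA, hasa, hza, han, q, hqM, hqp, hzq, hqξ, ?_⟩
      rw [ha0, hx0]
      simp
    · have hxn : 0 < ‖x‖ := norm_pos_iff.2 hx0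
      obtain ⟨p, hp, a, haA, hasa, hza, han, q, hqM, hqp, hzq, hqξ, hq⟩ :=
        h0 H M A hM hA (1 - z) h1zA h1zp hNoC x hx hsa ξ _ hR (min (δ / 3) (ε * ‖x‖ / 4))
          (lt_min (by positivity) (by positivity))
      refine ⟨p, hp, a, haA, hasa, hza, han, q, hqM, hqp, hzq,
        lt_of_lt_of_le hqξ (min_le_left _ _), hq.trans ?_⟩
      have h1 : 2 / ((Nat.ceil (4 / ε) : ℕ) : ℝ) ≤ ε / 2 := by
        rw [div_le_div_iff₀ (by positivity) (by norm_num)]
        rw [div_le_iff₀ hε] at hR'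
        linarith
      calc 2 / ((Nat.ceil (4 / ε) : ℕ) : ℝ) * ‖x‖ + min (δ / 3) (ε * ‖x‖ / 4)
          ≤ ε / 2 * ‖x‖ + ε * ‖x‖ / 4 := by
            gcongr
            exact min_le_right _ _
        _ ≤ ε * ‖x‖ := by nlinarith
  obtain ⟨p₀, hp₀, a₀, ha₀A, ha₀sa, hza₀, ha₀n, q₀, hq₀M, hq₀p, hzq₀, hq₀ξ, hq₀⟩ := part0
  -- glue
  have ha₀z : a₀ * (1 - z) = a₀ := by
    have := congrArg star hza₀
    rwa [star_mul, ha₀sa.star_eq, h1zp.isSelfAdjoint.star_eq] at this
  have hq₀z : q₀ * (1 - z) = q₀ := by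
    have := congrArg star hzq₀
    rwa [star_mul, hq₀p.isSelfAdjoint.star_eq, h1zp.isSelfAdjoint.star_eq] at this
  have hq₁e : q₁ * e = q₁ := by
    have := congrArg star heq₁
    rwa [star_mul, hq₁p.isSelfAdjoint.star_eq, hep.isSelfAdjoint.star_eq] at this
  have hq10 : q₁ * q₀ = 0 := by
    rw [← hq₁e, ← hzq₀, mul_assoc, ← mul_assoc e, he1, zero_mul, mul_zero]
  have hq01 : q₀ * q₁ = 0 := by
    rw [← hq₀z, ← heq₁, mul_assoc, ← mul_assoc (1 - z), h1e, zero_mul, mul_zero]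
  have hP := (hp₁.append hp₀ he1 h1e).append (Part.single hrA hrp)
    (by
      rw [add_mul, mul_sub, mul_sub, hez, hee, sub_self, zero_add, sub_mul, sub_mul, one_mul,
        one_mul, hzz, hze]
      abel)
    (by
      rw [mul_add, sub_mul, sub_mul, hze, hee, sub_self, zero_add, mul_sub, mul_sub, mul_one,
        mul_one, hzz, hez]
      abel)
  have hPsum : e + (1 - z) + (z - e) = 1 := by abel
  rw [hPsum] at hP
  refine ⟨_, hP, a₁ + a₀, add_mem ha₁A ha₀A, ha₁sa.add ha₀sa,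
    norm_block hep h1zp he1 hea₁ ha₁e hza₀ ha₀z ha₁n ha₀n,
    q₁ + q₀, add_mem hq₁M hq₀M, proj_add hq₁p hq₀p hq10, ?_, ?_⟩
  · have h1 : (1 - (q₁ + q₀)) ξ = (e - q₁) ξ + (((1 - z) - q₀) ξ + (z - e) ξ) := by
      have : (1 - (q₁ + q₀) : H →L[ℂ] H) = (e - q₁) + (((1 - z) - q₀) + (z - e)) := by abel
      rw [this]
      rfl
    rw [h1]
    calc ‖(e - q₁) ξ + (((1 - z) - q₀) ξ + (z - e) ξ)‖
        ≤ ‖(e - q₁) ξ‖ + (‖((1 - z) - q₀) ξ‖ + ‖(z - e) ξ‖) :=
          (norm_add_le _ _).trans (by gcongr; exact norm_add_le _ _)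
      _ < δ / 3 + (δ / 3 + δ / 3) := by gcongr
      _ = δ := by ring
  · have hsum : ∑ i, Fin.append (Fin.append p₁ p₀) (fun _ : Fin 1 => z - e) i * x *
        Fin.append (Fin.append p₁ p₀) (fun _ : Fin 1 => z - e) i =
        (∑ i, p₁ i * x * p₁ i) + (∑ i, p₀ i * x * p₀ i) + (z - e) * x * (z - e) := by
      rw [Fin.sum_univ_add, Fin.sum_univ_add]
      simp only [Fin.append_left, Fin.append_right]
      simp
    rw [hsum]
    set T₁ := ∑ i, p₁ i * x * p₁ i with hT₁
    set T₀ := ∑ i, p₀ i * x * p₀ i with hT₀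
    have t1 : e * T₁ = T₁ := by
      rw [hT₁, Finset.mul_sum]
      refine Finset.sum_congr rfl (fun i _ => ?_)
      rw [← mul_assoc, ← mul_assoc, hp₁.z_mul]
    have t1' : T₁ * e = T₁ := by
      rw [hT₁, Finset.sum_mul]
      refine Finset.sum_congr rfl (fun i _ => ?_)
      rw [mul_assoc, hp₁.mul_z]
    have t0 : (1 - z) * T₀ = T₀ := by
      rw [hT₀, Finset.mul_sum]
      refine Finset.sum_congr rfl (fun i _ => ?_)
      rw [← mul_assoc, ← mul_assoc, hp₀.z_mul]
    have t0' : T₀ * (1 - z) = T₀ := by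
      rw [hT₀, Finset.sum_mul]
      refine Finset.sum_congr rfl (fun i _ => ?_)
      rw [mul_assoc, hp₀.mul_z]
    have key : (q₁ + q₀) * (T₁ + T₀ + (z - e) * x * (z - e) - (a₁ + a₀)) * (q₁ + q₀) =
        q₁ * (T₁ - a₁) * q₁ + q₀ * (T₀ - a₀) * q₀ := by
      have r1 : (q₁ + q₀) * (z - e) = 0 := by
        have s1 : q₁ * z = q₁ := by rw [← hq₁e, mul_assoc, hez]
        have s2 : q₀ * z = 0 := by
          have : q₀ * (1 - z) = q₀ := hq₀z
          rw [mul_sub, mul_one, sub_eq_self] at this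
          exact this
        have s3 : q₀ * e = 0 := by rw [← hze, ← mul_assoc, s2, zero_mul]
        rw [add_mul, mul_sub, mul_sub, s1, hq₁e, s2, s3]
        simp
      have l0 : q₁ * T₀ = 0 := by
        rw [← hq₁e, ← t0, mul_assoc, ← mul_assoc e, he1, zero_mul, mul_zero]
      have l1 : q₀ * T₁ = 0 := by
        rw [← hq₀z, ← t1, mul_assoc, ← mul_assoc (1 - z), h1e, zero_mul, mul_zero]
      have l2 : q₁ * a₀ = 0 := by
        rw [← hq₁e, ← hza₀, mul_assoc, ← mul_assoc e, he1, zero_mul, mul_zero]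
      have l3 : q₀ * a₁ = 0 := by
        rw [← hq₀z, ← hea₁, mul_assoc, ← mul_assoc (1 - z), h1e, zero_mul, mul_zero]
      have r0 : T₀ * q₁ = 0 := by
        rw [← heq₁, ← t0', mul_assoc, ← mul_assoc (1 - z), h1e, zero_mul, mul_zero]
      have r2 : T₁ * q₀ = 0 := by
        rw [← hzq₀, ← t1', mul_assoc, ← mul_assoc e, he1, zero_mul, mul_zero]
      have r3 : a₀ * q₁ = 0 := by
        rw [← heq₁, ← ha₀z, mul_assoc, ← mul_assoc (1 - z), h1e, zero_mul, mul_zero]
      have r4 : a₁ * q₀ = 0 := by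
        rw [← hzq₀, ← ha₁e, mul_assoc, ← mul_assoc e, he1, zero_mul, mul_zero]
      have step : (q₁ + q₀) * (T₁ + T₀ + (z - e) * x * (z - e) - (a₁ + a₀)) =
          q₁ * (T₁ - a₁) + q₀ * (T₀ - a₀) := by
        rw [mul_sub, mul_add, mul_add, ← mul_assoc, ← mul_assoc, r1, zero_mul, zero_mul, add_zero,
          mul_add, add_mul, add_mul, add_mul, add_mul, l0, l1, l2, l3, mul_sub, mul_sub]
        abel
      rw [step, mul_add, add_mul, add_mul]
      have u1 : q₀ * (T₀ - a₀) * q₁ = 0 := by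
        rw [mul_assoc, sub_mul, r0, r3, sub_self, mul_zero]
      have u2 : q₁ * (T₁ - a₁) * q₀ = 0 := by
        rw [mul_assoc, sub_mul, r2, r4, sub_self, mul_zero]
      rw [u1, u2, add_zero, zero_add]
    rw [key]
    refine norm_block hep h1zp he1 ?_ ?_ ?_ ?_ hq₁ hq₀
    · rw [← mul_assoc, ← mul_assoc, heq₁]
    · rw [mul_assoc, hq₁e]
    · rw [← mul_assoc, ← mul_assoc, hzq₀]
    · rw [mul_assoc, hq₀z]

end Crest.Agent.R109
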