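import Crest.Agent.R109.Red143

/-!
# Row 109: S0144 in the amplified situation
-/

set_option autoImplicit false
set_option linter.unusedSectionVars false

namespace Crest.Agent.R109

open scoped InnerProductSpace
open ContinuousLinearMap Crest.Agent.R121 Crest.Agent.R124

universe u

/-- statement of `exists_g` (file Gauge.lean) -/
def HasG : Prop := ∀ c κ : ℝ, 0 < c → 0 < κ → ∃ C : ℝ, 0 < C ∧
  ∀ (H : Type u) [NormedAddCommGroup H] [InnerProductSpace ℂ H] [CompleteSpace H]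
    (M : VonNeumannAlgebra H) (A : StarSubalgebra ℂ (H →L[ℂ] H)), Masa M A →
    ∀ η : H, CVec M A η → ∀ (n : ℕ) (p : Fin n → H →L[ℂ] H), Part A (vs M η) p →
    ∀ T ∈ M, IsSelfAdjoint T → vs M η * T = T → ‖T‖ ≤ 2 → (∀ i, p i * T = T * p i) →
    ∀ q ∈ M, IsStarProjection q → vs M η * q = q → ‖q * T * q‖ ≤ c →
    ∃ g ∈ M, IsSelfAdjoint g ∧ ‖g‖ ≤ 1 ∧ vs M η * g = g ∧ (∀ i, p i * g = g * p i) ∧
      ‖g * T * g‖ ≤ c + κ ∧ ‖(vs M η - g) η‖ ^ 2 ≤ C * ‖(vs M η - q) η‖ ^ 2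

variable {H : Type u} [NormedAddCommGroup H] [InnerProductSpace ℂ H] [CompleteSpace H]
variable {M : VonNeumannAlgebra H} {A : StarSubalgebra ℂ (H →L[ℂ] H)}

/-- two vectors are dominated by one -/
lemma amp_vec (hA : Amp M) (ζ₁ ζ₂ : H) :
    ∃ ζ : H, ∀ y ∈ M, ‖y ζ₁‖ ≤ ‖y ζ‖ ∧ ‖y ζ₂‖ ≤ ‖y ζ‖ := by
  obtain ⟨S, T, hS, hT, hSS, hTT, hST⟩ := hA
  refine ⟨S ζ₁ + T ζ₂, ?_⟩
  intro y hy
  have key : ∀ v : H, ‖y v‖ ^ 2 = (⟪v, (star y * y) v⟫_ℂ).re := by
    intro v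
    rw [← inner_self_eq_norm_sq (𝕜 := ℂ), star_eq_adjoint]
    change _ = (⟪v, adjoint y (y v)⟫_ℂ).re
    rw [adjoint_inner_right]
    rfl
  have h1 : ‖y (S ζ₁ + T ζ₂)‖ ^ 2 = ‖y ζ₁‖ ^ 2 + ‖y ζ₂‖ ^ 2 := by
    rw [key, amp_inner hS hT hSS hTT hST ζ₁ ζ₂ (mul_mem (star_mem hy) hy), Complex.add_re,
      ← key, ← key]
  constructor
  · refine (pow_le_pow_iff_left₀ (norm_nonneg _) (norm_nonneg _) two_ne_zero).1 ?_
    rw [h1]
    nlinarith [sq_nonneg ‖y ζ₂‖]
  · refine (pow_le_pow_iff_left₀ (norm_nonneg _) (norm_nonneg _) two_ne_zero).1 ?_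
    rw [h1]
    nlinarith [sq_nonneg ‖y ζ₁‖]

lemma amp_vec4 (hA : Amp M) (ζ₁ ζ₂ ζ₃ ζ₄ : H) :
    ∃ ζ : H, ∀ y ∈ M, ‖y ζ₁‖ ≤ ‖y ζ‖ ∧ ‖y ζ₂‖ ≤ ‖y ζ‖ ∧ ‖y ζ₃‖ ≤ ‖y ζ‖ ∧ ‖y ζ₄‖ ≤ ‖y ζ‖ := by
  obtain ⟨ζ, h⟩ := amp_vec hA ζ₁ ζ₂
  obtain ⟨ζ', h'⟩ := amp_vec hA ζ₃ ζ₄
  obtain ⟨ζ'', h''⟩ := amp_vec hA ζ ζ'
  refine ⟨ζ'', fun y hy => ⟨?_, ?_, ?_, ?_⟩⟩
  · exact (h y hy).1.trans (h'' y hy).1
  · exact (h y hy).2.trans (h'' y hy).1
  · exact (h' y hy).1.trans (h'' y hy).2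
  · exact (h' y hy).2.trans (h'' y hy).2

/-- norm of a sum of blocks -/
lemma norm_pinch {z : H →L[ℂ] H} {ι : Type*} [Fintype ι] {p B : ι → H →L[ℂ] H}
    (h : Part A z p) {c : ℝ} (hc : 0 ≤ c) (hB : ∀ i, ‖p i * B i * p i‖ ≤ c) :
    ‖∑ i, p i * B i * p i‖ ≤ c := by
  classical
  have key : ∀ s : Finset ι, IsStarProjection (∑ i ∈ s, p i) ∧
      ‖∑ i ∈ s, p i * B i * p i‖ ≤ c ∧
      (∑ i ∈ s, p i) * (∑ i ∈ s, p i * B i * p i) = ∑ i ∈ s, p i * B i * p i ∧
      (∑ i ∈ s, p i * B i * p i) * (∑ i ∈ s, p i) = ∑ i ∈ s, p i * B i * p i := by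
    intro s
    induction s using Finset.induction_on with
    | empty =>
        refine ⟨⟨by simp [IsIdempotentElem], by simp [IsSelfAdjoint]⟩, by simpa using hc, ?_, ?_⟩ <;>
        simp
    | insert a s ha ih =>
        obtain ⟨i1, i2, i3, i4⟩ := ih
        have o1 : p a * (∑ i ∈ s, p i) = 0 := by
          rw [Finset.mul_sum]
          apply Finset.sum_eq_zero
          intro i hi
          exact h.orth a i (fun hh => ha (hh ▸ hi))
        have o2 : (∑ i ∈ s, p i) * p a = 0 := by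
          rw [Finset.sum_mul]
          apply Finset.sum_eq_zero
          intro i hi
          exact h.orth i a (fun hh => ha (hh ▸ hi))
        have b1 : p a * (p a * B a * p a) = p a * B a * p a := by
          rw [← mul_assoc, ← mul_assoc, (h.proj a).isIdempotentElem.eq]
        have b2 : (p a * B a * p a) * p a = p a * B a * p a := by
          rw [mul_assoc, (h.proj a).isIdempotentElem.eq]
        rw [Finset.sum_insert ha, Finset.sum_insert ha]
        refine ⟨proj_add (h.proj a) i1 o1, norm_block (h.proj a) i1 o1 b1 b2 i3 i4 (hB a) i2,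
          ?_, ?_⟩
        · rw [add_mul, mul_add, mul_add, b1, i3]
          have c1 : p a * (∑ i ∈ s, p i * B i * p i) = 0 := by
            rw [← i3, ← mul_assoc, o1, zero_mul]
          have c2 : (∑ i ∈ s, p i) * (p a * B a * p a) = 0 := by
            rw [← b1, ← mul_assoc, o2, zero_mul]
          rw [c1, c2, add_zero, zero_add]
        · rw [add_mul, mul_add, mul_add, b2, i4]
          have c1 : (∑ i ∈ s, p i * B i * p i) * p a = 0 := by
            rw [← i4, mul_assoc, o2, mul_zero]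
          have c2 : (p a * B a * p a) * (∑ i ∈ s, p i) = 0 := by
            rw [← b2, mul_assoc, o1, mul_zero]
          rw [c1, c2, add_zero, zero_add]
  exact (key Finset.univ).2.1

set_option maxHeartbeats 3200000 in
/-- **S0144 when the commutant is properly infinite** -/
theorem red144_amp (hN : NCE_q.{u}) (hE : HasE.{u}) (hG : HasG.{u}) (h0 : NoNCE144.{u})
    (hM : Masa M A) (hA : Amp M) {ε : ℝ} (hε : 0 < ε) (hε1 : ε < 1) {x : H →L[ℂ] H} (hx : x ∈ M)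
    (hsa : IsSelfAdjoint x) (hx0 : x ≠ 0) (ξ : H) {δ : ℝ} (hδ : 0 < δ) :
    ∃ y ∈ M, IsSelfAdjoint y ∧ ‖y‖ ≤ 3 * ‖x‖ ∧ ‖(y - x) ξ‖ < δ ∧
      ∃ p : Fin (Nat.ceil (100000000 / (ε / 16) ^ 2) + Nat.ceil (16 / ε) + 1) → (H →L[ℂ] H),
        Part A 1 p ∧ ∃ a ∈ A, IsSelfAdjoint a ∧ ‖a‖ ≤ ‖y‖ ∧ ‖∑ i, p i * y * p i - a‖ ≤ ε * ‖y‖ := by
  have hxn : 0 < ‖x‖ := norm_pos_iff.2 hx0
  set X := ‖x‖ with hX
  -- a test vector
  obtain ⟨v, hv⟩ : ∃ v : H, (1 - ε / 8) * X * ‖v‖ < ‖x v‖ := by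
    by_contra hcon
    push Not at hcon
    have := opNorm_le_bound x (M := (1 - ε / 8) * X) (by
      apply mul_nonneg _ hxn.le
      linarith) hcon
    rw [← hX] at this
    nlinarith
  have hv0 : 0 < ‖v‖ := by
    rcases (norm_nonneg v).eq_or_lt with h | h
    · exfalso
      have : v = 0 := norm_eq_zero.1 h.symm
      rw [this] at hv
      simp at hv
    · exact h
  set τ : ℝ := min δ (ε / 8 * X * ‖v‖) with hτ
  have hτ0 : 0 < τ := lt_min hδ (by positivity)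
  set τ' : ℝ := τ / (12 * X + 6) with hτ'
  have hτ'0 : 0 < τ' := by positivity
  -- the dichotomy
  obtain ⟨z, hzA, hzp, hNoC, hzle, hznear⟩ := exists_zed hM hA
  obtain ⟨ζ₀, hζ₀⟩ := amp_vec4 hA ξ v (x ξ) (x v)
  obtain ⟨η, hη, hηζ⟩ := hznear ζ₀ (τ' / 3) (by positivity)
  set e := vs M η with he
  have hep : IsStarProjection e := vs_proj M η
  have heA : e ∈ A := hη.vs_mem hM
  have heM : e ∈ M := hM.le heA
  have hzM : z ∈ M := hM.le hzA
  have hze : z * e = e := hzle η hη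
  have hez : e * z = e := by
    have := congrArg star hze
    rwa [star_mul, hep.isSelfAdjoint.star_eq, hzp.isSelfAdjoint.star_eq] at this
  have hzz : z * z = z := hzp.isIdempotentElem
  have hee : e * e = e := hep.isIdempotentElem
  have h1zp : IsStarProjection (1 - z) := hzp.one_sub
  have h1zA : (1 - z) ∈ A := sub_mem (one_mem _) hzA
  have hrp : IsStarProjection (z - e) := proj_sub hzp hep hze
  have hrA : z - e ∈ A := sub_mem hzA heA
  have he1 : e * (1 - z) = 0 := by rw [mul_sub, mul_one, hez, sub_self]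
  have h1e : (1 - z) * e = 0 := by rw [sub_mul, one_mul, hze, sub_self]
  obtain ⟨a₁, ha₁A, ha₁sa, ha₁n, hea₁, ha₁e, ha₁0⟩ := exists_E hE hM hη hx hsa
  have ha₁M : a₁ ∈ M := hM.le ha₁A
  set w := x - a₁ with hw
  have hwM : w ∈ M := sub_mem hx ha₁M
  have hwsa : IsSelfAdjoint w := hsa.sub ha₁sa
  have hwn : ‖w‖ ≤ 2 * X := (norm_sub_le _ _).trans (by linarith)
  obtain ⟨ζ, hζ⟩ := amp_vec4 hA ξ v (w ξ) (w v)
  -- the corner with expectation
  have part1 : ∃ p : Fin (Nat.ceil (100000000 / (ε / 16) ^ 2)) → H →L[ℂ] H, Part A e p ∧ ∃ g ∈ M,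
      IsSelfAdjoint g ∧ ‖g‖ ≤ 1 ∧ e * g = g ∧ g * e = g ∧ (∀ i, p i * g = g * p i) ∧
      ‖(e - g) ζ‖ < τ' / 3 ∧
      ‖g * (∑ i, p i * w * p i) * g‖ ≤ ε / 4 * X := by
    obtain ⟨δ', hδ', hnear⟩ := near M η ζ 2 (show (0 : ℝ) < τ' / 3 by positivity)
    obtain ⟨C, hC, hG'⟩ := hG (ε / 16) (ε / 16) (by positivity) (by positivity)
    set c : ℂ := (((2 * X)⁻¹ : ℝ) : ℂ) with hc
    have hcn : ‖c‖ = (2 * X)⁻¹ := by
      rw [hc, Complex.norm_real, Real.norm_of_nonneg (by positivity)]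
    have hyM : c • w ∈ M :=
      SMulMemClass.smul_mem (S := StarSubalgebra ℂ (H →L[ℂ] H))
        (s := M.toStarSubalgebra) c hwM
    have hysa : IsSelfAdjoint (c • w) := by
      change star (c • w) = _
      rw [star_smul, hwsa.star_eq, hc, Complex.star_def, Complex.conj_ofReal]
    have hyn : ‖c • w‖ ≤ 1 := by
      rw [norm_smul, hcn]
      calc (2 * X)⁻¹ * ‖w‖ ≤ (2 * X)⁻¹ * (2 * X) := by gcongr
        _ = 1 := by field_simp
    have hy0 : ∀ a ∈ A, ⟪η, (a * (c • w)) η⟫_ℂ = 0 := by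
      intro a ha
      rw [mul_smul_comm, smul_apply, inner_smul_right, ha₁0 a ha, mul_zero]
    have hr : (10 : ℝ) ^ 8 / (ε / 16) ^ 2 ≤ ((Nat.ceil (100000000 / (ε / 16) ^ 2) : ℕ) : ℝ) := by
      refine le_trans (le_of_eq ?_) (Nat.le_ceil _)
      norm_num
    have hδ2 : 0 < δ' / Real.sqrt (C + 1) := by positivity
    obtain ⟨p, hp, q, hqM, hqp, heq, hqη, hq⟩ := nce_corner hN hM hA hη hyM hysa hyn hy0
      (show (0 : ℝ) < ε / 16 by positivity) (by linarith) hr hδ2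
    set T := ∑ i, p i * (c • w) * p i with hT
    have hTe : e * T = T := by
      rw [hT, Finset.mul_sum]
      refine Finset.sum_congr rfl (fun i _ => ?_)
      rw [← mul_assoc, ← mul_assoc, hp.z_mul]
    have hTM : T ∈ M := sum_mem (fun i _ =>
      mul_mem (mul_mem (hM.le (hp.mem i)) hyM) (hM.le (hp.mem i)))
    have hTsa : IsSelfAdjoint T := by
      change star T = T
      rw [hT, star_sum]
      refine Finset.sum_congr rfl (fun i _ => ?_)
      rw [star_mul, star_mul, hp.star i, hysa.star_eq, mul_assoc]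
    have hTn : ‖T‖ ≤ 2 := by
      refine le_trans (norm_pinch (B := fun _ => c • w) hp zero_le_one ?_) (by norm_num)
      intro i
      calc ‖p i * (c • w) * p i‖ ≤ ‖p i * (c • w)‖ * ‖p i‖ := norm_mul_le _ _
        _ ≤ (‖p i‖ * ‖c • w‖) * ‖p i‖ := by
            gcongr
            exact norm_mul_le _ _
        _ ≤ (1 * 1) * 1 := by
            have := (hp.proj i).norm_le
            gcongr
        _ = 1 := by norm_num
    have hTc : ∀ i, p i * T = T * p i := by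
      classical
      intro i
      have e1 : p i * T = p i * (c • w) * p i := by
        rw [hT, Finset.mul_sum, Finset.sum_eq_single i]
        · rw [← mul_assoc, ← mul_assoc, (hp.proj i).isIdempotentElem.eq]
        · intro j _ hj
          rw [← mul_assoc, ← mul_assoc, hp.orth i j hj.symm, zero_mul, zero_mul]
        · intro h; exact absurd (Finset.mem_univ i) h
      have e2 : T * p i = p i * (c • w) * p i := by
        rw [hT, Finset.sum_mul, Finset.sum_eq_single i]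
        · rw [mul_assoc, (hp.proj i).isIdempotentElem.eq]
        · intro j _ hj
          rw [mul_assoc, hp.orth j i hj, mul_zero]
        · intro h; exact absurd (Finset.mem_univ i) h
      rw [e1, e2]
    obtain ⟨g, hgM, hgsa, hgn, heg, hpg, hgT, hgη⟩ := hG' H M A hM η hη _ p hp T hTM hTsa hTe hTn
      hTc q hqM hqp heq hq
    have hge : g * e = g := by
      have := congrArg star heg
      rwa [star_mul, hgsa.star_eq, (vs_proj M η).isSelfAdjoint.star_eq] at this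
    refine ⟨p, hp, g, hgM, hgsa, hgn, heg, hge, hpg, ?_, ?_⟩
    · have h1 : ‖(e - g) η‖ < δ' := by
        have h2 : ‖(e - g) η‖ ^ 2 < δ' ^ 2 := by
          refine hgη.trans_lt ?_
          have h3 : ‖(vs M η - q) η‖ ^ 2 < (δ' / Real.sqrt (C + 1)) ^ 2 := by
            gcongr
          rw [div_pow, Real.sq_sqrt (by positivity)] at h3
          calc C * ‖(vs M η - q) η‖ ^ 2 < C * (δ' ^ 2 / (C + 1)) := by gcongr
            _ ≤ δ' ^ 2 := by
              rw [← mul_div_assoc, div_le_iff₀ (by positivity)]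
              nlinarith [sq_nonneg δ']
        exact lt_of_pow_lt_pow_left₀ 2 hδ'.le h2
      have h2 : ‖(e - g : H →L[ℂ] H)‖ ≤ 2 := by
        refine (norm_sub_le _ _).trans ?_
        have := hep.norm_le
        linarith
      have h3 := hnear (e - g) (sub_mem heM hgM) h2 h1
      have h4 : (e - g) (e ζ) = (e - g) ζ := by
        have h5 : (e - g) * e = e - g := by rw [sub_mul, hee, hge]
        exact congrArg (fun F : H →L[ℂ] H => F ζ) h5
      rwa [h4] at h3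
    · have h5 : T = c • ∑ i, p i * w * p i := by
        rw [hT, Finset.smul_sum]
        refine Finset.sum_congr rfl (fun i _ => ?_)
        rw [mul_smul_comm, smul_mul_assoc]
      rw [h5, mul_smul_comm, smul_mul_assoc, norm_smul, hcn] at hgT
      have h6 : ‖g * (∑ i, p i * w * p i) * g‖ =
          (2 * X) * ((2 * X)⁻¹ * ‖g * (∑ i, p i * w * p i) * g‖) := by
        field_simp
      rw [h6]
      calc (2 * X) * ((2 * X)⁻¹ * ‖g * (∑ i, p i * w * p i) * g‖)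
          ≤ (2 * X) * (ε / 16 + ε / 16) := by gcongr
        _ = ε / 4 * X := by ring
  obtain ⟨p₁, hp₁, g, hgM, hgsa, hgn, heg, hge, hpg, hgζ, hgT⟩ := part1
  -- the corner without expectation
  have hR : 0 < Nat.ceil (16 / ε) := Nat.ceil_pos.2 (by positivity)
  have hR' : 16 / ε ≤ ((Nat.ceil (16 / ε) : ℕ) : ℝ) := Nat.le_ceil _
  obtain ⟨p₀, hp₀, q₀, hq₀M, hq₀p, hzq₀, hq₀ζ, hq₀⟩ := h0 H M A hM hA (1 - z) h1zA h1zp hNoC ζ _ hR
    (min (τ' / 3) (ε / 16)) (lt_min (by positivity) (by positivity))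
  have hq₀' : ∀ i, ‖q₀ * p₀ i * q₀‖ ≤ ε / 4 := by
    intro i
    refine (hq₀ i).trans ?_
    have h1 : 1 / ((Nat.ceil (16 / ε) : ℕ) : ℝ) ≤ ε / 16 := by
      rw [div_le_div_iff₀ (by positivity) (by norm_num)]
      rw [div_le_iff₀ hε] at hR'
      linarith
    have h2 := min_le_right (τ' / 3) (ε / 16)
    linarith
  have hq₀ζ' : ‖((1 - z) - q₀) ζ‖ < τ' / 3 := lt_of_lt_of_le hq₀ζ (min_le_left _ _)
  have hq₀z : q₀ * (1 - z) = q₀ := by
    have := congrArg star hzq₀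
    rwa [star_mul, hq₀p.isSelfAdjoint.star_eq, h1zp.isSelfAdjoint.star_eq] at this
  -- the contraction G
  set G := g + q₀ with hGdef
  have hGM : G ∈ M := add_mem hgM hq₀M
  have hGsa : IsSelfAdjoint G := hgsa.add hq₀p.isSelfAdjoint
  have hGn : ‖G‖ ≤ 1 := norm_block hep h1zp he1 heg hge hzq₀ hq₀z hgn hq₀p.norm_le
  have hP := (hp₁.append hp₀ he1 h1e).append (Part.single hrA hrp)
    (by
      rw [add_mul, mul_sub, mul_sub, hez, hee, sub_self, zero_add, sub_mul, sub_mul, one_mul,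
        one_mul, hzz, hze]
      abel)
    (by
      rw [mul_add, sub_mul, sub_mul, hze, hee, sub_self, zero_add, mul_sub, mul_sub, mul_one,
        mul_one, hzz, hez]
      abel)
  have hPsum : e + (1 - z) + (z - e) = 1 := by abel
  rw [hPsum] at hP
  set y := G * w * G + a₁ with hy
  have hyM : y ∈ M := add_mem (mul_mem (mul_mem hGM hwM) hGM) ha₁M
  have hysa : IsSelfAdjoint y := by
    refine IsSelfAdjoint.add ?_ ha₁sa
    change star (G * w * G) = _
    rw [star_mul, star_mul, hGsa.star_eq, hwsa.star_eq, mul_assoc]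
  have hyn : ‖y‖ ≤ 3 * X := by
    refine (norm_add_le _ _).trans ?_
    have h1 : ‖G * w * G‖ ≤ 2 * X := by
      calc ‖G * w * G‖ ≤ ‖G * w‖ * ‖G‖ := norm_mul_le _ _
        _ ≤ (‖G‖ * ‖w‖) * ‖G‖ := by
            gcongr
            exact norm_mul_le _ _
        _ ≤ (1 * (2 * X)) * 1 := by gcongr
        _ = 2 * X := by ring
    linarith
  -- closeness
  have hclose : ∀ u : H, ‖(z - e) u‖ ≤ ‖(z - e) ζ₀‖ → ‖(z - e) (x u)‖ ≤ ‖(z - e) ζ₀‖ →
      (∀ t ∈ M, ‖t u‖ ≤ ‖t ζ‖ ∧ ‖t (w u)‖ ≤ ‖t ζ‖) → ‖(y - x) u‖ < τ := by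
    intro u hu1 hu2 hu3
    have d1 : ∀ u' : H, ‖(z - e) u'‖ ≤ ‖(z - e) ζ₀‖ →
        (∀ t ∈ M, ‖t u'‖ ≤ ‖t ζ‖) → ‖(1 - G) u'‖ < τ' := by
      intro u' h1 h2
      have h3 : (1 - G) u' = (e - g) u' + (((1 - z) - q₀) u' + (z - e) u') := by
        have : (1 - G : H →L[ℂ] H) = (e - g) + (((1 - z) - q₀) + (z - e)) := by
          rw [hGdef]; abel
        rw [this]
        rfl
      rw [h3]
      calc ‖(e - g) u' + (((1 - z) - q₀) u' + (z - e) u')‖
          ≤ ‖(e - g) u'‖ + (‖((1 - z) - q₀) u'‖ + ‖(z - e) u'‖) :=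
            (norm_add_le _ _).trans (by gcongr; exact norm_add_le _ _)
        _ < τ' / 3 + (τ' / 3 + τ' / 3) := by
            have i1 := (h2 _ (sub_mem heM hgM)).trans_lt hgζ
            have i2 := (h2 _ (sub_mem (hM.le h1zA) hq₀M)).trans_lt hq₀ζ'
            have i3 := h1.trans_lt hηζ
            linarith
        _ = τ' := by ring
    have d2 : ‖(1 - G) u‖ < τ' := d1 u hu1 (fun t ht => (hu3 t ht).1)
    have d3 : ‖(1 - G) (w u)‖ < τ' := by
      refine d1 (w u) ?_ (fun t ht => (hu3 t ht).2)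
      have h1 : (z - e) (w u) = (z - e) (x u) := by
        have h2 : (z - e) * a₁ = 0 := by
          rw [← hea₁, ← mul_assoc, sub_mul]
          rw [hze, hee, sub_self, zero_mul]
        have h3 : (z - e) (a₁ u) = 0 := congrArg (fun F : H →L[ℂ] H => F u) h2
        rw [hw]
        change (z - e) (x u - a₁ u) = _
        rw [map_sub, h3, sub_zero]
      rw [h1]
      exact hu2
    have d4 : (y - x) u = -(G (w ((1 - G) u))) - (1 - G) (w u) := by
      have h1 : (y - x : H →L[ℂ] H) = -(G * (w * (1 - G))) - (1 - G) * w := by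
        rw [hy, hw]
        noncomm_ring
      rw [h1]
      rfl
    rw [d4]
    have d5 : ‖G (w ((1 - G) u))‖ ≤ 2 * X * τ' := by
      calc ‖G (w ((1 - G) u))‖ ≤ ‖G‖ * ‖w ((1 - G) u)‖ := le_opNorm _ _
        _ ≤ 1 * (‖w‖ * ‖(1 - G) u‖) := by
            gcongr
            exact le_opNorm _ _
        _ ≤ 1 * ((2 * X) * τ') := by gcongr
        _ = _ := by ring
    calc ‖-(G (w ((1 - G) u))) - (1 - G) (w u)‖ ≤ ‖G (w ((1 - G) u))‖ + ‖(1 - G) (w u)‖ := by
          refine (norm_sub_le _ _).trans ?_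
          rw [norm_neg]
      _ < 2 * X * τ' + τ' := by linarith
      _ ≤ τ := by
        rw [hτ']
        rw [show 2 * X * (τ / (12 * X + 6)) + τ / (12 * X + 6) =
          ((2 * X + 1) / (12 * X + 6)) * τ by ring]
        have : (2 * X + 1) / (12 * X + 6) ≤ 1 := by
          rw [div_le_one (by positivity)]
          linarith
        nlinarith
  have hzeM : z - e ∈ M := hM.le hrA
  have cξ : ‖(y - x) ξ‖ < τ := hclose ξ (hζ₀ _ hzeM).1 (hζ₀ _ hzeM).2.2.1
    (fun t ht => ⟨(hζ t ht).1, (hζ t ht).2.2.1⟩)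
  have cv : ‖(y - x) v‖ < τ := hclose v (hζ₀ _ hzeM).2.1 (hζ₀ _ hzeM).2.2.2
    (fun t ht => ⟨(hζ t ht).2.1, (hζ t ht).2.2.2⟩)
  have hylow : (1 - ε / 4) * X ≤ ‖y‖ := by
    have h1 : ‖x v‖ - τ ≤ ‖y v‖ := by
      have h2 : x v = y v - (y - x) v := by
        change x v = y v - (y v - x v)
        abel
      have h3 : ‖x v‖ ≤ ‖y v‖ + ‖(y - x) v‖ := by
        conv_lhs => rw [h2]
        exact norm_sub_le _ _
      linarith
    have h2 : ‖y v‖ ≤ ‖y‖ * ‖v‖ := le_opNorm _ _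
    have h3 : τ ≤ ε / 8 * X * ‖v‖ := min_le_right _ _
    have h4 : (1 - ε / 4) * X * ‖v‖ ≤ ‖y‖ * ‖v‖ := by nlinarith
    exact le_of_mul_le_mul_right h4 hv0
  -- the diagonal element
  set a : H →L[ℂ] H := (((1 - ε / 4 : ℝ)) : ℂ) • a₁ with ha
  have hε4 : 0 < 1 - ε / 4 := by linarith
  have haA : a ∈ A := SMulMemClass.smul_mem _ ha₁A
  have hasa : IsSelfAdjoint a := by
    change star a = a
    rw [ha, star_smul, ha₁sa.star_eq, Complex.star_def, Complex.conj_ofReal]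
  have han : ‖a‖ ≤ ‖y‖ := by
    rw [ha, norm_smul, Complex.norm_real, Real.norm_of_nonneg hε4.le]
    refine le_trans ?_ hylow
    gcongr
  refine ⟨y, hyM, hysa, hyn, lt_of_lt_of_le cξ (min_le_left _ _), _, hP, a, haA, hasa, han, ?_⟩
  -- the pinching
  have hsum : ∑ i, Fin.append (Fin.append p₁ p₀) (fun _ : Fin 1 => z - e) i * y *
      Fin.append (Fin.append p₁ p₀) (fun _ : Fin 1 => z - e) i =
      (∑ i, p₁ i * y * p₁ i) + (∑ i, p₀ i * y * p₀ i) + (z - e) * y * (z - e) := by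
    rw [Fin.sum_univ_add, Fin.sum_univ_add]
    simp only [Fin.append_left, Fin.append_right]
    simp
  rw [hsum]
  have hq₀e : q₀ * e = 0 := by rw [← hq₀z, mul_assoc, h1e, mul_zero]
  have heq₀ : e * q₀ = 0 := by rw [← hzq₀, ← mul_assoc, he1, zero_mul]
  have hgz : (1 - z) * g = 0 := by rw [← heg, ← mul_assoc, h1e, zero_mul]
  have hgz' : g * (1 - z) = 0 := by rw [← hge, mul_assoc, he1, mul_zero]
  have s1 : ∑ i, p₁ i * y * p₁ i = g * (∑ i, p₁ i * w * p₁ i) * g + a₁ := by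
    have e1 : ∀ i, p₁ i * G = g * p₁ i := by
      intro i
      rw [hGdef, mul_add, hpg i]
      rw [← hp₁.mul_z i, mul_assoc (p₁ i) e q₀, heq₀, mul_zero, add_zero]
    have e2 : ∀ i, G * p₁ i = p₁ i * g := by
      intro i
      rw [hGdef, add_mul, hpg i]
      rw [← hp₁.z_mul i, ← mul_assoc q₀ e (p₁ i), hq₀e, zero_mul, add_zero]
    have e3 : ∑ i, p₁ i * a₁ * p₁ i = a₁ := by
      rw [hp₁.pinch_mem hM ha₁A, hea₁]
    have e4 : ∑ i, p₁ i * y * p₁ i = ∑ i, (g * (p₁ i * w * p₁ i) * g + p₁ i * a₁ * p₁ i) := by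
      refine Finset.sum_congr rfl (fun i _ => ?_)
      rw [hy, mul_add, add_mul]
      congr 1
      calc p₁ i * (G * w * G) * p₁ i = (p₁ i * G) * w * (G * p₁ i) := by simp only [mul_assoc]
        _ = (g * p₁ i) * w * (p₁ i * g) := by rw [e1, e2]
        _ = _ := by simp only [mul_assoc]
    rw [e4, Finset.sum_add_distrib, e3, Finset.mul_sum, Finset.sum_mul]
  have s2 : ∑ i, p₀ i * y * p₀ i = ∑ i, p₀ i * (q₀ * x * q₀) * p₀ i := by
    refine Finset.sum_congr rfl (fun i _ => ?_)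
    have e1 : p₀ i * G = p₀ i * q₀ := by
      rw [hGdef, mul_add, ← hp₀.mul_z i, mul_assoc (p₀ i) (1 - z) g, hgz, mul_zero, zero_add]
    have e2 : G * p₀ i = q₀ * p₀ i := by
      rw [hGdef, add_mul, ← hp₀.z_mul i, ← mul_assoc g (1 - z), hgz', zero_mul, zero_add]
    have e3 : p₀ i * a₁ = 0 := by
      rw [← hea₁, ← hp₀.mul_z i, mul_assoc (p₀ i) (1 - z), ← mul_assoc (1 - z)]
      rw [h1e, zero_mul, mul_zero]
    have e4 : q₀ * w * q₀ = q₀ * x * q₀ := by
      have f1 : q₀ * a₁ = 0 := by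
        rw [← hea₁, ← mul_assoc]
        rw [hq₀e, zero_mul]
      rw [hw, mul_sub, f1, sub_zero]
    rw [hy, mul_add, add_mul, e3, zero_mul, add_zero]
    calc p₀ i * (G * w * G) * p₀ i = (p₀ i * G) * w * (G * p₀ i) := by simp only [mul_assoc]
      _ = (p₀ i * q₀) * w * (q₀ * p₀ i) := by rw [e1, e2]
      _ = p₀ i * (q₀ * w * q₀) * p₀ i := by simp only [mul_assoc]
      _ = _ := by rw [e4]
  have s3 : (z - e) * y * (z - e) = 0 := by
    have e1 : (z - e) * G = 0 := by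
      have f1 : (z - e) * g = 0 := by
        rw [← heg, ← mul_assoc, sub_mul, hze, hee, sub_self, zero_mul]
      have f2 : (z - e) * q₀ = 0 := by
        have f3 : (z - e) * (1 - z) = 0 := by
          rw [sub_mul, mul_sub, mul_sub, mul_one, mul_one, hzz, hez]
          abel
        rw [← hzq₀, ← mul_assoc, f3, zero_mul]
      rw [hGdef, mul_add, f1, f2, add_zero]
    have e2 : (z - e) * a₁ = 0 := by
      rw [← hea₁, ← mul_assoc, sub_mul]
      rw [hze, hee, sub_self, zero_mul]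
    rw [hy, mul_add, e2, add_zero, ← mul_assoc, ← mul_assoc, e1, zero_mul, zero_mul, zero_mul]
  rw [s1, s2, s3, add_zero]
  set U := g * (∑ i, p₁ i * w * p₁ i) * g with hU
  set V := ∑ i, p₀ i * (q₀ * x * q₀) * p₀ i with hV
  have hVn : ‖V‖ ≤ ε / 4 * X := by
    refine norm_pinch hp₀ (by positivity) ?_
    intro i
    have f1 : ‖q₀ * p₀ i‖ * ‖q₀ * p₀ i‖ ≤ ε / 4 := by
      rw [← CStarRing.norm_self_mul_star, star_mul, hp₀.star i, hq₀p.isSelfAdjoint.star_eq,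
        ← mul_assoc, mul_assoc q₀ (p₀ i) (p₀ i), (hp₀.proj i).isIdempotentElem.eq]
      exact hq₀' i
    have f2 : ‖p₀ i * q₀‖ = ‖q₀ * p₀ i‖ := by
      rw [← norm_star, star_mul, hp₀.star i, hq₀p.isSelfAdjoint.star_eq]
    calc ‖p₀ i * (q₀ * x * q₀) * p₀ i‖ = ‖(p₀ i * q₀) * x * (q₀ * p₀ i)‖ := by
          simp only [mul_assoc]
      _ ≤ ‖(p₀ i * q₀) * x‖ * ‖q₀ * p₀ i‖ := norm_mul_le _ _
      _ ≤ (‖p₀ i * q₀‖ * ‖x‖) * ‖q₀ * p₀ i‖ := by
          gcongr
          exact norm_mul_le _ _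
      _ = (‖q₀ * p₀ i‖ * ‖q₀ * p₀ i‖) * X := by rw [f2]; ring
      _ ≤ ε / 4 * X := by gcongr
  have hVz : (1 - z) * V = V := by
    rw [hV, Finset.mul_sum]
    refine Finset.sum_congr rfl (fun i _ => ?_)
    rw [← mul_assoc, ← mul_assoc, hp₀.z_mul]
  have hVz' : V * (1 - z) = V := by
    rw [hV, Finset.sum_mul]
    refine Finset.sum_congr rfl (fun i _ => ?_)
    rw [mul_assoc, hp₀.mul_z]
  have hUe : e * U = U := by
    rw [hU, ← mul_assoc, ← mul_assoc]
    rw [heg]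
  have hUe' : U * e = U := by
    rw [hU, mul_assoc, hge]
  have hUV : ‖U + V‖ ≤ ε / 4 * X := norm_block hep h1zp he1 hUe hUe' hVz hVz' hgT hVn
  have hfin : U + a₁ + V - a = (U + V) + ((ε / 4 : ℝ) : ℂ) • a₁ := by
    have f1 : a₁ - a = ((ε / 4 : ℝ) : ℂ) • a₁ := by
      rw [ha]
      nth_rw 1 [← one_smul ℂ a₁]
      rw [← sub_smul]
      congr 1
      push_cast
      ring
    rw [← f1]
    abel
  rw [hfin]
  have f2 : ‖((ε / 4 : ℝ) : ℂ) • a₁‖ ≤ ε / 4 * X := by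
    rw [norm_smul, Complex.norm_real, Real.norm_of_nonneg (by positivity)]
    gcongr
  calc ‖(U + V) + ((ε / 4 : ℝ) : ℂ) • a₁‖ ≤ ‖U + V‖ + ‖((ε / 4 : ℝ) : ℂ) • a₁‖ := norm_add_le _ _
    _ ≤ ε / 4 * X + ε / 4 * X := by gcongr
    _ ≤ ε * ((1 - ε / 4) * X) := by nlinarith [mul_pos hε hxn]
    _ ≤ ε * ‖y‖ := by gcongr

end Crest.Agent.R109
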