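import Crest.Agent.R109.Corner

/-!
# Row 109: the theorem `NCE_q` on the corner carried by an `A`-central vector
-/

set_option autoImplicit false
set_option linter.unusedSectionVars false

namespace Crest.Agent.R109

open scoped InnerProductSpace
open ContinuousLinearMap Crest.Agent.R121 Crest.Agent.R124

universe u

variable {H : Type u} [NormedAddCommGroup H] [InnerProductSpace ℂ H] [CompleteSpace H]
variable {M : VonNeumannAlgebra H} {A : StarSubalgebra ℂ (H →L[ℂ] H)}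

lemma mem_vspan {η w : H} (hw : w ∈ vspan M η) : ∃ T ∈ M.commutant, w = T η := by
  refine Submodule.span_induction (p := fun y _ => ∃ T ∈ M.commutant, y = T η) ?_ ?_ ?_ ?_ hw
  · rintro _ ⟨T, hT, rfl⟩; exact ⟨T, hT, rfl⟩
  · exact ⟨0, zero_mem _, rfl⟩
  · rintro a b _ _ ⟨T, hT, rfl⟩ ⟨T', hT', rfl⟩
    exact ⟨T + T', add_mem hT hT', rfl⟩
  · rintro c a _ ⟨T, hT, rfl⟩
    refine ⟨c • T, ?_, rfl⟩
    exact SMulMemClass.smul_mem (S := StarSubalgebra ℂ (H →L[ℂ] H))
      (s := M.commutant.toStarSubalgebra) c hT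

/-- elements of `M` which are small on `η` are small on the support of `η` -/
theorem near (M : VonNeumannAlgebra H) (η ξ : H) (C : ℝ) {δ : ℝ} (hδ : 0 < δ) :
    ∃ δ' : ℝ, 0 < δ' ∧ ∀ y ∈ M, ‖y‖ ≤ C → ‖y η‖ < δ' → ‖y (vs M η ξ)‖ < δ := by
  have hcl := vs_apply_mem M η ξ
  rw [Metric.mem_closure_iff] at hcl
  have hC : 0 < 2 * (|C| + 1) := by positivity
  obtain ⟨w, hw, hd⟩ := hcl (δ / (2 * (|C| + 1))) (by positivity)
  obtain ⟨T, hT, rfl⟩ := mem_vspan hw
  refine ⟨δ / (2 * (‖T‖ + 1)), by positivity, ?_⟩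
  intro y hy hyC hyη
  have h1 : y (vs M η ξ) = y (vs M η ξ - T η) + T (y η) := by
    have := congrArg (fun F : H →L[ℂ] H => F η) (commutant_comm M hy hT)
    change T (y η) = y (T η) at this
    rw [this, map_sub, sub_add_cancel]
  rw [dist_eq_norm] at hd
  have h2 : ‖y (vs M η ξ - T η)‖ ≤ (|C| + 1) * (δ / (2 * (|C| + 1))) := by
    refine (le_opNorm _ _).trans ?_
    gcongr
    exact hyC.trans ((le_abs_self C).trans (by linarith))
  have h3 : ‖T (y η)‖ < (‖T‖ + 1) * (δ / (2 * (‖T‖ + 1))) := by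
    refine (le_opNorm _ _).trans_lt ?_
    calc ‖T‖ * ‖y η‖ ≤ (‖T‖ + 1) * ‖y η‖ := by gcongr; linarith
      _ < _ := by
        apply mul_lt_mul_of_pos_left hyη
        positivity
  have h4 : (|C| + 1) * (δ / (2 * (|C| + 1))) = δ / 2 := by
    field_simp
  have h5 : (‖T‖ + 1) * (δ / (2 * (‖T‖ + 1))) = δ / 2 := by
    field_simp
  rw [h1]
  calc ‖y (vs M η ξ - T η) + T (y η)‖ ≤ _ + _ := norm_add_le _ _
    _ < δ / 2 + δ / 2 := by
      rw [h4] at h2
      rw [h5] at h3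
      linarith
    _ = δ := by ring

/-- `NCE_q` on the corner of an `A`-central vector -/
theorem nce_corner (hN : NCE_q.{u}) (hM : Masa M A) (hA : Amp M) {η : H} (hη : CVec M A η)
    {x : H →L[ℂ] H} (hx : x ∈ M) (hsa : IsSelfAdjoint x) (hn : ‖x‖ ≤ 1)
    (h0 : ∀ a ∈ A, ⟪η, (a * x) η⟫_ℂ = 0) {ε : ℝ} (hε : 0 < ε) (hε1 : ε < 1) {r : ℕ}
    (hr : 10 ^ 8 / ε ^ 2 ≤ (r : ℝ)) {δ : ℝ} (hδ : 0 < δ) :
    ∃ p : Fin r → H →L[ℂ] H, Part A (vs M η) p ∧ ∃ q ∈ M, IsStarProjection q ∧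
      vs M η * q = q ∧ ‖(vs M η - q) η‖ < δ ∧ ‖q * (∑ i, p i * x * p i) * q‖ ≤ ε := by
  set e := vs M η with he
  have hep : IsStarProjection e := vs_proj M η
  have heA : e ∈ A := hη.vs_mem hM
  have heM : e ∈ M := hM.le heA
  obtain ⟨K, iK1, iK2, iK3, J, h⟩ := exists_corner hep
  have inn : ∀ T : K →L[ℂ] K, ⟪adjoint J η, T (adjoint J η)⟫_ℂ = ⟪η, up J T η⟫_ℂ := by
    intro T
    rw [adjoint_inner_left]
    rfl
  have heη : e η = η := vs_self M η
  have hproj : ∀ T : K →L[ℂ] K, IsStarProjection T → IsStarProjection (up J T) := by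
    intro T hT
    refine ⟨?_, ?_⟩
    · change up J T * up J T = up J T
      rw [← h.up_mul, hT.isIdempotentElem.eq]
    · change star (up J T) = up J T
      rw [← up_star, hT.isSelfAdjoint.star_eq]
  have hC : CVec (cM J M) (cA J h A heA) (adjoint J η) := by
    intro a ha T hT
    rw [inn, inn, h.up_mul, h.up_mul]
    exact hη _ ha _ ((mem_cM h heM).1 hT)
  have hsep : ∀ T ∈ cM J M, T (adjoint J η) = 0 → T = 0 := by
    intro T hT hT0
    have h1 : up J T η = 0 := by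
      rw [up_apply, hT0, map_zero]
    have h2 := mul_vs_eq_zero M ((mem_cM h heM).1 hT) h1
    rw [← he, h.up_e] at h2
    exact h.up_inj (h2.trans up_zero.symm)
  have hxM : dn J x ∈ cM J M := by
    rw [mem_cM h heM, h.up_dn]
    exact mul_mem (mul_mem heM hx) heM
  have hxsa : IsSelfAdjoint (dn J x) := by
    change star (dn J x) = dn J x
    rw [← dn_star, hsa.star_eq]
  have hx1 : ‖dn J x‖ ≤ 1 := (norm_dn_le h.norm_le x).trans hn
  have hx0 : ∀ a ∈ cA J h A heA, ⟪adjoint J η, (a * dn J x) (adjoint J η)⟫_ℂ = 0 := by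
    intro a ha
    rw [inn, h.up_mul, h.up_dn, ← mul_assoc, ← mul_assoc, h.up_e]
    change ⟪η, (up J a * x) (e η)⟫_ℂ = 0
    rw [heη]
    exact h0 _ ha
  obtain ⟨p, hp, q, hqM, hqp, hqη, hq⟩ := hN K (cM J M) (cA J h A heA) (cornerMasa h heA hM)
    (cornerAmp h heM hA) (adjoint J η) hC hsep (dn J x) hxM hxsa hx1 hx0 ε hε hε1 r hr δ hδ
  refine ⟨fun i => up J (p i), ⟨fun i => hp.mem i, fun i => hproj _ (hp.proj i), ?_, ?_⟩,
    up J q, (mem_cM h heM).1 hqM, hproj q hqp, h.e_up q, ?_, ?_⟩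
  · intro i j hij
    rw [← h.up_mul, hp.orth i j hij, up_zero]
  · rw [← up_sum, hp.sum, h.up_one]
  · have h1 : (e - up J q) η = J ((1 - q) (adjoint J η)) := by
      rw [← h.up_one, ← up_sub]
      rfl
    rw [h1, h.norm_apply]
    exact hqη
  · have h1 : up J q * (∑ i, up J (p i) * x * up J (p i)) * up J q =
        up J (q * (∑ i, p i * dn J x * p i) * q) := by
      rw [h.up_mul, h.up_mul, up_sum]
      congr 2
    rw [h1]
    exact (norm_up_le h.norm_le _).trans hq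

end Crest.Agent.R109
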