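import Crest.Agent.R109.WLim
import Crest.Agent.R109.PartLib

/-!
# Row 109, part without normal expectation: choosing the levels one after the other
-/

set_option autoImplicit false
set_option linter.unusedSectionVars false

namespace Crest.Agent.R109

open scoped InnerProductSpace
open ContinuousLinearMap Crest.Agent.R124 Crest.Agent.R121

universe u

variable {H : Type u} [NormedAddCommGroup H] [InnerProductSpace ℂ H] [CompleteSpace H]

lemma inner_proj_move {p : H →L[ℂ] H} (hp : IsStarProjection p) (u v : H) :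
    ⟪p u, v⟫_ℂ = ⟪u, p v⟫_ℂ := by
  have e3 : adjoint p = p := hp.isSelfAdjoint
  conv_lhs => rw [← e3]
  rw [adjoint_inner_left]

lemma norm_proj_le' {p : H →L[ℂ] H} (hp : IsStarProjection p) (u : H) : ‖p u‖ ≤ ‖u‖ :=
  le_of_sq_le_sq (norm_proj_le hp u) (norm_nonneg _)
where
  le_of_sq_le_sq {a b : ℝ} (h : a ^ 2 ≤ b ^ 2) (hb : 0 ≤ b) : a ≤ b := by
    nlinarith [abs_le_of_sq_le_sq h hb, abs_nonneg a, le_abs_self a]

/-- the squared norms of the pieces of a vector -/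
lemma Part.sum_norm_sq {A : StarSubalgebra ℂ (H →L[ℂ] H)} {z : H →L[ℂ] H} {ι : Type*} [Fintype ι]
    {e : ι → H →L[ℂ] H} (he : Part A z e) (ζ : H) : ∑ i, ‖e i ζ‖ ^ 2 = (⟪z ζ, ζ⟫_ℂ).re := by
  rw [← he.sum, sum_apply, sum_inner, Complex.re_sum]
  exact Finset.sum_congr rfl fun i _ => (re_inner_proj (he.proj i) ζ).symm

lemma Part.sum_norm_sq_le {A : StarSubalgebra ℂ (H →L[ℂ] H)} {z : H →L[ℂ] H} {ι : Type*}
    [Fintype ι] {e : ι → H →L[ℂ] H} (he : Part A z e) (hz : IsStarProjection z) (ζ : H) :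
    ∑ i, ‖e i ζ‖ ^ 2 ≤ ‖ζ‖ ^ 2 := by
  rw [he.sum_norm_sq, re_inner_proj hz]
  exact norm_proj_le hz ζ

/-- the block diagonal part controls `‖q e_k w‖` -/
lemma Part.norm_q_e_sq {A : StarSubalgebra ℂ (H →L[ℂ] H)} {z : H →L[ℂ] H} {ι : Type*}
    [Fintype ι] [DecidableEq ι] {e : ι → H →L[ℂ] H} (he : Part A z e) {q : H →L[ℂ] H}
    (hq : IsStarProjection q) {η : ℝ} (hη : ‖∑ j, e j * q * e j‖ ≤ η) (k : ι) (w : H) :
    ‖q (e k w)‖ ^ 2 ≤ η * ‖e k w‖ ^ 2 := by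
  have hk2 : e k * e k = e k := (he.proj k).isIdempotentElem.eq
  have hsum : (∑ j, e j * q * e j) * e k = e k * q * e k := by
    rw [Finset.sum_mul, Finset.sum_eq_single k]
    · rw [mul_assoc (e k * q), hk2]
    · intro j _ hj
      rw [mul_assoc (e j * q), he.orth _ _ hj, mul_zero]
    · simp
  have h1 : ‖q (e k w)‖ ^ 2 = (⟪(∑ j, e j * q * e j) (e k w), e k w⟫_ℂ).re := by
    have h2 : (∑ j, e j * q * e j) (e k w) = e k (q (e k w)) := by
      have h3 : ((∑ j, e j * q * e j) * e k) w = (e k * q * e k) w := by rw [hsum]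
      exact h3
    rw [h2, inner_proj_move (he.proj k)]
    have h4 : e k (e k w) = e k w := congrArg (fun R : H →L[ℂ] H => R w) hk2
    rw [h4, re_inner_proj hq]
  rw [h1]
  calc (⟪(∑ j, e j * q * e j) (e k w), e k w⟫_ℂ).re
      ≤ ‖(∑ j, e j * q * e j) (e k w)‖ * ‖e k w‖ :=
        (Complex.re_le_norm _).trans (norm_inner_le_norm _ _)
    _ ≤ (‖∑ j, e j * q * e j‖ * ‖e k w‖) * ‖e k w‖ := by gcongr; exact le_opNorm _ _
    _ ≤ (η * ‖e k w‖) * ‖e k w‖ := by gcongr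
    _ = η * ‖e k w‖ ^ 2 := by ring

variable {A : StarSubalgebra ℂ (H →L[ℂ] H)}

/-- sequential choice of the levels -/
theorem exists_levels {x a : H →L[ℂ] H} (hax : ‖a‖ ≤ ‖x‖)
    (hlim : ∀ v w : H, ∀ ε : ℝ, 0 < ε → ∃ P : FP A, ‖⟪(D P x - a) v, w⟫_ℂ‖ ≤ ε)
    {z : H →L[ℂ] H} (hz : IsStarProjection z) {n : ℕ} {e : Fin n → H →L[ℂ] H} (he : Part A z e)
    {q : H →L[ℂ] H} (hq : IsStarProjection q) {η : ℝ} (hη : ‖∑ j, e j * q * e j‖ ≤ η)
    (ζ : H) {ε : ℝ} (hε : 0 < ε) : ∃ P : Fin n → FP A,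
      ‖q ((∑ j, e j * (D (P j) x - a) * e j) ζ)‖ ^ 2 ≤ η * (2 * ‖x‖) ^ 2 * ‖ζ‖ ^ 2 + ε := by
  classical
  have hη0 : 0 ≤ η := (norm_nonneg _).trans hη
  have key : ∀ s : Finset (Fin n), ∀ ε : ℝ, 0 < ε → ∃ P : Fin n → FP A,
      ‖q ((∑ j ∈ s, e j * (D (P j) x - a) * e j) ζ)‖ ^ 2
        ≤ η * (2 * ‖x‖) ^ 2 * ∑ j ∈ s, ‖e j ζ‖ ^ 2 + ε := by
    intro s
    induction s using Finset.induction_on with
    | empty =>
      intro ε hε
      exact ⟨fun _ => FP.triv A, by simpa using hε.le⟩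
    | insert k s hk ih =>
      intro ε hε
      obtain ⟨P, hP⟩ := ih (ε / 2) (by positivity)
      set S := q ((∑ j ∈ s, e j * (D (P j) x - a) * e j) ζ) with hS
      obtain ⟨Q, hQ⟩ := hlim (e k ζ) (e k S) (ε / 4) (by positivity)
      refine ⟨Function.update P k Q, ?_⟩
      rw [Finset.sum_insert hk, Finset.sum_insert hk, Function.update_self]
      have h1 : ∑ j ∈ s, e j * (D (Function.update P k Q j) x - a) * e j
          = ∑ j ∈ s, e j * (D (P j) x - a) * e j := by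
        refine Finset.sum_congr rfl fun j hj => ?_
        rw [Function.update_of_ne (ne_of_mem_of_not_mem hj hk)]
      rw [h1, add_apply, map_add, ← hS]
      set w := (D Q x - a) (e k ζ) with hw
      have h2 : (e k * (D Q x - a) * e k) ζ = e k w := rfl
      rw [h2, norm_add_sq (𝕜 := ℂ)]
      have h3 : ‖q (e k w)‖ ^ 2 ≤ η * (2 * ‖x‖) ^ 2 * ‖e k ζ‖ ^ 2 := by
        refine (he.norm_q_e_sq hq hη k w).trans ?_
        have h4 : ‖e k w‖ ≤ 2 * ‖x‖ * ‖e k ζ‖ := by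
          refine (norm_proj_le' (he.proj k) w).trans ?_
          refine (le_opNorm _ _).trans ?_
          gcongr
          calc ‖D Q x - a‖ ≤ ‖D Q x‖ + ‖a‖ := norm_sub_le _ _
            _ ≤ ‖x‖ + ‖x‖ := by gcongr; exact norm_D_le Q x
            _ = 2 * ‖x‖ := by ring
        calc η * ‖e k w‖ ^ 2 ≤ η * (2 * ‖x‖ * ‖e k ζ‖) ^ 2 := by gcongr
          _ = η * (2 * ‖x‖) ^ 2 * ‖e k ζ‖ ^ 2 := by ring
      have h5 : (RCLike.re ⟪q (e k w), S⟫_ℂ : ℝ) ≤ ε / 4 := by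
        have h6 : ⟪q (e k w), S⟫_ℂ = ⟪w, e k S⟫_ℂ := by
          rw [inner_proj_move hq, inner_proj_move (he.proj k)]
          have h7 : q S = S := by
            rw [hS]
            exact congrArg (fun R : H →L[ℂ] H => R _) hq.isIdempotentElem.eq
          rw [h7]
        rw [h6]
        exact (RCLike.re_le_norm _).trans hQ
      rw [mul_add]
      linarith
  obtain ⟨P, hP⟩ := key Finset.univ ε hε
  refine ⟨P, hP.trans ?_⟩
  gcongr
  exact he.sum_norm_sq_le hz ζ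

end Crest.Agent.R109
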