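import Mathlib

/-!
# Row 109: the non-normaliser part `T₂`, small-block lemma (abstract Hilbert space part)

Commuting conditional averages `E k` (integrating out the label of cell `k`), cells `e k`,
an operator `x` commuting with the averages with small blocks `e k x e l`.
-/

set_option autoImplicit false

namespace Crest.Agent.R109.SB

open scoped InnerProductSpace
open Finset

section Anova

variable {K : Type*} [NormedAddCommGroup K] [InnerProductSpace ℂ K]
variable {ι : Type*} [Fintype ι] [DecidableEq ι]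

/-- commuting symmetric idempotents -/
structure Avg (E : ι → Module.End ℂ K) : Prop where
  idem : ∀ k, E k * E k = E k
  comm : ∀ k l, E k * E l = E l * E k
  symm : ∀ k u v, ⟪E k u, v⟫_ℂ = ⟪u, E k v⟫_ℂ

theorem exists_anova {E : ι → Module.End ℂ K} (h : Avg E) :
    ∃ A : Finset ι → Module.End ℂ K,
      (∑ S, A S = 1) ∧ (∀ S k, k ∈ S → E k * A S = 0) ∧ (∀ S k, k ∉ S → E k * A S = A S) ∧
      (∀ T : Module.End ℂ K, (∀ k, T * E k = E k * T) → ∀ S, T * A S = A S * T) := by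
  classical
  have hc : ∀ a ∈ Set.range E, ∀ b ∈ Set.range E, a * b = b * a := by
    rintro _ ⟨k, rfl⟩ _ ⟨l, rfl⟩
    exact h.comm k l
  letI : CommRing (Algebra.adjoin ℂ (Set.range E)) := Algebra.adjoinCommRingOfComm ℂ hc
  let F : ι → Algebra.adjoin ℂ (Set.range E) :=
    fun k => ⟨E k, Algebra.subset_adjoin ⟨k, rfl⟩⟩
  let B : Finset ι → Algebra.adjoin ℂ (Set.range E) :=
    fun S => (∏ k ∈ S, (1 - F k)) * ∏ k ∈ Sᶜ, F k
  have hF : ∀ k, F k * F k = F k := fun k => Subtype.ext (h.idem k)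
  refine ⟨fun S => (B S : Module.End ℂ K), ?_, ?_, ?_, ?_⟩
  · have h1 : ∑ S : Finset ι, B S = 1 := by
      have := Finset.prod_add (fun k => (1 - F k)) F (Finset.univ : Finset ι)
      simp only [sub_add_cancel, Finset.prod_const_one, Finset.powerset_univ] at this
      rw [this]
      refine Finset.sum_congr rfl fun S _ => ?_
      simp only [B, Finset.compl_eq_univ_sdiff]
    have h2 := congrArg (fun z : Algebra.adjoin ℂ (Set.range E) => (z : Module.End ℂ K)) h1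
    simpa using h2
  · intro S k hk
    have h1 : F k * B S = 0 := by
      simp only [B]
      rw [← Finset.mul_prod_erase S _ hk]
      have : F k * (1 - F k) = 0 := by rw [mul_sub, mul_one, hF, sub_self]
      calc F k * ((1 - F k) * (∏ x ∈ S.erase k, (1 - F x)) * ∏ x ∈ Sᶜ, F x)
          = (F k * (1 - F k)) * ((∏ x ∈ S.erase k, (1 - F x)) * ∏ x ∈ Sᶜ, F x) := by ring
        _ = 0 := by rw [this, zero_mul]
    exact congrArg (fun z : Algebra.adjoin ℂ (Set.range E) => (z : Module.End ℂ K)) h1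
  · intro S k hk
    have h1 : F k * B S = B S := by
      simp only [B]
      have hk' : k ∈ Sᶜ := by simpa using hk
      rw [← Finset.mul_prod_erase Sᶜ _ hk']
      calc F k * ((∏ x ∈ S, (1 - F x)) * (F k * ∏ x ∈ Sᶜ.erase k, F x))
          = (F k * F k) * ((∏ x ∈ S, (1 - F x)) * ∏ x ∈ Sᶜ.erase k, F x) := by ring
        _ = (∏ x ∈ S, (1 - F x)) * (F k * ∏ x ∈ Sᶜ.erase k, F x) := by rw [hF]; ring
    exact congrArg (fun z : Algebra.adjoin ℂ (Set.range E) => (z : Module.End ℂ K)) h1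
  · intro T hT S
    have key : ∀ z ∈ Algebra.adjoin ℂ (Set.range E), T * z = z * T := by
      intro z hz
      induction hz using Algebra.adjoin_induction with
      | mem x hx =>
        obtain ⟨k, rfl⟩ := hx
        exact hT k
      | algebraMap r => exact (Algebra.commutes r T).symm
      | add x y _ _ hx hy => rw [mul_add, add_mul, hx, hy]
      | mul x y _ _ hx hy => rw [← mul_assoc, hx, mul_assoc, hy, mul_assoc]
    exact key _ (B S).2

/-- the Efron-Stein projections -/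
noncomputable def anova {E : ι → Module.End ℂ K} (h : Avg E) : Finset ι → Module.End ℂ K :=
  Classical.choose (exists_anova h)

section
variable {E : ι → Module.End ℂ K} (h : Avg E)

theorem sum_anova : ∑ S, anova h S = 1 := (Classical.choose_spec (exists_anova h)).1

theorem sum_anova_apply (u : K) : ∑ S, anova h S u = u := by
  have := congrArg (fun T : Module.End ℂ K => T u) (sum_anova h)
  simpa [LinearMap.sum_apply] using this

theorem E_anova_mem {S : Finset ι} {k : ι} (hk : k ∈ S) (u : K) : E k (anova h S u) = 0 := by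
  have := congrArg (fun T : Module.End ℂ K => T u)
    ((Classical.choose_spec (exists_anova h)).2.1 S k hk)
  exact this

theorem E_anova_notMem {S : Finset ι} {k : ι} (hk : k ∉ S) (u : K) :
    E k (anova h S u) = anova h S u := by
  have := congrArg (fun T : Module.End ℂ K => T u)
    ((Classical.choose_spec (exists_anova h)).2.2.1 S k hk)
  exact this

theorem comm_anova {T : Module.End ℂ K} (hT : ∀ k, T * E k = E k * T) (S : Finset ι) (u : K) :
    T (anova h S u) = anova h S (T u) := by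
  have := congrArg (fun T : Module.End ℂ K => T u)
    ((Classical.choose_spec (exists_anova h)).2.2.2 T hT S)
  exact this

theorem anova_orth {S T : Finset ι} (hST : S ≠ T) (u v : K) :
    ⟪anova h S u, anova h T v⟫_ℂ = 0 := by
  classical
  by_cases hS : ∃ k ∈ S, k ∉ T
  · obtain ⟨k, hkS, hkT⟩ := hS
    rw [← E_anova_notMem h hkT v, ← h.symm, E_anova_mem h hkS, inner_zero_left]
  · have hS' : S ⊆ T := fun k hk => by
      by_contra hk'
      exact hS ⟨k, hk, hk'⟩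
    have : ∃ k ∈ T, k ∉ S := by
      by_contra hcon
      push Not at hcon
      exact hST (Finset.Subset.antisymm hS' hcon)
    obtain ⟨k, hkT, hkS⟩ := this
    rw [← E_anova_notMem h hkS u, h.symm, E_anova_mem h hkT, inner_zero_right]

theorem pyth {α : Type*} [Fintype α] (w : α → K) (hw : ∀ a b, a ≠ b → ⟪w a, w b⟫_ℂ = 0) :
    ‖∑ a, w a‖ ^ 2 = ∑ a, ‖w a‖ ^ 2 := by
  classical
  have h1 : ⟪∑ a, w a, ∑ a, w a⟫_ℂ = ∑ a, ⟪w a, w a⟫_ℂ := by
    rw [sum_inner]
    refine Finset.sum_congr rfl fun a _ => ?_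
    rw [inner_sum, Finset.sum_eq_single a]
    · intro b _ hb
      exact hw a b (Ne.symm hb)
    · simp
  have h2 : ((‖∑ a, w a‖ ^ 2 : ℝ) : ℂ) = ((∑ a, ‖w a‖ ^ 2 : ℝ) : ℂ) := by
    have h3 := h1
    simp only [inner_self_eq_norm_sq_to_K] at h3
    push_cast
    exact h3
  exact_mod_cast h2

theorem norm_sq_anova (u : K) : ‖u‖ ^ 2 = ∑ S, ‖anova h S u‖ ^ 2 := by
  conv_lhs => rw [← sum_anova_apply h u]
  exact pyth _ fun S T hST => anova_orth h hST u u

/-- vectors of Efron-Stein degree at most `s` -/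
noncomputable def Deg (s : ℕ) : Submodule ℂ K where
  carrier := {u | ∀ S : Finset ι, s < S.card → anova h S u = 0}
  add_mem' := by
    intro a b ha hb S hS
    rw [map_add, ha S hS, hb S hS, add_zero]
  zero_mem' := by
    intro S _
    exact map_zero _
  smul_mem' := by
    intro c a ha S hS
    rw [map_smul, ha S hS, smul_zero]

theorem mem_Deg {s : ℕ} {u : K} : u ∈ Deg h s ↔ ∀ S : Finset ι, s < S.card → anova h S u = 0 :=
  Iff.rfl

theorem Deg_mono {s t : ℕ} (hst : s ≤ t) : Deg h s ≤ Deg h t :=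
  fun _ hu S hS => hu S (lt_of_le_of_lt hst hS)

/-- a vector not depending on the labels outside `T` has only components inside `T` -/
theorem anova_eq_zero_of_local {T : Finset ι} {u : K} (hu : ∀ k, k ∉ T → E k u = u)
    {S : Finset ι} (hS : ¬ S ⊆ T) : anova h S u = 0 := by
  obtain ⟨k, hkS, hkT⟩ := Finset.not_subset.1 hS
  have h1 : E k (anova h S u) = anova h S (E k u) :=
    comm_anova h (fun l => h.comm k l) S u
  rw [hu k hkT, E_anova_mem h hkS] at h1
  exact h1.symm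

theorem mem_Deg_of_local {T : Finset ι} {u : K} (hu : ∀ k, k ∉ T → E k u = u) {s : ℕ}
    (hT : T.card ≤ s) : u ∈ Deg h s := by
  intro S hS
  refine anova_eq_zero_of_local h hu fun hST => ?_
  exact absurd (Finset.card_le_card hST) (not_le.2 (lt_of_le_of_lt hT hS))

theorem Deg_comm {T : Module.End ℂ K} (hT : ∀ k, T * E k = E k * T) {s : ℕ} {u : K}
    (hu : u ∈ Deg h s) : T u ∈ Deg h s := by
  intro S hS
  rw [← comm_anova h hT, hu S hS, map_zero]

/-- the small-block estimate: `(1-Q) x (1-Q)` is small on vectors of bounded degree -/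
theorem small_block (e : ι → Module.End ℂ K) (x : Module.End ℂ K) {ε : ℝ} (hε : 0 ≤ ε)
    (hsum : ∑ k, e k = 1) (heE : ∀ k l, e k * E l = E l * e k) (hxE : ∀ l, x * E l = E l * x)
    (hblock : ∀ k l u, ‖e k (x (e l u))‖ ≤ ε * ‖u‖) {s : ℕ} {ζ : K} (hζ : ζ ∈ Deg h s) :
    ‖(1 - ∑ k, e k * E k) (x ((1 - ∑ k, e k * E k) ζ))‖ ≤ (s : ℝ) ^ 2 * ε * ‖ζ‖ := by
  classical
  -- `1 - Q = ∑ e k (1 - E k)`
  have hQ : (1 - ∑ k, e k * E k : Module.End ℂ K) = ∑ k, e k * (1 - E k) := by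
    have h1 : ∑ k, e k * (1 - E k) = ∑ k, e k - ∑ k, e k * E k := by
      rw [← Finset.sum_sub_distrib]
      exact Finset.sum_congr rfl fun k _ => by rw [mul_sub, mul_one]
    rw [h1, hsum]
  have hQa : ∀ u : K, (1 - ∑ k, e k * E k : Module.End ℂ K) u = ∑ k, e k (u - E k u) := by
    intro u
    rw [hQ, LinearMap.sum_apply]
    rfl
  have hxE' : ∀ k u, x (E k u) = E k (x u) := fun k u => LinearMap.congr_fun (hxE k) u
  have heE' : ∀ k l u, e k (E l u) = E l (e k u) := fun k l u => LinearMap.congr_fun (heE k l) u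
  have hEE' : ∀ k l u, E k (E l u) = E l (E k u) := fun k l u =>
    LinearMap.congr_fun (h.comm k l) u
  let w : Finset ι → K := fun S => ∑ k ∈ S, ∑ l ∈ S, e k (x (e l (anova h S ζ)))
  -- the component computation
  have hcomp : ∀ S, (1 - ∑ k, e k * E k : Module.End ℂ K)
      (x ((1 - ∑ k, e k * E k : Module.End ℂ K) (anova h S ζ))) = w S := by
    intro S
    have hE : ∀ k, anova h S ζ - E k (anova h S ζ) = if k ∈ S then anova h S ζ else 0 := by
      intro k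
      split_ifs with hk
      · rw [E_anova_mem h hk, sub_zero]
      · rw [E_anova_notMem h hk, sub_self]
    have h1 : (1 - ∑ k, e k * E k : Module.End ℂ K) (anova h S ζ)
        = ∑ l ∈ S, e l (anova h S ζ) := by
      rw [hQa]
      simp only [hE]
      rw [← Finset.sum_filter_add_sum_filter_not Finset.univ (· ∈ S)]
      rw [Finset.sum_congr rfl (g := fun l => e l (anova h S ζ))
        (fun l hl => by rw [if_pos (Finset.mem_filter.1 hl).2]),
        Finset.sum_eq_zero (s := Finset.univ.filter (fun x => ¬ x ∈ S))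
        (fun l hl => by rw [if_neg (Finset.mem_filter.1 hl).2, map_zero]), add_zero]
      refine Finset.sum_congr ?_ fun _ _ => rfl
      ext k
      simp
    rw [h1, map_sum]
    rw [hQa]
    have h2 : ∀ k, (∑ l ∈ S, x (e l (anova h S ζ))) - E k (∑ l ∈ S, x (e l (anova h S ζ)))
        = if k ∈ S then ∑ l ∈ S, x (e l (anova h S ζ)) else 0 := by
      intro k
      have h3 : E k (∑ l ∈ S, x (e l (anova h S ζ)))
          = ∑ l ∈ S, x (e l (E k (anova h S ζ))) := by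
        rw [map_sum]
        exact Finset.sum_congr rfl fun l _ => by rw [heE', hxE']
      rw [h3]
      split_ifs with hk
      · rw [E_anova_mem h hk]
        simp
      · rw [E_anova_notMem h hk, sub_self]
    simp only [h2]
    rw [← Finset.sum_filter_add_sum_filter_not Finset.univ (· ∈ S)]
    rw [Finset.sum_congr rfl (g := fun k => e k (∑ l ∈ S, x (e l (anova h S ζ))))
      (fun l hl => by rw [if_pos (Finset.mem_filter.1 hl).2]),
      Finset.sum_eq_zero (s := Finset.univ.filter (fun x => ¬ x ∈ S))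
      (fun l hl => by rw [if_neg (Finset.mem_filter.1 hl).2, map_zero]), add_zero]
    simp only [w, map_sum]
    refine Finset.sum_congr ?_ fun _ _ => rfl
    ext k
    simp
  have htot : (1 - ∑ k, e k * E k : Module.End ℂ K)
      (x ((1 - ∑ k, e k * E k : Module.End ℂ K) ζ)) = ∑ S, w S := by
    conv_lhs => rw [← sum_anova_apply h ζ]
    rw [map_sum, map_sum, map_sum]
    exact Finset.sum_congr rfl fun S _ => hcomp S
  -- orthogonality of the components
  have hw : ∀ S, w S = anova h S (∑ k ∈ S, ∑ l ∈ S, e k (x (e l ζ))) := by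
    intro S
    simp only [w]
    rw [map_sum]
    refine Finset.sum_congr rfl fun k _ => ?_
    rw [map_sum]
    refine Finset.sum_congr rfl fun l _ => ?_
    rw [comm_anova h (fun m => heE l m), comm_anova h hxE, comm_anova h (fun m => heE k m)]
  have horth : ∀ S T, S ≠ T → ⟪w S, w T⟫_ℂ = 0 := by
    intro S T hST
    rw [hw S, hw T]
    exact anova_orth h hST _ _
  have hbound : ∀ S, ‖w S‖ ≤ (s : ℝ) ^ 2 * ε * ‖anova h S ζ‖ := by
    intro S
    by_cases hS : s < S.card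
    · have : w S = 0 := by
        simp only [w, hζ S hS, map_zero, Finset.sum_const_zero]
      rw [this, norm_zero]
      positivity
    · have hS' : (S.card : ℝ) ≤ s := by exact_mod_cast not_lt.1 hS
      calc ‖w S‖ ≤ ∑ k ∈ S, ‖∑ l ∈ S, e k (x (e l (anova h S ζ)))‖ := norm_sum_le _ _
        _ ≤ ∑ k ∈ S, ∑ l ∈ S, ‖e k (x (e l (anova h S ζ)))‖ :=
            Finset.sum_le_sum fun k _ => norm_sum_le _ _
        _ ≤ ∑ k ∈ S, ∑ l ∈ S, ε * ‖anova h S ζ‖ :=
            Finset.sum_le_sum fun k _ => Finset.sum_le_sum fun l _ => hblock k l _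
        _ = (S.card : ℝ) * ((S.card : ℝ) * (ε * ‖anova h S ζ‖)) := by
            simp only [Finset.sum_const, nsmul_eq_mul]
        _ ≤ (s : ℝ) * ((s : ℝ) * (ε * ‖anova h S ζ‖)) := by
            have h0 : 0 ≤ ε * ‖anova h S ζ‖ := mul_nonneg hε (norm_nonneg _)
            have h1 : (0 : ℝ) ≤ S.card := Nat.cast_nonneg _
            have h2 : (S.card : ℝ) * (ε * ‖anova h S ζ‖) ≤ (s : ℝ) * (ε * ‖anova h S ζ‖) :=
              mul_le_mul_of_nonneg_right hS' h0
            exact mul_le_mul hS' h2 (mul_nonneg h1 h0) (Nat.cast_nonneg _)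
        _ = (s : ℝ) ^ 2 * ε * ‖anova h S ζ‖ := by ring
  rw [htot]
  have h1 : ‖∑ S, w S‖ ^ 2 ≤ ((s : ℝ) ^ 2 * ε * ‖ζ‖) ^ 2 := by
    rw [pyth w horth]
    calc ∑ S, ‖w S‖ ^ 2 ≤ ∑ S, ((s : ℝ) ^ 2 * ε * ‖anova h S ζ‖) ^ 2 :=
          Finset.sum_le_sum fun S _ => pow_le_pow_left₀ (norm_nonneg _) (hbound S) 2
      _ = ((s : ℝ) ^ 2 * ε) ^ 2 * ∑ S, ‖anova h S ζ‖ ^ 2 := by
          rw [Finset.mul_sum]
          exact Finset.sum_congr rfl fun S _ => by ring
      _ = ((s : ℝ) ^ 2 * ε * ‖ζ‖) ^ 2 := by rw [← norm_sq_anova h ζ]; ring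
  exact (pow_le_pow_iff_left₀ (norm_nonneg _) (by positivity) two_ne_zero).1 h1

end

/-- symmetric idempotents are contractions -/
theorem norm_le_of_symm_idem {T : Module.End ℂ K} (hs : ∀ u v, ⟪T u, v⟫_ℂ = ⟪u, T v⟫_ℂ)
    (hi : ∀ u, T (T u) = T u) (u : K) : ‖T u‖ ≤ ‖u‖ := by
  have h1 : ‖T u‖ ^ 2 ≤ ‖u‖ * ‖T u‖ := by
    have h2 : ⟪T u, T u⟫_ℂ = ⟪u, T u⟫_ℂ := by rw [hs, hi]
    have h3 : ‖⟪T u, T u⟫_ℂ‖ = ‖T u‖ ^ 2 := by
      rw [inner_self_eq_norm_sq_to_K]
      simp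
    calc ‖T u‖ ^ 2 = ‖⟪u, T u⟫_ℂ‖ := by rw [← h2, h3]
      _ ≤ ‖u‖ * ‖T u‖ := norm_inner_le_norm _ _
  by_contra hcon
  push Not at hcon
  have h4 : 0 < ‖T u‖ := lt_of_le_of_lt (norm_nonneg _) hcon
  nlinarith

section Step

variable {E : ι → Module.End ℂ K} (h : Avg E) (e : ι → Module.End ℂ K) (x p : Module.End ℂ K)

/-- one step: `p x p` has norm at most `2 √λ C + s² ε` on vectors of degree at most `s` -/
theorem step {ε C lam : ℝ} (hε : 0 ≤ ε) (hC0 : 0 ≤ C) (hlam : 0 ≤ lam)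
    (hes : ∀ k u v, ⟪e k u, v⟫_ℂ = ⟪u, e k v⟫_ℂ)
    (hee : ∀ k u, e k (e k u) = e k u) (heo : ∀ k l, k ≠ l → ∀ u, e k (e l u) = 0)
    (hsum : ∑ k, e k = 1) (heE : ∀ k l, e k * E l = E l * e k) (hxE : ∀ l, x * E l = E l * x)
    (hblock : ∀ k l u, ‖e k (x (e l u))‖ ≤ ε * ‖u‖) (hC : ∀ u, ‖x u‖ ≤ C * ‖u‖)
    (hps : ∀ u v, ⟪p u, v⟫_ℂ = ⟪u, p v⟫_ℂ) (hpi : ∀ u, p (p u) = p u)
    (hQ1 : ∀ u, ‖p (∑ k, e k (E k u))‖ ≤ lam * ‖u‖)
    {s : ℕ} {η : K} (hη : η ∈ Deg h s) (hpη : p η = η) :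
    ‖p (x η)‖ ≤ (2 * lam * C + (s : ℝ) ^ 2 * ε) * ‖η‖ := by
  classical
  have heE' : ∀ k l u, e k (E l u) = E l (e k u) := fun k l u => LinearMap.congr_fun (heE k l) u
  set Q : Module.End ℂ K := ∑ k, e k * E k with hQdef
  have hQa : ∀ u, Q u = ∑ k, e k (E k u) := fun u => by
    rw [hQdef, LinearMap.sum_apply]
    rfl
  have hQs : ∀ u v, ⟪Q u, v⟫_ℂ = ⟪u, Q v⟫_ℂ := by
    intro u v
    rw [hQa, hQa, sum_inner, inner_sum]
    refine Finset.sum_congr rfl fun k _ => ?_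
    rw [hes, h.symm, ← heE']
  have hQi : ∀ u, Q (Q u) = Q u := by
    intro u
    conv_lhs => rw [hQa, hQa]
    rw [hQa]
    refine Finset.sum_congr rfl fun k _ => ?_
    rw [map_sum, map_sum, Finset.sum_eq_single k]
    · have := LinearMap.congr_fun (h.idem k) u
      simp only [Module.End.mul_apply] at this
      rw [← heE' k k, hee, this]
    · intro l _ hl
      rw [← heE', heo k l (Ne.symm hl)]
    · simp
  have hRs : ∀ u v, ⟪(1 - Q) u, v⟫_ℂ = ⟪u, (1 - Q) v⟫_ℂ := by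
    intro u v
    simp only [LinearMap.sub_apply, Module.End.one_apply, inner_sub_left, inner_sub_right, hQs]
  have hRi : ∀ u, (1 - Q) ((1 - Q) u) = (1 - Q) u := by
    intro u
    simp only [LinearMap.sub_apply, Module.End.one_apply, map_sub, hQi]
    abel
  have hQp : ∀ u, ‖Q (p u)‖ ≤ lam * ‖u‖ := by
    intro u
    have h1 : ‖Q (p u)‖ ^ 2 ≤ (lam * ‖u‖) * ‖Q (p u)‖ := by
      have h2 : ⟪Q (p u), Q (p u)⟫_ℂ = ⟪u, p (Q (Q (p u)))⟫_ℂ := by
        rw [hQs, hps]
      have h3 : ‖⟪Q (p u), Q (p u)⟫_ℂ‖ = ‖Q (p u)‖ ^ 2 := by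
        rw [inner_self_eq_norm_sq_to_K]
        simp
      calc ‖Q (p u)‖ ^ 2 = ‖⟪u, p (Q (Q (p u)))⟫_ℂ‖ := by rw [← h2, h3]
        _ ≤ ‖u‖ * ‖p (Q (Q (p u)))‖ := norm_inner_le_norm _ _
        _ ≤ ‖u‖ * (lam * ‖Q (p u)‖) := by
            refine mul_le_mul_of_nonneg_left ?_ (norm_nonneg _)
            have := hQ1 (Q (p u))
            rwa [← hQa] at this
        _ = (lam * ‖u‖) * ‖Q (p u)‖ := by ring
    by_contra hcon
    push Not at hcon
    have h4 : 0 < ‖Q (p u)‖ := lt_of_le_of_lt (mul_nonneg hlam (norm_nonneg _)) hcon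
    nlinarith
  have hsplit : p (x η) = p (Q (x η)) + (p ((1 - Q) (x (Q η))) + p ((1 - Q) (x ((1 - Q) η)))) := by
    rw [← map_add, ← map_add, ← map_add, ← map_add]
    simp only [LinearMap.sub_apply, Module.End.one_apply, add_sub_cancel]
  have hp1 : ∀ u, ‖p u‖ ≤ ‖u‖ := norm_le_of_symm_idem hps hpi
  have hR1 : ∀ u, ‖(1 - Q) u‖ ≤ ‖u‖ := norm_le_of_symm_idem hRs hRi
  have t1 : ‖p (Q (x η))‖ ≤ lam * (C * ‖η‖) := by
    rw [hQa]
    exact (hQ1 _).trans (mul_le_mul_of_nonneg_left (hC _) hlam)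
  have t2 : ‖p ((1 - Q) (x (Q η)))‖ ≤ C * (lam * ‖η‖) := by
    refine (hp1 _).trans ((hR1 _).trans ((hC _).trans ?_))
    refine mul_le_mul_of_nonneg_left ?_ hC0
    have := hQp η
    rwa [hpη] at this
  have t3 : ‖p ((1 - Q) (x ((1 - Q) η)))‖ ≤ (s : ℝ) ^ 2 * ε * ‖η‖ :=
    (hp1 _).trans (small_block h e x hε hsum heE hxE hblock hη)
  rw [hsplit]
  calc ‖p (Q (x η)) + (p ((1 - Q) (x (Q η))) + p ((1 - Q) (x ((1 - Q) η))))‖
      ≤ ‖p (Q (x η))‖ + (‖p ((1 - Q) (x (Q η)))‖ + ‖p ((1 - Q) (x ((1 - Q) η)))‖) :=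
        (norm_add_le _ _).trans (add_le_add_right (norm_add_le _ _) _)
    _ ≤ lam * (C * ‖η‖) + (C * (lam * ‖η‖) + (s : ℝ) ^ 2 * ε * ‖η‖) :=
        add_le_add t1 (add_le_add t2 t3)
    _ = (2 * lam * C + (s : ℝ) ^ 2 * ε) * ‖η‖ := by ring

/-- `m` steps -/
theorem iterate {ε C lam : ℝ} (hε : 0 ≤ ε) (hC0 : 0 ≤ C) (hlam : 0 ≤ lam)
    (hes : ∀ k u v, ⟪e k u, v⟫_ℂ = ⟪u, e k v⟫_ℂ)
    (hee : ∀ k u, e k (e k u) = e k u) (heo : ∀ k l, k ≠ l → ∀ u, e k (e l u) = 0)
    (hsum : ∑ k, e k = 1) (heE : ∀ k l, e k * E l = E l * e k) (hxE : ∀ l, x * E l = E l * x)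
    (hblock : ∀ k l u, ‖e k (x (e l u))‖ ≤ ε * ‖u‖) (hC : ∀ u, ‖x u‖ ≤ C * ‖u‖)
    (hps : ∀ u v, ⟪p u, v⟫_ℂ = ⟪u, p v⟫_ℂ) (hpi : ∀ u, p (p u) = p u)
    (hQ1 : ∀ u, ‖p (∑ k, e k (E k u))‖ ≤ lam * ‖u‖)
    {d : ℕ} (hpd : ∀ s, ∀ u ∈ Deg h s, p u ∈ Deg h (s + d))
    {ξ : K} (hξ : ξ ∈ Deg h 0) (m : ℕ) :
    ‖((p * x) ^ m) (p ξ)‖ ≤ (2 * lam * C + ((m * d : ℕ) : ℝ) ^ 2 * ε) ^ m * ‖p ξ‖ := by
  have hB : 0 ≤ 2 * lam * C + ((m * d : ℕ) : ℝ) ^ 2 * ε := by positivity
  have key : ∀ j : ℕ, j ≤ m → ((p * x) ^ j) (p ξ) ∈ Deg h ((j + 1) * d) ∧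
      p (((p * x) ^ j) (p ξ)) = ((p * x) ^ j) (p ξ) ∧
      ‖((p * x) ^ j) (p ξ)‖ ≤ (2 * lam * C + ((m * d : ℕ) : ℝ) ^ 2 * ε) ^ j * ‖p ξ‖ := by
    intro j
    induction j with
    | zero =>
      intro _
      refine ⟨?_, ?_, ?_⟩
      · have := hpd 0 ξ hξ
        simpa using this
      · simpa using hpi ξ
      · simp
    | succ j ih =>
      intro hj
      obtain ⟨h1, h2, h3⟩ := ih (Nat.le_of_succ_le hj)
      have hstep : ((p * x) ^ (j + 1)) (p ξ) = p (x (((p * x) ^ j) (p ξ))) := by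
        rw [pow_succ']
        rfl
      rw [hstep]
      refine ⟨?_, ?_, ?_⟩
      · have := hpd _ _ (Deg_comm h hxE h1)
        refine Deg_mono h (le_of_eq ?_) this
        ring
      · rw [hpi]
      · have h4 := step h e x p hε hC0 hlam hes hee heo hsum heE hxE hblock hC hps hpi hQ1 h1 h2
        have h5 : (((j + 1) * d : ℕ) : ℝ) ^ 2 * ε ≤ ((m * d : ℕ) : ℝ) ^ 2 * ε := by
          refine mul_le_mul_of_nonneg_right ?_ hε
          refine pow_le_pow_left₀ (Nat.cast_nonneg _) ?_ 2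
          exact_mod_cast Nat.mul_le_mul_right d hj
        calc ‖p (x (((p * x) ^ j) (p ξ)))‖
            ≤ (2 * lam * C + (((j + 1) * d : ℕ) : ℝ) ^ 2 * ε) * ‖((p * x) ^ j) (p ξ)‖ := h4
          _ ≤ (2 * lam * C + ((m * d : ℕ) : ℝ) ^ 2 * ε) *
                ((2 * lam * C + ((m * d : ℕ) : ℝ) ^ 2 * ε) ^ j * ‖p ξ‖) :=
              mul_le_mul (by linarith) h3 (norm_nonneg _) hB
          _ = (2 * lam * C + ((m * d : ℕ) : ℝ) ^ 2 * ε) ^ (j + 1) * ‖p ξ‖ := by ring
  exact (key m le_rfl).2.2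

end Step

end Anova

end Crest.Agent.R109.SB
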