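import Mathlib
import Crest.Agent.R109.SmallBlock

/-!
# Row 109: small-block lemma, model with random labels

`Ω = ι → Λ` (labels of the cells), vectors are `H`-valued functions of the labels.
-/

set_option autoImplicit false
set_option linter.unusedSectionVars false

namespace Crest.Agent.R109.SB

open scoped InnerProductSpace
open Finset

section Model

variable {H : Type*} [NormedAddCommGroup H] [InnerProductSpace ℂ H]
variable {ι Λ : Type*} [Fintype ι] [DecidableEq ι] [Fintype Λ]

/-- `H`-valued functions of the labels -/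
abbrev KK (H ι Λ : Type*) := PiLp 2 (fun _ : ι → Λ => H)

/-- average over the label of cell `k` -/
noncomputable def avg (H : Type*) [NormedAddCommGroup H] [InnerProductSpace ℂ H]
    {ι : Type*} (Λ : Type*) [Fintype ι] [DecidableEq ι] [Fintype Λ] (k : ι) :
    Module.End ℂ (KK H ι Λ) where
  toFun u := WithLp.toLp 2 fun ω => (Fintype.card Λ : ℂ)⁻¹ • ∑ t, u (Function.update ω k t)
  map_add' u v := by
    ext ω
    simp [Finset.sum_add_distrib]
  map_smul' c u := by
    ext ω
    simp only [PiLp.smul_apply, RingHom.id_apply]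
    rw [← Finset.smul_sum, smul_comm]

theorem avg_apply (k : ι) (u : KK H ι Λ) (ω : ι → Λ) :
    avg H Λ k u ω = (Fintype.card Λ : ℂ)⁻¹ • ∑ t, u (Function.update ω k t) := rfl

/-- multiplication by an operator valued function of the labels -/
noncomputable def mulOp (T : (ι → Λ) → Module.End ℂ H) : Module.End ℂ (KK H ι Λ) where
  toFun u := WithLp.toLp 2 fun ω => T ω (u ω)
  map_add' u v := by
    ext ω
    simp
  map_smul' c u := by
    ext ω
    simp

theorem mulOp_apply (T : (ι → Λ) → Module.End ℂ H) (u : KK H ι Λ) (ω : ι → Λ) :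
    mulOp T u ω = T ω (u ω) := rfl

theorem norm_sq_KK (u : KK H ι Λ) : ‖u‖ ^ 2 = ∑ ω, ‖u ω‖ ^ 2 := PiLp.norm_sq_eq_of_L2 _ u

theorem inner_KK (u v : KK H ι Λ) : ⟪u, v⟫_ℂ = ∑ ω, ⟪u ω, v ω⟫_ℂ := rfl

/-- resampling one coordinate does not change a total sum -/
theorem sum_update {M : Type*} [AddCommMonoid M] (k : ι) (F : (ι → Λ) → Λ → M) :
    ∑ ω : ι → Λ, ∑ t, F (Function.update ω k t) (ω k) = ∑ ω : ι → Λ, ∑ t, F ω t := by
  rw [← Finset.sum_product', ← Finset.sum_product']
  refine Finset.sum_bij' (fun z _ => (Function.update z.1 k z.2, z.1 k))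
    (fun z _ => (Function.update z.1 k z.2, z.1 k)) ?_ ?_ ?_ ?_ ?_
  · intro z _; simp
  · intro z _; simp
  · intro z _; simp
  · intro z _; simp
  · intro z _; simp

variable [Nonempty Λ]

theorem avg_Avg : Avg (fun k : ι => avg H Λ k) where
  idem k := by
    have hc : (Fintype.card Λ : ℂ) ≠ 0 := by exact_mod_cast Fintype.card_ne_zero
    ext u ω
    simp only [Module.End.mul_apply, avg_apply, Function.update_idem]
    rw [Finset.sum_const, Finset.card_univ, ← Nat.cast_smul_eq_nsmul ℂ, smul_smul, smul_smul,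
      inv_mul_cancel₀ hc, one_mul]
  comm k l := by
    ext u ω
    simp only [Module.End.mul_apply, avg_apply]
    by_cases hkl : k = l
    · subst hkl; rfl
    · rw [← Finset.smul_sum, ← Finset.smul_sum, Finset.sum_comm]
      congr 2
      refine Finset.sum_congr rfl fun t _ => Finset.sum_congr rfl fun t' _ => ?_
      rw [Function.update_comm (Ne.symm hkl)]
  symm k u v := by
    rw [inner_KK, inner_KK]
    have h1 : ∀ ω : ι → Λ, ⟪avg H Λ k u ω, v ω⟫_ℂ
        = ((Fintype.card Λ : ℂ)⁻¹) * ∑ t, ⟪u (Function.update ω k t), v ω⟫_ℂ := by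
      intro ω
      rw [avg_apply, inner_smul_left, sum_inner]
      simp
    have h2 : ∀ ω : ι → Λ, ⟪u ω, avg H Λ k v ω⟫_ℂ
        = ((Fintype.card Λ : ℂ)⁻¹) * ∑ t, ⟪u ω, v (Function.update ω k t)⟫_ℂ := by
      intro ω
      rw [avg_apply, inner_smul_right, inner_sum]
    simp only [h1, h2]
    rw [← Finset.mul_sum, ← Finset.mul_sum]
    congr 1
    have h3 := sum_update (M := ℂ) k
      (fun (ω : ι → Λ) (t : Λ) => ⟪u ω, v (Function.update ω k t)⟫_ℂ)
    rw [← h3]
    refine Finset.sum_congr rfl fun ω _ => Finset.sum_congr rfl fun t _ => ?_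
    simp

theorem avg_eq_self {k : ι} {u : KK H ι Λ}
    (hu : ∀ ω t, u (Function.update ω k t) = u ω) : avg H Λ k u = u := by
  have hc : (Fintype.card Λ : ℂ) ≠ 0 := by exact_mod_cast Fintype.card_ne_zero
  ext ω
  rw [avg_apply]
  simp only [hu]
  rw [Finset.sum_const, Finset.card_univ, ← Nat.cast_smul_eq_nsmul ℂ, smul_smul,
    inv_mul_cancel₀ hc, one_smul]

theorem avg_update (k : ι) (u : KK H ι Λ) (ω : ι → Λ) (t : Λ) :
    avg H Λ k u (Function.update ω k t) = avg H Λ k u ω := by
  rw [avg_apply, avg_apply]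
  simp only [Function.update_idem]

theorem eq_of_avg_eq_self {k : ι} {u : KK H ι Λ} (hu : avg H Λ k u = u) (ω : ι → Λ) (t : Λ) :
    u (Function.update ω k t) = u ω := by
  rw [← hu, avg_update]

/-- constant operators commute with the averages -/
theorem const_comm (T : Module.End ℂ H) (k : ι) :
    mulOp (ι := ι) (Λ := Λ) (fun _ => T) * avg H Λ k
      = avg H Λ k * mulOp (ι := ι) (Λ := Λ) (fun _ => T) := by
  ext u ω
  simp only [Module.End.mul_apply, mulOp_apply, avg_apply, map_smul, map_sum]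

end Model

section Colour

variable {H : Type*} [NormedAddCommGroup H] [InnerProductSpace ℂ H] [CompleteSpace H]
variable {ι Λ : Type*} [Fintype ι] [DecidableEq ι] [Fintype Λ] [Nonempty Λ]
variable {Pt : Type*} [Fintype Pt] {Col : Type*} [Fintype Col] [DecidableEq Col]

/-- the colour projection -/
noncomputable def colP (f : Pt → H →L[ℂ] H) (c : Pt → (ι → Λ) → Option Col) (ω : ι → Λ)
    (i : Col) : H →L[ℂ] H :=
  ∑ α, if c α ω = some i then f α else 0

/-- the cell projection -/
noncomputable def cellP (f : Pt → H →L[ℂ] H) (κ : Pt → ι) (k : ι) : H →L[ℂ] H :=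
  ∑ α, if κ α = k then f α else 0

omit [CompleteSpace H] in
theorem sum_ite_apply (f : Pt → H →L[ℂ] H) (P : Pt → Prop) [DecidablePred P] (v : H) :
    (∑ α, if P α then f α else 0) v = ∑ α, if P α then f α v else 0 := by
  rw [_root_.sum_apply]
  refine Finset.sum_congr rfl fun α _ => ?_
  split_ifs <;> rfl

section Proj

variable (f : Pt → H →L[ℂ] H) (hf : ∀ α, IsStarProjection (f α))
  (ho : ∀ α β, α ≠ β → f α * f β = 0)
include hf

theorem proj_symm (α : Pt) (u v : H) : ⟪f α u, v⟫_ℂ = ⟪u, f α v⟫_ℂ := by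
  have h1 : star (f α) = f α := (hf α).isSelfAdjoint
  conv_rhs => rw [← h1, ContinuousLinearMap.star_eq_adjoint]
  rw [ContinuousLinearMap.adjoint_inner_right]

theorem proj_idem (α : Pt) (u : H) : f α (f α u) = f α u :=
  congrArg (fun T : H →L[ℂ] H => T u) (hf α).isIdempotentElem

include ho

/-- norm of a sum of orthogonal pieces -/
theorem norm_sq_pieces (P : Pt → Prop) [DecidablePred P] (v : Pt → H) :
    ‖∑ α, if P α then f α (v α) else 0‖ ^ 2 = ∑ α, if P α then ‖f α (v α)‖ ^ 2 else 0 := by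
  classical
  rw [pyth (fun α => if P α then f α (v α) else 0)]
  · refine Finset.sum_congr rfl fun α _ => ?_
    split_ifs
    · rfl
    · simp
  · intro α β hab
    split_ifs
    · rw [proj_symm f hf]
      have : f α (f β (v β)) = 0 :=
        congrArg (fun T : H →L[ℂ] H => T (v β)) (ho α β hab)
      rw [this, inner_zero_right]
    · simp
    · simp
    · simp

theorem colsum_idem (P : Pt → Prop) [DecidablePred P] (v : H) :
    (∑ α, if P α then f α else 0) ((∑ α, if P α then f α else 0) v)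
      = (∑ α, if P α then f α else 0) v := by
  classical
  rw [sum_ite_apply, sum_ite_apply]
  refine Finset.sum_congr rfl fun α _ => ?_
  split_ifs with hα
  · rw [map_sum, Finset.sum_eq_single α]
    · rw [if_pos hα, proj_idem f hf]
    · intro β _ hβ
      split_ifs
      · exact congrArg (fun T : H →L[ℂ] H => T v) (ho α β (Ne.symm hβ))
      · exact map_zero _
    · simp
  · rfl

omit ho in
theorem colsum_symm (P : Pt → Prop) [DecidablePred P] (u v : H) :
    ⟪(∑ α, if P α then f α else 0) u, v⟫_ℂ = ⟪u, (∑ α, if P α then f α else 0) v⟫_ℂ := by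
  rw [sum_ite_apply, sum_ite_apply, sum_inner, inner_sum]
  refine Finset.sum_congr rfl fun α _ => ?_
  split_ifs
  · exact proj_symm f hf α u v
  · simp

omit hf in
theorem colsum_disj (P Q : Pt → Prop) [DecidablePred P] [DecidablePred Q]
    (hPQ : ∀ α, ¬ (P α ∧ Q α)) (v : H) :
    (∑ α, if P α then f α else 0) ((∑ α, if Q α then f α else 0) v) = 0 := by
  classical
  rw [sum_ite_apply, sum_ite_apply]
  refine Finset.sum_eq_zero fun α _ => ?_
  split_ifs with hα
  · rw [map_sum]
    refine Finset.sum_eq_zero fun β _ => ?_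
    split_ifs with hβ
    · have hab : α ≠ β := by
        rintro rfl
        exact hPQ α ⟨hα, hβ⟩
      exact congrArg (fun T : H →L[ℂ] H => T v) (ho α β hab)
    · exact map_zero _
  · rfl

end Proj

/-- **Small-block theorem.** `f α` orthogonal projections with sum `1` (pattern subcells),
`κ α` the cell of `α`, `x` with all cell blocks of norm `≤ ε`; colours `c α ω` depending on at
most `d` labels and with conditional law `≤ lam ^ 2` given all labels but the own one.
Then some choice of labels makes the pinching of `x` small at the given vector. -/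
theorem exists_labels (f : Pt → H →L[ℂ] H) (hf : ∀ α, IsStarProjection (f α))
    (ho : ∀ α β, α ≠ β → f α * f β = 0) (hsum : ∑ α, f α = 1) (κ : Pt → ι)
    (x : H →L[ℂ] H) {C ε lam : ℝ} (hε : 0 ≤ ε) (hlam : 0 ≤ lam) (hC : ‖x‖ ≤ C)
    (hblock : ∀ k l, ‖cellP f κ k * x * cellP f κ l‖ ≤ ε)
    (c : Pt → (ι → Λ) → Option Col) (N : Pt → Finset ι) {d : ℕ} (hN : ∀ α, (N α).card ≤ d)
    (hloc : ∀ α ω k t, k ∉ N α → c α (Function.update ω k t) = c α ω)
    (hlaw : ∀ α ω (i : Col),
      ((Finset.univ.filter fun t => c α (Function.update ω (κ α) t) = some i).card : ℝ)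
        ≤ lam ^ 2 * Fintype.card Λ)
    (ξ : H) (m : ℕ) :
    ∃ ω : ι → Λ, ‖((∑ i, colP f c ω i * x * colP f c ω i) ^ m) ξ‖
      ≤ (2 * lam * C + ((m * d : ℕ) : ℝ) ^ 2 * ε) ^ m * ‖ξ‖ := by
  classical
  have hC0 : 0 ≤ C := (norm_nonneg _).trans hC
  set B : ℝ := 2 * lam * C + ((m * d : ℕ) : ℝ) ^ 2 * ε with hBdef
  have hB : 0 ≤ B := by positivity
  -- the case m = 0
  rcases Nat.eq_zero_or_pos m with hm | hm
  · subst hm
    exact ⟨fun _ => Classical.arbitrary Λ, by simp⟩
  let X : Module.End ℂ (KK H ι Λ) := mulOp (fun _ => (x : H →ₗ[ℂ] H))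
  let e : ι → Module.End ℂ (KK H ι Λ) := fun k => mulOp (fun _ => (cellP f κ k : H →ₗ[ℂ] H))
  let p : Col → Module.End ℂ (KK H ι Λ) := fun i =>
    mulOp (fun ω => (colP f c ω i : H →ₗ[ℂ] H))
  have hA : Avg (fun k : ι => avg H Λ k) := avg_Avg
  have hcard : (0 : ℝ) < Fintype.card Λ := by exact_mod_cast Fintype.card_pos
  -- properties of the cells
  have hes : ∀ k u v, ⟪e k u, v⟫_ℂ = ⟪u, e k v⟫_ℂ := by
    intro k u v
    rw [inner_KK, inner_KK]
    refine Finset.sum_congr rfl fun ω _ => ?_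
    exact colsum_symm f hf _ _ _
  have hee : ∀ k u, e k (e k u) = e k u := by
    intro k u
    ext ω
    exact colsum_idem f hf ho _ _
  have heo : ∀ k l, k ≠ l → ∀ u, e k (e l u) = 0 := by
    intro k l hkl u
    ext ω
    refine colsum_disj f ho _ _ ?_ _
    rintro α ⟨h1, h2⟩
    exact hkl (h1.symm.trans h2)
  have hcellsum : ∀ v : H, ∑ k, cellP f κ k v = v := by
    intro v
    have h1 : ∀ k, cellP f κ k v = ∑ α, if κ α = k then f α v else 0 := fun k =>
      sum_ite_apply f _ v
    simp only [h1]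
    rw [Finset.sum_comm]
    simp only [Finset.sum_ite_eq, Finset.mem_univ, if_true]
    have := congrArg (fun T : H →L[ℂ] H => T v) hsum
    simpa [_root_.sum_apply] using this
  have hesum : ∑ k, e k = 1 := by
    ext u ω
    rw [LinearMap.sum_apply]
    simp only [Module.End.one_apply]
    have h1 : (∑ k, e k u) ω = ∑ k, (e k u) ω := by
      simp [WithLp.ofLp_sum, Finset.sum_apply]
    rw [h1]
    exact hcellsum (u ω)
  have heE : ∀ k l, e k * avg H Λ l = avg H Λ l * e k := fun k l => const_comm _ l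
  have hXE : ∀ l, X * avg H Λ l = avg H Λ l * X := fun l => const_comm _ l
  have hXb : ∀ k l u, ‖e k (X (e l u))‖ ≤ ε * ‖u‖ := by
    intro k l u
    have h1 : ‖e k (X (e l u))‖ ^ 2 ≤ (ε * ‖u‖) ^ 2 := by
      rw [norm_sq_KK, mul_pow, norm_sq_KK, Finset.mul_sum]
      refine Finset.sum_le_sum fun ω _ => ?_
      rw [← mul_pow]
      refine pow_le_pow_left₀ (norm_nonneg _) ?_ 2
      refine ((cellP f κ k * x * cellP f κ l).le_opNorm (u ω)).trans ?_
      exact mul_le_mul_of_nonneg_right (hblock k l) (norm_nonneg _)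
    exact (pow_le_pow_iff_left₀ (norm_nonneg _) (by positivity) two_ne_zero).1 h1
  have hXC : ∀ u, ‖X u‖ ≤ C * ‖u‖ := by
    intro u
    have h1 : ‖X u‖ ^ 2 ≤ (C * ‖u‖) ^ 2 := by
      rw [norm_sq_KK, mul_pow, norm_sq_KK, Finset.mul_sum]
      refine Finset.sum_le_sum fun ω _ => ?_
      rw [← mul_pow]
      refine pow_le_pow_left₀ (norm_nonneg _) ?_ 2
      exact (x.le_opNorm (u ω)).trans (mul_le_mul_of_nonneg_right hC (norm_nonneg _))
    exact (pow_le_pow_iff_left₀ (norm_nonneg _) (by positivity) two_ne_zero).1 h1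
  -- properties of the colour projections
  have hps : ∀ i u v, ⟪p i u, v⟫_ℂ = ⟪u, p i v⟫_ℂ := by
    intro i u v
    rw [inner_KK, inner_KK]
    refine Finset.sum_congr rfl fun ω _ => ?_
    exact colsum_symm f hf _ _ _
  have hpi : ∀ i u, p i (p i u) = p i u := by
    intro i u
    ext ω
    exact colsum_idem f hf ho _ _
  have hQ1 : ∀ i u, ‖p i (∑ k, e k (avg H Λ k u))‖ ≤ lam * ‖u‖ := by
    intro i u
    -- the vector `w`
    have hw : ∀ ω, (∑ k, e k (avg H Λ k u)) ω = ∑ α, f α (avg H Λ (κ α) u ω) := by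
      intro ω
      have h1 : (∑ k, e k (avg H Λ k u)) ω = ∑ k, cellP f κ k (avg H Λ k u ω) := by
        simp [WithLp.ofLp_sum, Finset.sum_apply]
        rfl
      rw [h1]
      have h2 : ∀ k, cellP f κ k (avg H Λ k u ω)
          = ∑ α, if κ α = k then f α (avg H Λ k u ω) else 0 := fun k => sum_ite_apply f _ _
      simp only [h2]
      rw [Finset.sum_comm]
      simp only [Finset.sum_ite_eq, Finset.mem_univ, if_true]
    have hpw : ∀ ω, (p i (∑ k, e k (avg H Λ k u))) ω
        = ∑ α, if c α ω = some i then f α (avg H Λ (κ α) u ω) else 0 := by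
      intro ω
      have h1 : (p i (∑ k, e k (avg H Λ k u))) ω
          = colP f c ω i ((∑ k, e k (avg H Λ k u)) ω) := rfl
      rw [h1, hw, colP, sum_ite_apply]
      refine Finset.sum_congr rfl fun α _ => ?_
      split_ifs
      · rw [map_sum, Finset.sum_eq_single α]
        · exact proj_idem f hf α _
        · intro β _ hβ
          exact congrArg (fun T : H →L[ℂ] H => T (avg H Λ (κ β) u ω)) (ho α β (Ne.symm hβ))
        · simp
      · rfl
    -- norm of `w`
    have hwn : ∑ α, ∑ ω : ι → Λ, ‖f α (avg H Λ (κ α) u ω)‖ ^ 2 ≤ ‖u‖ ^ 2 := by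
      have h1 : ‖∑ k, e k (avg H Λ k u)‖ ^ 2
          = ∑ α, ∑ ω : ι → Λ, ‖f α (avg H Λ (κ α) u ω)‖ ^ 2 := by
        rw [norm_sq_KK, Finset.sum_comm]
        refine Finset.sum_congr rfl fun ω _ => ?_
        rw [hw]
        have := norm_sq_pieces f hf ho (fun _ => True) (fun α => avg H Λ (κ α) u ω)
        simpa using this
      rw [← h1]
      refine pow_le_pow_left₀ (norm_nonneg _) ?_ 2
      -- `∑ e k E k` is a symmetric idempotent
      have hcomm : ∀ k l u, e k (avg H Λ l u) = avg H Λ l (e k u) := fun k l u =>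
        LinearMap.congr_fun (heE k l) u
      set Q : Module.End ℂ (KK H ι Λ) := ∑ k, e k * avg H Λ k with hQdef
      have hQa : ∀ u, Q u = ∑ k, e k (avg H Λ k u) := fun u => by
        rw [hQdef, LinearMap.sum_apply]
        rfl
      have hQs : ∀ u v, ⟪Q u, v⟫_ℂ = ⟪u, Q v⟫_ℂ := by
        intro u v
        rw [hQa, hQa, sum_inner, inner_sum]
        refine Finset.sum_congr rfl fun k _ => ?_
        rw [hes, hA.symm, ← hcomm]
      have hQi : ∀ u, Q (Q u) = Q u := by
        intro u
        conv_lhs => rw [hQa, hQa]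
        rw [hQa]
        refine Finset.sum_congr rfl fun k _ => ?_
        rw [map_sum, map_sum, Finset.sum_eq_single k]
        · have := LinearMap.congr_fun (hA.idem k) u
          simp only [Module.End.mul_apply] at this
          rw [← hcomm k k, hee, this]
        · intro l _ hl
          rw [← hcomm, heo k l (Ne.symm hl)]
        · simp
      have := norm_le_of_symm_idem hQs hQi u
      rwa [hQa] at this
    -- resampling
    have hres : ∀ α, ∑ ω : ι → Λ, (if c α ω = some i then ‖f α (avg H Λ (κ α) u ω)‖ ^ 2 else 0)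
        ≤ lam ^ 2 * ∑ ω : ι → Λ, ‖f α (avg H Λ (κ α) u ω)‖ ^ 2 := by
      intro α
      set G : (ι → Λ) → ℝ := fun ω =>
        if c α ω = some i then ‖f α (avg H Λ (κ α) u ω)‖ ^ 2 else 0 with hG
      have h1 : ∑ ω : ι → Λ, ∑ t, G (Function.update ω (κ α) t)
          = Fintype.card Λ * ∑ ω, G ω := by
        have := sum_update (M := ℝ) (κ α) (fun (ω : ι → Λ) (_ : Λ) => G ω)
        rw [this]
        simp only [Finset.sum_const, Finset.card_univ, nsmul_eq_mul]
        rw [← Finset.mul_sum]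
      have h2 : ∑ ω : ι → Λ, ∑ t, G (Function.update ω (κ α) t)
          ≤ ∑ ω : ι → Λ, (lam ^ 2 * Fintype.card Λ) * ‖f α (avg H Λ (κ α) u ω)‖ ^ 2 := by
        refine Finset.sum_le_sum fun ω _ => ?_
        have h3 : ∑ t, G (Function.update ω (κ α) t)
            = ((Finset.univ.filter fun t => c α (Function.update ω (κ α) t) = some i).card : ℝ)
              * ‖f α (avg H Λ (κ α) u ω)‖ ^ 2 := by
          simp only [hG, avg_update]
          rw [← Finset.sum_filter, Finset.sum_const, nsmul_eq_mul]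
        rw [h3]
        exact mul_le_mul_of_nonneg_right (hlaw α ω i) (sq_nonneg _)
      rw [h1, ← Finset.mul_sum] at h2
      have h4 : (Fintype.card Λ : ℝ) * ∑ ω, G ω
          ≤ Fintype.card Λ * (lam ^ 2 * ∑ ω : ι → Λ, ‖f α (avg H Λ (κ α) u ω)‖ ^ 2) := by
        calc (Fintype.card Λ : ℝ) * ∑ ω, G ω
            ≤ (lam ^ 2 * Fintype.card Λ) * ∑ ω : ι → Λ, ‖f α (avg H Λ (κ α) u ω)‖ ^ 2 := h2
          _ = _ := by ring
      exact le_of_mul_le_mul_left h4 hcard
    have h1 : ‖p i (∑ k, e k (avg H Λ k u))‖ ^ 2 ≤ (lam * ‖u‖) ^ 2 := by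
      rw [norm_sq_KK]
      calc ∑ ω, ‖(p i (∑ k, e k (avg H Λ k u))) ω‖ ^ 2
          = ∑ ω : ι → Λ, ∑ α,
              (if c α ω = some i then ‖f α (avg H Λ (κ α) u ω)‖ ^ 2 else 0) := by
            refine Finset.sum_congr rfl fun ω _ => ?_
            rw [hpw]
            exact norm_sq_pieces f hf ho (fun α => c α ω = some i)
              (fun α => avg H Λ (κ α) u ω)
        _ = ∑ α, ∑ ω : ι → Λ,
              (if c α ω = some i then ‖f α (avg H Λ (κ α) u ω)‖ ^ 2 else 0) :=
            Finset.sum_comm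
        _ ≤ ∑ α, lam ^ 2 * ∑ ω : ι → Λ, ‖f α (avg H Λ (κ α) u ω)‖ ^ 2 :=
            Finset.sum_le_sum fun α _ => hres α
        _ = lam ^ 2 * ∑ α, ∑ ω : ι → Λ, ‖f α (avg H Λ (κ α) u ω)‖ ^ 2 := by
            rw [Finset.mul_sum]
        _ ≤ lam ^ 2 * ‖u‖ ^ 2 := mul_le_mul_of_nonneg_left hwn (sq_nonneg _)
        _ = (lam * ‖u‖) ^ 2 := by ring
    exact (pow_le_pow_iff_left₀ (norm_nonneg _) (by positivity) two_ne_zero).1 h1
  have hpd : ∀ i s, ∀ u ∈ Deg hA s, p i u ∈ Deg hA (s + d) := by
    intro i s u hu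
    rw [← sum_anova_apply hA u, map_sum]
    refine Submodule.sum_mem _ fun S _ => ?_
    by_cases hS : s < S.card
    · rw [hu S hS, map_zero]
      exact Submodule.zero_mem _
    · have hS' : S.card ≤ s := not_lt.1 hS
      set v : KK H ι Λ := anova hA S u with hv
      have hvl : ∀ k, k ∉ S → ∀ ω t, v (Function.update ω k t) = v ω := fun k hk =>
        eq_of_avg_eq_self (E_anova_notMem hA hk u)
      have hdec : p i v = ∑ α, (WithLp.toLp 2 fun ω : ι → Λ =>
          if c α ω = some i then f α (v ω) else 0 : KK H ι Λ) := by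
        ext ω
        have h1 : (p i v) ω = colP f c ω i (v ω) := rfl
        rw [h1, colP, sum_ite_apply]
        simp [WithLp.ofLp_sum, Finset.sum_apply]
      rw [hdec]
      refine Submodule.sum_mem _ fun α _ => ?_
      refine mem_Deg_of_local hA (T := S ∪ N α) ?_ ?_
      · intro k hk
        rw [Finset.mem_union, not_or] at hk
        refine avg_eq_self fun ω t => ?_
        change (if c α (Function.update ω k t) = some i then f α (v (Function.update ω k t)) else 0)
          = if c α ω = some i then f α (v ω) else 0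
        rw [hloc α ω k t hk.2, hvl k hk.1]
      · exact (Finset.card_union_le _ _).trans (add_le_add hS' (hN α))
  -- the constant vector
  let cst : KK H ι Λ := WithLp.toLp 2 fun _ => ξ
  have hcst : cst ∈ Deg hA 0 := by
    refine mem_Deg_of_local hA (T := ∅) ?_ (by simp)
    intro k _
    exact avg_eq_self fun ω t => rfl
  have hmain : ∀ i, ‖((p i * X) ^ m) (p i cst)‖ ≤ B ^ m * ‖p i cst‖ := fun i =>
    iterate hA e X (p i) hε hC0 hlam hes hee heo hesum heE hXE hXb hXC (hps i) (hpi i) (hQ1 i)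
      (hpd i) hcst m
  -- pointwise description
  have hpt : ∀ (i : Col) (n : ℕ) (ω : ι → Λ), (((p i * X) ^ n) (p i cst)) ω
      = ((colP f c ω i * x) ^ n) (colP f c ω i ξ) := by
    intro i n
    induction n with
    | zero => intro ω; rfl
    | succ n ih =>
      intro ω
      rw [pow_succ', pow_succ']
      change colP f c ω i (x ((((p i * X) ^ n) (p i cst)) ω)) = _
      rw [ih]
      rfl
  have hdisj : ∀ (ω : ι → Λ) (i j : Col), i ≠ j → ∀ v,
      colP f c ω i (colP f c ω j v) = 0 := by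
    intro ω i j hij v
    refine colsum_disj f ho _ _ ?_ v
    rintro α ⟨h1, h2⟩
    rw [h1] at h2
    exact hij (Option.some_injective _ h2)
  have hidem : ∀ (ω : ι → Λ) (i : Col) v, colP f c ω i (colP f c ω i v) = colP f c ω i v :=
    fun ω i v => colsum_idem f hf ho _ v
  have hfix : ∀ (ω : ι → Λ) (i : Col) (n : ℕ) (v : H),
      colP f c ω i (((colP f c ω i * x) ^ n) (colP f c ω i v))
        = ((colP f c ω i * x) ^ n) (colP f c ω i v) := by
    intro ω i n v
    cases n with
    | zero => exact hidem ω i v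
    | succ n =>
      rw [pow_succ']
      exact hidem ω i _
  have hTpow : ∀ (ω : ι → Λ) (n : ℕ) (v : H),
      ((∑ i, colP f c ω i * x * colP f c ω i) ^ n) (∑ i, colP f c ω i v)
        = ∑ i, ((colP f c ω i * x) ^ n) (colP f c ω i v) := by
    intro ω n v
    induction n with
    | zero => simp
    | succ n ih =>
      rw [pow_succ']
      change (∑ i, colP f c ω i * x * colP f c ω i)
        (((∑ i, colP f c ω i * x * colP f c ω i) ^ n) (∑ i, colP f c ω i v)) = _
      rw [ih, _root_.sum_apply]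
      refine Finset.sum_congr rfl fun i _ => ?_
      rw [pow_succ']
      change colP f c ω i (x (colP f c ω i
          (∑ j, ((colP f c ω j * x) ^ n) (colP f c ω j v))))
        = colP f c ω i (x (((colP f c ω i * x) ^ n) (colP f c ω i v)))
      have h1 : colP f c ω i (∑ j, ((colP f c ω j * x) ^ n) (colP f c ω j v))
          = ((colP f c ω i * x) ^ n) (colP f c ω i v) := by
        rw [map_sum, Finset.sum_eq_single i]
        · exact hfix ω i n v
        · intro j _ hj
          rw [← hfix ω j n v]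
          exact hdisj ω i j (Ne.symm hj) _
        · simp
      rw [h1]
  have hT : ∀ (ω : ι → Λ) (v : H), (∑ i, colP f c ω i * x * colP f c ω i) v
      = (∑ i, colP f c ω i * x * colP f c ω i) (∑ i, colP f c ω i v) := by
    intro ω v
    rw [_root_.sum_apply, _root_.sum_apply]
    refine Finset.sum_congr rfl fun i _ => ?_
    change colP f c ω i (x (colP f c ω i v))
      = colP f c ω i (x (colP f c ω i (∑ j, colP f c ω j v)))
    have h1 : colP f c ω i (∑ j, colP f c ω j v) = colP f c ω i v := by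
      rw [map_sum, Finset.sum_eq_single i]
      · exact hidem ω i v
      · intro j _ hj
        exact hdisj ω i j (Ne.symm hj) _
      · simp
    rw [h1]
  have hTm : ∀ ω : ι → Λ, ((∑ i, colP f c ω i * x * colP f c ω i) ^ m) ξ
      = ∑ i, ((colP f c ω i * x) ^ m) (colP f c ω i ξ) := by
    intro ω
    obtain ⟨n, rfl⟩ : ∃ n, m = n + 1 := ⟨m - 1, by omega⟩
    rw [← hTpow ω (n + 1) ξ, pow_succ]
    change ((∑ i, colP f c ω i * x * colP f c ω i) ^ n)
        ((∑ i, colP f c ω i * x * colP f c ω i) ξ)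
      = ((∑ i, colP f c ω i * x * colP f c ω i) ^ n)
        ((∑ i, colP f c ω i * x * colP f c ω i) (∑ i, colP f c ω i ξ))
    rw [← hT]
  have hnorm : ∀ ω : ι → Λ, ‖((∑ i, colP f c ω i * x * colP f c ω i) ^ m) ξ‖ ^ 2
      = ∑ i, ‖((colP f c ω i * x) ^ m) (colP f c ω i ξ)‖ ^ 2 := by
    intro ω
    rw [hTm]
    refine pyth _ fun i j hij => ?_
    rw [← hfix ω i m ξ, ← hfix ω j m ξ]
    have h1 : ∀ u v : H, ⟪colP f c ω i u, v⟫_ℂ = ⟪u, colP f c ω i v⟫_ℂ := fun u v =>
      colsum_symm f hf _ u v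
    rw [h1, hdisj ω i j hij, inner_zero_right]
  have hPn : ∀ ω : ι → Λ, ∑ i, ‖colP f c ω i ξ‖ ^ 2 ≤ ‖ξ‖ ^ 2 := by
    intro ω
    have h1 : ‖∑ i, colP f c ω i ξ‖ ^ 2 = ∑ i, ‖colP f c ω i ξ‖ ^ 2 := by
      refine pyth _ fun i j hij => ?_
      have h1 : ∀ u v : H, ⟪colP f c ω i u, v⟫_ℂ = ⟪u, colP f c ω i v⟫_ℂ := fun u v =>
        colsum_symm f hf _ u v
      rw [h1, hdisj ω i j hij, inner_zero_right]
    have hS : ∀ v : H, ∑ i, colP f c ω i v = ∑ α, if (c α ω).isSome then f α v else 0 := by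
      intro v
      have h2 : ∀ i, colP f c ω i v = ∑ α, if c α ω = some i then f α v else 0 := fun i =>
        sum_ite_apply f _ v
      simp only [h2]
      rw [Finset.sum_comm]
      refine Finset.sum_congr rfl fun α _ => ?_
      cases hc : c α ω with
      | none => simp
      | some a => simp
    rw [← h1, hS]
    have h3 := norm_sq_pieces f hf ho (fun α => ((c α ω).isSome : Prop)) (fun _ => ξ)
    rw [h3]
    have h4 := norm_sq_pieces f hf ho (fun _ => True) (fun _ => ξ)
    have h5 : ∑ α, f α ξ = ξ := by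
      have := congrArg (fun T : H →L[ℂ] H => T ξ) hsum
      simpa [_root_.sum_apply] using this
    simp only [if_true] at h4
    rw [h5] at h4
    rw [h4]
    refine Finset.sum_le_sum fun α _ => ?_
    split_ifs
    · exact le_rfl
    · positivity
  have htotal : ∑ ω : ι → Λ, ‖((∑ i, colP f c ω i * x * colP f c ω i) ^ m) ξ‖ ^ 2
      ≤ ∑ ω : ι → Λ, (B ^ m * ‖ξ‖) ^ 2 := by
    calc ∑ ω : ι → Λ, ‖((∑ i, colP f c ω i * x * colP f c ω i) ^ m) ξ‖ ^ 2
        = ∑ ω : ι → Λ, ∑ i, ‖((colP f c ω i * x) ^ m) (colP f c ω i ξ)‖ ^ 2 :=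
          Finset.sum_congr rfl fun ω _ => hnorm ω
      _ = ∑ i, ∑ ω : ι → Λ, ‖((colP f c ω i * x) ^ m) (colP f c ω i ξ)‖ ^ 2 := Finset.sum_comm
      _ = ∑ i, ‖((p i * X) ^ m) (p i cst)‖ ^ 2 := by
          refine Finset.sum_congr rfl fun i _ => ?_
          rw [norm_sq_KK]
          exact Finset.sum_congr rfl fun ω _ => by rw [hpt]
      _ ≤ ∑ i, (B ^ m * ‖p i cst‖) ^ 2 :=
          Finset.sum_le_sum fun i _ => pow_le_pow_left₀ (norm_nonneg _) (hmain i) 2
      _ = (B ^ m) ^ 2 * ∑ i, ‖p i cst‖ ^ 2 := by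
          rw [Finset.mul_sum]
          exact Finset.sum_congr rfl fun i _ => by ring
      _ = (B ^ m) ^ 2 * ∑ ω : ι → Λ, ∑ i, ‖colP f c ω i ξ‖ ^ 2 := by
          congr 1
          rw [Finset.sum_comm]
          refine Finset.sum_congr rfl fun i _ => ?_
          rw [norm_sq_KK]
          rfl
      _ ≤ (B ^ m) ^ 2 * ∑ ω : ι → Λ, ‖ξ‖ ^ 2 :=
          mul_le_mul_of_nonneg_left (Finset.sum_le_sum fun ω _ => hPn ω) (sq_nonneg _)
      _ = ∑ ω : ι → Λ, (B ^ m * ‖ξ‖) ^ 2 := by
          rw [Finset.mul_sum]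
          exact Finset.sum_congr rfl fun ω _ => by ring
  obtain ⟨ω, -, hω⟩ := Finset.exists_le_of_sum_le (Finset.univ_nonempty) htotal
  refine ⟨ω, ?_⟩
  exact (pow_le_pow_iff_left₀ (norm_nonneg _) (by positivity) two_ne_zero).1 hω

end Colour

end Crest.Agent.R109.SB
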