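import Crest.Agent.R109.AnnFlip
import Crest.Agent.R109.FinStart4

/-!
# Start increment (row 109, module p4)

Root location of the uniform annealed polynomial with arbitrary small weights
(`a v ≤ 1/(2 b₀)`, `b₀ = 2√2/√r`): `RP x γ` has no real zero in `(-2,2)`; hence one vertex
increases the start potential by at most `2 · 4^(-k)`.
-/

set_option autoImplicit false

namespace Crest.Agent.R109.StartInc

open Matrix Finset Polynomial Crest.Agent.R109 Crest.Agent.R109.Ann Crest.Agent.R109.Lk
open scoped ComplexOrder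

variable {V : Type*} [Fintype V] [DecidableEq V]

/-- the value of the annealed polynomial at a real point, positive weights -/
theorem ann_unif {r : ℕ} (hr : 0 < r) (x : V → V → ℂ) (a : V → ℝ) (y : ℝ)
    (hay : ∀ v, a v * y ≠ 0) :
    ann x (fun v (_ : Fin r) => (a v / r : ℂ) * y)
      = (1 / (r : ℂ)) ^ (Fintype.card V) * (∏ v, ((a v * y : ℝ) : ℂ)) *
        ∑ c : V → Fin r, (Matrix.diagonal (fun v => (((a v * y)⁻¹ : ℝ) : ℂ)) - tot x c).det := by
  have hr' : (r : ℂ) ≠ 0 := by exact_mod_cast hr.ne'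
  have h1 := ann_mix x (fun (_ : V) (_ : Fin r) => (1 / (r : ℂ)))
    (by intro v; simp [hr']) (fun v => ((a v * y : ℝ) : ℂ))
  have h2 : (fun v (_ : Fin r) => (a v / r : ℂ) * y)
      = (fun v (_ : Fin r) => (1 / (r : ℂ)) * ((a v * y : ℝ) : ℂ)) := by
    funext v i; push_cast; ring
  rw [h2, h1, Finset.mul_sum]
  refine Finset.sum_congr rfl fun c _ => ?_
  rw [Finset.prod_const, Finset.card_univ, mul_assoc]
  congr 1
  rw [← Matrix.det_diagonal, ← Matrix.det_mul]
  congr 1
  ext u w
  rw [Matrix.diagonal_mul, Matrix.sub_apply, Matrix.sub_apply, Matrix.diagonal_mul]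
  by_cases h : u = w
  · subst h
    have : (((a u * y : ℝ) : ℂ)) * (((a u * y)⁻¹ : ℝ) : ℂ) = 1 := by
      rw [← Complex.ofReal_mul, mul_inv_cancel₀ (hay u), Complex.ofReal_one]
    simp only [Matrix.one_apply_eq, Matrix.diagonal_apply_eq, mul_sub, this]
  · simp [Matrix.one_apply_ne h, Matrix.diagonal_apply_ne _ h]

/-- the uniform polynomial has no real zero in `(-2,2)` when all weights are `≤ 1/(2 b₀)` -/
theorem RP_unif_ne_zero {r : ℕ} (hr : 2 < r) {x : V → V → ℂ} (hx : Herm x)
    (h1 : (1 - (Matrix.of x : Matrix V V ℂ)).PosSemidef)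
    (h2 : (1 + (Matrix.of x : Matrix V V ℂ)).PosSemidef) (h0 : ∀ v, x v v = 0)
    (a : V → ℝ) (ha : ∀ v, 0 < a v) (hb : ∀ v, a v * (2 * (2 * Real.sqrt 2 / Real.sqrt r)) ≤ 1)
    (y : ℝ) (hy : |y| < 2) :
    (RP x (fun v (_ : Fin r) => a v / r)).eval y ≠ 0 := by
  have hr0 : 0 < r := by omega
  have hb0 : 0 < 2 * Real.sqrt 2 / Real.sqrt r := by positivity
  by_cases hy0 : y = 0
  · subst hy0
    rw [← Polynomial.coeff_zero_eq_eval_zero, RP_coeff_zero hx]
    exact one_ne_zero
  have hay : ∀ v, a v * y ≠ 0 := fun v => mul_ne_zero (ha v).ne' hy0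
  have hZ : ∀ v, 2 * Real.sqrt 2 / Real.sqrt r ≤ (a v * |y|)⁻¹ := by
    intro v
    have hp : 0 < a v * |y| := mul_pos (ha v) (abs_pos.mpr hy0)
    rw [le_inv_comm₀ hb0 hp]
    have h3 : a v * |y| ≤ a v * 2 := mul_le_mul_of_nonneg_left hy.le (ha v).le
    refine h3.trans ?_
    rw [← one_div, le_div_iff₀ hb0]
    have := hb v
    nlinarith
  have hev : (((RP x (fun v (_ : Fin r) => a v / r)).eval y : ℝ) : ℂ)
      = ann x (fun v (_ : Fin r) => (a v / r : ℂ) * y) := by
    have := eval_RP hx (fun v (_ : Fin r) => a v / r) (y : ℂ)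
    rw [Start.map_eval_ofReal] at this
    rw [this]
    congr 1
    funext v i
    push_cast; ring
  intro h
  rw [h, Complex.ofReal_zero, ann_unif hr0 x a y hay] at hev
  have hr' : (1 / (r : ℂ)) ^ (Fintype.card V) ≠ 0 := by
    apply pow_ne_zero
    apply one_div_ne_zero
    exact_mod_cast hr0.ne'
  have hpr : (∏ v, ((a v * y : ℝ) : ℂ)) ≠ 0 :=
    Finset.prod_ne_zero_iff.mpr fun v _ => by exact_mod_cast hay v
  have hsum : (∑ c : V → Fin r,
      (Matrix.diagonal (fun v => (((a v * y)⁻¹ : ℝ) : ℂ)) - tot x c).det) = 0 := by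
    have := hev.symm
    rcases mul_eq_zero.mp this with h' | h'
    · rcases mul_eq_zero.mp h' with h'' | h''
      · exact absurd h'' hr'
      · exact absurd h'' hpr
    · exact h'
  rcases lt_or_gt_of_ne hy0 with hneg | hpos
  · -- negative
    have hs := Start.start_bound_neg hr (Matrix.of x) h1 h2 h0 (fun v => (a v * |y|)⁻¹) hZ
    have he : ∀ c : V → Fin r,
        (Matrix.diagonal (fun v => (((a v * y)⁻¹ : ℝ) : ℂ)) - tot x c).det
        = (-1) ^ (Fintype.card V) * (Matrix.diagonal (fun v => (((a v * |y|)⁻¹ : ℝ) : ℂ)) +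
          Matrix.of fun v w => if c v = c w then (Matrix.of x : Matrix V V ℂ) v w else 0).det := by
      intro c
      rw [← Matrix.det_neg]
      congr 1
      ext u w
      rw [abs_of_neg hneg]
      by_cases h : u = w
      · subst h
        simp [tot, h0]
      · simp [tot, Matrix.diagonal_apply_ne _ h]
    simp only [he, ← Finset.mul_sum] at hsum
    rcases mul_eq_zero.mp hsum with h' | h'
    · exact absurd h' (pow_ne_zero _ (by norm_num))
    · rw [h'] at hs
      exact lt_irrefl _ hs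
  · have hs := Start.start_bound_single hr (Matrix.of x) h1 h2 h0 (fun v => (a v * |y|)⁻¹) hZ
    rw [abs_of_pos hpos] at hs
    have he : ∀ c : V → Fin r,
        (Matrix.diagonal (fun v => (((a v * y)⁻¹ : ℝ) : ℂ)) - tot x c).det
        = (Matrix.diagonal (fun v => (((a v * y)⁻¹ : ℝ) : ℂ)) -
          Matrix.of fun v w => if c v = c w then (Matrix.of x : Matrix V V ℂ) v w else 0).det :=
      fun c => rfl
    simp only [he] at hsum
    rw [hsum] at hs
    exact lt_irrefl _ hs

/-- **start increment** (module p4): one undecided vertex more increases the start potential by at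
most `2 · 4^(-k)` when all weights are `≤ 1/(2 b₀)` (i.e. all directions are `≥ 2 b₀`). -/
theorem start_increment {r : ℕ} (hr : 2 < r) {x : V → V → ℂ} (hx : Herm x)
    (h1 : (1 - (Matrix.of x : Matrix V V ℂ)).PosSemidef)
    (h2 : (1 + (Matrix.of x : Matrix V V ℂ)).PosSemidef) (h0 : ∀ v, x v v = 0)
    (a : V → ℝ) (ha : ∀ v, 0 < a v) (hb : ∀ v, a v * (2 * (2 * Real.sqrt 2 / Real.sqrt r)) ≤ 1)
    (v : V) (k : ℕ) (hk : 1 ≤ k) :
    P2 k x (fun w (_ : Fin r) => a w / r)
      - P2 k x (Function.update (fun w (_ : Fin r) => a w / r) v 0) ≤ 2 * (1 / 4 : ℝ) ^ k := by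
  have : Nonempty (Fin r) := ⟨⟨0, by omega⟩⟩
  have hnn : ∀ (w : V) (_ : Fin r), 0 ≤ a w / r := fun w _ => div_nonneg (ha w).le (Nat.cast_nonneg r)
  have h := P2_start hx h0 (fun w (_ : Fin r) => a w / r) hnn v k hk (fun _ => a v / r)
    (fun i => hnn v i) (1 / 2) (by norm_num) (by
      intro y hy
      have e : Function.update (fun w (_ : Fin r) => a w / r) v (fun _ => a v / r)
          = fun w (_ : Fin r) => a w / r := Function.update_eq_self v _
      rw [e]
      exact RP_unif_ne_zero hr hx h1 h2 h0 a ha hb y (by linarith))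
  have e : Function.update (fun w (_ : Fin r) => a w / r) v (fun _ => a v / r)
      = fun w (_ : Fin r) => a w / r := Function.update_eq_self v _
  rw [e] at h
  have e2 : (1 / 2 : ℝ) ^ (2 * k) = (1 / 4) ^ k := by
    rw [pow_mul]; norm_num
  rwa [e2] at h

end Crest.Agent.R109.StartInc
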