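import Crest.Agent.R109.L0Psi

/-!
# Row 109, part without normal expectation: weak limits of pinchings
-/

set_option autoImplicit false
set_option linter.unusedSectionVars false
set_option linter.style.haveILetI false

namespace Crest.Agent.R109

open scoped InnerProductSpace ComplexOrder
open ContinuousLinearMap Crest.Agent.R124 Crest.Agent.R121 Filter Topology

universe u

section Wlim

variable {H : Type u} [NormedAddCommGroup H] [InnerProductSpace ℂ H] [CompleteSpace H]

/-- weak limits of bounded families along an ultrafilter -/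
theorem exists_wlim {ι : Type*} (U : Ultrafilter ι) (T : ι → H →L[ℂ] H) {C : ℝ} (hC : 0 ≤ C)
    (hT : ∀ i, ‖T i‖ ≤ C) : ∃ E : H →L[ℂ] H, ‖E‖ ≤ C ∧
      ∀ v w : H, Tendsto (fun i => ⟪T i v, w⟫_ℂ) U (𝓝 ⟪E v, w⟫_ℂ) := by
  have hex : ∀ v w : H, ∃ c : ℂ, Tendsto (fun i => ⟪T i v, w⟫_ℂ) U (𝓝 c) := by
    intro v w
    have hc : IsCompact (Metric.closedBall (0 : ℂ) ((C * ‖v‖) * ‖w‖)) := isCompact_closedBall _ _
    obtain ⟨c, -, hc⟩ := hc.ultrafilter_le_nhds (U.map (fun i => ⟪T i v, w⟫_ℂ)) (by
      rw [le_principal_iff, Ultrafilter.coe_map, mem_map]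
      refine Filter.univ_mem' (fun i => ?_)
      simp only [Set.mem_preimage, Metric.mem_closedBall, dist_zero_right]
      refine (norm_inner_le_norm _ _).trans ?_
      gcongr
      exact (le_opNorm _ _).trans (by gcongr; exact hT i))
    exact ⟨c, hc⟩
  choose B hB using hex
  have hadd1 : ∀ v v' w, B (v + v') w = B v w + B v' w := by
    intro v v' w
    refine tendsto_nhds_unique (hB (v + v') w) ?_
    simpa only [map_add, inner_add_left] using (hB v w).add (hB v' w)
  have hadd2 : ∀ v w w', B v (w + w') = B v w + B v w' := by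
    intro v w w'
    refine tendsto_nhds_unique (hB v (w + w')) ?_
    simpa only [inner_add_right] using (hB v w).add (hB v w')
  have hsm1 : ∀ (c : ℂ) v w, B (c • v) w = (starRingEnd ℂ) c • B v w := by
    intro c v w
    refine tendsto_nhds_unique (hB (c • v) w) ?_
    simpa only [map_smul, inner_smul_left, smul_eq_mul] using (hB v w).const_mul ((starRingEnd ℂ) c)
  have hsm2 : ∀ (c : ℂ) v w, B v (c • w) = c • B v w := by
    intro c v w
    refine tendsto_nhds_unique (hB v (c • w)) ?_
    simpa only [inner_smul_right, smul_eq_mul] using (hB v w).const_mul c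
  have hbd : ∀ v w, ‖B v w‖ ≤ C * ‖v‖ * ‖w‖ := by
    intro v w
    refine le_of_tendsto (hB v w).norm (Eventually.of_forall fun i => ?_)
    refine (norm_inner_le_norm _ _).trans ?_
    gcongr
    exact (le_opNorm _ _).trans (by gcongr; exact hT i)
  let L : H →ₗ⋆[ℂ] H →ₗ[ℂ] ℂ := LinearMap.mk₂'ₛₗ (starRingEnd ℂ) (RingHom.id ℂ) B hadd1
    (fun c v w => hsm1 c v w) (fun v w w' => hadd2 v w w') (fun c v w => hsm2 c v w)
  let Lc : H →L⋆[ℂ] H →L[ℂ] ℂ := L.mkContinuous₂ C (fun v w => hbd v w)
  have happ : ∀ v w, ⟪InnerProductSpace.continuousLinearMapOfBilin Lc v, w⟫_ℂ = B v w := by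
    intro v w
    rw [InnerProductSpace.continuousLinearMapOfBilin_apply]
    rfl
  refine ⟨InnerProductSpace.continuousLinearMapOfBilin Lc, ?_, ?_⟩
  · refine ContinuousLinearMap.opNorm_le_bound _ hC fun v => ?_
    by_cases h0 : InnerProductSpace.continuousLinearMapOfBilin Lc v = 0
    · rw [h0, norm_zero]; positivity
    · have h1 := hbd v (InnerProductSpace.continuousLinearMapOfBilin Lc v)
      rw [← happ, inner_self_eq_norm_sq_to_K] at h1
      have h2 : ‖((‖InnerProductSpace.continuousLinearMapOfBilin Lc v‖ : ℂ)) ^ 2‖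
          = ‖InnerProductSpace.continuousLinearMapOfBilin Lc v‖ ^ 2 := by
        rw [norm_pow, Complex.norm_real, norm_norm]
      have h3 : 0 < ‖InnerProductSpace.continuousLinearMapOfBilin Lc v‖ := norm_pos_iff.2 h0
      have h4 : ‖InnerProductSpace.continuousLinearMapOfBilin Lc v‖ ^ 2
          ≤ C * ‖v‖ * ‖InnerProductSpace.continuousLinearMapOfBilin Lc v‖ := by
        rw [← h2]; exact h1
      rw [sq] at h4
      exact le_of_mul_le_mul_right h4 h3
  · intro v w
    rw [happ]
    exact hB v w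

end Wlim

variable {H : Type u} [NormedAddCommGroup H] [InnerProductSpace ℂ H] [CompleteSpace H]
variable {M : VonNeumannAlgebra H} {A : StarSubalgebra ℂ (H →L[ℂ] H)}

/-- weak limit of the pinchings of `x`: an element of the masa -/
theorem exists_ED (hM : Masa M A) {x : H →L[ℂ] H} (hx : x ∈ M) (hxs : IsSelfAdjoint x) :
    ∃ a ∈ A, IsSelfAdjoint a ∧ ‖a‖ ≤ ‖x‖ ∧ ∀ v w : H, ∀ ε : ℝ, 0 < ε → ∃ P : FP A,
      ‖⟪(D P x - a) v, w⟫_ℂ‖ ≤ ε := by
  obtain ⟨a, ha, hlim⟩ := exists_wlim (L0.UU hM) (fun P => D P x) (norm_nonneg x)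
    (fun P => norm_D_le P x)
  have hle : ((L0.UU hM : Ultrafilter (FP A)) : Filter (FP A)) ≤ atTop := L0.UF_le hM
  have haM : a ∈ M := by
    apply mem_of_commutant
    intro T hT
    ext v
    refine ext_inner_right ℂ fun w => ?_
    have h1 := hlim (T v) w
    have h2 := hlim v (star T w)
    have e3 : ∀ y : H →L[ℂ] H, ⟪y v, star T w⟫_ℂ = ⟪(T * y) v, w⟫_ℂ := by
      intro y
      rw [star_eq_adjoint, adjoint_inner_right]
      rfl
    simp only [e3] at h2
    refine tendsto_nhds_unique h2 (h1.congr fun P => ?_)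
    rw [commutant_comm M (D_mem P x hM hx) hT]
    rfl
  have haA : a ∈ A := by
    have hproj : ∀ p ∈ A, IsStarProjection p → p * a = a * p := by
      intro p hp hpp
      have hps : star p = p := hpp.isSelfAdjoint
      ext v
      refine ext_inner_right ℂ fun w => ?_
      have h1 := hlim (p v) w
      have h2 := hlim v (p w)
      have e3 : ∀ y : H →L[ℂ] H, ⟪y v, p w⟫_ℂ = ⟪(p * y) v, w⟫_ℂ := by
        intro y
        conv_lhs => rw [← hps, star_eq_adjoint, adjoint_inner_right]
        rfl
      simp only [e3] at h2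
      refine tendsto_nhds_unique h2 (h1.congr' ?_)
      have h3 : ∀ᶠ P : FP A in (L0.UU hM : Filter (FP A)), FP.two hp hpp ≤ P :=
        hle (eventually_ge_atTop _)
      filter_upwards [h3] with P hP
      have h4 := D_comm_of_le hP x (0 : Fin 2)
      have h5 : (FP.two hp hpp).e (0 : Fin 2) = p := rfl
      rw [h5] at h4
      rw [h4]
      rfl
    apply hM.max a haM
    intro b hb
    exact hM.comm_of_proj hproj hb
  refine ⟨a, haA, ?_, ha, ?_⟩
  · change star a = a
    ext v
    refine ext_inner_right ℂ fun w => ?_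
    have h1 := hlim v w
    have h2 := hlim w v
    have e1 : ⟪star a v, w⟫_ℂ = (starRingEnd ℂ) ⟪a w, v⟫_ℂ := by
      rw [star_eq_adjoint, adjoint_inner_left, ← inner_conj_symm]
    rw [e1]
    refine tendsto_nhds_unique ((Complex.continuous_conj.tendsto _).comp h2) (h1.congr fun P => ?_)
    have e2 : star (D P x) = D P x := by rw [← D_star, hxs.star_eq]
    change _ = (starRingEnd ℂ) ⟪D P x w, v⟫_ℂ
    conv_lhs => rw [← e2, star_eq_adjoint, adjoint_inner_left, ← inner_conj_symm]
  · intro v w ε hε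
    have h1 := hlim v w
    have h2 := Metric.tendsto_nhds.1 h1 ε hε
    obtain ⟨P, hP⟩ := h2.exists
    refine ⟨P, ?_⟩
    rw [sub_apply, inner_sub_left, ← dist_eq_norm]
    exact hP.le

end Crest.Agent.R109
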