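import Crest.Agent.R109.X2Deg

/-!
# Row 109, module T2: Lemma B (small blocks), abstract form
-/

set_option autoImplicit false
set_option linter.unusedSectionVars false

namespace Crest.Agent.R109.X2

open scoped InnerProductSpace ComplexOrder
open ContinuousLinearMap

universe u v w

variable {K : Type u} [NormedAddCommGroup K] [InnerProductSpace ℂ K] [CompleteSpace K]

/-- iterates `(p x)^i p Ξ` -/
def psi (x p : K →L[ℂ] K) (Ξ : K) : ℕ → K
  | 0 => p Ξ
  | i + 1 => p (x (psi x p Ξ i))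

variable {Λ : Type v} [DecidableEq Λ] [Fintype Λ] {𝔞 : Type w} [Fintype 𝔞]

/-- The abstract system: `P k = 1 - E k` (fluctuation in the label `k`), `e k` the cells,
`p = ∑ g a` the colour projection, `g a` depends only on the labels in `N a`. -/
structure Sys (P e : Λ → K →L[ℂ] K) (x p : K →L[ℂ] K) (g : 𝔞 → K →L[ℂ] K)
    (N : 𝔞 → Finset Λ) (d : ℕ) : Prop where
  cp : CP P
  xP : ∀ k, x * P k = P k * x
  psp : IsStarProjection p
  esp : ∀ k, IsStarProjection (e k)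
  eorth : ∀ k l, k ≠ l → e k * e l = 0
  esum : ∑ k, e k = 1
  eP : ∀ k l, e k * P l = P l * e k
  gsum : ∑ a, g a = p
  card : ∀ a, (N a).card ≤ d
  indep : ∀ a k, k ∉ N a → g a * P k = P k * g a

/-- `Q = ∑ e_k E_k` -/
noncomputable def QQ (P e : Λ → K →L[ℂ] K) : K →L[ℂ] K := ∑ k, e k * (1 - P k)

/-- `1 - Q = ∑ e_k P_k` -/
noncomputable def RR (P e : Λ → K →L[ℂ] K) : K →L[ℂ] K := ∑ k, e k * P k

namespace Sys

variable {P e : Λ → K →L[ℂ] K} {x p : K →L[ℂ] K} {g : 𝔞 → K →L[ℂ] K} {N : 𝔞 → Finset Λ} {d : ℕ}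

theorem degp (h : Sys P e x p g N d) {D : ℕ} {η : K} (hη : Deg P D Finset.univ η) :
    Deg P (D + d) Finset.univ (p η) := by
  have h1 : p η = ∑ a, g a η := by
    rw [← h.gsum, _root_.sum_apply]
  rw [h1]
  exact Deg.sum _ (fun a _ => Deg.map' h.cp (h.card a) (fun k hk => h.indep a k hk) hη)

theorem deg_psi (h : Sys P e x p g N d) {Ξ : K} (hΞ : ∀ k, P k Ξ = 0) (i : ℕ) :
    Deg P ((i + 1) * d) Finset.univ (psi x p Ξ i) := by
  induction i with
  | zero =>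
    have h0 : Deg P 0 Finset.univ Ξ := fun k _ => hΞ k
    have := h.degp h0
    simpa [psi] using this
  | succ i ih =>
    have := h.degp (Deg.map_comm h.cp h.xP ih)
    have h2 : (i + 1 + 1) * d = (i + 1) * d + d := by ring
    rw [h2]
    exact this

theorem QR (h : Sys P e x p g N d) : QQ P e + RR P e = 1 := by
  unfold QQ RR
  rw [← Finset.sum_add_distrib]
  have : ∀ k ∈ Finset.univ, e k * (1 - P k) + e k * P k = e k := by
    intro k _
    rw [mul_sub, mul_one]; abel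
  rw [Finset.sum_congr rfl this, h.esum]

/-- orthogonality of the cells -/
theorem norm_sum_e (h : Sys P e x p g N d) (ζ : K) : ‖ζ‖ ^ 2 = ∑ k, ‖e k ζ‖ ^ 2 := by
  have h1 : ζ = ∑ k, e k ζ := by
    rw [← _root_.sum_apply, h.esum]; rfl
  conv_lhs => rw [nsq_re, h1]
  rw [inner_sum, Complex.re_sum]
  refine Finset.sum_congr rfl (fun k _ => ?_)
  rw [sp_norm_sq (h.esp k), ← h1]
  rfl

theorem norm_sum_e' (h : Sys P e x p g N d) (ζ : Λ → K) :
    ‖∑ k, e k (ζ k)‖ ^ 2 = ∑ k, ‖e k (ζ k)‖ ^ 2 := by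
  rw [h.norm_sum_e]
  refine Finset.sum_congr rfl (fun k _ => ?_)
  congr 2
  rw [map_sum, Finset.sum_eq_single k]
  · exact sp_idem (h.esp k) _
  · intro l _ hl
    calc e k (e l (ζ l)) = (e k * e l) (ζ l) := rfl
      _ = 0 := by rw [h.eorth k l (Ne.symm hl)]; rfl
  · intro hk; exact absurd (Finset.mem_univ k) hk

theorem Q_idem (h : Sys P e x p g N d) : QQ P e * QQ P e = QQ P e := by
  unfold QQ
  rw [Finset.sum_mul]
  refine Finset.sum_congr rfl (fun k _ => ?_)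
  rw [Finset.mul_sum, Finset.sum_eq_single k]
  · have c : (1 - P k) * e k = e k * (1 - P k) := by
      rw [sub_mul, mul_sub, one_mul, mul_one, h.eP k k]
    have i1 := (h.esp k).isIdempotentElem.eq
    have i2 := (h.cp.proj k).one_sub.isIdempotentElem.eq
    calc e k * (1 - P k) * (e k * (1 - P k)) = e k * ((1 - P k) * e k) * (1 - P k) := by
          noncomm_ring
      _ = (e k * e k) * ((1 - P k) * (1 - P k)) := by rw [c]; noncomm_ring
      _ = _ := by rw [i1, i2]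
  · intro l _ hl
    have c : (1 - P k) * e l = e l * (1 - P k) := by
      rw [sub_mul, mul_sub, one_mul, mul_one, h.eP l k]
    calc e k * (1 - P k) * (e l * (1 - P l)) = e k * ((1 - P k) * e l) * (1 - P l) := by
          noncomm_ring
      _ = (e k * e l) * ((1 - P k) * (1 - P l)) := by rw [c]; noncomm_ring
      _ = 0 := by rw [h.eorth k l (Ne.symm hl), zero_mul]
  · intro hk; exact absurd (Finset.mem_univ k) hk

theorem Q_sp (h : Sys P e x p g N d) : IsStarProjection (QQ P e) := by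
  refine ⟨h.Q_idem, ?_⟩
  unfold IsSelfAdjoint QQ
  rw [star_sum]
  refine Finset.sum_congr rfl (fun k _ => ?_)
  rw [star_mul, (h.esp k).isSelfAdjoint.star_eq, (h.cp.proj k).one_sub.isSelfAdjoint.star_eq,
    sub_mul, mul_sub, one_mul, mul_one, h.eP k k]

theorem R_sp (h : Sys P e x p g N d) : IsStarProjection (RR P e) := by
  have : RR P e = 1 - QQ P e := by rw [← h.QR]; abel
  rw [this]
  exact h.Q_sp.one_sub

/-- the `(1-Q) x (1-Q)` part is small on vectors of small degree when all blocks are small -/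
theorem RxR_le (h : Sys P e x p g N d) {ε₁ : ℝ} (hε₁ : 0 ≤ ε₁) (hx : ∀ k l, ‖e k * x * e l‖ ≤ ε₁)
    {D : ℕ} {ζ : K} (hζ : Deg P D Finset.univ ζ) :
    ‖RR P e (x (RR P e ζ))‖ ≤ D * ε₁ * ‖ζ‖ := by
  have hcomm : ∀ k l, P k * P l = P l * P k := h.cp.comm
  -- expansion
  have h1 : ∀ k, (e k * P k) (x (RR P e ζ)) = ∑ l, (e k * x * e l) (P l (P k ζ)) := by
    intro k
    unfold RR
    rw [_root_.sum_apply, map_sum, map_sum]
    refine Finset.sum_congr rfl (fun l _ => ?_)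
    have : (e k * P k) * x * (e l * P l) = (e k * x * e l) * (P l * P k) := by
      have a1 : P k * x = x * P k := (h.xP k).symm
      have a2 : P k * e l = e l * P k := (h.eP l k).symm
      calc (e k * P k) * x * (e l * P l) = e k * (P k * x) * e l * P l := by noncomm_ring
        _ = e k * x * (P k * e l) * P l := by rw [a1]; noncomm_ring
        _ = (e k * x * e l) * (P k * P l) := by rw [a2]; noncomm_ring
        _ = _ := by rw [hcomm k l]
    calc (e k * P k) (x ((e l * P l) ζ)) = ((e k * P k) * x * (e l * P l)) ζ := rfl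
      _ = ((e k * x * e l) * (P l * P k)) ζ := by rw [this]
      _ = _ := rfl
  have h2 : ‖RR P e (x (RR P e ζ))‖ ^ 2 = ∑ k, ‖∑ l, (e k * x * e l) (P l (P k ζ))‖ ^ 2 := by
    have : RR P e (x (RR P e ζ)) = ∑ k, e k (P k (x (RR P e ζ))) := by
      conv_lhs => rw [RR]
      rw [_root_.sum_apply]
      rfl
    rw [this, h.norm_sum_e']
    refine Finset.sum_congr rfl (fun k _ => ?_)
    rw [← h1 k]
    rfl
  have h3 : ∀ k, ‖∑ l, (e k * x * e l) (P l (P k ζ))‖ ^ 2 ≤ D * (ε₁ ^ 2 * ‖P k ζ‖ ^ 2) := by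
    intro k
    have hk : Deg P D Finset.univ (P k ζ) := Deg.map_comm h.cp (fun l => hcomm k l) hζ
    refine (Deg.es h.cp hk (fun l => e k * x * e l) ?_).trans ?_
    · intro l m
      have a1 : P m * x = x * P m := (h.xP m).symm
      have a2 : ∀ j, P m * e j = e j * P m := fun j => (h.eP j m).symm
      calc e k * x * e l * P m = e k * x * (e l * P m) := by noncomm_ring
        _ = e k * (x * P m) * e l := by rw [h.eP l m]; noncomm_ring
        _ = (e k * P m) * x * e l := by rw [h.xP m]; noncomm_ring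
        _ = P m * (e k * x * e l) := by rw [h.eP k m]; noncomm_ring
    · refine mul_le_mul_of_nonneg_left ?_ (by positivity)
      rw [h.norm_sum_e (P k ζ), Finset.mul_sum]
      refine Finset.sum_le_sum (fun l _ => ?_)
      have b1 : (e k * x * e l) (P l (P k ζ)) = (e k * x * e l) (e l (P l (P k ζ))) := by
        have : e k * x * e l = e k * x * e l * e l := by
          rw [mul_assoc (e k * x), (h.esp l).isIdempotentElem.eq]
        calc (e k * x * e l) (P l (P k ζ)) = (e k * x * e l * e l) (P l (P k ζ)) := by rw [← this]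
          _ = _ := rfl
      have b2 : ‖e l (P l (P k ζ))‖ ≤ ‖e l (P k ζ)‖ := by
        have : e l (P l (P k ζ)) = P l (e l (P k ζ)) := by
          calc e l (P l (P k ζ)) = (e l * P l) (P k ζ) := rfl
            _ = (P l * e l) (P k ζ) := by rw [h.eP l l]
            _ = _ := rfl
        rw [this]
        exact sp_norm_le (h.cp.proj l) _
      have b3 : ‖(e k * x * e l) (P l (P k ζ))‖ ≤ ε₁ * ‖e l (P k ζ)‖ := by
        rw [b1]
        refine ((e k * x * e l).le_opNorm _).trans ?_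
        exact mul_le_mul (hx k l) b2 (norm_nonneg _) hε₁
      calc ‖(e k * x * e l) (P l (P k ζ))‖ ^ 2 ≤ (ε₁ * ‖e l (P k ζ)‖) ^ 2 :=
            pow_le_pow_left₀ (norm_nonneg _) b3 2
        _ = ε₁ ^ 2 * ‖e l (P k ζ)‖ ^ 2 := by ring
  have h4 : ‖RR P e (x (RR P e ζ))‖ ^ 2 ≤ (D * ε₁ * ‖ζ‖) ^ 2 := by
    rw [h2]
    calc ∑ k, ‖∑ l, (e k * x * e l) (P l (P k ζ))‖ ^ 2
        ≤ ∑ k, D * (ε₁ ^ 2 * ‖P k ζ‖ ^ 2) := Finset.sum_le_sum (fun k _ => h3 k)
      _ = D * ε₁ ^ 2 * ∑ k, ‖P k ζ‖ ^ 2 := by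
          rw [Finset.mul_sum]; refine Finset.sum_congr rfl (fun k _ => ?_); ring
      _ ≤ D * ε₁ ^ 2 * (D * ‖ζ‖ ^ 2) :=
          mul_le_mul_of_nonneg_left (hζ.bound h.cp) (by positivity)
      _ = _ := by ring
  exact (pow_le_pow_iff_left₀ (norm_nonneg _) (by positivity) two_ne_zero).mp h4

/-- one step of Lemma B -/
theorem step (h : Sys P e x p g N d) {ε₁ s C : ℝ} (hε₁ : 0 ≤ ε₁) (hs : 0 ≤ s)
    (hx : ∀ k l, ‖e k * x * e l‖ ≤ ε₁) (hC : ‖x‖ ≤ C) (hQ : ∀ ζ, ‖p (QQ P e ζ)‖ ≤ s * ‖ζ‖)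
    {D : ℕ} {ζ : K} (hζ : Deg P D Finset.univ ζ) (hp : p ζ = ζ) :
    ‖p (x ζ)‖ ≤ (2 * s * C + D * ε₁) * ‖ζ‖ := by
  have hC0 : 0 ≤ C := (norm_nonneg _).trans hC
  -- ‖Q ζ‖ ≤ s ‖ζ‖
  have hQζ : ‖QQ P e ζ‖ ≤ s * ‖ζ‖ := by
    have a1 : ‖QQ P e ζ‖ ^ 2 = (⟪ζ, p (QQ P e (QQ P e ζ))⟫_ℂ).re := by
      rw [sp_idem h.Q_sp, sp_norm_sq h.Q_sp, ← sp_sa h.psp, hp]
      rfl
    have a2 : ‖QQ P e ζ‖ ^ 2 ≤ ‖ζ‖ * (s * ‖QQ P e ζ‖) := by
      rw [a1]
      refine (Complex.re_le_norm _).trans ((norm_inner_le_norm _ _).trans ?_)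
      exact mul_le_mul_of_nonneg_left (hQ _) (norm_nonneg _)
    by_contra hcon
    push Not at hcon
    have h0 : 0 < ‖QQ P e ζ‖ := lt_of_le_of_lt (by positivity) hcon
    nlinarith
  have hdec : p (x ζ) = p (QQ P e (x ζ)) + (p (RR P e (x (QQ P e ζ))) +
      p (RR P e (x (RR P e ζ)))) := by
    have e1 : ∀ χ : K, QQ P e χ + RR P e χ = χ := by
      intro χ
      calc QQ P e χ + RR P e χ = (QQ P e + RR P e) χ := rfl
        _ = χ := by rw [h.QR]; rfl
    have e2 : QQ P e (x ζ) + (RR P e (x (QQ P e ζ)) + RR P e (x (RR P e ζ))) = x ζ := by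
      rw [← map_add (RR P e), ← map_add x, e1, e1]
    rw [← map_add, ← map_add, e2]
  have b1 : ‖p (QQ P e (x ζ))‖ ≤ s * (C * ‖ζ‖) := by
    refine (hQ _).trans (mul_le_mul_of_nonneg_left ?_ hs)
    exact (x.le_opNorm ζ).trans (mul_le_mul_of_nonneg_right hC (norm_nonneg _))
  have b2 : ‖p (RR P e (x (QQ P e ζ)))‖ ≤ C * (s * ‖ζ‖) := by
    refine (sp_norm_le h.psp _).trans ((sp_norm_le h.R_sp _).trans ?_)
    refine (x.le_opNorm _).trans ?_
    exact mul_le_mul hC hQζ (norm_nonneg _) hC0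
  have b3 : ‖p (RR P e (x (RR P e ζ)))‖ ≤ D * ε₁ * ‖ζ‖ :=
    (sp_norm_le h.psp _).trans (h.RxR_le hε₁ hx hζ)
  rw [hdec]
  refine (norm_add_le _ _).trans ?_
  have := norm_add_le (p (RR P e (x (QQ P e ζ)))) (p (RR P e (x (RR P e ζ))))
  linarith

/-- **Lemma B**, iterated -/
theorem iter (h : Sys P e x p g N d) {ε₁ s C : ℝ} (hε₁ : 0 ≤ ε₁) (hs : 0 ≤ s)
    (hx : ∀ k l, ‖e k * x * e l‖ ≤ ε₁) (hC : ‖x‖ ≤ C) (hQ : ∀ ζ, ‖p (QQ P e ζ)‖ ≤ s * ‖ζ‖)
    {Ξ : K} (hΞ : ∀ k, P k Ξ = 0) (m : ℕ) :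
    ∀ i ≤ m, ‖psi x p Ξ i‖ ≤ (2 * s * C + m * d * ε₁) ^ i * ‖p Ξ‖ := by
  have hC0 : 0 ≤ C := (norm_nonneg _).trans hC
  have hpos : 0 ≤ 2 * s * C + m * d * ε₁ := by positivity
  intro i
  induction i with
  | zero => intro _; simp [psi]
  | succ i ih =>
    intro hi
    have hpp : p (psi x p Ξ i) = psi x p Ξ i := by
      cases i with
      | zero => exact sp_idem h.psp _
      | succ j => exact sp_idem h.psp _
    have h1 := h.step hε₁ hs hx hC hQ (h.deg_psi hΞ i) hpp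
    have h2 : (2 * s * C + ((((i + 1) * d : ℕ)) : ℝ) * ε₁) ≤ 2 * s * C + m * d * ε₁ := by
      have : ((((i + 1) * d : ℕ)) : ℝ) ≤ m * d := by
        have : (i + 1) * d ≤ m * d := Nat.mul_le_mul_right d hi
        exact_mod_cast this
      nlinarith
    calc ‖psi x p Ξ (i + 1)‖ ≤ (2 * s * C + ((((i + 1) * d : ℕ)) : ℝ) * ε₁) * ‖psi x p Ξ i‖ := h1
      _ ≤ (2 * s * C + m * d * ε₁) * ((2 * s * C + m * d * ε₁) ^ i * ‖p Ξ‖) :=
          mul_le_mul h2 (ih (by omega)) (norm_nonneg _) hpos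
      _ = _ := by ring

end Sys

end Crest.Agent.R109.X2
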