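import Mathlib

/-!
# Row 109, module X2 (random labels): degree (Efron-Stein) estimates for commuting projections
-/

set_option autoImplicit false
set_option linter.unusedSectionVars false

namespace Crest.Agent.R109.X2

open scoped InnerProductSpace ComplexOrder
open ContinuousLinearMap

universe u v

variable {K : Type u} [NormedAddCommGroup K] [InnerProductSpace ℂ K] [CompleteSpace K]
variable {Λ : Type v} [DecidableEq Λ]

/-- quadratic form `Re ⟪ζ, Vζ⟫` -/
noncomputable def qf (V : K →L[ℂ] K) (ζ : K) : ℝ := (⟪ζ, V ζ⟫_ℂ).re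

/-- commuting star projections -/
structure CP (P : Λ → K →L[ℂ] K) : Prop where
  proj : ∀ k, IsStarProjection (P k)
  comm : ∀ k l, P k * P l = P l * P k

/-- `η` has degree at most `D` on the label set `S` -/
def Deg (P : Λ → K →L[ℂ] K) : ℕ → Finset Λ → K → Prop
  | 0, S, η => ∀ k ∈ S, P k η = 0
  | D + 1, S, η => ∀ k ∈ S, Deg P D (S.erase k) (P k η)

theorem nsq_re (ζ : K) : ‖ζ‖ ^ 2 = (⟪ζ, ζ⟫_ℂ).re := by
  have h := inner_self_eq_norm_sq_to_K (𝕜 := ℂ) ζ
  rw [h]
  norm_cast

section StarProj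

variable {P : K →L[ℂ] K}

theorem sp_idem (h : IsStarProjection P) (ζ : K) : P (P ζ) = P ζ := by
  have := h.isIdempotentElem.eq
  calc P (P ζ) = (P * P) ζ := rfl
    _ = P ζ := by rw [this]

theorem sp_sa (h : IsStarProjection P) (ζ χ : K) : ⟪P ζ, χ⟫_ℂ = ⟪ζ, P χ⟫_ℂ := by
  have := h.isSelfAdjoint
  have h2 := ContinuousLinearMap.adjoint_inner_left P χ ζ
  rw [← ContinuousLinearMap.star_eq_adjoint, this.star_eq] at h2
  exact h2

theorem sp_inner_self (h : IsStarProjection P) (ζ : K) : ⟪P ζ, P ζ⟫_ℂ = ⟪ζ, P ζ⟫_ℂ := by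
  rw [sp_sa h, sp_idem h]

theorem sp_norm_sq (h : IsStarProjection P) (ζ : K) : ‖P ζ‖ ^ 2 = qf P ζ := by
  have := inner_self_eq_norm_sq_to_K (𝕜 := ℂ) (P ζ)
  rw [sp_inner_self h] at this
  unfold qf
  rw [this]
  norm_cast

theorem sp_norm_le (h : IsStarProjection P) (ζ : K) : ‖P ζ‖ ≤ ‖ζ‖ := by
  have h1 : ‖P ζ‖ ^ 2 ≤ ‖ζ‖ * ‖P ζ‖ := by
    rw [sp_norm_sq h]
    calc qf P ζ ≤ ‖⟪ζ, P ζ⟫_ℂ‖ := Complex.re_le_norm _
      _ ≤ ‖ζ‖ * ‖P ζ‖ := norm_inner_le_norm _ _
  by_contra hc
  push Not at hc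
  have h0 : 0 < ‖P ζ‖ := lt_of_le_of_lt (norm_nonneg _) hc
  nlinarith

theorem sp_one_sub (h : IsStarProjection P) : IsStarProjection (1 - P) := h.one_sub

end StarProj

section DegBasic

variable {P : Λ → K →L[ℂ] K}

theorem Deg.zero : ∀ (D : ℕ) (S : Finset Λ), Deg P D S 0
  | 0, S => by intro k _; simp
  | D + 1, S => by
      intro k _
      rw [map_zero]
      exact Deg.zero D _

theorem Deg.add {D : ℕ} {S : Finset Λ} {η ζ : K} (h1 : Deg P D S η) (h2 : Deg P D S ζ) :
    Deg P D S (η + ζ) := by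
  induction D generalizing S η ζ with
  | zero => intro k hk; rw [map_add, h1 k hk, h2 k hk, add_zero]
  | succ D ih => intro k hk; rw [map_add]; exact ih (h1 k hk) (h2 k hk)

theorem Deg.sum {ι : Type*} {D : ℕ} {S : Finset Λ} (s : Finset ι) {f : ι → K}
    (h : ∀ i ∈ s, Deg P D S (f i)) : Deg P D S (∑ i ∈ s, f i) := by
  classical
  induction s using Finset.induction_on with
  | empty => simpa using Deg.zero D S
  | insert a s ha ih =>
    rw [Finset.sum_insert ha]
    exact (h a (Finset.mem_insert_self _ _)).add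
      (ih (fun i hi => h i (Finset.mem_insert_of_mem hi)))

theorem Deg.mono_set {D : ℕ} {S S' : Finset Λ} {η : K} (hS : S' ⊆ S) (h : Deg P D S η) :
    Deg P D S' η := by
  induction D generalizing S S' η with
  | zero => intro k hk; exact h k (hS hk)
  | succ D ih => intro k hk; exact ih (Finset.erase_subset_erase k hS) (h k (hS hk))

theorem Deg.succ {D : ℕ} {S : Finset Λ} {η : K} (h : Deg P D S η) : Deg P (D + 1) S η := by
  induction D generalizing S η with
  | zero => intro k hk; rw [h k hk]; exact Deg.zero _ _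
  | succ D ih => intro k hk; exact ih (h k hk)

theorem Deg.mono {D D' : ℕ} (hD : D ≤ D') {S : Finset Λ} {η : K} (h : Deg P D S η) :
    Deg P D' S η := by
  induction D', hD using Nat.le_induction with
  | base => exact h
  | succ n _ ih => exact ih.succ

/-- an operator depending on the labels in `N` only raises the degree by `|N ∩ S|` -/
theorem Deg.map {N : Finset Λ} (hP : CP P) :
    ∀ (s : ℕ) {D : ℕ} {S : Finset Λ} (_ : S.card ≤ s) {T : K →L[ℂ] K}
      (_ : ∀ k, k ∉ N → T * P k = P k * T) {η : K} (_ : Deg P D S η),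
      Deg P (D + (N ∩ S).card) S (T η) := by
  intro s
  induction s with
  | zero =>
    intro D S hS T hT η _
    have hS0 : S = ∅ := Finset.card_eq_zero.mp (Nat.le_zero.mp hS)
    subst hS0
    generalize D + (N ∩ ∅).card = D'
    cases D' with
    | zero => intro k hk; simp at hk
    | succ n => intro k hk; simp at hk
  | succ s ih =>
    intro D S hS T hT η hη
    -- the two cases
    have key : ∀ k ∈ S, ∀ D' : ℕ, D + (N ∩ S).card = D' + 1 →
        Deg P D' (S.erase k) (P k (T η)) := by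
      intro k hk D' hD'
      have hcard : (S.erase k).card ≤ s := by
        rw [Finset.card_erase_of_mem hk]; omega
      by_cases hkN : k ∈ N
      · have h1 : (N ∩ S.erase k).card + 1 = (N ∩ S).card := by
          have : N ∩ S.erase k = (N ∩ S).erase k := by
            ext l; simp only [Finset.mem_inter, Finset.mem_erase]; tauto
          rw [this, Finset.card_erase_of_mem (Finset.mem_inter.mpr ⟨hkN, hk⟩)]
          have : 0 < (N ∩ S).card := Finset.card_pos.mpr ⟨k, Finset.mem_inter.mpr ⟨hkN, hk⟩⟩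
          omega
        have h2 := ih hcard (T := P k * T) (by
          intro l hl
          rw [mul_assoc, hT l hl, ← mul_assoc, hP.comm k l, mul_assoc]) (hη.mono_set (Finset.erase_subset k S))
        have h3 : D + (N ∩ S.erase k).card = D' := by omega
        rw [h3] at h2
        exact h2
      · have hTk : P k (T η) = T (P k η) := by
          have := hT k hkN
          calc P k (T η) = (P k * T) η := rfl
            _ = (T * P k) η := by rw [this]
            _ = T (P k η) := rfl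
        have h1 : (N ∩ S.erase k).card = (N ∩ S).card := by
          have : N ∩ S.erase k = N ∩ S := by
            ext l; simp only [Finset.mem_inter, Finset.mem_erase]
            constructor
            · tauto
            · rintro ⟨h1, h2⟩; exact ⟨h1, fun h => hkN (h ▸ h1), h2⟩
          rw [this]
        rw [hTk]
        cases D with
        | zero =>
          have : P k η = 0 := hη k hk
          rw [this, map_zero]
          exact Deg.zero _ _
        | succ D =>
          have h2 := ih hcard hT (hη k hk)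
          rw [h1] at h2
          have h3 : D + (N ∩ S).card = D' := by omega
          rw [h3] at h2
          exact h2
    rcases Nat.eq_zero_or_pos (D + (N ∩ S).card) with h0 | h0
    · rw [h0]
      intro k hk
      have hD : D = 0 := by omega
      subst hD
      have hN : (N ∩ S).card = 0 := by omega
      have hkN : k ∉ N := by
        intro h
        have : 0 < (N ∩ S).card := Finset.card_pos.mpr ⟨k, Finset.mem_inter.mpr ⟨h, hk⟩⟩
        omega
      have hTk : P k (T η) = T (P k η) := by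
        have := hT k hkN
        calc P k (T η) = (P k * T) η := rfl
          _ = (T * P k) η := by rw [this]
          _ = T (P k η) := rfl
      rw [hTk, hη k hk, map_zero]
    · obtain ⟨D', hD'⟩ : ∃ D', D + (N ∩ S).card = D' + 1 := ⟨D + (N ∩ S).card - 1, by omega⟩
      rw [hD']
      intro k hk
      exact key k hk D' hD'

theorem Deg.map' {N : Finset Λ} (hP : CP P) {D d : ℕ} {S : Finset Λ} (hN : N.card ≤ d)
    {T : K →L[ℂ] K} (hT : ∀ k, k ∉ N → T * P k = P k * T) {η : K} (hη : Deg P D S η) :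
    Deg P (D + d) S (T η) := by
  refine (Deg.map hP S.card le_rfl hT hη).mono ?_
  have : (N ∩ S).card ≤ N.card := Finset.card_le_card Finset.inter_subset_left
  omega

theorem Deg.map_comm (hP : CP P) {D : ℕ} {S : Finset Λ}
    {T : K →L[ℂ] K} (hT : ∀ k, T * P k = P k * T) {η : K} (hη : Deg P D S η) :
    Deg P D S (T η) := by
  have := Deg.map' (N := ∅) (d := 0) hP (by simp) (fun k _ => hT k) hη
  simpa using this

theorem cp_norm_sq (hP : CP P) (k l : Λ) (η : K) :
    ⟪P k η, P l η⟫_ℂ = ((‖P l (P k η)‖ ^ 2 : ℝ) : ℂ) := by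
  have h1 : ⟪P l (P k η), P l (P k η)⟫_ℂ = ⟪P k η, P l η⟫_ℂ := by
    rw [sp_inner_self (hP.proj l)]
    have : P l (P k η) = P k (P l η) := by
      calc P l (P k η) = (P l * P k) η := rfl
        _ = (P k * P l) η := by rw [hP.comm]
        _ = _ := rfl
    rw [this, ← sp_sa (hP.proj k), sp_idem (hP.proj k)]
  rw [← h1, inner_self_eq_norm_sq_to_K]
  norm_cast

/-- the number operator is at most `D` on vectors of degree `D` -/
theorem Deg.bound (hP : CP P) {D : ℕ} {S : Finset Λ} {η : K} (hη : Deg P D S η) :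
    ∑ k ∈ S, ‖P k η‖ ^ 2 ≤ D * ‖η‖ ^ 2 := by
  induction D generalizing S η with
  | zero =>
    rw [Finset.sum_eq_zero (fun k hk => by rw [hη k hk]; simp)]
    simp
  | succ D ih =>
    set A : K := ∑ k ∈ S, P k η with hA
    have ha : ∑ k ∈ S, ‖P k η‖ ^ 2 = (⟪η, A⟫_ℂ).re := by
      rw [hA, inner_sum, Complex.re_sum]
      exact Finset.sum_congr rfl (fun k _ => sp_norm_sq (hP.proj k) η)
    have hb : ‖A‖ ^ 2 = ∑ k ∈ S, ∑ l ∈ S, ‖P l (P k η)‖ ^ 2 := by
      rw [nsq_re]
      conv_lhs => rw [hA]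
      rw [sum_inner, Complex.re_sum]
      refine Finset.sum_congr rfl (fun k _ => ?_)
      rw [inner_sum, Complex.re_sum]
      refine Finset.sum_congr rfl (fun l _ => ?_)
      rw [cp_norm_sq hP, Complex.ofReal_re]
    have hc : ‖A‖ ^ 2 ≤ (D + 1) * ∑ k ∈ S, ‖P k η‖ ^ 2 := by
      rw [hb, Finset.mul_sum]
      refine Finset.sum_le_sum (fun k hk => ?_)
      rw [← Finset.add_sum_erase S _ hk, sp_idem (hP.proj k)]
      have := ih (hη k hk)
      linarith
    have hd : (⟪η, A⟫_ℂ).re ≤ ‖η‖ * ‖A‖ :=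
      (Complex.re_le_norm _).trans (norm_inner_le_norm _ _)
    rw [ha] at hc ⊢
    have he : ‖A‖ ≤ (D + 1) * ‖η‖ := by
      by_contra hcon
      push Not at hcon
      have h0 : 0 < ‖A‖ := lt_of_le_of_lt (by positivity) hcon
      have hD : (0 : ℝ) ≤ D + 1 := by positivity
      nlinarith [mul_le_mul_of_nonneg_left hd hD]
    push_cast
    calc (⟪η, A⟫_ℂ).re ≤ ‖η‖ * ‖A‖ := hd
      _ ≤ ‖η‖ * ((D + 1) * ‖η‖) := mul_le_mul_of_nonneg_left he (norm_nonneg _)
      _ = (D + 1) * ‖η‖ ^ 2 := by ring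

/-- Efron-Stein type inequality -/
theorem Deg.es [Fintype Λ] (hP : CP P) {D : ℕ} {η : K}
    (hη : Deg P D Finset.univ η) (y : Λ → K →L[ℂ] K) (hy : ∀ k l, y k * P l = P l * y k) :
    ‖∑ k, y k (P k η)‖ ^ 2 ≤ D * ∑ k, ‖y k (P k η)‖ ^ 2 := by
  set u : Λ → K := fun k => y k (P k η) with hu
  have hPu : ∀ k, P k (u k) = u k := by
    intro k
    have : P k (y k (P k η)) = y k (P k (P k η)) := by
      calc P k (y k (P k η)) = (P k * y k) (P k η) := rfl
        _ = (y k * P k) (P k η) := by rw [hy]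
        _ = _ := rfl
    simp only [hu]
    rw [this, sp_idem (hP.proj k)]
  have hdeg : ∀ k, Deg P D Finset.univ (u k) := by
    intro k
    have := Deg.map_comm hP (T := y k * P k) (fun l => by
      rw [mul_assoc, hP.comm k l, ← mul_assoc, hy k l, mul_assoc]) hη
    exact this
  have hterm : ∀ k l, (⟪u k, u l⟫_ℂ).re ≤ (‖P l (u k)‖ ^ 2 + ‖P k (u l)‖ ^ 2) / 2 := by
    intro k l
    have h1 : ⟪u k, u l⟫_ℂ = ⟪P l (u k), P k (u l)⟫_ℂ := by
      conv_lhs => rw [← hPu k, ← hPu l]
      rw [sp_sa (hP.proj k)]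
      have : P k (P l (u l)) = P l (P k (u l)) := by
        calc P k (P l (u l)) = (P k * P l) (u l) := rfl
          _ = (P l * P k) (u l) := by rw [hP.comm]
          _ = _ := rfl
      rw [this, ← sp_sa (hP.proj l)]
    rw [h1]
    have h2 : (⟪P l (u k), P k (u l)⟫_ℂ).re ≤ ‖P l (u k)‖ * ‖P k (u l)‖ :=
      (Complex.re_le_norm _).trans (norm_inner_le_norm _ _)
    nlinarith [sq_nonneg (‖P l (u k)‖ - ‖P k (u l)‖)]
  have hnorm : ‖∑ k, u k‖ ^ 2 = ∑ k, ∑ l, (⟪u k, u l⟫_ℂ).re := by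
    have h1 := inner_self_eq_norm_sq_to_K (𝕜 := ℂ) (∑ k, u k)
    have h2 : (⟪∑ k, u k, ∑ k, u k⟫_ℂ).re = ∑ k, ∑ l, (⟪u k, u l⟫_ℂ).re := by
      rw [sum_inner, Complex.re_sum]
      refine Finset.sum_congr rfl (fun k _ => ?_)
      rw [inner_sum, Complex.re_sum]
    rw [← h2, h1]
    norm_cast
  show ‖∑ k, u k‖ ^ 2 ≤ D * ∑ k, ‖u k‖ ^ 2
  rw [hnorm]
  have hA : ∑ k, ∑ l, (⟪u k, u l⟫_ℂ).re ≤ ∑ k, ∑ l, (‖P l (u k)‖ ^ 2 + ‖P k (u l)‖ ^ 2) / 2 :=
    Finset.sum_le_sum (fun k _ => Finset.sum_le_sum (fun l _ => hterm k l))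
  have hB : ∑ k, ∑ l, (‖P l (u k)‖ ^ 2 + ‖P k (u l)‖ ^ 2) / 2 = ∑ k, ∑ l, ‖P l (u k)‖ ^ 2 := by
    have h1 : ∑ k, ∑ l, ‖P k (u l)‖ ^ 2 = ∑ k, ∑ l, ‖P l (u k)‖ ^ 2 := Finset.sum_comm
    calc ∑ k, ∑ l, (‖P l (u k)‖ ^ 2 + ‖P k (u l)‖ ^ 2) / 2
        = (∑ k, ∑ l, ‖P l (u k)‖ ^ 2 + ∑ k, ∑ l, ‖P k (u l)‖ ^ 2) / 2 := by
          simp only [add_div, Finset.sum_add_distrib, Finset.sum_div]
      _ = _ := by rw [h1]; ring
  refine hA.trans (hB.le.trans ?_)
  rw [Finset.mul_sum]
  exact Finset.sum_le_sum (fun k _ => (hdeg k).bound hP)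

end DegBasic

end Crest.Agent.R109.X2
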