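import Crest.Agent.R109.X2B

/-!
# Row 109, module T2: the space of `H`-valued functions of finitely many independent labels
-/

set_option autoImplicit false
set_option linter.unusedSectionVars false

namespace Crest.Agent.R109.X2

open scoped InnerProductSpace ComplexOrder
open ContinuousLinearMap

universe u v w

variable {H : Type u} [NormedAddCommGroup H] [InnerProductSpace ℂ H] [CompleteSpace H]
variable {Λ : Type v} [DecidableEq Λ] [Fintype Λ] {L : Type w} [Fintype L] [DecidableEq L]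

/-- `H`-valued fields over the label space -/
abbrev Fld (H : Type u) [NormedAddCommGroup H] (Λ : Type v) [Fintype Λ] (L : Type w) [Fintype L]
    [DecidableEq Λ] [DecidableEq L] :=
  PiLp 2 (fun _ : Λ → L => H)

/-- operators given by a family of component maps -/
noncomputable def opOf (T : (Λ → L) → ((Λ → L) → H) →L[ℂ] H) : Fld H Λ L →L[ℂ] Fld H Λ L :=
  ((PiLp.continuousLinearEquiv 2 ℂ (fun _ : Λ → L => H)).symm :
      ((Λ → L) → H) →L[ℂ] Fld H Λ L) ∘L (ContinuousLinearMap.pi T) ∘L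
    ((PiLp.continuousLinearEquiv 2 ℂ (fun _ : Λ → L => H)) : Fld H Λ L →L[ℂ] ((Λ → L) → H))

theorem opOf_apply (T : (Λ → L) → ((Λ → L) → H) →L[ℂ] H) (ψ : Fld H Λ L) (ω : Λ → L) :
    opOf T ψ ω = T ω (fun ω' => ψ ω') := rfl

/-- diagonal operators -/
noncomputable def Dg (y : (Λ → L) → H →L[ℂ] H) : Fld H Λ L →L[ℂ] Fld H Λ L :=
  opOf (fun ω => y ω ∘L ContinuousLinearMap.proj ω)

theorem Dg_apply (y : (Λ → L) → H →L[ℂ] H) (ψ : Fld H Λ L) (ω : Λ → L) :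
    Dg y ψ ω = y ω (ψ ω) := rfl

/-- conditional expectation in the label `k` (weights `v²`, unweighted inner product) -/
noncomputable def Ek (v : L → ℝ) (k : Λ) : Fld H Λ L →L[ℂ] Fld H Λ L :=
  opOf (fun ω => (v (ω k) : ℂ) •
    ∑ s, (v s : ℂ) • ContinuousLinearMap.proj (Function.update ω k s))

theorem Ek_apply (v : L → ℝ) (k : Λ) (ψ : Fld H Λ L) (ω : Λ → L) :
    Ek v k ψ ω = (v (ω k) : ℂ) • ∑ s, (v s : ℂ) • ψ (Function.update ω k s) := by
  unfold Ek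
  rw [opOf_apply]
  simp [_root_.sum_apply]

theorem fld_ext {ψ χ : Fld H Λ L} (h : ∀ ω, ψ ω = χ ω) : ψ = χ := by
  ext ω
  exact h ω

theorem fld_op_ext {T S : Fld H Λ L →L[ℂ] Fld H Λ L} (h : ∀ ψ ω, T ψ ω = S ψ ω) : T = S :=
  ContinuousLinearMap.ext (fun ψ => fld_ext (h ψ))

theorem fld_norm_sq (ψ : Fld H Λ L) : ‖ψ‖ ^ 2 = ∑ ω, ‖ψ ω‖ ^ 2 :=
  PiLp.norm_sq_eq_of_L2 _ ψ

/-- the swap of a label with a fresh label -/
def swp (k : Λ) : ((Λ → L) × L) ≃ ((Λ → L) × L) where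
  toFun q := (Function.update q.1 k q.2, q.1 k)
  invFun q := (Function.update q.1 k q.2, q.1 k)
  left_inv q := by
    ext j
    · simp
    · simp
  right_inv q := by
    ext j
    · simp
    · simp

theorem sum_swp {M : Type*} [AddCommMonoid M] (k : Λ) (F : (Λ → L) → L → M) :
    ∑ ω, ∑ s, F (Function.update ω k s) (ω k) = ∑ ω, ∑ s, F ω s := by
  rw [← Fintype.sum_prod_type' (f := fun ω s => F (Function.update ω k s) (ω k)),
    ← Fintype.sum_prod_type' (f := fun ω s => F ω s)]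
  exact Equiv.sum_comp (swp k) (fun q : (Λ → L) × L => F q.1 q.2)

/-- fibre integration -/
theorem sum_fibre (w : L → ℝ) (hw : ∑ s, w s = 1) (k : Λ) (F : (Λ → L) → ℝ) :
    ∑ ω, F ω = ∑ ω, w (ω k) * ∑ s, F (Function.update ω k s) := by
  have h1 := sum_swp k (fun (ω : Λ → L) (s : L) => w s * F ω)
  have h2 : ∑ ω : Λ → L, ∑ s, w s * F ω = ∑ ω, F ω := by
    refine Finset.sum_congr rfl (fun ω _ => ?_)
    rw [← Finset.sum_mul, hw, one_mul]
  rw [← h2, ← h1]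
  refine Finset.sum_congr rfl (fun ω _ => ?_)
  rw [Finset.mul_sum]

section EkProps

variable {v : L → ℝ}

theorem Ek_idem (hv : ∑ s, v s ^ 2 = 1) (k : Λ) :
    (Ek v k : Fld H Λ L →L[ℂ] Fld H Λ L) * Ek v k = Ek v k := by
  refine fld_op_ext (fun ψ ω => ?_)
  show Ek v k (Ek v k ψ) ω = Ek v k ψ ω
  rw [Ek_apply, Ek_apply]
  congr 1
  have : ∀ s, Ek v k ψ (Function.update ω k s) =
      (v s : ℂ) • ∑ t, (v t : ℂ) • ψ (Function.update ω k t) := by
    intro s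
    rw [Ek_apply]
    simp
  simp_rw [this, smul_smul]
  rw [← Finset.sum_smul]
  have h2 : ∑ s, (v s : ℂ) * (v s : ℂ) = 1 := by
    have : ((∑ s, v s ^ 2 : ℝ) : ℂ) = 1 := by rw [hv]; simp
    rw [← this]; push_cast
    exact Finset.sum_congr rfl (fun s _ => by ring)
  rw [h2, one_smul]

theorem Ek_symm (k : Λ) (ψ χ : Fld H Λ L) : ⟪Ek v k ψ, χ⟫_ℂ = ⟪ψ, Ek v k χ⟫_ℂ := by
  rw [PiLp.inner_apply, PiLp.inner_apply]
  have h1 : ∀ ω, ⟪Ek v k ψ ω, χ ω⟫_ℂ =
      ∑ s, ((v (ω k) : ℂ) * (v s : ℂ)) * ⟪ψ (Function.update ω k s), χ ω⟫_ℂ := by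
    intro ω
    rw [Ek_apply, inner_smul_left, sum_inner, Finset.mul_sum]
    refine Finset.sum_congr rfl (fun s _ => ?_)
    rw [inner_smul_left, Complex.conj_ofReal, Complex.conj_ofReal]
    ring
  have h2 : ∀ ω, ⟪ψ ω, Ek v k χ ω⟫_ℂ =
      ∑ s, ((v (ω k) : ℂ) * (v s : ℂ)) * ⟪ψ ω, χ (Function.update ω k s)⟫_ℂ := by
    intro ω
    rw [Ek_apply, inner_smul_right, inner_sum, Finset.mul_sum]
    refine Finset.sum_congr rfl (fun s _ => ?_)
    rw [inner_smul_right]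
    ring
  rw [Finset.sum_congr rfl (fun ω _ => h1 ω), Finset.sum_congr rfl (fun ω _ => h2 ω)]
  rw [← sum_swp k (fun (ω : Λ → L) (s : L) =>
    ((v (ω k) : ℂ) * (v s : ℂ)) * ⟪ψ ω, χ (Function.update ω k s)⟫_ℂ)]
  refine Finset.sum_congr rfl (fun ω _ => Finset.sum_congr rfl (fun s _ => ?_))
  simp only [Function.update_self, Function.update_idem, Function.update_eq_self]
  ring

theorem Ek_sp (hv : ∑ s, v s ^ 2 = 1) (k : Λ) :
    IsStarProjection (Ek v k : Fld H Λ L →L[ℂ] Fld H Λ L) :=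
  ⟨Ek_idem hv k, (ContinuousLinearMap.isSelfAdjoint_iff_isSymmetric).mpr
    (fun ψ χ => Ek_symm k ψ χ)⟩

theorem Ek_comm (k l : Λ) :
    (Ek v k : Fld H Λ L →L[ℂ] Fld H Λ L) * Ek v l = Ek v l * Ek v k := by
  by_cases hkl : k = l
  · rw [hkl]
  have key : ∀ (k l : Λ), k ≠ l → ∀ (ψ : Fld H Λ L) (ω : Λ → L), Ek v k (Ek v l ψ) ω =
      ((v (ω k) : ℂ) * (v (ω l) : ℂ)) •
        ∑ s, ∑ t, ((v s : ℂ) * (v t : ℂ)) •
          ψ (Function.update (Function.update ω k s) l t) := by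
    intro k l hkl ψ ω
    rw [Ek_apply, mul_smul, Finset.smul_sum, Finset.smul_sum, Finset.smul_sum]
    refine Finset.sum_congr rfl (fun s _ => ?_)
    rw [Ek_apply, Function.update_of_ne (Ne.symm hkl), smul_comm (v s : ℂ) (v (ω l) : ℂ)]
    congr 2
    rw [Finset.smul_sum]
    refine Finset.sum_congr rfl (fun t _ => ?_)
    rw [smul_smul]
  refine fld_op_ext (fun ψ ω => ?_)
  show Ek v k (Ek v l ψ) ω = Ek v l (Ek v k ψ) ω
  rw [key k l hkl, key l k (Ne.symm hkl), mul_comm (v (ω k) : ℂ), Finset.sum_comm]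
  congr 1
  refine Finset.sum_congr rfl (fun t _ => Finset.sum_congr rfl (fun s _ => ?_))
  rw [mul_comm (v s : ℂ), Function.update_comm (Ne.symm hkl)]

theorem Dg_comm_Ek (k : Λ) {y : (Λ → L) → H →L[ℂ] H}
    (hy : ∀ ω s, y (Function.update ω k s) = y ω) : Dg y * Ek v k = Ek v k * Dg y := by
  refine fld_op_ext (fun ψ ω => ?_)
  show Dg y (Ek v k ψ) ω = Ek v k (Dg y ψ) ω
  rw [Dg_apply, Ek_apply, Ek_apply, map_smul, map_sum]
  congr 1
  refine Finset.sum_congr rfl (fun s _ => ?_)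
  rw [map_smul, Dg_apply, hy]

end EkProps

section DgProps

theorem Dg_mul (y z : (Λ → L) → H →L[ℂ] H) : Dg (fun ω => y ω * z ω) = Dg y * Dg z :=
  fld_op_ext (fun _ _ => rfl)

theorem Dg_one : Dg (fun _ : Λ → L => (1 : H →L[ℂ] H)) = 1 :=
  fld_op_ext (fun _ _ => rfl)

theorem Dg_zero : Dg (fun _ : Λ → L => (0 : H →L[ℂ] H)) = 0 :=
  fld_op_ext (fun _ _ => rfl)

theorem Dg_sum {ι : Type*} (s : Finset ι) (y : ι → (Λ → L) → H →L[ℂ] H) :
    Dg (fun ω => ∑ i ∈ s, y i ω) = ∑ i ∈ s, Dg (y i) := by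
  classical
  induction s using Finset.induction_on with
  | empty => simp only [Finset.sum_empty]; exact Dg_zero
  | insert a s ha ih =>
    rw [Finset.sum_insert ha, ← ih]
    refine fld_op_ext (fun ψ ω => ?_)
    rw [Dg_apply, Finset.sum_insert ha]
    rfl

theorem Dg_norm_le {y : (Λ → L) → H →L[ℂ] H} {C : ℝ} (hC : 0 ≤ C) (h : ∀ ω, ‖y ω‖ ≤ C) :
    ‖Dg y‖ ≤ C := by
  refine ContinuousLinearMap.opNorm_le_bound _ hC (fun ψ => ?_)
  have h1 : ‖Dg y ψ‖ ^ 2 ≤ (C * ‖ψ‖) ^ 2 := by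
    rw [fld_norm_sq, mul_pow, fld_norm_sq, Finset.mul_sum]
    refine Finset.sum_le_sum (fun ω _ => ?_)
    rw [Dg_apply, ← mul_pow]
    exact pow_le_pow_left₀ (norm_nonneg _)
      (((y ω).le_opNorm _).trans (mul_le_mul_of_nonneg_right (h ω) (norm_nonneg _))) 2
  exact (pow_le_pow_iff_left₀ (norm_nonneg _) (by positivity) two_ne_zero).mp h1

theorem Dg_sp {y : (Λ → L) → H →L[ℂ] H} (h : ∀ ω, IsStarProjection (y ω)) :
    IsStarProjection (Dg y) := by
  refine ⟨?_, (ContinuousLinearMap.isSelfAdjoint_iff_isSymmetric).mpr (fun ψ χ => ?_)⟩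
  · show Dg y * Dg y = Dg y
    rw [← Dg_mul]
    congr 1
    funext ω
    exact (h ω).isIdempotentElem.eq
  · show ⟪Dg y ψ, χ⟫_ℂ = ⟪ψ, Dg y χ⟫_ℂ
    rw [PiLp.inner_apply, PiLp.inner_apply]
    refine Finset.sum_congr rfl (fun ω _ => ?_)
    rw [Dg_apply, Dg_apply]
    exact sp_sa (h ω) _ _

end DgProps

end Crest.Agent.R109.X2
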