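import Crest.Agent.R109.X2Main
import Crest.Agent.R109.AsmIface

/-!
# Row 109, module T2: `X2Prop` from the small block approximation
-/

set_option autoImplicit false
set_option linter.unusedSectionVars false

namespace Crest.Agent.R109

open scoped InnerProductSpace

universe u

/-- small block approximation of a diffuse element (helper300, SmallBlock3) -/
def SmallBlockProp : Prop :=
  ∀ (H : Type u) [NormedAddCommGroup H] [InnerProductSpace ℂ H] [CompleteSpace H]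
    (M : VonNeumannAlgebra H) (A : StarSubalgebra ℂ (H →L[ℂ] H)) (η : H), NCE M A η →
    ‖η‖ = 1 → ∀ z ∈ M, IsSelfAdjoint z → Diff A η z → ∀ κ : ℝ, 0 < κ → ∀ ε₁ : ℝ, 0 < ε₁ →
    ∃ P1 : FP A, ∀ Q : FP A, P1 ≤ Q → ∃ z2 ∈ M, IsSelfAdjoint z2 ∧ ‖z2‖ ≤ ‖z‖ ∧
      ‖(z - z2) η‖ ≤ κ ∧ ∀ k l, ‖Q.e k * z2 * Q.e l‖ ≤ ε₁

theorem x2_of_smallBlock (hSB : SmallBlockProp.{u}) : X2Prop.{u} := by
  intro H _ _ _ M A η _ hNCE hη z hz hzsa hz3 hdiff r hr n hn κ hκ
  have hn0 : (0 : ℝ) < n := by exact_mod_cast hn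
  have hr0 : (0 : ℝ) < r := by
    have : (0 : ℕ) < r := by omega
    exact_mod_cast this
  obtain ⟨P1, hP1⟩ := hSB H M A η hNCE hη z hz hzsa hdiff κ hκ (κ / n) (by positivity)
  refine ⟨P1, fun Q hQ => ?_⟩
  obtain ⟨z2, hz2M, hz2sa, hz2n, hz2η, hblk⟩ := hP1 Q hQ
  refine ⟨z2, hz2M, hz2sa, hz2n, hz2η, ?_⟩
  have hlam0 : (0 : ℝ) ≤ 2 / r := by positivity
  have hlam1 : (2 : ℝ) / r ≤ 1 := by
    rw [div_le_one hr0]
    have : (2 : ℕ) ≤ r := by omega
    exact_mod_cast this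
  have h := X2.pure_form (e := Q.e) Q.part.proj Q.part.orth Q.part.sum (hz2n.trans hz3)
    (by positivity) hblk hlam0 hlam1 η n
  rw [Fintype.card_fin, hη, one_pow, mul_one] at h
  have e1 : 2 * √(2 / (r : ℝ)) * 3 + n * (κ / n) = 6 * √(2 / (r : ℝ)) + κ := by
    field_simp
    ring
  rw [e1] at h
  exact h

end Crest.Agent.R109
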