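import Crest.Agent.R109.X2F

/-!
# Row 109, module T2: Lemma B for functions of independent labels (concrete form)
-/

set_option autoImplicit false
set_option linter.unusedSectionVars false

namespace Crest.Agent.R109.X2

open scoped InnerProductSpace ComplexOrder
open ContinuousLinearMap

universe u v w t

variable {H : Type u} [NormedAddCommGroup H] [InnerProductSpace ℂ H] [CompleteSpace H]
variable {Λ : Type v} [DecidableEq Λ] [Fintype Λ] {L : Type w} [Fintype L] [DecidableEq L]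

theorem part_norm_sum {e : Λ → H →L[ℂ] H} (esp : ∀ k, IsStarProjection (e k))
    (eorth : ∀ k l, k ≠ l → e k * e l = 0) (ζ : Λ → H) :
    ‖∑ k, e k (ζ k)‖ ^ 2 = ∑ k, ‖e k (ζ k)‖ ^ 2 := by
  rw [nsq_re, sum_inner, Complex.re_sum]
  refine Finset.sum_congr rfl (fun k _ => ?_)
  rw [inner_sum, Complex.re_sum, Finset.sum_eq_single k]
  · rw [nsq_re]
  · intro l _ hl
    have : ⟪e k (ζ k), e l (ζ l)⟫_ℂ = 0 := by
      rw [sp_sa (esp k)]
      have h1 : e k (e l (ζ l)) = 0 := by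
        calc e k (e l (ζ l)) = (e k * e l) (ζ l) := rfl
          _ = 0 := by rw [eorth k l (Ne.symm hl)]; rfl
      rw [h1, inner_zero_right]
    rw [this]; rfl
  · intro h; exact absurd (Finset.mem_univ k) h

/-- the fluctuation operators -/
noncomputable def Pk (v : L → ℝ) (k : Λ) : Fld H Λ L →L[ℂ] Fld H Λ L := 1 - Ek v k

/-- constant operators -/
noncomputable def Cst (y : H →L[ℂ] H) : Fld H Λ L →L[ℂ] Fld H Λ L := Dg (fun _ => y)

theorem QQ_apply (v : L → ℝ) (e : Λ → H →L[ℂ] H) (ψ : Fld H Λ L) (ω : Λ → L) :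
    QQ (Pk v) (fun k => Cst (e k)) ψ ω = ∑ k, e k (Ek v k ψ ω) := by
  unfold QQ Pk
  have : ∀ k : Λ, (1 : Fld H Λ L →L[ℂ] Fld H Λ L) - (1 - Ek v k) = Ek v k := fun k => by abel
  simp_rw [this]
  rw [_root_.sum_apply]
  have h2 : ∀ (s : Finset Λ) (f : Λ → Fld H Λ L), (∑ k ∈ s, f k) ω = ∑ k ∈ s, f k ω := by
    intro s f
    induction s using Finset.induction_on with
    | empty => simp
    | insert a s ha ih => rw [Finset.sum_insert ha, Finset.sum_insert ha, ← ih]; rfl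
  rw [h2]
  rfl

/-- `‖p Q‖ ≤ √ρ` -/
theorem pQ_le {v : L → ℝ} (hv : ∑ s, v s ^ 2 = 1) {e : Λ → H →L[ℂ] H}
    (esp : ∀ k, IsStarProjection (e k)) (eorth : ∀ k l, k ≠ l → e k * e l = 0)
    {p : (Λ → L) → H →L[ℂ] H} (pe : ∀ ω k, p ω * e k = e k * p ω)
    {ρ : ℝ} (hρ0 : 0 ≤ ρ)
    (hρ : ∀ k ω ζ, ∑ s, v s ^ 2 * ‖p (Function.update ω k s) (e k ζ)‖ ^ 2 ≤ ρ * ‖e k ζ‖ ^ 2)
    (hQ : IsStarProjection (QQ (Pk v) (fun k => Cst (e k)) : Fld H Λ L →L[ℂ] Fld H Λ L))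
    (ψ : Fld H Λ L) :
    ‖Dg p (QQ (Pk v) (fun k => Cst (e k)) ψ)‖ ≤ √ρ * ‖ψ‖ := by
  have key : ‖Dg p (QQ (Pk v) (fun k => Cst (e k)) ψ)‖ ^ 2 ≤
      ρ * ‖QQ (Pk v) (fun k => Cst (e k)) ψ‖ ^ 2 := by
    rw [fld_norm_sq, fld_norm_sq]
    have h1 : ∀ ω, ‖Dg p (QQ (Pk v) (fun k => Cst (e k)) ψ) ω‖ ^ 2 =
        ∑ k, ‖p ω (e k (Ek v k ψ ω))‖ ^ 2 := by
      intro ω
      rw [Dg_apply, QQ_apply, map_sum]
      have h2 : ∀ k, p ω (e k (Ek v k ψ ω)) = e k (p ω (Ek v k ψ ω)) := by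
        intro k
        calc p ω (e k (Ek v k ψ ω)) = (p ω * e k) (Ek v k ψ ω) := rfl
          _ = (e k * p ω) (Ek v k ψ ω) := by rw [pe]
          _ = _ := rfl
      rw [Finset.sum_congr rfl (fun k _ => h2 k), part_norm_sum esp eorth]
      exact Finset.sum_congr rfl (fun k _ => by rw [h2 k])
    have h1' : ∀ ω, ‖QQ (Pk v) (fun k => Cst (e k)) ψ ω‖ ^ 2 =
        ∑ k, ‖e k (Ek v k ψ ω)‖ ^ 2 := by
      intro ω
      rw [QQ_apply, part_norm_sum esp eorth]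
    have c1 : ∑ ω : Λ → L, ∑ k, ‖p ω (e k (Ek v k ψ ω))‖ ^ 2 =
        ∑ k, ∑ ω : Λ → L, ‖p ω (e k (Ek v k ψ ω))‖ ^ 2 := Finset.sum_comm
    have c2 : ∑ ω : Λ → L, ∑ k, ‖e k (Ek v k ψ ω)‖ ^ 2 =
        ∑ k, ∑ ω : Λ → L, ‖e k (Ek v k ψ ω)‖ ^ 2 := Finset.sum_comm
    rw [Finset.sum_congr rfl (fun ω _ => h1 ω), Finset.sum_congr rfl (fun ω _ => h1' ω),
      c1, c2, Finset.mul_sum]
    refine Finset.sum_le_sum (fun k _ => ?_)
    set u : (Λ → L) → H := fun ω => ∑ s, (v s : ℂ) • ψ (Function.update ω k s) with hu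
    have hE : ∀ ω, Ek v k ψ ω = (v (ω k) : ℂ) • u ω := fun ω => Ek_apply v k ψ ω
    have huu : ∀ ω s, u (Function.update ω k s) = u ω := by
      intro ω s
      simp only [hu, Function.update_idem]
    have e1 : ∀ (T : H →L[ℂ] H) (c : ℝ) (ζ : H), ‖T ((c : ℂ) • ζ)‖ ^ 2 = c ^ 2 * ‖T ζ‖ ^ 2 := by
      intro T c ζ
      rw [map_smul, norm_smul, mul_pow]
      congr 1
      rw [Complex.norm_real, Real.norm_eq_abs, sq_abs]
    have e2 : ∀ ω, ‖p ω (e k (Ek v k ψ ω))‖ ^ 2 = v (ω k) ^ 2 * ‖p ω (e k (u ω))‖ ^ 2 := by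
      intro ω
      rw [hE]
      exact e1 (p ω * e k) (v (ω k)) (u ω)
    have e3 : ∀ ω, ‖e k (Ek v k ψ ω)‖ ^ 2 = v (ω k) ^ 2 * ‖e k (u ω)‖ ^ 2 := by
      intro ω
      rw [hE]
      exact e1 (e k) (v (ω k)) (u ω)
    rw [Finset.sum_congr rfl (fun ω _ => e2 ω), Finset.sum_congr rfl (fun ω _ => e3 ω),
      sum_fibre (fun s => v s ^ 2) hv k, Finset.mul_sum]
    refine Finset.sum_le_sum (fun ω _ => ?_)
    have e4 : ∀ s, v (Function.update ω k s k) ^ 2 *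
        ‖p (Function.update ω k s) (e k (u (Function.update ω k s)))‖ ^ 2 =
        v s ^ 2 * ‖p (Function.update ω k s) (e k (u ω))‖ ^ 2 := by
      intro s
      rw [huu, Function.update_self]
    rw [Finset.sum_congr rfl (fun s _ => e4 s)]
    have := mul_le_mul_of_nonneg_left (hρ k ω (u ω)) (sq_nonneg (v (ω k)))
    linarith
  have key2 : ‖Dg p (QQ (Pk v) (fun k => Cst (e k)) ψ)‖ ^ 2 ≤ (√ρ * ‖ψ‖) ^ 2 := by
    rw [mul_pow, Real.sq_sqrt hρ0]
    refine key.trans (mul_le_mul_of_nonneg_left ?_ hρ0)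
    exact pow_le_pow_left₀ (norm_nonneg _) (sp_norm_le hQ _) 2
  exact (pow_le_pow_iff_left₀ (norm_nonneg _) (by positivity) two_ne_zero).mp key2

/-- the constant field, weighted -/
noncomputable def Xi (v : L → ℝ) (ξ : H) : Fld H Λ L :=
  WithLp.toLp 2 (fun ω => ((∏ k, v (ω k) : ℝ) : ℂ) • ξ)

theorem Xi_apply (v : L → ℝ) (ξ : H) (ω : Λ → L) :
    (Xi v ξ : Fld H Λ L) ω = ((∏ k, v (ω k) : ℝ) : ℂ) • ξ := rfl

theorem Ek_Xi {v : L → ℝ} (hv : ∑ s, v s ^ 2 = 1) (k : Λ) (ξ : H) :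
    Ek v k (Xi v ξ) = (Xi v ξ : Fld H Λ L) := by
  refine fld_ext (fun ω => ?_)
  rw [Ek_apply, Xi_apply]
  have h1 : ∀ s, (v s : ℂ) • (Xi v ξ : Fld H Λ L) (Function.update ω k s) =
      ((v s ^ 2 * ∏ j ∈ Finset.univ.erase k, v (ω j) : ℝ) : ℂ) • ξ := by
    intro s
    rw [Xi_apply, smul_smul, ← Finset.mul_prod_erase Finset.univ _ (Finset.mem_univ k)]
    congr 1
    rw [Function.update_self]
    have : ∏ j ∈ Finset.univ.erase k, v (Function.update ω k s j) =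
        ∏ j ∈ Finset.univ.erase k, v (ω j) := by
      refine Finset.prod_congr rfl (fun j hj => ?_)
      rw [Function.update_of_ne (Finset.ne_of_mem_erase hj)]
    rw [this]
    push_cast
    ring
  rw [Finset.sum_congr rfl (fun s _ => h1 s), ← Finset.sum_smul, smul_smul]
  congr 1
  rw [← Complex.ofReal_sum, ← Finset.sum_mul, hv, one_mul, ← Complex.ofReal_mul,
    Finset.mul_prod_erase Finset.univ (fun j => v (ω j)) (Finset.mem_univ k)]

theorem psi_apply (v : L → ℝ) (z : H →L[ℂ] H) (p : (Λ → L) → H →L[ℂ] H) (ξ : H) (i : ℕ)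
    (ω : Λ → L) :
    psi (Cst z) (Dg p) (Xi v ξ) i ω =
      ((∏ k, v (ω k) : ℝ) : ℂ) • (((p ω * z) ^ i) (p ω ξ)) := by
  induction i with
  | zero =>
    show p ω ((Xi v ξ : Fld H Λ L) ω) = _
    rw [Xi_apply, map_smul]
    rfl
  | succ i ih =>
    have : psi (Cst z) (Dg p) (Xi v ξ) (i + 1) ω =
        p ω (z (psi (Cst z) (Dg p) (Xi v ξ) i ω)) := rfl
    rw [this, ih, map_smul, map_smul, pow_succ']
    rfl

/-- **Lemma B** for independent labels with product weights `∏ v (ω k)^2`. -/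
theorem lemB {v : L → ℝ} (hv : ∑ s, v s ^ 2 = 1) {e : Λ → H →L[ℂ] H}
    (esp : ∀ k, IsStarProjection (e k)) (eorth : ∀ k l, k ≠ l → e k * e l = 0)
    (esum : ∑ k, e k = 1) {z : H →L[ℂ] H} {C ε₁ : ℝ} (hC : ‖z‖ ≤ C) (hε₁ : 0 ≤ ε₁)
    (hz : ∀ k l, ‖e k * z * e l‖ ≤ ε₁)
    {p : (Λ → L) → H →L[ℂ] H} (psp : ∀ ω, IsStarProjection (p ω))
    (pe : ∀ ω k, p ω * e k = e k * p ω)
    {𝔞 : Type t} [Fintype 𝔞] {g : 𝔞 → (Λ → L) → H →L[ℂ] H} (gsum : ∀ ω, ∑ a, g a ω = p ω)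
    {N : 𝔞 → Finset Λ} {d : ℕ} (card : ∀ a, (N a).card ≤ d)
    (gdep : ∀ a k, k ∉ N a → ∀ ω s, g a (Function.update ω k s) = g a ω)
    {ρ : ℝ} (hρ0 : 0 ≤ ρ)
    (hρ : ∀ k ω ζ, ∑ s, v s ^ 2 * ‖p (Function.update ω k s) (e k ζ)‖ ^ 2 ≤ ρ * ‖e k ζ‖ ^ 2)
    (ξ : H) (m : ℕ) :
    ∑ ω : Λ → L, (∏ k, v (ω k) ^ 2) * ‖((p ω * z) ^ m) (p ω ξ)‖ ^ 2 ≤
      (2 * √ρ * C + m * d * ε₁) ^ (2 * m) *
        ∑ ω : Λ → L, (∏ k, v (ω k) ^ 2) * ‖p ω ξ‖ ^ 2 := by
  have hC0 : 0 ≤ C := (norm_nonneg _).trans hC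
  have hcomm : ∀ (y : H →L[ℂ] H) (k : Λ),
      (Cst y : Fld H Λ L →L[ℂ] Fld H Λ L) * Pk v k = Pk v k * Cst y := by
    intro y k
    unfold Pk Cst
    rw [mul_sub, sub_mul, mul_one, one_mul, Dg_comm_Ek k (fun _ _ => rfl)]
  have hS : Sys (K := Fld H Λ L) (Pk v) (fun k => Cst (e k)) (Cst z) (Dg p)
      (fun a => Dg (g a)) N d := by
    refine ⟨⟨fun k => (Ek_sp hv k).one_sub, fun k l => ?_⟩, fun k => hcomm z k, Dg_sp psp,
      fun k => Dg_sp (fun _ => esp k), fun k l hkl => ?_, ?_, fun k l => hcomm (e k) l, ?_, card,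
      fun a k hk => ?_⟩
    · unfold Pk
      have := Ek_comm (H := H) (v := v) (Λ := Λ) k l
      simp only [mul_sub, sub_mul, one_mul, mul_one, this]
      abel
    · show Dg (fun _ => e k) * Dg (fun _ => e l) = 0
      rw [← Dg_mul]
      have : (fun _ : Λ → L => e k * e l) = fun _ => (0 : H →L[ℂ] H) := by
        funext _; exact eorth k l hkl
      rw [this, Dg_zero]
    · show ∑ k, Dg (fun _ : Λ → L => e k) = 1
      rw [← Dg_sum]
      have : (fun _ : Λ → L => ∑ k, e k) = fun _ => (1 : H →L[ℂ] H) := by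
        funext _; exact esum
      rw [this, Dg_one]
    · rw [← Dg_sum]
      congr 1
      funext ω
      exact gsum ω
    · unfold Pk
      rw [mul_sub, sub_mul, mul_one, one_mul, Dg_comm_Ek k (gdep a k hk)]
  have hblock : ∀ k l, ‖(Cst (e k) * Cst z * Cst (e l) : Fld H Λ L →L[ℂ] Fld H Λ L)‖ ≤ ε₁ := by
    intro k l
    have : (Cst (e k) * Cst z * Cst (e l) : Fld H Λ L →L[ℂ] Fld H Λ L) =
        Dg (fun _ => e k * z * e l) := by
      unfold Cst
      rw [← Dg_mul, ← Dg_mul]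
    rw [this]
    exact Dg_norm_le hε₁ (fun _ => hz k l)
  have hP : ∀ k, Pk v k (Xi v ξ : Fld H Λ L) = 0 := by
    intro k
    unfold Pk
    show Xi v ξ - Ek v k (Xi v ξ) = 0
    rw [Ek_Xi hv, sub_self]
  have hmain := hS.iter hε₁ (Real.sqrt_nonneg ρ) hblock (Dg_norm_le hC0 (fun _ => hC))
    (pQ_le hv esp eorth pe hρ0 hρ hS.Q_sp) hP m m le_rfl
  have h2 := pow_le_pow_left₀ (norm_nonneg _) hmain 2
  have hnorm : ∀ (c : ℝ) (ζ : H), ‖(c : ℂ) • ζ‖ ^ 2 = c ^ 2 * ‖ζ‖ ^ 2 := by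
    intro c ζ
    rw [norm_smul, mul_pow, Complex.norm_real, Real.norm_eq_abs, sq_abs]
  have hl : ‖psi (Cst z) (Dg p) (Xi v ξ : Fld H Λ L) m‖ ^ 2 =
      ∑ ω : Λ → L, (∏ k, v (ω k) ^ 2) * ‖((p ω * z) ^ m) (p ω ξ)‖ ^ 2 := by
    rw [fld_norm_sq]
    refine Finset.sum_congr rfl (fun ω _ => ?_)
    rw [psi_apply, hnorm, ← Finset.prod_pow]
  have hr : ‖Dg p (Xi v ξ : Fld H Λ L)‖ ^ 2 =
      ∑ ω : Λ → L, (∏ k, v (ω k) ^ 2) * ‖p ω ξ‖ ^ 2 := by
    rw [fld_norm_sq]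
    refine Finset.sum_congr rfl (fun ω _ => ?_)
    rw [Dg_apply, Xi_apply, map_smul, hnorm, ← Finset.prod_pow]
  rw [mul_pow, hl, hr, ← pow_mul, mul_comm m 2] at h2
  exact h2

/-- the operator `∑_{k ∈ S} e_k` -/
noncomputable def blkS (e : Λ → H →L[ℂ] H) (S : Finset Λ) : H →L[ℂ] H := ∑ k ∈ S, e k

theorem blkS_sp {e : Λ → H →L[ℂ] H} (esp : ∀ k, IsStarProjection (e k))
    (eorth : ∀ k l, k ≠ l → e k * e l = 0) (S : Finset Λ) : IsStarProjection (blkS e S) := by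
  refine ⟨?_, ?_⟩
  · show blkS e S * blkS e S = blkS e S
    unfold blkS
    rw [Finset.sum_mul]
    refine Finset.sum_congr rfl (fun k hk => ?_)
    rw [Finset.mul_sum, Finset.sum_eq_single k]
    · exact (esp k).isIdempotentElem.eq
    · intro l _ hl; exact eorth k l (Ne.symm hl)
    · intro h; exact absurd hk h
  · unfold IsSelfAdjoint blkS
    rw [star_sum]
    exact Finset.sum_congr rfl (fun k _ => (esp k).isSelfAdjoint.star_eq)

/-- **Lemma B, pure form**: independent Bernoulli set of cells -/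
theorem pure_form {e : Λ → H →L[ℂ] H}
    (esp : ∀ k, IsStarProjection (e k)) (eorth : ∀ k l, k ≠ l → e k * e l = 0)
    (esum : ∑ k, e k = 1) {z : H →L[ℂ] H} {C ε₁ : ℝ} (hC : ‖z‖ ≤ C) (hε₁ : 0 ≤ ε₁)
    (hz : ∀ k l, ‖e k * z * e l‖ ≤ ε₁) {lam : ℝ} (h0 : 0 ≤ lam) (h1 : lam ≤ 1)
    (ξ : H) (m : ℕ) :
    ∑ S : Finset Λ, lam ^ S.card * (1 - lam) ^ (Fintype.card Λ - S.card) *
        ‖((blkS e S * z * blkS e S) ^ m) ξ‖ ^ 2 ≤
      ((2 * √lam * C + m * ε₁) ^ m) ^ 2 * ‖ξ‖ ^ 2 := by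
  classical
  have h1' : 0 ≤ 1 - lam := by linarith
  set v : Bool → ℝ := fun b => if b then √lam else √(1 - lam) with hv
  have hvt : v true ^ 2 = lam := by simp [hv, Real.sq_sqrt h0]
  have hvf : v false ^ 2 = 1 - lam := by simp [hv, Real.sq_sqrt h1']
  have hvs : ∑ s, v s ^ 2 = 1 := by rw [Fintype.sum_bool, hvt, hvf]; ring
  -- functions `Λ → Bool` and finsets
  let F : (Λ → Bool) ≃ Finset Λ :=
    { toFun := fun ω => Finset.univ.filter (fun k => ω k = true)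
      invFun := fun S k => decide (k ∈ S)
      left_inv := by intro ω; funext k; simp
      right_inv := by intro S; ext k; simp }
  set p : (Λ → Bool) → H →L[ℂ] H := fun ω => blkS e (F ω) with hp
  have hp2 : ∀ ω, p ω = ∑ k, if ω k = true then e k else 0 := by
    intro ω
    show blkS e (Finset.univ.filter (fun k => ω k = true)) = _
    unfold blkS
    rw [Finset.sum_filter]
  have hpe : ∀ ω k, p ω * e k = if ω k = true then e k else 0 := by
    intro ω k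
    rw [hp2, Finset.sum_mul, Finset.sum_eq_single k]
    · split_ifs
      · exact (esp k).isIdempotentElem.eq
      · simp
    · intro l _ hl
      split_ifs
      · exact eorth l k hl
      · simp
    · intro h; exact absurd (Finset.mem_univ k) h
  have hep : ∀ ω k, e k * p ω = if ω k = true then e k else 0 := by
    intro ω k
    rw [hp2, Finset.mul_sum, Finset.sum_eq_single k]
    · split_ifs
      · exact (esp k).isIdempotentElem.eq
      · simp
    · intro l _ hl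
      split_ifs
      · exact eorth k l (Ne.symm hl)
      · simp
    · intro h; exact absurd (Finset.mem_univ k) h
  have hB := lemB (L := Bool) hvs esp eorth esum hC hε₁ hz (p := p)
    (fun ω => blkS_sp esp eorth _) (fun ω k => by rw [hpe, hep])
    (g := fun k ω => if ω k = true then e k else 0) (fun ω => (hp2 ω).symm)
    (N := fun k => {k}) (d := 1) (fun k => by simp)
    (fun a k hk ω s => by
      have : a ≠ k := fun h => hk (by simp [h])
      simp only [Function.update_of_ne this])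
    h0 (fun k ω ζ => by
      have e1 : ∀ s : Bool, p (Function.update ω k s) (e k ζ) = if s = true then e k ζ else 0 := by
        intro s
        have : p (Function.update ω k s) (e k ζ) = (p (Function.update ω k s) * e k) ζ := rfl
        rw [this, hpe, Function.update_self]
        split_ifs <;> rfl
      rw [Fintype.sum_bool, e1, e1, hvt, hvf]
      simp) ξ m
  -- weights
  have hw : ∀ ω : Λ → Bool, ∏ k, v (ω k) ^ 2 =
      lam ^ (F ω).card * (1 - lam) ^ (Fintype.card Λ - (F ω).card) := by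
    intro ω
    have e1 : ∀ k, v (ω k) ^ 2 = if ω k = true then lam else 1 - lam := by
      intro k
      cases ω k
      · simpa using hvf
      · simpa using hvt
    rw [Finset.prod_congr rfl (fun k _ => e1 k), Finset.prod_ite, Finset.prod_const,
      Finset.prod_const]
    congr 2
    have : (Finset.univ.filter (fun k => ¬ ω k = true)).card =
        Fintype.card Λ - (Finset.univ.filter (fun k => ω k = true)).card := by
      rw [← Finset.card_univ, ← Finset.card_filter_add_card_filter_not (s := Finset.univ)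
        (fun k => ω k = true)]
      simp
    exact this
  have hw0 : ∀ ω : Λ → Bool, 0 ≤ ∏ k, v (ω k) ^ 2 :=
    fun ω => Finset.prod_nonneg (fun k _ => sq_nonneg _)
  have hsum1 : ∑ ω : Λ → Bool, ∏ k, v (ω k) ^ 2 = 1 := by
    rw [← Fintype.piFinset_univ, ← Finset.prod_univ_sum (fun _ : Λ => (Finset.univ : Finset Bool))
      (fun _ s => v s ^ 2), Finset.prod_eq_one (fun k _ => hvs)]
  have hR : ∑ ω : Λ → Bool, (∏ k, v (ω k) ^ 2) * ‖p ω ξ‖ ^ 2 ≤ ‖ξ‖ ^ 2 := by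
    calc ∑ ω : Λ → Bool, (∏ k, v (ω k) ^ 2) * ‖p ω ξ‖ ^ 2
        ≤ ∑ ω : Λ → Bool, (∏ k, v (ω k) ^ 2) * ‖ξ‖ ^ 2 :=
          Finset.sum_le_sum (fun ω _ => mul_le_mul_of_nonneg_left
            (pow_le_pow_left₀ (norm_nonneg _) (sp_norm_le (blkS_sp esp eorth _) ξ) 2) (hw0 ω))
      _ = ‖ξ‖ ^ 2 := by rw [← Finset.sum_mul, hsum1, one_mul]
  have hC0 : 0 ≤ C := (norm_nonneg _).trans hC
  -- rewrite the left hand side
  rw [← Equiv.sum_comp F]
  rcases Nat.eq_zero_or_pos m with hm | hm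
  · subst hm
    have : ∀ ω : Λ → Bool, lam ^ (F ω).card * (1 - lam) ^ (Fintype.card Λ - (F ω).card) *
        ‖((blkS e (F ω) * z * blkS e (F ω)) ^ 0) ξ‖ ^ 2 = (∏ k, v (ω k) ^ 2) * ‖ξ‖ ^ 2 := by
      intro ω; rw [hw, pow_zero]; rfl
    rw [Finset.sum_congr rfl (fun ω _ => this ω), ← Finset.sum_mul, hsum1]
    simp
  · have hpow : ∀ ω : Λ → Bool, (blkS e (F ω) * z * blkS e (F ω)) ^ m =
        (p ω * z) ^ m * p ω := by
      intro ω
      have hi : p ω * p ω = p ω := (blkS_sp esp eorth _).isIdempotentElem.eq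
      show (p ω * z * p ω) ^ m = _
      obtain ⟨j, rfl⟩ : ∃ j, m = j + 1 := ⟨m - 1, by omega⟩
      clear hB hm
      induction j with
      | zero => simp
      | succ j ih =>
        rw [pow_succ, ih, pow_succ (p ω * z) (j + 1)]
        calc (p ω * z) ^ (j + 1) * p ω * (p ω * z * p ω)
            = (p ω * z) ^ (j + 1) * (p ω * p ω) * z * p ω := by noncomm_ring
          _ = (p ω * z) ^ (j + 1) * (p ω * z) * p ω := by rw [hi]; noncomm_ring
    have hl : ∀ ω : Λ → Bool, lam ^ (F ω).card * (1 - lam) ^ (Fintype.card Λ - (F ω).card) *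
        ‖((blkS e (F ω) * z * blkS e (F ω)) ^ m) ξ‖ ^ 2 =
        (∏ k, v (ω k) ^ 2) * ‖((p ω * z) ^ m) (p ω ξ)‖ ^ 2 := by
      intro ω
      rw [hw, hpow]
      rfl
    rw [Finset.sum_congr rfl (fun ω _ => hl ω)]
    refine hB.trans ?_
    have e1 : (2 * √lam * C + (m : ℝ) * ((1 : ℕ) : ℝ) * ε₁) = 2 * √lam * C + m * ε₁ := by
      push_cast; ring
    rw [e1, ← pow_mul, mul_comm 2 m]
    exact mul_le_mul_of_nonneg_left hR (by positivity)

end Crest.Agent.R109.X2
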